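import Mathlib
import Crest.Agent.R272.Poi_307

/-!
# Row 27, Hecke integral, part A (helper87): Gaussian Poisson summation for a positive matrix

* `integral_comp_lin`, `integrable_comp_lin` : linear change of variables on `ι → ℝ`
* `gq A x = exp (-π xᵀ A x)`
* `gauss_poisson` : `∑ₘ gq A (x + m) = (det A)^(-1/2) ∑ₖ gq A⁻¹ k e(k·x)`
* `differentiable_integral_exp` : `s ↦ ∫ H x * exp (s * l x)` is entire
-/

set_option autoImplicit false
set_option linter.unusedSectionVars false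

noncomputable section

open MeasureTheory Complex Set Filter Topology Matrix
open scoped Real MatrixOrder
open Crest.Agent.R272.Poi307

namespace Crest.Agent.T27.HeckeA87

section lin

variable {ι : Type*} [Fintype ι]

theorem measurableEmbedding_lin (L : (ι → ℝ) ≃ₗ[ℝ] (ι → ℝ)) : MeasurableEmbedding L :=
  L.toContinuousLinearEquiv.toHomeomorph.measurableEmbedding

theorem det_ne_zero_lin (L : (ι → ℝ) ≃ₗ[ℝ] (ι → ℝ)) :
    LinearMap.det (L : (ι → ℝ) →ₗ[ℝ] (ι → ℝ)) ≠ 0 := (LinearEquiv.isUnit_det' L).ne_zero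

theorem map_lin (L : (ι → ℝ) ≃ₗ[ℝ] (ι → ℝ)) : Measure.map L volume =
    ENNReal.ofReal |(LinearMap.det (L : (ι → ℝ) →ₗ[ℝ] (ι → ℝ)))⁻¹| • volume :=
  Real.map_linearMap_volume_pi_eq_smul_volume_pi (det_ne_zero_lin L)

theorem integral_comp_lin {E : Type*} [NormedAddCommGroup E] [NormedSpace ℝ E]
    (L : (ι → ℝ) ≃ₗ[ℝ] (ι → ℝ)) (F : (ι → ℝ) → E) :
    ∫ x, F (L x) = |(LinearMap.det (L : (ι → ℝ) →ₗ[ℝ] (ι → ℝ)))⁻¹| • ∫ x, F x := by
  rw [← (measurableEmbedding_lin L).integral_map, map_lin, integral_smul_measure,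
    ENNReal.toReal_ofReal (abs_nonneg _)]

theorem integrable_comp_lin {E : Type*} [NormedAddCommGroup E]
    (L : (ι → ℝ) ≃ₗ[ℝ] (ι → ℝ)) {F : (ι → ℝ) → E} (hF : Integrable F) :
    Integrable (fun x => F (L x)) := by
  have h : Integrable F (Measure.map L volume) := by
    rw [map_lin]
    exact hF.smul_measure ENNReal.ofReal_ne_top
  exact (measurableEmbedding_lin L).integrable_map_iff.1 h

end lin

section gauss

variable {κ : Type*} [Fintype κ] [DecidableEq κ]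

/-- the Gaussian of a matrix -/
def gq (A : Matrix κ κ ℝ) (x : κ → ℝ) : ℝ := Real.exp (-(π * (x ⬝ᵥ A *ᵥ x)))

theorem gq_pos (A : Matrix κ κ ℝ) (x : κ → ℝ) : 0 < gq A x := Real.exp_pos _

theorem continuous_gq (A : Matrix κ κ ℝ) : Continuous (gq A) := by
  unfold gq dotProduct mulVec dotProduct
  fun_prop

theorem exists_sqrt {A : Matrix κ κ ℝ} (hA : A.PosDef) :
    ∃ B : Matrix κ κ ℝ, IsUnit B.det ∧ A = Bᵀ * B := by
  obtain ⟨y, hy, h⟩ := CStarAlgebra.isStrictlyPositive_iff_eq_star_mul_self.mp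
    hA.isStrictlyPositive
  refine ⟨y, (Matrix.isUnit_iff_isUnit_det y).1 hy, ?_⟩
  rw [h, star_eq_conjTranspose, conjTranspose_eq_transpose_of_trivial]

theorem quad_eq (B : Matrix κ κ ℝ) (x : κ → ℝ) :
    x ⬝ᵥ (Bᵀ * B) *ᵥ x = ∑ i, (B *ᵥ x) i ^ 2 := by
  rw [← mulVec_mulVec, dotProduct_mulVec, vecMul_transpose, dotProduct]
  exact Finset.sum_congr rfl fun i _ => (sq _).symm

theorem exists_lower {A : Matrix κ κ ℝ} (hA : A.PosDef) :
    ∃ c : ℝ, 0 < c ∧ ∀ x : κ → ℝ, c * ‖x‖ ^ 2 ≤ x ⬝ᵥ A *ᵥ x := by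
  obtain ⟨B, hB, rfl⟩ := exists_sqrt hA
  set T : (κ → ℝ) →L[ℝ] (κ → ℝ) := LinearMap.toContinuousLinearMap (Matrix.toLin' B⁻¹) with hT
  have h1 : ∀ x : κ → ℝ, ‖x‖ ≤ (‖T‖ + 1) * ‖B *ᵥ x‖ := by
    intro x
    have h2 : T (B *ᵥ x) = x := by
      simp [hT, mulVec_mulVec, Matrix.nonsing_inv_mul B hB]
    calc ‖x‖ = ‖T (B *ᵥ x)‖ := by rw [h2]
      _ ≤ ‖T‖ * ‖B *ᵥ x‖ := T.le_opNorm _
      _ ≤ (‖T‖ + 1) * ‖B *ᵥ x‖ := by gcongr; linarith
  have hp : 0 < ‖T‖ + 1 := by positivity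
  refine ⟨((‖T‖ + 1) ^ 2)⁻¹, by positivity, fun x => ?_⟩
  rw [quad_eq]
  have h3 : ‖B *ᵥ x‖ ^ 2 ≤ ∑ i, (B *ᵥ x) i ^ 2 := by
    have h4 : ‖B *ᵥ x‖ ≤ Real.sqrt (∑ i, (B *ᵥ x) i ^ 2) := by
      refine (pi_norm_le_iff_of_nonneg (Real.sqrt_nonneg _)).2 fun i => ?_
      rw [Real.norm_eq_abs]
      refine Real.abs_le_sqrt ?_
      exact Finset.single_le_sum (f := fun i => (B *ᵥ x) i ^ 2) (fun j _ => sq_nonneg _)
        (Finset.mem_univ i)
    calc ‖B *ᵥ x‖ ^ 2 ≤ Real.sqrt (∑ i, (B *ᵥ x) i ^ 2) ^ 2 := by gcongr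
      _ = _ := Real.sq_sqrt (Finset.sum_nonneg fun i _ => sq_nonneg _)
  rw [inv_mul_le_iff₀ (by positivity)]
  calc ‖x‖ ^ 2 ≤ ((‖T‖ + 1) * ‖B *ᵥ x‖) ^ 2 := by gcongr; exact h1 x
    _ = (‖T‖ + 1) ^ 2 * ‖B *ᵥ x‖ ^ 2 := by ring
    _ ≤ _ := by gcongr

theorem exists_dec {A : Matrix κ κ ℝ} (hA : A.PosDef) (n : ℕ) :
    ∃ C : ℝ, 0 ≤ C ∧ Dec C n (fun x => (gq A x : ℂ)) := by
  obtain ⟨c, hc, h⟩ := exists_lower hA
  refine ⟨Real.exp ((n : ℝ) ^ 2 / (4 * (π * c))), (Real.exp_pos _).le, fun x => ?_⟩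
  have hr : 0 ≤ ‖x‖ := norm_nonneg x
  have hpc : 0 < π * c := mul_pos Real.pi_pos hc
  rw [Complex.norm_real, Real.norm_of_nonneg (gq_pos A x).le, inv_pow, ← div_eq_mul_inv,
    le_div_iff₀ (by positivity)]
  have h1 : (1 + ‖x‖) ^ n ≤ Real.exp (n * ‖x‖) := by
    rw [Real.exp_nat_mul]
    gcongr
    linarith [Real.add_one_le_exp ‖x‖]
  have h2 : gq A x ≤ Real.exp (-(π * c * ‖x‖ ^ 2)) := by
    unfold gq
    rw [Real.exp_le_exp, neg_le_neg_iff, mul_assoc]
    exact mul_le_mul_of_nonneg_left (h x) Real.pi_pos.le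
  calc gq A x * (1 + ‖x‖) ^ n ≤ Real.exp (-(π * c * ‖x‖ ^ 2)) * Real.exp (n * ‖x‖) := by
        gcongr
    _ = Real.exp (-(π * c * ‖x‖ ^ 2) + n * ‖x‖) := by rw [Real.exp_add]
    _ ≤ _ := by
        rw [Real.exp_le_exp, le_div_iff₀ (by positivity)]
        nlinarith [sq_nonneg (2 * (π * c) * ‖x‖ - n)]

theorem summable_gq {A : Matrix κ κ ℝ} (hA : A.PosDef) (x : κ → ℝ) :
    Summable fun m : κ → ℤ => gq A (x + ic m) := by
  obtain ⟨C, hC, h⟩ := exists_dec hA (Fintype.card κ + 1)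
  have := summable_shift hC (Nat.lt_succ_self _) h x
  exact Complex.summable_ofReal.1 this

theorem FTp_gq {A : Matrix κ κ ℝ} (hA : A.PosDef) (k : κ → ℤ) :
    FTp (fun x => (gq A x : ℂ)) k = (((Real.sqrt A.det)⁻¹ * gq A⁻¹ (ic k) : ℝ) : ℂ) := by
  obtain ⟨B, hB, rfl⟩ := exists_sqrt hA
  let L : (κ → ℝ) ≃ₗ[ℝ] (κ → ℝ) := Matrix.toLinearEquiv' B (Matrix.invertibleOfIsUnitDet B hB)
  have hL : ∀ x, L x = B *ᵥ x := fun x => rfl
  have hdet : LinearMap.det (L : (κ → ℝ) →ₗ[ℝ] (κ → ℝ)) = B.det := by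
    have : (L : (κ → ℝ) →ₗ[ℝ] (κ → ℝ)) = Matrix.toLin' B := rfl
    rw [this, LinearMap.det_toLin']
  set ξ : κ → ℝ := (B⁻¹)ᵀ *ᵥ ic k with hξ
  let F : (κ → ℝ) → ℂ := fun v =>
    cexp (-∑ i, (π : ℂ) * (v i : ℂ) ^ 2 + ∑ i, (-(2 * π * I * ξ i)) * v i)
  have h1 : ∀ x, ch (-k) x * (gq (Bᵀ * B) x : ℂ) = F (L x) := by
    intro x
    have h2 : dot (-k) x = -∑ i, ξ i * (B *ᵥ x) i := by
      have h3 : ∑ i, ξ i * (B *ᵥ x) i = ξ ⬝ᵥ (B *ᵥ x) := rfl
      rw [h3, hξ, mulVec_transpose, ← dotProduct_mulVec, mulVec_mulVec,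
        Matrix.nonsing_inv_mul B hB, one_mulVec, dot, dotProduct, ← Finset.sum_neg_distrib]
      refine Finset.sum_congr rfl fun i _ => ?_
      simp
    simp only [F, hL, ch, gq, quad_eq, h2]
    rw [Complex.ofReal_exp, ← Complex.exp_add]
    congr 1
    push_cast
    simp only [Finset.mul_sum, mul_neg, neg_mul, Finset.sum_neg_distrib, mul_assoc]
    ring
  have h4 : ∫ v, F v = (gq (Bᵀ * B)⁻¹ (ic k) : ℂ) := by
    have h5 := GaussianFourier.integral_cexp_neg_sum_mul_add (ι := κ) (b := fun _ => (π : ℂ))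
      (fun _ => by simpa using Real.pi_pos) (fun i => -(2 * π * I * ξ i))
    simp only [F]
    rw [h5]
    have hpi : (π : ℂ) ≠ 0 := by exact_mod_cast Real.pi_ne_zero
    simp only [div_self hpi, one_cpow, one_mul]
    rw [← Complex.exp_sum, gq, Complex.ofReal_exp]
    congr 1
    have h6 : (Bᵀ * B)⁻¹ = ((B⁻¹)ᵀ)ᵀ * (B⁻¹)ᵀ := by
      rw [Matrix.mul_inv_rev, transpose_transpose, transpose_nonsing_inv]
    rw [h6, quad_eq, ← hξ]
    push_cast
    rw [Finset.mul_sum, ← Finset.sum_neg_distrib]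
    refine Finset.sum_congr rfl fun i _ => ?_
    field_simp
    rw [I_sq]
    ring
  unfold FTp
  simp only [h1]
  rw [integral_comp_lin L F, hdet, h4, det_mul, det_transpose, Real.sqrt_mul_self_eq_abs,
    abs_inv]
  simp

/-- **Gaussian Poisson summation.** -/
theorem gauss_poisson {A : Matrix κ κ ℝ} (hA : A.PosDef) (x : κ → ℝ) :
    HasSum (fun k : κ → ℤ => (((Real.sqrt A.det)⁻¹ * gq A⁻¹ (ic k) : ℝ) : ℂ) * ch k x)
      (∑' m : κ → ℤ, (gq A (x + ic m) : ℂ)) := by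
  obtain ⟨C, hC, h⟩ := exists_dec hA (Fintype.card κ + 1)
  have hc : Continuous fun x => (gq A x : ℂ) := Complex.continuous_ofReal.comp (continuous_gq A)
  have hF : Summable (FTp fun x => (gq A x : ℂ)) := by
    have h1 := (summable_gq hA.inv 0).mul_left (Real.sqrt A.det)⁻¹
    simp only [zero_add] at h1
    have h2 := Complex.summable_ofReal.2 h1
    exact h2.congr fun k => (FTp_gq hA k).symm
  have h3 := poisson_pi hc hC (Nat.lt_succ_self _) h hF x
  simpa only [FTp_gq hA] using h3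

end gauss

section entire

variable {X : Type*} [MeasurableSpace X] {μ : Measure X}

theorem norm_mul_exp (H : ℂ) (s : ℂ) (l : ℝ) :
    ‖H * cexp (s * l)‖ = ‖H‖ * Real.exp (s.re * l) := by
  rw [norm_mul, Complex.norm_exp]
  simp

theorem integrable_mul_exp {H : X → ℂ} {l : X → ℝ} (hH : AEStronglyMeasurable H μ)
    (hl : Measurable l) {s : ℂ} (h : Integrable (fun x => ‖H x‖ * Real.exp (s.re * l x)) μ) :
    Integrable (fun x => H x * cexp (s * l x)) μ := by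
  refine h.mono' (hH.mul (Measurable.aestronglyMeasurable (by fun_prop))) ?_
  exact Eventually.of_forall fun x => (norm_mul_exp _ _ _).le

theorem differentiable_integral_exp {H : X → ℂ} {l : X → ℝ} (hH : AEStronglyMeasurable H μ)
    (hl : Measurable l) (h : ∀ σ : ℝ, Integrable (fun x => ‖H x‖ * Real.exp (σ * l x)) μ) :
    Differentiable ℂ fun s : ℂ => ∫ x, H x * cexp (s * l x) ∂μ := by
  intro s
  have key := hasDerivAt_integral_of_dominated_loc_of_deriv_le (μ := μ) (𝕜 := ℂ)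
    (F := fun z x => H x * cexp (z * l x)) (F' := fun z x => H x * (cexp (z * l x) * l x))
    (x₀ := s) (s := Metric.ball s 1)
    (bound := fun x => ‖H x‖ * Real.exp ((s.re + 2) * l x) + ‖H x‖ * Real.exp ((s.re - 2) * l x))
    (Metric.ball_mem_nhds s one_pos)
    (Eventually.of_forall fun z => hH.mul (Measurable.aestronglyMeasurable (by fun_prop)))
    (integrable_mul_exp hH hl (h _))
    (hH.mul (Measurable.aestronglyMeasurable (by fun_prop)))
    (Eventually.of_forall fun x z hz => ?_) ((h _).add (h _))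
    (Eventually.of_forall fun x z _ => ?_)
  · exact key.2.differentiableAt
  · rw [norm_mul, norm_mul, ← mul_add]
    refine mul_le_mul_of_nonneg_left ?_ (norm_nonneg _)
    have h1 : |z.re - s.re| ≤ 1 := by
      rw [← Complex.sub_re]
      refine (Complex.abs_re_le_norm _).trans ?_
      rw [Metric.mem_ball, dist_eq_norm] at hz
      exact hz.le
    rw [Complex.norm_exp, Complex.norm_real, Real.norm_eq_abs]
    have h2 : (z * (l x : ℂ)).re = z.re * l x := by simp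
    rw [h2]
    have h3 : |l x| ≤ Real.exp |l x| := by linarith [Real.add_one_le_exp |l x|]
    obtain ⟨h4, h5⟩ := abs_le.1 h1
    have e1 := Real.exp_pos ((s.re + 2) * l x)
    have e2 := Real.exp_pos ((s.re - 2) * l x)
    calc Real.exp (z.re * l x) * |l x| ≤ Real.exp (z.re * l x) * Real.exp |l x| := by gcongr
      _ = Real.exp (z.re * l x + |l x|) := by rw [Real.exp_add]
      _ ≤ _ := by
        rcases le_total 0 (l x) with h6 | h6
        · have : Real.exp (z.re * l x + |l x|) ≤ Real.exp ((s.re + 2) * l x) := by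
            rw [Real.exp_le_exp, abs_of_nonneg h6]
            nlinarith
          linarith
        · have : Real.exp (z.re * l x + |l x|) ≤ Real.exp ((s.re - 2) * l x) := by
            rw [Real.exp_le_exp, abs_of_nonpos h6]
            nlinarith
          linarith
  · exact (((hasDerivAt_id z).mul_const (l x : ℂ)).cexp.const_mul (H x)).congr_deriv (by simp)

end entire

end Crest.Agent.T27.HeckeA87
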