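import Mathlib
import Crest.Agent.T27.HeckeB_87

/-!
# Row 27, Hecke integral, part C (helper87): the torus, units, unfolding, Gamma factors

Coordinates `c : X K = InfinitePlace K → ℝ` on the torus `ℝ_+^{places}`: `tt c` is the point of the
torus, `ll c = log` of its norm, multiplication by `x ∈ Kˣ` is the translation by `lg x`, the units
act through the lattice `ext m`.
-/

set_option autoImplicit false
set_option linter.unusedSectionVars false

noncomputable section

open MeasureTheory Complex Set Filter Topology NumberField Module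
open NumberField.mixedEmbedding.fundamentalCone NumberField.Units
open NumberField.Units.dirichletUnitTheorem
open scoped Real ComplexConjugate nonZeroDivisors
open Crest.Agent.T27.HeckeA87 Crest.Agent.T27.HeckeB87

namespace Crest.Agent.T27.HeckeC87

theorem cpow_pos {r : ℝ} (hr : 0 < r) (y : ℂ) : (r : ℂ) ^ y = cexp ((Real.log r : ℝ) * y) := by
  rw [cpow_def_of_ne_zero (by exact_mod_cast hr.ne'), ofReal_log hr.le]

/-! ### the one-dimensional Gamma integral -/

/-- the one-dimensional kernel -/
def g1 (m : ℝ) (s : ℂ) (u : ℝ) : ℂ :=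
  (Real.exp (-(π * (m * Real.exp (2 * (u / m))))) : ℝ) * cexp (s * u)

/-- the Gamma factor -/
def gam (m : ℝ) (s : ℂ) : ℂ :=
  (m / 2 : ℝ) * ((1 / ((π * m : ℝ) : ℂ)) ^ (s * m / 2) * Gamma (s * m / 2))

theorem g1_aux {m : ℝ} (hm : 0 < m) (s : ℂ) (u : ℝ) :
    |Real.exp (2 * (u / m)) * (2 / m)| •
      (((Real.exp (2 * (u / m)) : ℝ) : ℂ) ^ (s * m / 2 - 1) *
        cexp (-((π * m : ℝ) * (Real.exp (2 * (u / m)) : ℝ)))) = (2 / m : ℝ) * g1 m s u := by
  have hm' : (m : ℂ) ≠ 0 := by exact_mod_cast hm.ne'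
  rw [abs_of_pos (by positivity), g1, Complex.real_smul, cpow_pos (Real.exp_pos _), Real.log_exp]
  have h1 : cexp (s * u) = cexp ((2 * (u / m) : ℝ) : ℂ) *
      cexp ((2 * (u / m) : ℝ) * (s * m / 2 - 1)) := by
    rw [← Complex.exp_add]
    congr 1
    push_cast
    field_simp
    ring
  rw [h1]
  push_cast
  ring_nf

theorem image_exp {m : ℝ} (hm : 0 < m) :
    (fun u : ℝ => Real.exp (2 * (u / m))) '' univ = Ioi 0 := by
  ext t
  simp only [image_univ, mem_range, mem_Ioi]
  refine ⟨fun ⟨u, hu⟩ => hu ▸ Real.exp_pos _, fun ht => ⟨m / 2 * Real.log t, ?_⟩⟩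
  have : 2 * (m / 2 * Real.log t / m) = Real.log t := by field_simp
  rw [this, Real.exp_log ht]

theorem deriv_exp (m : ℝ) (u : ℝ) : HasDerivWithinAt (fun u : ℝ => Real.exp (2 * (u / m)))
    (Real.exp (2 * (u / m)) * (2 / m)) univ u := by
  have h := (((hasDerivAt_id u).div_const m).const_mul 2).exp
  simp only [id] at h
  refine (h.congr_deriv ?_).hasDerivWithinAt
  ring

theorem inj_exp {m : ℝ} (hm : 0 < m) : InjOn (fun u : ℝ => Real.exp (2 * (u / m))) univ := by
  intro u _ v _ h
  have h1 := Real.exp_injective h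
  field_simp at h1
  exact h1

theorem re_half {m : ℝ} (hm : 0 < m) {s : ℂ} (hs : 0 < s.re) : 0 < (s * m / 2).re := by
  have : (s * m / 2).re = s.re * m / 2 := by simp
  rw [this]
  positivity

theorem integrable_g1 {m : ℝ} (hm : 0 < m) {s : ℂ} (hs : 0 < s.re) : Integrable (g1 m s) := by
  have hr : 0 < π * m := mul_pos Real.pi_pos hm
  have h1 : IntegrableOn (fun t : ℝ => (t : ℂ) ^ (s * m / 2 - 1) * cexp (-((π * m : ℝ) * t)))
      (Ioi 0) := by
    have h2 := integrableOn_rpow_mul_exp_neg_mul_rpow (p := 1) (s := (s * m / 2).re - 1)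
      (b := π * m) (by linarith [re_half hm hs]) one_pos hr
    refine h2.mono' ?_ ?_
    · refine ContinuousOn.aestronglyMeasurable ?_ measurableSet_Ioi
      refine ContinuousOn.mul (fun t ht => ?_) (by fun_prop)
      exact (continuousAt_ofReal_cpow_const t _ (Or.inr (ne_of_gt ht))).continuousWithinAt
    · refine (ae_restrict_iff' measurableSet_Ioi).2 (Eventually.of_forall fun t ht => ?_)
      rw [norm_mul, norm_cpow_eq_rpow_re_of_pos ht, Complex.norm_exp, Real.rpow_one]
      simp
  rw [← image_exp hm, integrableOn_image_iff_integrableOn_abs_deriv_smul MeasurableSet.univ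
    (fun u _ => deriv_exp m u) (inj_exp hm), integrableOn_univ] at h1
  simp only [g1_aux hm] at h1
  have h3 := h1.const_mul ((m / 2 : ℝ) : ℂ)
  refine h3.congr (Eventually.of_forall fun u => ?_)
  have hm' : (m : ℂ) ≠ 0 := by exact_mod_cast hm.ne'
  push_cast
  field_simp

theorem integral_g1 {m : ℝ} (hm : 0 < m) {s : ℂ} (hs : 0 < s.re) :
    ∫ u, g1 m s u = gam m s := by
  have hr : 0 < π * m := mul_pos Real.pi_pos hm
  have h1 := integral_cpow_mul_exp_neg_mul_Ioi (re_half hm hs) hr
  rw [← image_exp hm, integral_image_eq_integral_abs_deriv_smul MeasurableSet.univ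
    (fun u _ => deriv_exp m u) (inj_exp hm), setIntegral_univ] at h1
  simp only [g1_aux hm] at h1
  rw [integral_const_mul] at h1
  rw [gam, ← h1]
  have hm' : (m : ℂ) ≠ 0 := by exact_mod_cast hm.ne'
  push_cast
  field_simp

/-! ### the torus -/

/-- coordinates on the torus -/
abbrev X (K : Type*) [Field K] := InfinitePlace K → ℝ

variable {K : Type*} [Field K] [NumberField K]

/-- from coordinates to logarithms -/
def LL : X K ≃ₗ[ℝ] X K := (completeBasis K).equivFun.symm

/-- the point of the torus -/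
def tt (c : X K) : InfinitePlace K → ℝ := fun w => Real.exp (2 * (LL c w / w.mult))

/-- logarithm of the norm of the point -/
def ll (c : X K) : ℝ := finrank ℚ K * c w₀

/-- the translation attached to `x ∈ Kˣ` -/
def lg (x : K) : X K := LL.symm fun w => w.mult * Real.log (w x)

theorem tt_pos (c : X K) (w : InfinitePlace K) : 0 < tt c w := Real.exp_pos _

theorem mult_pos' (w : InfinitePlace K) : (0 : ℝ) < w.mult := Nat.cast_pos.2 InfinitePlace.mult_pos

theorem finrank_pos' : (0 : ℝ) < finrank ℚ K := Nat.cast_pos.2 Module.finrank_pos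

theorem tt_neg (c : X K) : tt (-c) = fun w => (tt c w)⁻¹ := by
  funext w
  simp only [tt, map_neg, Pi.neg_apply, ← Real.exp_neg]
  congr 1
  ring

theorem ll_add (c d : X K) : ll (c + d) = ll c + ll d := by simp [ll, mul_add]

theorem ll_neg (c : X K) : ll (-c) = -ll c := by simp [ll]

theorem measurable_ll : Measurable (ll : X K → ℝ) := by
  unfold ll
  fun_prop

theorem continuous_ll : Continuous (ll : X K → ℝ) := by
  unfold ll
  fun_prop

theorem continuous_LL : Continuous (LL : X K → X K) :=
  (LL : X K ≃ₗ[ℝ] X K).toContinuousLinearEquiv.continuous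

theorem continuous_tt (w : InfinitePlace K) : Continuous fun c : X K => tt c w := by
  have h := continuous_LL (K := K)
  unfold tt
  fun_prop

theorem continuous_gs (x : K) : Continuous fun c : X K => gs (tt c) x := by
  simp only [gs_eq]
  refine Real.continuous_exp.comp (Continuous.neg (continuous_const.mul ?_))
  exact continuous_finsetSum _ fun w _ =>
    continuous_const.mul ((continuous_tt w).mul continuous_const)

theorem sum_LL (c : X K) : ∑ w, LL c w = ll c := by
  classical
  have h := prod_expMapBasis_pow c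
  have h1 : ∀ w : InfinitePlace K, expMapBasis c w ^ w.mult = Real.exp (LL c w) := by
    intro w
    rw [expMapBasis_apply, mixedEmbedding.fundamentalCone.expMap_apply, ← Real.exp_nat_mul,
      mul_inv_cancel_left₀ InfinitePlace.mult_coe_ne_zero]
    rfl
  simp only [h1] at h
  rw [← Real.exp_sum, ← Real.exp_nat_mul] at h
  exact Real.exp_injective h

theorem sqrt_prod_tt (c : X K) :
    Real.sqrt (∏ w : InfinitePlace K, tt c w ^ w.mult) = Real.exp (ll c) := by
  have h1 : ∀ w : InfinitePlace K, tt c w ^ w.mult = Real.exp (2 * LL c w) := by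
    intro w
    rw [tt, ← Real.exp_nat_mul]
    congr 1
    field_simp [(mult_pos' w).ne']
  simp only [h1]
  rw [← Real.exp_sum, ← Finset.mul_sum, sum_LL, two_mul, Real.exp_add,
    Real.sqrt_mul_self (Real.exp_pos _).le]

theorem LL_lg (x : K) (w : InfinitePlace K) : LL (lg x) w = w.mult * Real.log (w x) := by
  rw [lg, LinearEquiv.apply_symm_apply]

theorem lg_mul {x y : K} (hx : x ≠ 0) (hy : y ≠ 0) : lg (x * y) = lg x + lg y := by
  apply (LL : X K ≃ₗ[ℝ] X K).injective
  funext w
  rw [map_add, Pi.add_apply, LL_lg, LL_lg, LL_lg, map_mul,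
    Real.log_mul (InfinitePlace.pos_iff.2 hx).ne' (InfinitePlace.pos_iff.2 hy).ne', mul_add]

theorem ll_lg {x : K} (hx : x ≠ 0) : ll (lg x) = Real.log (|Algebra.norm ℚ x| : ℚ) := by
  rw [← sum_LL, ← InfinitePlace.prod_eq_abs_norm,
    Real.log_prod fun w _ => pow_ne_zero _ (InfinitePlace.pos_iff.2 hx).ne']
  simp only [LL_lg, Real.log_pow]

theorem gs_mul (c : X K) {x : K} (hx : x ≠ 0) (y : K) :
    gs (tt c) (x * y) = gs (tt (c + lg x)) y := by
  rw [gs_eq, gs_eq]
  congr 3
  refine Finset.sum_congr rfl fun w _ => ?_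
  congr 1
  have h1 : tt (c + lg x) w = tt c w * w x ^ 2 := by
    rw [tt, tt, map_add, Pi.add_apply, LL_lg, add_div, mul_add, Real.exp_add,
      mul_div_cancel_left₀ _ (mult_pos' w).ne']
    congr 1
    rw [show (2 : ℝ) * Real.log (w x) = ((2 : ℕ) : ℝ) * Real.log (w x) by norm_num,
      Real.exp_nat_mul, Real.exp_log (InfinitePlace.pos_iff.2 hx)]
  rw [h1, map_mul]
  ring

open Classical in
/-- the unit lattice in coordinates -/
def ext (m : Fin (rank K) → ℤ) : X K :=
  fun w => if h : w = w₀ then 0 else (m (equivFinRank.symm ⟨w, h⟩) : ℝ)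

theorem ext_zero (m : Fin (rank K) → ℤ) : ext m w₀ = 0 := dif_pos rfl

theorem ext_apply (m : Fin (rank K) → ℤ) (i : Fin (rank K)) :
    ext m (equivFinRank i).1 = m i := by
  rw [ext, dif_neg (equivFinRank i).2]
  simp

theorem ext_neg (m : Fin (rank K) → ℤ) : ext (-m) = -ext m := by
  funext w
  simp only [ext, Pi.neg_apply]
  split_ifs <;> simp

theorem ll_ext (m : Fin (rank K) → ℤ) : ll (ext m) = 0 := by simp [ll, ext_zero]

/-- the unit with given torsion part and exponents -/
def unitOf (p : torsion K × (Fin (rank K) → ℤ)) : (𝓞 K)ˣ :=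
  p.1 * ∏ i, fundSystem K i ^ p.2 i

/-- Dirichlet's unit theorem -/
def unitEquiv : torsion K × (Fin (rank K) → ℤ) ≃ (𝓞 K)ˣ :=
  Equiv.ofBijective unitOf ((Function.bijective_iff_existsUnique _).2 fun u => by
    simpa only [eq_comm, unitOf] using exist_unique_eq_mul_prod K u)

theorem lg_unitOf (p : torsion K × (Fin (rank K) → ℤ)) : lg ((unitOf p : (𝓞 K)ˣ) : K) = ext p.2 := by
  classical
  apply (LL : X K ≃ₗ[ℝ] X K).injective
  funext w
  rw [LL_lg, LL, Basis.equivFun_symm_apply, Fintype.sum_eq_add_sum_subtype_ne _ w₀, ext_zero,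
    zero_smul, zero_add, ← Equiv.sum_comp equivFinRank, Finset.sum_apply]
  simp only [ext_apply, completeBasis_apply_of_ne, Pi.smul_apply, expMap_symm_apply,
    mixedEmbedding.normAtAllPlaces_mixedEmbedding, Equiv.symm_apply_apply, smul_eq_mul]
  have h1 : w ((p.1 : (𝓞 K)ˣ) : K) = 1 := (mem_torsion K).1 p.1.2 w
  rw [unitOf, Units.coe_mul, map_mul, h1, one_mul]
  have h2 : (((∏ i, fundSystem K i ^ p.2 i : (𝓞 K)ˣ) : (𝓞 K)ˣ) : K) =
      ∏ i, ((fundSystem K i : (𝓞 K)ˣ) : K) ^ p.2 i := by
    simp only [← Units.coe_zpow]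
    simp
  rw [h2, map_prod, Real.log_prod, Finset.mul_sum]
  · refine Finset.sum_congr rfl fun i _ => ?_
    rw [map_zpow₀, Real.log_zpow]
    ring
  · intro i _
    rw [map_zpow₀]
    exact zpow_ne_zero _ (Units.pos_at_place _ w).ne'

/-- fundamental domains for the unit lattice -/
structure IsFD (D : Set (X K)) : Prop where
  meas : MeasurableSet D
  uniq : ∀ c, ∃! m : Fin (rank K) → ℤ, c - ext m ∈ D

theorem IsFD.neg {D : Set (X K)} (h : IsFD D) : IsFD (-D) := by
  refine ⟨h.meas.neg, fun c => ?_⟩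
  obtain ⟨m, hm, hu⟩ := h.uniq (-c)
  refine ⟨-m, ?_, fun m' hm' => ?_⟩
  · show -(c - ext (-m)) ∈ D
    rw [ext_neg]
    convert hm using 1
    abel
  · have h1 : -c - ext (-m') ∈ D := by
      rw [ext_neg]
      have h2 : -(c - ext m') ∈ D := hm'
      convert h2 using 1
      abel
    rw [← hu _ h1, neg_neg]

theorem IsFD.hasSum {D : Set (X K)} (h : IsFD D) {G : X K → ℂ} (hG : Integrable G) :
    HasSum (fun m : Fin (rank K) → ℤ => ∫ c in D, G (c + ext m)) (∫ c, G c) := by
  let S : (Fin (rank K) → ℤ) → Set (X K) := fun m => (fun c => c + ext m) '' D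
  have hS : ∀ m c, c ∈ S m ↔ c - ext m ∈ D := by
    intro m c
    constructor
    · rintro ⟨d, hd, rfl⟩
      simpa using hd
    · exact fun hc => ⟨_, hc, by simp⟩
  have hU : ⋃ m, S m = univ := by
    refine eq_univ_of_forall fun c => ?_
    obtain ⟨m, hm, -⟩ := h.uniq c
    exact mem_iUnion.2 ⟨m, (hS m c).2 hm⟩
  have h1 := hasSum_integral_iUnion (μ := volume) (f := G) (s := S)
    (fun m => (measurableEmbedding_addRight (ext m)).measurableSet_image.2 h.meas)
    (fun m m' hne => disjoint_left.2 fun c h1 h2 =>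
      hne ((h.uniq c).unique ((hS m c).1 h1) ((hS m' c).1 h2)))
    hG.integrableOn
  rw [hU, setIntegral_univ] at h1
  have h2 : (fun m : Fin (rank K) → ℤ => ∫ c in D, G (c + ext m)) = fun m => ∫ c in S m, G c := by
    funext m
    exact ((measurePreserving_add_right volume (ext m)).setIntegral_image_emb
      (measurableEmbedding_addRight (ext m)) G D).symm
  rw [h2]
  exact h1

theorem hasSum_mul_aux {α β : Type*} {f : α → ℂ} {g : β → ℂ} {a b : ℂ} (hf : HasSum f a)
    (hg : HasSum g b) : HasSum (fun p : α × β => f p.1 * g p.2) (a * b) := by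
  have h1 : Summable fun x => ‖f x‖ := hf.summable.norm
  have h2 : Summable fun x => ‖g x‖ := hg.summable.norm
  exact hf.mul hg (summable_mul_of_summable_norm h1 h2)

theorem IsFD.hasSum_units {D : Set (X K)} (h : IsFD D) {G : X K → ℂ} (hG : Integrable G) :
    HasSum (fun u : (𝓞 K)ˣ => ∫ c in D, G (c + lg (u : K))) (torsionOrder K * ∫ c, G c) := by
  rw [← (unitEquiv (K := K)).hasSum_iff]
  have h1 := h.hasSum hG
  have : Fintype (torsion K) := Fintype.ofFinite _
  have h2 : HasSum (fun _ : torsion K => (1 : ℂ)) (torsionOrder K) := by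
    have h3 := hasSum_fintype (fun _ : torsion K => (1 : ℂ))
    rw [Finset.sum_const, Finset.card_univ, nsmul_eq_mul, mul_one, ← Nat.card_eq_fintype_card] at h3
    exact h3
  have h4 := hasSum_mul_aux h2 h1
  have h5 : ((fun u : (𝓞 K)ˣ => ∫ c in D, G (c + lg (u : K))) ∘ unitEquiv) =
      fun p : torsion K × (Fin (rank K) → ℤ) => 1 * ∫ c in D, G (c + ext p.2) := by
    funext p
    have h6 : lg (((unitEquiv p : (𝓞 K)ˣ)) : K) = ext p.2 := lg_unitOf p
    simp only [Function.comp_apply, h6, one_mul]
  rw [h5]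
  exact h4

/-- the standard fundamental domain -/
def D0 (K : Type*) [Field K] [NumberField K] : Set (X K) := {c | ∀ w, w ≠ w₀ → c w ∈ Ico 0 1}

theorem isFD_D0 : IsFD (D0 K) := by
  refine ⟨?_, fun c => ⟨fun i => ⌊c (equivFinRank i).1⌋, fun w hw => ?_, fun m hm => ?_⟩⟩
  · have : D0 K = ⋂ w : InfinitePlace K, ⋂ _ : w ≠ w₀, (fun c : X K => c w) ⁻¹' Ico 0 1 := by
      ext c
      simp [D0]
    rw [this]
    exact MeasurableSet.iInter fun w => MeasurableSet.iInter fun _ =>
      measurable_pi_apply w measurableSet_Ico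
  · obtain ⟨i, hi⟩ := equivFinRank.surjective ⟨w, hw⟩
    have hw' : w = (equivFinRank i).1 := by rw [hi]
    rw [hw', Pi.sub_apply, ext_apply]
    exact ⟨Int.fract_nonneg _, Int.fract_lt_one _⟩
  · funext i
    have h1 := hm _ (equivFinRank i).2
    rw [Pi.sub_apply, ext_apply] at h1
    rw [eq_comm, Int.floor_eq_iff]
    constructor <;> linarith [h1.1, h1.2]

theorem integral_D0 {z : ℂ} (hz : 0 < z.re) (η : ℝ) :
    IntegrableOn (fun c : X K => cexp (z * ll c)) (D0 K ∩ {c | ll c ≤ η}) ∧
    ∫ c in D0 K ∩ {c | ll c ≤ η}, cexp (z * ll c) = cexp (z * η) / (z * finrank ℚ K) := by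
  classical
  have hn := finrank_pos' (K := K)
  have hz' : 0 < (z * (finrank ℚ K : ℝ)).re := by
    simp only [mul_re, ofReal_re, ofReal_im, mul_zero, sub_zero]
    positivity
  let f : InfinitePlace K → ℝ → ℂ := fun w x =>
    if w = w₀ then (Iic (η / finrank ℚ K)).indicator (fun x : ℝ => cexp (z * (finrank ℚ K : ℝ) * x)) x
    else (Ico (0 : ℝ) 1).indicator (fun _ => (1 : ℂ)) x
  have hmeas : MeasurableSet (D0 K ∩ {c | ll c ≤ η}) :=
    isFD_D0.meas.inter (measurableSet_le measurable_ll measurable_const)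
  have h1 : (D0 K ∩ {c | ll c ≤ η}).indicator (fun c : X K => cexp (z * ll c)) =
      fun c => ∏ w, f w (c w) := by
    funext c
    by_cases hc : c ∈ D0 K ∩ {c | ll c ≤ η}
    · rw [indicator_of_mem hc, Finset.prod_eq_single w₀]
      · have h2 : c w₀ ∈ Iic (η / finrank ℚ K) := by
          rw [mem_Iic, le_div_iff₀' hn]
          exact hc.2
        simp only [f, if_true, indicator_of_mem h2, ll]
        push_cast
        ring_nf
      · intro w _ hw
        simp only [f, if_neg hw, indicator_of_mem (hc.1 w hw)]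
      · simp
    · rw [indicator_of_notMem hc, eq_comm, Finset.prod_eq_zero_iff]
      by_cases h2 : c ∈ D0 K
      · refine ⟨w₀, Finset.mem_univ _, ?_⟩
        have h3 : c w₀ ∉ Iic (η / finrank ℚ K) := by
          rw [mem_Iic, le_div_iff₀' hn]
          exact fun h => hc ⟨h2, h⟩
        simp only [f, if_true, indicator_of_notMem h3]
      · simp only [D0, mem_ofPred_eq, not_forall] at h2
        obtain ⟨w, hw, h3⟩ := h2
        exact ⟨w, Finset.mem_univ _, by simp only [f, if_neg hw, indicator_of_notMem h3]⟩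
  refine ⟨?_, ?_⟩
  · rw [← integrable_indicator_iff hmeas, h1]
    refine Integrable.fintype_prod (f := f) (μ := fun _ => volume) fun w => ?_
    by_cases hw : w = w₀
    · simp only [f, if_pos hw]
      exact (integrable_indicator_iff measurableSet_Iic).2 (integrableOn_exp_mul_complex_Iic hz' _)
    · simp only [f, if_neg hw]
      exact (integrable_indicator_iff measurableSet_Ico).2 (by simp)
  · rw [← integral_indicator hmeas, h1, integral_fintype_prod_volume_eq_prod,
      Finset.prod_eq_single w₀]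
    · simp only [f, if_true]
      rw [integral_indicator measurableSet_Iic, integral_exp_mul_complex_Iic hz']
      have hn' : ((finrank ℚ K : ℝ) : ℂ) ≠ 0 := by exact_mod_cast hn.ne'
      congr 2
      push_cast at hn' ⊢
      field_simp
    · intro w _ hw
      simp only [f, if_neg hw]
      rw [integral_indicator measurableSet_Ico]
      simp
    · simp

/-! ### the Mellin transform of one Gaussian -/

/-- the Jacobian -/
def kap (K : Type*) [Field K] [NumberField K] : ℝ :=
  |(LinearMap.det ((LL : X K ≃ₗ[ℝ] X K) : X K →ₗ[ℝ] X K))⁻¹|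

theorem kap_pos : 0 < kap K := abs_pos.2 (inv_ne_zero (det_ne_zero_lin _))

/-- the product of the Gamma factors -/
def Gam (K : Type*) [Field K] [NumberField K] (s : ℂ) : ℂ :=
  ∏ w : InfinitePlace K, gam w.mult s

/-- the kernel -/
def ker (s : ℂ) (x : K) (c : X K) : ℂ := (gs (tt c) x : ℝ) * cexp (s * ll c)

theorem continuous_ker (s : ℂ) (x : K) : Continuous (ker s x) := by
  have h1 := continuous_gs x
  have h2 := continuous_ll (K := K)
  unfold ker
  fun_prop

theorem ker_one (s : ℂ) (c : X K) :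
    ker s (1 : K) c = ∏ w : InfinitePlace K, g1 w.mult s (LL c w) := by
  simp only [ker, g1, gs_eq, map_one, one_pow, mul_one, Finset.prod_mul_distrib]
  rw [← Complex.ofReal_prod, ← Real.exp_sum, ← Complex.exp_sum, ← Finset.mul_sum,
    ← Complex.ofReal_sum, sum_LL, Finset.sum_neg_distrib, ← Finset.mul_sum]
  rfl

theorem integrable_ker_one {s : ℂ} (hs : 0 < s.re) : Integrable (ker s (1 : K)) := by
  have h1 : Integrable fun u : X K => ∏ w : InfinitePlace K, g1 w.mult s (u w) :=
    Integrable.fintype_prod (f := fun w : InfinitePlace K => g1 w.mult s) (μ := fun _ => volume)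
      fun w => integrable_g1 (mult_pos' w) hs
  have h2 := integrable_comp_lin LL h1
  exact h2.congr (Eventually.of_forall fun c => (ker_one s c).symm)

theorem integral_ker_one {s : ℂ} (hs : 0 < s.re) :
    ∫ c, ker s (1 : K) c = kap K * Gam K s := by
  simp only [ker_one]
  rw [integral_comp_lin LL fun u : X K => ∏ w : InfinitePlace K, g1 w.mult s (u w),
    integral_fintype_prod_volume_eq_prod fun w : InfinitePlace K => g1 w.mult s]
  simp only [integral_g1 (mult_pos' _) hs]
  rfl

theorem ker_mul (s : ℂ) {x : K} (hx : x ≠ 0) (y : K) (c : X K) :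
    ker s (x * y) c = cexp (-(s * ll (lg x))) * ker s y (c + lg x) := by
  rw [ker, ker, gs_mul c hx, ll_add, mul_left_comm, ← Complex.exp_add]
  congr 2
  push_cast
  ring

theorem integrable_ker {s : ℂ} (hs : 0 < s.re) {x : K} (hx : x ≠ 0) : Integrable (ker s x) := by
  have h1 := ((integrable_ker_one (K := K) hs).comp_add_right (lg x)).const_mul
    (cexp (-(s * ll (lg x))))
  refine h1.congr (Eventually.of_forall fun c => ?_)
  have := ker_mul s hx 1 c
  rw [mul_one] at this
  exact this.symm

theorem integral_ker {s : ℂ} (hs : 0 < s.re) {x : K} (hx : x ≠ 0) :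
    ∫ c, ker s x c = kap K * Gam K s * cexp (-(s * Real.log (|Algebra.norm ℚ x| : ℚ))) := by
  have h1 : ∀ c, ker s x c = cexp (-(s * ll (lg x))) * ker s 1 (c + lg x) := by
    intro c
    have := ker_mul s hx 1 c
    rwa [mul_one] at this
  simp only [h1]
  rw [integral_const_mul, integral_add_right_eq_self (ker s (1 : K)), integral_ker_one hs, ll_lg hx,
    mul_comm]

/-- **Unfolding over the units.** -/
theorem hasSum_ker_units {D : Set (X K)} (h : IsFD D) {s : ℂ} (hs : 0 < s.re) {x : K}
    (hx : x ≠ 0) :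
    HasSum (fun u : (𝓞 K)ˣ => ∫ c in D, ker s ((u : K) * x) c)
      (torsionOrder K * (kap K * Gam K s * cexp (-(s * Real.log (|Algebra.norm ℚ x| : ℚ))))) := by
  have h1 := h.hasSum_units (integrable_ker hs hx)
  rw [integral_ker hs hx] at h1
  convert h1 using 3 with u
  funext c
  rw [ker_mul s (Units.coe_ne_zero u), ll_lg (Units.coe_ne_zero u), Units.norm]
  simp

end Crest.Agent.T27.HeckeC87
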