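import Crest.Agent.T27.Sar2_77
import Crest.Agent.T27.HeckeC_87

/-!
# Row 27, kernel (E): the group `Fˣ / Λˣ` and the space `(places → ℝ) × Fˣ / Λˣ`
-/

set_option autoImplicit false
set_option linter.unusedSectionVars false

noncomputable section

namespace Crest.Agent.T27.Ker65

open MeasureTheory NumberField

theorem summable_pi {ι : Type*} [Fintype ι] {a : ι → ℝ} (h0 : ∀ i, 0 ≤ a i) (h1 : ∀ i, a i < 1) :
    Summable fun n : ι → ℕ => ∏ i, a i ^ n i := by
  classical
  refine summable_of_sum_le (c := ∏ i, (1 - a i)⁻¹)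
    (fun n => Finset.prod_nonneg fun i _ => pow_nonneg (h0 i) _) fun S => ?_
  calc ∑ n ∈ S, ∏ i, a i ^ n i
      ≤ ∑ n ∈ Fintype.piFinset (fun i => S.image (· i)), ∏ i, a i ^ n i :=
        Finset.sum_le_sum_of_subset_of_nonneg
          (fun n hn => Fintype.mem_piFinset.2 fun i => Finset.mem_image_of_mem _ hn)
          fun n _ _ => Finset.prod_nonneg fun i _ => pow_nonneg (h0 i) _
    _ = ∏ i, ∑ k ∈ S.image (· i), a i ^ k := (Finset.prod_univ_sum _ _).symm
    _ ≤ _ := Finset.prod_le_prod (fun i _ => Finset.sum_nonneg fun k _ => pow_nonneg (h0 i) _)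
        fun i _ => sum_le_hasSum _ (fun k _ => pow_nonneg (h0 i) _)
          (hasSum_geometric_of_lt_one (h0 i) (h1 i))

/-- the group of the fractional ideals of `Λ`, written additively -/
def Gam (F : Type*) [Field F] (N : ℕ) := Additive (Fˣ ⧸ UL F N)

variable {F : Type*} [Field F] [NumberField F] {N : ℕ}

instance : AddCommGroup (Gam F N) := inferInstanceAs (AddCommGroup (Additive (Fˣ ⧸ UL F N)))
instance : MeasurableSpace (Gam F N) := ⊤
instance : DiscreteMeasurableSpace (Gam F N) := ⟨fun _ => trivial⟩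

instance : Countable (Gam F N) :=
  haveI : Countable F := (Module.finBasis ℚ F).equivFun.injective.countable
  haveI : Countable Fˣ := Units.val_injective.countable
  (QuotientGroup.mk_surjective (s := UL F N)).countable

/-- the class of a unit of the field -/
def mkU (N : ℕ) (x : Fˣ) : Gam F N := Additive.ofMul (QuotientGroup.mk x : Fˣ ⧸ UL F N)

open Classical in
/-- the class of an element -/
def mkF (N : ℕ) (x : F) : Gam F N := if h : x = 0 then 0 else mkU N (Units.mk0 x h)

theorem mkF_coe (x : Fˣ) : mkF N (x : F) = mkU N x := by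
  rw [mkF, dif_neg x.ne_zero, Units.mk0_val]

theorem mkF_mul {x y : F} (hx : x ≠ 0) (hy : y ≠ 0) : mkF N (x * y) = mkF N x + mkF N y := by
  lift x to Fˣ using hx.isUnit
  lift y to Fˣ using hy.isUnit
  rw [← Units.val_mul, mkF_coe, mkF_coe, mkF_coe]
  rfl

theorem mkF_one : mkF N (1 : F) = 0 := mkF_coe 1

theorem mkF_inv {x : F} (hx : x ≠ 0) : mkF N x⁻¹ = -mkF N x :=
  eq_neg_of_add_eq_zero_left (by rw [← mkF_mul (inv_ne_zero hx) hx, inv_mul_cancel₀ hx, mkF_one])

/-- a representative of a class -/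
def rp (γ : Gam F N) : Fˣ := Quotient.out (Additive.toMul (α := Fˣ ⧸ UL F N) γ)

theorem mkF_rp (γ : Gam F N) : mkF N (rp γ : F) = γ := by
  rw [mkF_coe, rp, mkU, QuotientGroup.out_eq']
  rfl

theorem rp_mkF {x : F} (hx : x ≠ 0) : ∃ u ∈ UL F N, (rp (mkF N x) : F) = x * u := by
  lift x to Fˣ using hx.isUnit
  obtain ⟨u, hu⟩ := QuotientGroup.mk_out_eq_mul (UL F N) x
  refine ⟨u, u.2, ?_⟩
  rw [mkF_coe, ← Units.val_mul, ← hu]
  rfl

theorem mkF_of_mem {u : Fˣ} (hu : u ∈ UL F N) : mkF N (u : F) = 0 := by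
  rw [mkF_coe, mkU, (QuotientGroup.eq_one_iff u).2 hu]
  rfl

/-- the integral classes -/
def In (F : Type*) [Field F] (N : ℕ) : Set (Gam F N) := {γ | (rp γ : F) ∈ LS F N}

theorem mkF_mem {x : F} (hx : x ≠ 0) : mkF N x ∈ In F N ↔ x ∈ LS F N := by
  obtain ⟨u, hu, e⟩ := rp_mkF (N := N) hx
  show (rp (mkF N x) : F) ∈ LS F N ↔ _
  rw [e]
  refine ⟨fun h => ?_, fun h => mul_mem h hu.1⟩
  simpa using mul_mem h hu.2

variable [hG : SGood F N]

/-- the logarithm of the `S`-adic absolute value -/
def la (γ : Gam F N) : ℝ := Real.log (absS N (rp γ : F))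

theorem la_mkF {x : F} (hx : x ≠ 0) : la (mkF N x) = Real.log (absS N x) := by
  obtain ⟨u, hu, e⟩ := rp_mkF (N := N) hx
  rw [la, e, absS_mul, absS_of_mem_UL hu, mul_one]

theorem la_add (a b : Gam F N) : la (a + b) = la a + la b := by
  rw [← mkF_rp a, ← mkF_rp b, ← mkF_mul (rp a).ne_zero (rp b).ne_zero,
    la_mkF (mul_ne_zero (rp a).ne_zero (rp b).ne_zero), la_mkF (rp a).ne_zero,
    la_mkF (rp b).ne_zero, absS_mul,
    Real.log_mul (absS_pos (rp a).ne_zero).ne' (absS_pos (rp b).ne_zero).ne']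

theorem la_zero : la (0 : Gam F N) = 0 := by
  have := la_add (0 : Gam F N) 0
  rw [add_zero] at this
  linarith

theorem absS_lt_one {p : LS F N} (hp : Prime p) : absS N (p : F) < 1 := by
  have h1 := absS_card p hp.ne_zero
  have := finite_quot_LS hp.ne_zero
  have : Nontrivial (LS F N ⧸ Ideal.span {p}) :=
    Ideal.Quotient.nontrivial_iff.2 fun h => hp.not_isUnit (Ideal.span_singleton_eq_top.1 h)
  have h2 : (1 : ℝ) < Nat.card (LS F N ⧸ Ideal.span {p}) := by exact_mod_cast Finite.one_lt_card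
  have h3 := absS_pos (N := N) (x := (p : F)) (by simpa using hp.ne_zero)
  nlinarith

theorem exists_primes : ∃ P : Finset (LS F N), (∀ p ∈ P, Prime p) ∧
    ∀ x : LS F N, x ≠ 0 → ∃ n : P → ℕ, Associated x (∏ p : P, (p : LS F N) ^ n p) := by
  classical
  have h1 := (finite_isMaximal_LS (F := F) (N := N)).image
    fun J => Submodule.IsPrincipal.generator J
  refine ⟨h1.toFinset.filter Prime, fun p hp => (Finset.mem_filter.1 hp).2, fun x => ?_⟩
  induction x using UniqueFactorizationMonoid.induction_on_prime with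
  | h₁ => exact fun h => absurd rfl h
  | h₂ x hx => exact fun _ => ⟨0, by simpa using hx⟩
  | h₃ a p ha hp ih =>
    intro _
    obtain ⟨n, hn⟩ := ih ha
    have h2 : (Ideal.span {p}).IsMaximal :=
      PrincipalIdealRing.isMaximal_of_irreducible hp.irreducible
    have h3 : Associated p (Submodule.IsPrincipal.generator (Ideal.span {p})) := by
      rw [← Ideal.span_singleton_eq_span_singleton, Ideal.span_singleton_generator]
    let π : (h1.toFinset.filter Prime : Finset _) :=
      ⟨_, Finset.mem_filter.2 ⟨h1.mem_toFinset.2 ⟨_, h2, rfl⟩, h3.prime hp⟩⟩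
    refine ⟨Pi.single π 1 + n, ?_⟩
    simp only [Pi.add_apply, pow_add, Finset.prod_mul_distrib]
    refine Associated.mul_mul ?_ hn
    rw [Finset.prod_eq_single π (fun b _ hb => by rw [Pi.single_eq_of_ne hb, pow_zero])
      (by simp), Pi.single_eq_same, pow_one]
    exact h3

theorem summable_In {σ : ℝ} (hσ : 0 < σ) :
    Summable ((In F N).indicator fun γ => Real.exp (σ * la γ)) := by
  obtain ⟨P, hP, h⟩ := exists_primes (F := F) (N := N)
  have h0 : ∀ p : P, ((p : LS F N) : F) ≠ 0 := fun p => by simpa using (hP p p.2).ne_zero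
  have h1 : ∀ γ : In F N, ∃ n : P → ℕ, mkF N (∏ p : P, ((p : LS F N) : F) ^ n p) = γ := fun γ => by
    obtain ⟨n, u, hu⟩ := h ⟨_, γ.2⟩ (by simp [Subtype.ext_iff])
    refine ⟨n, ?_⟩
    have h2 := congrArg (fun x : LS F N => (x : F)) hu
    simp only [MulMemClass.coe_mul, SubmonoidClass.coe_finsetProd, SubmonoidClass.coe_pow] at h2
    have h3 := mkF_of_mem (N := N) (unitsInEquiv (LS F N) u).2
    rw [← h2, mkF_mul (rp γ.1).ne_zero (by simp), mkF_rp]
    exact (congrArg (γ.1 + ·) h3).trans (add_zero _)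
  choose r hr using h1
  have h2 : Function.Injective r := fun a b e => Subtype.ext (by rw [← hr a, ← hr b, e])
  have h3 := summable_pi (a := fun p : P => absS N ((p : LS F N) : F) ^ σ)
    (fun p => Real.rpow_nonneg (absS_pos (h0 p)).le _)
    fun p => Real.rpow_lt_one (absS_pos (h0 p)).le (absS_lt_one (hP p p.2)) hσ
  refine summable_subtype_iff_indicator.1 ((h3.comp_injective h2).congr fun γ => ?_)
  have h4 : ∀ s : Finset P, absS N (∏ p ∈ s, ((p : LS F N) : F) ^ r γ p) =
      ∏ p ∈ s, absS N ((p : LS F N) : F) ^ r γ p := fun s => by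
    classical
    induction s using Finset.induction_on with
    | empty => simpa using absS_one
    | insert a s ha ih => rw [Finset.prod_insert ha, Finset.prod_insert ha, absS_mul, absS_pow, ih]
  have h5 : (∏ p : P, ((p : LS F N) : F) ^ r γ p) ≠ 0 :=
    Finset.prod_ne_zero_iff.2 fun p _ => pow_ne_zero _ (h0 p)
  simp only [Function.comp_apply]
  rw [← hr γ, la_mkF h5, mul_comm σ, ← Real.rpow_def_of_pos (absS_pos h5), h4,
    ← Real.finsetProd_rpow _ _ fun p _ => pow_nonneg (absS_pos (h0 p)).le _]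
  refine Finset.prod_congr rfl fun p _ => ?_
  rw [← Real.rpow_natCast, ← Real.rpow_natCast, ← Real.rpow_mul (absS_pos (h0 p)).le,
    ← Real.rpow_mul (absS_pos (h0 p)).le, mul_comm]

/-- the space -/
abbrev GG (F : Type*) [Field F] (N : ℕ) := HeckeC87.X F × Gam F N

/-- the invariant measure -/
def mu (F : Type*) [Field F] [NumberField F] (N : ℕ) : Measure (GG F N) :=
  (volume : Measure (HeckeC87.X F)).prod Measure.count

instance : MeasurableAdd (GG F N) :=
  ⟨fun c => (measurable_const_add c.1).prodMap (measurable_const_add c.2),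
    fun c => (measurable_add_const c.1).prodMap (measurable_add_const c.2)⟩
instance : MeasurableNeg (GG F N) := ⟨measurable_neg.prodMap measurable_neg⟩
instance : SFinite (mu F N) := by unfold mu; infer_instance
instance : (mu F N).IsAddLeftInvariant := by unfold mu; infer_instance
instance : (mu F N).IsNegInvariant :=
  ⟨((Measure.measurePreserving_neg _).prod (Measure.measurePreserving_neg _)).map_eq⟩

end Crest.Agent.T27.Ker65
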