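import Crest.Agent.T27.KerGB_63

/-!
# Row 27, generic half of `KerAx`, part C (helper63): the sum over squares, `kerAx_of_base_63`
-/

set_option autoImplicit false

noncomputable section

namespace Crest.Agent.T27

namespace K63

open MeasureTheory Filter Topology Complex

variable [Fr0] {G : ℝ → ℝ}

open Classical in
/-- The sum over the squares. -/
def th2 (g : ℝ → ℝ) (y : ℝ) : ℝ := ∑' c : O, if Primary c then g (y * nr c ^ 2) else 0

open Classical in
theorem th2_eq_integral (h : Base G) {y : ℝ} (hy : 0 < y) :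
    (th2 (sm G) y : ℂ) = (1 / (2 * Real.pi) : ℂ) * ∫ t : ℝ, mm G ((1 : ℝ) + t * I) *
      (y : ℂ) ^ (-((1 : ℝ) + t * I)) *
        ∑' c : O, if Primary c then (nr c : ℂ) ^ (-(2 * ((1 : ℝ) + t * I))) else 0 := by
  set T : O → ℝ → ℂ := fun c t => mm G ((1 : ℝ) + t * I) * (y : ℂ) ^ (-((1 : ℝ) + t * I)) *
    if Primary c then (nr c : ℂ) ^ (-(2 * ((1 : ℝ) + t * I))) else 0 with hT
  have hn : ∀ c t, ‖T c t‖ = ‖mm G ((1 : ℝ) + t * I)‖ * (y⁻¹ * z2 c) := fun c t => by
    simp only [hT, z2]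
    rw [norm_mul, norm_mul, R17.norm_cpow_line hy, mul_assoc]
    congr 2
    · simp [Real.rpow_neg_one]
    · split_ifs with hc
      · rw [R17.norm_cpow_line (nr_pos hc.ne_zero)]
        simp
      · simp
  have hmi : Integrable fun t : ℝ => ‖mm G ((1 : ℝ) + t * I)‖ := by
    simpa using h.mel_int one_pos 0
  have hc : ∀ c, Continuous (T c) := fun c => by
    simp only [hT]
    refine ((h.mel_cont one_pos).mul ?_).mul ?_
    · simp only [cpow_eq hy]
      fun_prop
    · split_ifs with hc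
      · simp only [cpow_eq (nr_pos hc.ne_zero)]
        fun_prop
      · exact continuous_const
  have hi : ∀ c, Integrable (T c) := fun c =>
    (hmi.mul_const (y⁻¹ * z2 c)).mono' (hc c).aestronglyMeasurable
      (Eventually.of_forall fun t => (hn c t).le)
  have hs : Summable fun c => ∫ t, ‖T c t‖ := by
    simp only [hn, integral_mul_const]
    exact (summable_z2.mul_left _).mul_left _
  have e := integral_tsum_of_summable_integral_norm hi hs
  simp only [hT, tsum_mul_left] at e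
  rw [← e, ← tsum_mul_left, th2, Complex.ofReal_tsum]
  refine tsum_congr fun c => ?_
  split_ifs with hc
  · have hp := nr_pos hc.ne_zero
    rw [h.mel_eq (mul_pos hy (pow_pos hp 2)) one_pos]
    congr 1
    refine integral_congr_ae (Eventually.of_forall fun t => ?_)
    simp only
    rw [cpow_eq hy, cpow_eq hp, cpow_eq (mul_pos hy (pow_pos hp 2)),
      Real.log_mul hy.ne' (pow_pos hp 2).ne', Real.log_pow, mul_assoc, ← Complex.exp_add]
    congr 2
    push_cast
    ring
  · simp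

theorem er_small (h : Base G) (hZ : ZGrow) : ∃ κ : ℝ, ∀ θ : ℝ, 0 < θ → θ < 1 / 2 →
    ∃ C : ℝ, 0 < C ∧ ∀ y : ℝ, 0 < y → |th2 (sm G) y - κ / Real.sqrt y| ≤ C * y ^ (-θ) := by
  obtain ⟨f, hf, hfe, hfb⟩ := hZ
  refine ⟨(mm G (1 / 2) * f 1 / 2).re, fun θ h0 h1 => ?_⟩
  obtain ⟨K, hK0, hK⟩ := h.norm_mm_le (b := 1) h0
  obtain ⟨C, hC⟩ := hfb (2 * θ) (by linarith)
  have hC0 : 0 ≤ C := by
    have := (norm_nonneg _).trans (hC 1 (by simp; linarith) (by norm_num))
    exact nonneg_of_mul_nonneg_left this (Real.exp_pos _)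
  -- the majorant on the strip
  have hb : ∀ w ∈ R17.strip θ 1, ‖mm G w * f (2 * w) / 2‖ ≤
      K * C * Real.exp (8 * C ^ 2) * (8 * (1 + w.im ^ 2)⁻¹) := fun w hw => by
    have a1 := hK w hw.1 hw.2
    have a2 := hC (2 * w) (by simp; linarith [hw.1]) (by simp; linarith [hw.2])
    have a3 : |(2 * w).im| = 2 * |w.im| := by simp [abs_mul]
    rw [a3] at a2
    have a4 : Real.exp (-w.im ^ 2 / 4) * Real.exp (C * (2 * |w.im|)) ≤
        Real.exp (8 * C ^ 2) * Real.exp (-(w.im ^ 2 / 8)) := by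
      rw [← Real.exp_add, ← Real.exp_add, Real.exp_le_exp, ← sq_abs w.im]
      nlinarith [sq_nonneg (|w.im| - 8 * C)]
    have a5 : Real.exp (-(w.im ^ 2 / 8)) ≤ 8 * (1 + w.im ^ 2)⁻¹ := by
      have hp : 0 < 1 + w.im ^ 2 := by positivity
      rw [Real.exp_neg, ← div_eq_mul_inv, le_div_iff₀ hp, inv_mul_le_iff₀ (Real.exp_pos _)]
      nlinarith [Real.add_one_le_exp (w.im ^ 2 / 8)]
    rw [norm_div, norm_mul]
    calc ‖mm G w‖ * ‖f (2 * w)‖ / ‖(2 : ℂ)‖ ≤ ‖mm G w‖ * ‖f (2 * w)‖ :=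
          div_le_self (by positivity) (by simp)
      _ ≤ K * Real.exp (-w.im ^ 2 / 4) * (C * Real.exp (C * (2 * |w.im|))) :=
          mul_le_mul a1 a2 (norm_nonneg _) (by positivity)
      _ = K * C * (Real.exp (-w.im ^ 2 / 4) * Real.exp (C * (2 * |w.im|))) := by ring
      _ ≤ K * C * (Real.exp (8 * C ^ 2) * (8 * (1 + w.im ^ 2)⁻¹)) :=
          mul_le_mul_of_nonneg_left (a4.trans (mul_le_mul_of_nonneg_left a5 (by positivity)))
            (by positivity)
      _ = _ := by ring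
  set M := K * C * Real.exp (8 * C ^ 2) * 8 with hM
  have hM0 : 0 ≤ M := by positivity
  have hδ : 0 < 1 / 2 - θ := by linarith
  refine ⟨M / (1 / 2 - θ) + 1, by positivity, fun y hy => ?_⟩
  set H : ℂ → ℂ := fun w => mm G w * f (2 * w) / 2 * (y : ℂ) ^ (-w) with hH
  have hHd : DifferentiableOn ℂ H (R17.strip θ 1) := fun w hw => by
    have p1 : 0 < w.re := h0.trans_le hw.1
    have p2 : DifferentiableAt ℂ f (2 * w) :=
      hf.differentiableAt ((isOpen_lt continuous_const continuous_re).mem_nhds (by simpa using p1))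
    have p3 : DifferentiableAt ℂ (fun w : ℂ => (y : ℂ) ^ (-w)) w := by
      simp only [cpow_eq hy]
      fun_prop
    exact ((((h.differentiableAt_mm p1).mul (p2.comp w (by fun_prop))).div_const 2).mul
      p3).differentiableWithinAt
  have hHb : ∀ w ∈ R17.strip θ 1, ‖H w‖ ≤ M * y ^ (-w.re) / (1 + w.im ^ 2) := fun w hw => by
    simp only [hH]
    rw [norm_mul, R17.norm_cpow_line hy, Complex.neg_re]
    calc _ ≤ K * C * Real.exp (8 * C ^ 2) * (8 * (1 + w.im ^ 2)⁻¹) * y ^ (-w.re) :=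
          mul_le_mul_of_nonneg_right (hb w hw) (by positivity)
      _ = _ := by rw [hM]; ring
  have hsh := R17.contour_shift_pole (G := H) (σ₀ := θ) (σ₁ := 1) (ρ := 1 / 2) (T := 0)
    (K := M * (y ^ (-θ) + y ^ (-1 : ℝ))) (by simpa using h1) (by norm_num) hHd fun w hw _ => by
      refine (hHb w hw).trans (div_le_div_of_nonneg_right
        (mul_le_mul_of_nonneg_left ?_ hM0) (by positivity))
      have q1 := Real.rpow_pos_of_pos hy (-θ)
      have q2 := Real.rpow_pos_of_pos hy (-1)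
      rcases le_total y 1 with hy1 | hy1
      · have := Real.rpow_le_rpow_of_exponent_ge hy hy1 (neg_le_neg hw.2)
        linarith
      · have := Real.rpow_le_rpow_of_exponent_le hy1 (neg_le_neg hw.1)
        linarith
  have e1 : (th2 (sm G) y : ℂ) = (1 / (2 * Real.pi) : ℂ) *
      ∫ t : ℝ, H ((1 : ℝ) + t * I) / ((1 : ℝ) + t * I - 1 / 2) := by
    rw [th2_eq_integral h hy]
    congr 1
    refine integral_congr_ae (Eventually.of_forall fun t => ?_)
    simp only [hH]
    rw [hfe _ (by simp)]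
    have : ((1 : ℝ) : ℂ) + t * I - 1 / 2 ≠ 0 := fun e => by
      have := congrArg Complex.re e
      norm_num at this
    rw [eq_div_iff this]
    ring
  have e2 : H (1 / 2) = mm G (1 / 2) * f 1 / 2 / (Real.sqrt y : ℂ) := by
    simp only [hH]
    rw [Real.sqrt_eq_rpow, Complex.ofReal_cpow hy.le, Complex.cpow_neg]
    norm_num
    rfl
  have hpi : (2 * Real.pi : ℂ) ≠ 0 := by
    have := Real.pi_pos
    exact_mod_cast (by positivity : (2 * Real.pi : ℝ) ≠ 0)
  have e3 : (th2 (sm G) y : ℂ) - mm G (1 / 2) * f 1 / 2 / (Real.sqrt y : ℂ) =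
      (1 / (2 * Real.pi) : ℂ) * ∫ t : ℝ, H (θ + t * I) / (θ + t * I - 1 / 2) := by
    rw [e1, hsh, e2, mul_add, ← mul_assoc, one_div_mul_cancel hpi, one_mul, add_sub_cancel_right]
  have e4 : ‖∫ t : ℝ, H (θ + t * I) / (θ + t * I - 1 / 2)‖ ≤
      M * y ^ (-θ) / (1 / 2 - θ) * Real.pi := by
    have := norm_integral_le_of_norm_le (f := fun t : ℝ => H (θ + t * I) / (θ + t * I - 1 / 2))
      (integrable_inv_one_add_sq.const_mul (M * y ^ (-θ) / (1 / 2 - θ)))
      (Eventually.of_forall fun t => by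
        have b1 := hHb _ (R17.Contour.line_mem le_rfl (by linarith) t)
        have b2 : 1 / 2 - θ ≤ ‖(θ : ℂ) + t * I - 1 / 2‖ := by
          have := Complex.abs_re_le_norm ((θ : ℂ) + t * I - 1 / 2)
          have e : ((θ : ℂ) + t * I - 1 / 2).re = θ - 1 / 2 := by simp
          rw [e, abs_of_neg (by linarith)] at this
          linarith
        have r1 : ((θ : ℂ) + t * I).re = θ := by simp
        have r2 : ((θ : ℂ) + t * I).im = t := by simp
        rw [r1, r2] at b1
        rw [norm_div]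
        calc _ ≤ M * y ^ (-θ) / (1 + t ^ 2) / (1 / 2 - θ) :=
              div_le_div₀ (by positivity) b1 hδ b2
          _ = _ := by ring)
    rwa [integral_const_mul, integral_univ_inv_one_add_sq] at this
  have e5 : th2 (sm G) y - (mm G (1 / 2) * f 1 / 2).re / Real.sqrt y =
      ((th2 (sm G) y : ℂ) - mm G (1 / 2) * f 1 / 2 / (Real.sqrt y : ℂ)).re := by
    rw [Complex.sub_re, Complex.ofReal_re, Complex.div_ofReal_re]
  rw [e5]
  refine (Complex.abs_re_le_norm _).trans ?_
  rw [e3, norm_mul]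
  have q1 := Real.rpow_pos_of_pos hy (-θ)
  have n1 : ‖(1 / (2 * Real.pi) : ℂ)‖ = 1 / (2 * Real.pi) := by
    simp [abs_of_pos Real.pi_pos]
  rw [n1]
  have := Real.pi_pos
  calc _ ≤ 1 / (2 * Real.pi) * (M * y ^ (-θ) / (1 / 2 - θ) * Real.pi) :=
        mul_le_mul_of_nonneg_left e4 (by positivity)
    _ = M / (1 / 2 - θ) / 2 * y ^ (-θ) := by field_simp
    _ ≤ _ := by
        refine mul_le_mul_of_nonneg_right ?_ q1.le
        have : 0 ≤ M / (1 / 2 - θ) := by positivity
        linarith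

theorem th2_large (h : Base G) : ∃ C : ℝ, 0 ≤ C ∧ ∀ y : ℝ, 0 < y → |th2 (sm G) y| ≤ C * y⁻¹ := by
  classical
  obtain ⟨C, hC, hb⟩ := h.sm_le one_pos
  refine ⟨C * ∑' n, z2 n, mul_nonneg hC.le (tsum_nonneg z2_nonneg), fun y hy => ?_⟩
  have := tsum_of_norm_bounded (f := fun c : O => if Primary c then sm G (y * nr c ^ 2) else 0)
    (summable_z2.mul_left (C * y⁻¹)).hasSum fun c => by
      unfold z2
      split_ifs with hc
      · have hp := nr_pos hc.ne_zero
        rw [Real.norm_of_nonneg (h.sm_pos (by positivity)).le]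
        refine (hb _ (by positivity)).trans (le_of_eq ?_)
        rw [Real.rpow_neg_one, Real.rpow_neg hp.le, Real.rpow_two]
        ring
      · simp
  rw [tsum_mul_left] at this
  refine this.trans (le_of_eq ?_)
  ring

theorem er_sm (h : Base G) (hZ : ZGrow) : ∃ κ : ℝ, ∀ θ : ℝ, 0 < θ → θ ≤ 1 / 2 →
    ∃ C : ℝ, 0 < C ∧ ∀ y : ℝ, 0 < y →
      |th2 (sm G) y - κ / Real.sqrt y| ≤ C * min (y ^ (-θ)) (Real.sqrt y)⁻¹ := by
  obtain ⟨κ, hκ⟩ := er_small h hZ
  obtain ⟨C2, hC2, h2⟩ := th2_large h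
  refine ⟨κ, fun θ h0 h1 => ?_⟩
  obtain ⟨C1, hC1, h1'⟩ := hκ (θ / 2) (by linarith) (by linarith)
  refine ⟨C1 + C2 + |κ|, by positivity, fun y hy => ?_⟩
  have es : (Real.sqrt y)⁻¹ = y ^ (-(1 / 2) : ℝ) := by
    rw [Real.sqrt_eq_rpow, Real.rpow_neg hy.le]
  have hs : 0 < (Real.sqrt y)⁻¹ := inv_pos.2 (Real.sqrt_pos.2 hy)
  rcases le_total y 1 with hy1 | hy1
  · refine (h1' y hy).trans (mul_le_mul (by linarith [abs_nonneg κ]) (le_min ?_ ?_)
      (by positivity) (by positivity))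
    · exact Real.rpow_le_rpow_of_exponent_ge hy hy1 (by linarith)
    · rw [es]
      exact Real.rpow_le_rpow_of_exponent_ge hy hy1 (by linarith)
  · rw [min_eq_right (by rw [es]; exact Real.rpow_le_rpow_of_exponent_le hy1 (by linarith))]
    have a1 : y⁻¹ ≤ (Real.sqrt y)⁻¹ := by
      rw [es, ← Real.rpow_neg_one]
      exact Real.rpow_le_rpow_of_exponent_le hy1 (by norm_num)
    have a2 : |κ / Real.sqrt y| = |κ| * (Real.sqrt y)⁻¹ := by
      rw [div_eq_mul_inv, abs_mul, abs_of_pos hs]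
    have a3 := h2 y hy
    have a4 := abs_sub (th2 (sm G) y) (κ / Real.sqrt y)
    nlinarith [mul_le_mul_of_nonneg_left a1 hC2]

end K63

open K63 in
/-- **The kernel of the frame** from a base kernel with Poisson summation over the ideals. -/
theorem kerAx_of_base_63 [Fr0] {G : ℝ → ℝ} {V : ℝ} (h : K63.Base G) (hV : 0 < V)
    (hp : BasePoi G V) (hZ : ZGrow) : ∃ (g : ℝ → ℝ) (m : ℂ → ℂ), KerAx g m := by
  classical
  have hU : (0 : ℝ) < U0.card := by exact_mod_cast one_le_card_U0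
  set c : ℝ := (V * W0 * U0.card)⁻¹ with hc
  have hW := W0_pos
  have hc0 : 0 < c := by positivity
  set g : ℝ → ℝ := fun x => if 0 < x then c * sm G x else 1 with hg
  have hgp : ∀ x, 0 < x → g x = c * sm G x := fun x hx => if_pos hx
  have hg0 : g 0 = 1 := if_neg (lt_irrefl _)
  have hpos : ∀ x, 0 < g x := fun x => by
    simp only [hg]
    split_ifs with hx
    · exact mul_pos hc0 (h.sm_pos hx)
    · exact one_pos
  have hle : ∀ A : ℝ, 0 < A → ∃ C : ℝ, 0 < C ∧ ∀ x : ℝ, 0 < x → g x ≤ C * x ^ (-A) := by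
    intro A hA
    obtain ⟨C, hC, hb⟩ := h.sm_le hA
    refine ⟨c * C, by positivity, fun x hx => ?_⟩
    rw [hgp x hx, mul_assoc]
    exact mul_le_mul_of_nonneg_left (hb x hx) hc0.le
  have htm : ∀ (a : O → ℂ) (X : ℝ), 0 < X → ∑' n, tm a g X n = c * ∑' n, tm a (sm G) X n := by
    intro a X hX
    rw [← tsum_mul_left]
    refine tsum_congr fun n => ?_
    unfold tm
    split_ifs with hn
    · rw [hgp _ (mul_pos hX (nr_pos hn.ne_zero))]
      push_cast
      ring
    · simp
  have hbp : BasePoi g (c * (V * W0)) := by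
    have := basePoi_sm h hp
    rw [basePoi_iff] at this ⊢
    intro q F X hq hF hu hX
    rw [htm _ _ (inv_pos.2 hX), htm _ _ (div_pos hX (nr_pos hq))]
    have := this q F X hq hF hu hX
    push_cast at this ⊢
    linear_combination (c : ℂ) * this
  refine ⟨g, fun s => c * mm G s, hpos, hg0, fun x hx y hy hxy => ?_, hle,
    fun σ hσ => continuous_const.mul (h.mel_cont hσ), fun σ hσ J => ?_, fun x σ hx hσ => ?_, ?_, ?_⟩
  · rw [hgp x hx, hgp y hy]
    exact mul_le_mul_of_nonneg_left (h.sm_anti hx hy hxy) hc0.le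
  · simp only [norm_mul, mul_assoc]
    exact (h.mel_int hσ J).const_mul _
  · rw [hgp x hx, Complex.ofReal_mul, h.mel_eq hx hσ, mul_left_comm, ← MeasureTheory.integral_const_mul]
    simp only [mul_assoc]
  · obtain ⟨κ, hκ⟩ := er_sm h hZ
    refine ⟨c * κ, fun θ h0 h1 => ?_⟩
    obtain ⟨C, hC, hb⟩ := hκ θ h0 h1
    refine ⟨c * C, by positivity, fun y hy => ?_⟩
    have e : (∑' n : O, if Primary n then g (y * nr n ^ 2) else 0) = c * th2 (sm G) y := by
      rw [th2, ← tsum_mul_left]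
      refine tsum_congr fun n => ?_
      split_ifs with hn
      · exact hgp _ (mul_pos hy (pow_pos (nr_pos hn.ne_zero) 2))
      · simp
    rw [e, mul_div_assoc, ← mul_sub, abs_mul, abs_of_pos hc0, mul_assoc]
    exact mul_le_mul_of_nonneg_left (hb y hy) hc0.le
  · obtain ⟨C, -, hb⟩ := hle 2 two_pos
    refine poisson_rows hbp ?_ (fun x _ => (hpos x).le) hb
    rw [hg0, hc]
    field_simp

end Crest.Agent.T27
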