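import Crest.Agent.T27.Mdl_77
import Crest.Agent.T27.HeckeB_87

/-!
# Row 27, kernel (T): the `S`-adic theta identity (definition only; helper65)
-/

set_option autoImplicit false

noncomputable section

open NumberField

namespace Crest.Agent.T27

open Classical in
/-- Theta inversion on the lattices `R ∩ yΛ` for functions periodic modulo `q`. -/
def ThetaO [Fr0] (F : Type*) [Field F] [NumberField F] (N : ℕ) (j : O →+* F) : Prop :=
  ∃ δ : F, δ ≠ 0 ∧ absS N δ = |(discr F : ℝ)|⁻¹ ∧
    ∀ (y : F) (t : InfinitePlace F → ℝ), y ≠ 0 → (∀ w, 0 < t w) →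
      (Summable fun x : O => if j x / y ∈ LS F N then HeckeB87.gs t (j x) else 0) ∧
      ∀ (q : O) (f : O → ℂ), q ≠ 0 → (∀ x x', q ∣ x - x' → f x = f x') →
        ∑' x : O, (if j x / y ∈ LS F N then f x * (HeckeB87.gs t (j x) : ℂ) else 0) =
          ((absS N y / (nr q * Real.sqrt |(discr F : ℝ)| * Real.sqrt (∏ w, t w ^ w.mult)) : ℝ) : ℂ) *
            ∑' h : O, if j h / (j q / (δ * y)) ∈ LS F N then
              ft q f h * (HeckeB87.gs (fun w => (t w * w (j q) ^ 2)⁻¹) (j h) : ℂ) else 0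

end Crest.Agent.T27
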