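import Crest.Agent.T27.KerC_65
import Crest.Agent.T27.KerE_65
import Crest.Agent.T27.KerT_65
import Crest.Agent.T27.KerGC_63

/-!
# Row 27, kernel (F): the radial Poisson formula of the number-field model
-/

set_option autoImplicit false
set_option linter.unusedSectionVars false

noncomputable section

namespace Crest.Agent.T27

namespace Ker65

open MeasureTheory NumberField HeckeB87
open HeckeC87 (X tt ll lg LL)

variable {F : Type*} [Field F] [NumberField F] {N : ℕ} [hG : SGood F N]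

/-- the shift that makes the profile self-dual -/
def c0 (F : Type*) [Field F] [NumberField F] : X F :=
  fun _ => -Real.log |(discr F : ℝ)| / (2 * Module.finrank ℚ F)

theorem ll_c0 : ll (c0 F) = -Real.log |(discr F : ℝ)| / 2 := by
  have := HeckeC87.finrank_pos' (K := F)
  simp only [ll, c0]
  field_simp

/-- the logarithmic norm -/
def lG : GG F N →+ ℝ :=
  AddMonoidHom.mk' (fun g => ll g.1 + la g.2) fun a b => by
    rw [Prod.fst_add, Prod.snd_add, HeckeC87.ll_add, la_add]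
    ring

theorem lG_apply (g : GG F N) : lG g = ll g.1 + la g.2 := rfl

/-- the profile -/
def Ph (g : GG F N) : ℝ := HeckeB87.gs (tt (g.1 + c0 F)) (1 : F) * (In F N).indicator 1 g.2

/-- the point of an element -/
def pG (N : ℕ) (x : F) : GG F N := (lg x, mkF N x)

theorem pG_mul {x y : F} (hx : x ≠ 0) (hy : y ≠ 0) : pG N (x * y) = pG N x + pG N y :=
  Prod.ext (HeckeC87.lg_mul hx hy) (mkF_mul hx hy)

theorem lG_pG {x : F} (hx : x ≠ 0) :
    lG (pG N x) = Real.log (absS N x * |((Algebra.norm ℚ x : ℚ) : ℝ)|) := by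
  have h1 : |((Algebra.norm ℚ x : ℚ) : ℝ)| ≠ 0 := by simpa using hx
  rw [lG_apply, Real.log_mul (absS_pos hx).ne' h1, add_comm]
  simp only [pG]
  rw [la_mkF hx, HeckeC87.ll_lg hx, Rat.cast_abs]

theorem Ph_nonneg (g : GG F N) : 0 ≤ Ph g :=
  mul_nonneg (gs_pos _ _).le (Set.indicator_nonneg (fun _ _ => zero_le_one) _)

open Classical in
theorem Ph_add (g : GG F N) {x y : F} (hx : x ≠ 0) (hy : y ≠ 0) (e : mkF N y = -g.2) :
    Ph (g + pG N x) = if x / y ∈ LS F N then HeckeB87.gs (tt (g.1 + c0 F)) x else 0 := by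
  have h1 : (g + pG N x).2 = mkF N (x / y) := by
    rw [div_eq_mul_inv, mkF_mul hx (inv_ne_zero hy), mkF_inv hy, e, neg_neg, add_comm]
    rfl
  have h2 : (g + pG N x).1 + c0 F = g.1 + c0 F + lg x := add_right_comm _ _ _
  rw [Ph, h1, h2, ← HeckeC87.gs_mul _ hx, mul_one, Set.indicator_apply]
  simp only [mkF_mem (div_ne_zero hx hy), Pi.one_apply, mul_ite, mul_one, mul_zero]

theorem meas_lG : Measurable (lG : GG F N → ℝ) :=
  (HeckeC87.measurable_ll.comp measurable_fst).add
    ((Measurable.of_discrete (f := la)).comp measurable_snd)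

theorem meas_Ph : Measurable (Ph : GG F N → ℝ) :=
  (((HeckeC87.continuous_gs (1 : F)).measurable.comp (measurable_add_const _)).comp
    measurable_fst).mul ((Measurable.of_discrete (f := (In F N).indicator 1)).comp measurable_snd)

theorem zero_mem_In : (0 : Gam F N) ∈ In F N := by
  rw [← mkF_one, mkF_mem one_ne_zero]
  exact one_mem _

theorem Ph_pos : 0 < mu F N (Function.support Ph) := by
  refine lt_of_lt_of_le ?_ (measure_mono (s := Set.univ ×ˢ {0}) fun g hg => ?_)
  · rw [mu, Measure.prod_prod, Measure.count_singleton, mul_one]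
    exact isOpen_univ.measure_pos _ Set.univ_nonempty
  · rw [Function.mem_support, Ph, show g.2 = 0 from hg.2, Set.indicator_of_mem zero_mem_In]
    exact (mul_pos (gs_pos _ _) one_pos).ne'

theorem int_Ph {σ : ℝ} (hσ : 0 < σ) :
    Integrable (fun g : GG F N => Real.exp (σ * lG g) * Ph g) (mu F N) := by
  classical
  have h1 := (((HeckeC87.integrable_ker_one (K := F) (s := σ) hσ).norm).comp_add_right
    (c0 F)).const_mul (Real.exp (-(σ * ll (c0 F))))
  have h2 : Integrable ((In F N).indicator fun γ => Real.exp (σ * la γ)) Measure.count :=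
    integrable_count_iff.2 (summable_In hσ).norm
  refine (h1.mul_prod h2).congr (Filter.Eventually.of_forall fun g => ?_)
  simp only [HeckeC87.ker, norm_mul, Complex.norm_real, Real.norm_of_nonneg (gs_pos _ _).le,
    Complex.norm_exp, Complex.re_mul_ofReal, Complex.ofReal_re, HeckeC87.ll_add, lG_apply, Ph,
    mul_add, Real.exp_add, Real.exp_neg, Set.indicator_apply, Pi.one_apply]
  split_ifs
  · field_simp
  · simp

theorem flow_Ph {L : ℝ} (hL : 0 ≤ L) : ∃ g₀ : GG F N, lG g₀ = L ∧ ∀ g, Ph (g + g₀) ≤ Ph g := by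
  have hn := HeckeC87.finrank_pos' (K := F)
  refine ⟨(LL.symm fun w => w.mult * (L / Module.finrank ℚ F), 0), ?_, fun g => ?_⟩
  · rw [lG_apply, la_zero, add_zero, ← HeckeC87.sum_LL, LinearEquiv.apply_symm_apply,
      ← Finset.sum_mul, ← Nat.cast_sum, InfinitePlace.sum_mult_eq]
    field_simp
  · simp only [Ph, Prod.fst_add, Prod.snd_add, add_zero]
    refine mul_le_mul_of_nonneg_right ?_ (Set.indicator_nonneg (fun _ _ => zero_le_one) _)
    rw [gs_eq, gs_eq, add_right_comm]
    refine Real.exp_le_exp.2 (neg_le_neg (mul_le_mul_of_nonneg_left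
      (Finset.sum_le_sum fun w _ => ?_) Real.pi_pos.le))
    have hm := HeckeC87.mult_pos' w
    refine mul_le_mul_of_nonneg_left (mul_le_mul_of_nonneg_right (Real.exp_le_exp.2 ?_)
      (sq_nonneg _)) hm.le
    rw [map_add _ (g.1 + c0 F), LinearEquiv.apply_symm_apply, Pi.add_apply]
    gcongr
    exact le_add_of_nonneg_right (by positivity)

section model

variable [Fr0] {J : ℕ} {j : O →+* F}

theorem tsum_split {f : O → ℂ} (hf : Summable f) :
    ∑' x, f x = (∑' z : {n : O // Primary n} × Oˣ, f (z.2 * z.1)) + f 0 := by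
  classical
  have h1 : Function.Injective fun z : {n : O // Primary n} × Oˣ => (z.2 : O) * z.1 :=
    fun a b e => by
      obtain ⟨e1, e2⟩ := unit_mul_primary_inj a.2.isUnit b.2.isUnit a.1.2 b.1.2 e
      exact Prod.ext (Subtype.ext e2) (Units.ext e1)
  rw [hf.tsum_eq_add_tsum_ite 0, add_comm, ← h1.tsum_eq]
  · congr 1
    exact tsum_congr fun z => if_neg (mul_ne_zero z.2.ne_zero z.1.2.ne_zero)
  · intro x hx
    obtain ⟨u, m, hu, hm, rfl⟩ := exists_eq_unit_mul_primary (n := x) fun h => by simp [h] at hx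
    exact ⟨(⟨m, hm⟩, hu.unit), rfl⟩

open Classical in
theorem tsum_Ph (h : IsModel F N J j) {f : O → ℂ} {B : ℝ} (hf : ∀ x, ‖f x‖ ≤ B)
    (hu : ∀ u x, IsUnit u → f (u * x) = f x) (g : GG F N) {y : F} (hy : y ≠ 0)
    (e : mkF N y = -g.2)
    (hs : Summable fun x : O => if j x / y ∈ LS F N then HeckeB87.gs (tt (g.1 + c0 F)) (j x) else 0) :
    (∑' z : {n : O // Primary n} × Oˣ, f z.1 * (Ph (g + pG N (j z.2) + pG N (j z.1)) : ℂ)) + f 0 =
      ∑' x : O, if j x / y ∈ LS F N then f x * (HeckeB87.gs (tt (g.1 + c0 F)) (j x) : ℂ) else 0 := by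
  rw [tsum_split]
  · simp only [map_zero, zero_div, zero_mem, if_true, gs_zero, Complex.ofReal_one, mul_one]
    congr 1
    refine tsum_congr fun z => ?_
    have h1 := h.ne_zero z.2.ne_zero
    have h2 := h.ne_zero z.1.2.ne_zero
    rw [add_assoc, ← pG_mul h1 h2, Ph_add g (mul_ne_zero h1 h2) hy e, hu _ _ z.2.isUnit, map_mul]
    split_ifs <;> simp
  · refine (hs.mul_left B).of_norm_bounded fun x => ?_
    split_ifs
    · rw [norm_mul, Complex.norm_real, Real.norm_of_nonneg (gs_pos _ _).le]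
      exact mul_le_mul_of_nonneg_right (hf x) (gs_pos _ _).le
    · simp

theorem theta_gen (h : IsModel F N J j) (hT : ThetaO F N j) {q : O} (hq : q ≠ 0) :
    ∃ g₁ : GG F N, lG g₁ = -Real.log (nr q) ∧ ∀ f : O → ℂ, (∀ x y, q ∣ x - y → f x = f y) →
      (∀ u x, IsUnit u → f (u * x) = f x) → ∀ g : GG F N,
      (∑' z : {n : O // Primary n} × Oˣ, f z.1 * (Ph (g + pG N (j z.2) + pG N (j z.1)) : ℂ)) + f 0 =
        Complex.exp (lG g₁ - lG g) * ((∑' z : {n : O // Primary n} × Oˣ,
          ft q f z.1 * (Ph (g₁ - g + pG N (j z.2) + pG N (j z.1)) : ℂ)) + ft q f 0) := by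
  obtain ⟨δ, hδ, ha, hT⟩ := hT
  have hq' := h.ne_zero hq
  have hD := abs_discr_pos (K := F)
  have hl : lG ((-(c0 F + c0 F), mkF N δ) - pG N (j q) : GG F N) = -Real.log (nr q) := by
    rw [map_sub, lG_pG hq', ← h.nr_eq, lG_apply, HeckeC87.ll_neg, HeckeC87.ll_add, ll_c0,
      la_mkF hδ, ha, Real.log_inv]
    ring
  refine ⟨_, hl, fun f hf hu g => ?_⟩
  have hy : (rp (-g.2) : F) ≠ 0 := Units.ne_zero _
  have hy' := div_ne_zero hq' (mul_ne_zero hδ hy)
  have e1 : tt ((((-(c0 F + c0 F), mkF N δ) - pG N (j q) : GG F N) - g).1 + c0 F) =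
      fun w => (tt (g.1 + c0 F) w * w (j q) ^ 2)⁻¹ := by
    rw [show (((-(c0 F + c0 F), mkF N δ) - pG N (j q) : GG F N) - g).1 + c0 F =
      -(g.1 + c0 F + lg (j q)) by simp only [Prod.fst_sub, pG]; abel, HeckeC87.tt_neg]
    funext w
    congr 1
    rw [tt, tt, map_add _ _ (lg (j q)), Pi.add_apply, HeckeC87.LL_lg, add_div, mul_add,
      Real.exp_add, mul_div_cancel_left₀ _ (HeckeC87.mult_pos' w).ne',
      show (2 : ℝ) * Real.log (w (j q)) = ((2 : ℕ) : ℝ) * Real.log (w (j q)) by norm_num,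
      Real.exp_nat_mul, Real.exp_log (InfinitePlace.pos_iff.2 hq')]
  have e2 : mkF N (j q / (δ * rp (-g.2))) =
      -(((-(c0 F + c0 F), mkF N δ) - pG N (j q) : GG F N) - g).2 := by
    rw [div_eq_mul_inv, mkF_mul hq' (inv_ne_zero (mul_ne_zero hδ hy)),
      mkF_inv (mul_ne_zero hδ hy), mkF_mul hδ hy, mkF_rp]
    simp only [Prod.snd_sub, pG]
    abel
  have hu' : ∀ u x, IsUnit u → ft q f (u * x) = ft q f x := fun u x h1 => by
    rw [← K63.ft_unit hq hf h1 x]
    simp only [hu u _ h1]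
  rw [tsum_Ph h (K63.bdd_per hq hf) hu g hy (mkF_rp _) (hT _ _ hy (HeckeC87.tt_pos _)).1,
    tsum_Ph h (K63.bdd_ft q f) hu' _ hy' e2 (hT _ _ hy' (HeckeC87.tt_pos _)).1,
    (hT _ _ hy (HeckeC87.tt_pos _)).2 q f hq hf, e1, hl]
  congr 1
  rw [← Complex.ofReal_sub, ← Complex.ofReal_exp, HeckeC87.sqrt_prod_tt, HeckeC87.ll_add, ll_c0,
    lG_apply, ← neg_neg g.2, ← mkF_rp (-g.2), ← mkF_inv hy, la_mkF (inv_ne_zero hy), absS_inv,
    Real.log_inv, mkF_inv hy, neg_neg, mkF_rp, Real.sqrt_eq_rpow, Real.rpow_def_of_pos hD,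
    mul_assoc, ← Real.exp_add, ← Real.exp_log (nr_pos hq), ← Real.exp_add,
    ← Real.exp_log (absS_pos (N := N) hy), ← Real.exp_sub, Real.log_exp, Real.log_exp]
  congr 2
  ring

/-- the radial data of the model -/
def rd (h : IsModel F N J j) (hT : ThetaO F N j) :
    RD (GG F N) (mu F N) Oˣ {n : O // Primary n} where
  l := lG
  Φ := Ph
  lam := fun u => pG N (j u)
  pt := fun k => pG N (j k)
  l_meas := meas_lG
  Φ_meas := meas_Ph
  Φ_nonneg := Ph_nonneg
  Φ_pos := Ph_pos
  lam_mul := fun u v => by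
    rw [Units.val_mul, map_mul, pG_mul (h.ne_zero u.ne_zero) (h.ne_zero v.ne_zero)]
  l_lam := fun u => by
    rw [lG_pG (h.ne_zero u.ne_zero), ← h.nr_eq, nr_unit u.isUnit, Real.log_one]
  l_pt := fun k => by
    rw [lG_pG (h.ne_zero k.2.ne_zero), ← h.nr_eq]
    exact Real.log_nonneg (one_le_nr k.2.ne_zero)
  sum_pt := by
    refine (K63.summable_z2.subtype {n | Primary n}).congr fun k => ?_
    rw [lG_pG (h.ne_zero (Primary.ne_zero k.2)), ← h.nr_eq, Function.comp_apply, K63.z2,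
      if_pos (show Primary k.1 from k.2), Real.rpow_def_of_pos (nr_pos (Primary.ne_zero k.2))]
    congr 1
    ring
  int := fun _ => int_Ph
  flow := fun _ => flow_Ph
  sumU := fun g => by
    obtain ⟨δ, -, -, hT⟩ := hT
    refine ((hT _ _ (rp (-g.2)).ne_zero (HeckeC87.tt_pos (g.1 + c0 F))).1.comp_injective
      Units.val_injective).congr fun u => ?_
    rw [Ph_add g (h.ne_zero u.ne_zero) (rp (-g.2)).ne_zero (mkF_rp _)]
    rfl
  posU := fun g => by
    obtain ⟨k, hk⟩ := exists_pow_mul_mem_LS hG.ne ((rp (-g.2) : F)⁻¹)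
    have h1 : IsUnit (N : O) :=
      h.isUnit_iff.2 (by rw [map_natCast]; exact ⟨SGood.cast_ne F N, inv_N_mem_RS⟩)
    refine ⟨h1.unit ^ k, ?_⟩
    rw [Ph_add g (h.ne_zero (Units.ne_zero _)) (rp (-g.2)).ne_zero (mkF_rp _), if_pos]
    · exact gs_pos _ _
    · simpa [div_eq_mul_inv] using hk
  theta := by
    obtain ⟨g₁, h1, h2⟩ := theta_gen h hT one_ne_zero
    refine ⟨g₁, by rw [h1, nr_unit isUnit_one, Real.log_one, neg_zero], fun g => ?_⟩
    have h3 := h2 (fun _ => 1) (fun _ _ _ => rfl) (fun _ _ _ => rfl) g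
    simp only [C21.ft_one, one_mul, h1, nr_unit isUnit_one, Real.log_one, neg_zero,
      Complex.ofReal_zero, zero_sub] at h3
    exact_mod_cast h3

end model

end Ker65

open Ker65 in
/-- **Radial Poisson summation** for the model, from the theta identity. -/
theorem basePoi_65 [Fr0] {F : Type*} [Field F] [NumberField F] {N J : ℕ} {j : O →+* F}
    (h : IsModel F N J j) (hT : ThetaO F N j) :
    ∃ (G : ℝ → ℝ) (V : ℝ), K63.Base G ∧ 0 < V ∧ BasePoi G V := by
  classical
  have := h.good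
  have : Countable Oˣ := Units.val_injective.countable
  let D := rd h hT
  refine ⟨D.gw, 1, ⟨fun x _ => D.gw_pos x, D.gw_anti, D.gw_le⟩, one_pos, ?_⟩
  rw [K63.basePoi_iff]
  intro q f X hq hf hu hX
  obtain ⟨g₁, h1, h2⟩ := theta_gen h hT hq
  have h3 := D.poisson_gw (f := fun k => f k) (f' := fun k => ft q f k)
    (fun k => K63.bdd_per hq hf k) (fun k => K63.bdd_ft q f k) (nr_pos hq) h1 (h2 f hf hu) hX
  have h4 : ∀ k, D.n k = nr k.1 := fun k => by
    show Real.exp (lG (pG N (j k))) = _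
    rw [lG_pG (h.ne_zero k.2.ne_zero), ← h.nr_eq, Real.exp_log (nr_pos k.2.ne_zero)]
  have h5 : ∀ (a : O → ℂ) (c : ℝ), ∑' n, K63.tm a D.gw c n =
      ∑' k : {n : O // Primary n}, a k * (D.gw (c * D.n k) : ℂ) := fun a c => by
    rw [← tsum_subtype_eq_of_support_subset (s := {n | Primary n}) fun n hn => by
      by_contra h6
      exact hn (if_neg h6)]
    exact tsum_congr fun k => by rw [h4, K63.tm, if_pos (show Primary k.1 from k.2)]
  rw [h5, h5, Complex.ofReal_one, one_mul, one_mul]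
  exact h3

/-- The kernel axioms for the model. -/
theorem kerAx_65 [Fr0] {F : Type*} [Field F] [NumberField F] {N J : ℕ} {j : O →+* F}
    (h : IsModel F N J j) (hT : ThetaO F N j) (hZ : ZGrow) :
    ∃ (g : ℝ → ℝ) (m : ℂ → ℂ), KerAx g m := by
  obtain ⟨G, V, h1, h2, h3⟩ := basePoi_65 h hT
  exact kerAx_of_base_63 h1 h2 h3 hZ

end Crest.Agent.T27
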