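import Crest.Agent.T27.Basic_55

/-!
# Row 27 frame: counting lemmas (port of `PVc/R17/CountAux.lean`, `Count.lean`)

Sums over arbitrary finite sets need the extra hypothesis that the elements are rows (`Rep`).
-/

set_option autoImplicit false
set_option linter.unusedSectionVars false
set_option linter.unusedVariables false

noncomputable section

namespace Crest.Agent.T27

variable [Fr0]

namespace CountAux

open Finset

theorem card_erase_le (X : ℕ) : (((ball X).erase 0).card : ℝ) ≤ c7 * X := by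
  have h1 := card_ball_le X
  rw [card_erase_of_mem (zero_mem_ball X)]
  exact_mod_cast (by omega : (ball X).card - 1 ≤ (kk + 7) * X)

theorem mem_erase_ball {X : ℕ} {z : O} :
    z ∈ (ball X).erase 0 ↔ z ≠ 0 ∧ Rep z ∧ nm z ≤ X := by
  rw [mem_erase, mem_ball]

/-- Abel summation against the bound `#{0 < N n ≤ X} ≤ c7 X`. -/
theorem abel (g : ℕ → ℝ) (h0 : ∀ k, 0 ≤ g k) (hg : ∀ k, 1 ≤ k → g (k + 1) ≤ g k) (X : ℕ) :
    ∑ n ∈ (ball X).erase 0, g (nm n) ≤ c7 * ∑ k ∈ range X, g (k + 1) := by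
  have key : ∀ X : ℕ, ∑ n ∈ (ball X).erase 0, g (nm n) +
      (c7 * X - (((ball X).erase 0).card : ℝ)) * g X ≤ c7 * ∑ k ∈ range X, g (k + 1) := by
    intro X
    induction X with
    | zero =>
      have : (ball 0).erase 0 = ∅ := eq_empty_of_forall_notMem fun z hz => by
        rw [mem_erase_ball] at hz
        exact hz.1 (nm_eq_zero.1 (by omega))
      simp [this]
    | succ X ih =>
      have hs : (ball X).erase 0 ⊆ (ball (X + 1)).erase 0 := fun z hz => by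
        rw [mem_erase_ball] at hz ⊢
        exact ⟨hz.1, hz.2.1, by omega⟩
      have h1 : ∑ n ∈ (ball (X + 1)).erase 0 \ (ball X).erase 0, g (nm n) =
          ((((ball (X + 1)).erase 0).card : ℝ) - ((ball X).erase 0).card) * g (X + 1) := by
        rw [sum_congr rfl (g := fun _ => g (X + 1)), sum_const, card_sdiff_of_subset hs,
          nsmul_eq_mul, Nat.cast_sub (card_le_card hs)]
        intro z hz
        rw [mem_sdiff, mem_erase_ball, mem_erase_ball] at hz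
        congr 1
        have := hz.2
        push Not at this
        have := this hz.1.1 hz.1.2.1
        omega
      have h2 : (c7 * X - (((ball X).erase 0).card : ℝ)) * g (X + 1) ≤
          (c7 * X - (((ball X).erase 0).card : ℝ)) * g X := by
        have h3 := card_erase_le X
        rcases Nat.eq_zero_or_pos X with rfl | hX
        · have h4 : (0 : ℝ) ≤ (((ball 0).erase 0).card : ℝ) := Nat.cast_nonneg _
          have h5 : (c7 * ((0 : ℕ) : ℝ) - (((ball 0).erase 0).card : ℝ)) = 0 := by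
            simp only [Nat.cast_zero] at h3 ⊢
            linarith
          rw [h5, zero_mul, zero_mul]
        · exact mul_le_mul_of_nonneg_left (hg X hX) (by linarith)
      rw [← sum_sdiff hs, h1, sum_range_succ]
      push_cast
      linarith
  have h1 := key X
  have h2 := mul_nonneg (sub_nonneg.2 (card_erase_le X)) (h0 X)
  linarith

omit [Fr0] in
theorem rpow_step_le {p : ℝ} (hp0 : 0 ≤ p) (hp1 : p ≤ 1) (k : ℕ) :
    p * ((k + 1 : ℕ) : ℝ) ^ (p - 1) ≤ ((k + 1 : ℕ) : ℝ) ^ p - (k : ℝ) ^ p := by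
  have hk : (0 : ℝ) < ((k + 1 : ℕ) : ℝ) := by positivity
  have h1 := rpow_one_add_le_one_add_mul_self (s := -((k + 1 : ℕ) : ℝ)⁻¹)
    (neg_le_neg (inv_le_one_of_one_le₀ (by exact_mod_cast Nat.le_add_left 1 k))) hp0 hp1
  have h2 : 1 + -((k + 1 : ℕ) : ℝ)⁻¹ = k / ((k + 1 : ℕ) : ℝ) := by
    field_simp
    push_cast
    ring
  rw [h2, Real.div_rpow (Nat.cast_nonneg _) hk.le, div_le_iff₀ (Real.rpow_pos_of_pos hk _)] at h1
  rw [Real.rpow_sub_one hk.ne', div_eq_mul_inv]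
  linarith

theorem sum_rpow_le {σ : ℝ} (hσ : -1 < σ) :
    ∃ C : ℝ, 0 < C ∧ ∀ X : ℕ, 1 ≤ X → ∑ n ∈ (ball X).erase 0, nr n ^ σ ≤ C * (X : ℝ) ^ (1 + σ) := by
  rcases le_or_gt 0 σ with h | h
  · refine ⟨c7, c7_pos, fun X hX => ?_⟩
    have hX' : (0 : ℝ) < X := by exact_mod_cast hX
    refine (sum_le_card_nsmul _ _ ((X : ℝ) ^ σ) fun z hz => Real.rpow_le_rpow (Nat.cast_nonneg _)
      (by exact_mod_cast (mem_erase_ball.1 hz).2.2) h).trans ?_
    rw [nsmul_eq_mul, Real.rpow_add hX', Real.rpow_one, ← mul_assoc]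
    exact mul_le_mul_of_nonneg_right (card_erase_le X) (by positivity)
  · have hp : 0 < 1 + σ := by linarith
    refine ⟨c7 / (1 + σ), by positivity, fun X _ => ?_⟩
    refine (abel (fun k => (k : ℝ) ^ σ) (fun k => by positivity) (fun k hk =>
      Real.rpow_le_rpow_of_nonpos (by exact_mod_cast hk) (by simp) h.le) X).trans ?_
    have h1 : ∀ Y : ℕ, (1 + σ) * ∑ k ∈ range Y, ((k + 1 : ℕ) : ℝ) ^ σ ≤ (Y : ℝ) ^ (1 + σ) := by
      intro Y
      induction Y with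
      | zero => simp; positivity
      | succ Y ih =>
        have := rpow_step_le hp.le (by linarith) Y
        rw [show 1 + σ - 1 = σ by ring] at this
        rw [sum_range_succ]
        linarith
    rw [div_mul_eq_mul_div, le_div_iff₀ hp]
    have := mul_le_mul_of_nonneg_left (h1 X) c7_pos.le
    linarith

omit [Fr0] in
theorem rpow_step_ge {p : ℝ} (hp : 0 ≤ p) {x : ℝ} (hx : 0 < x) :
    p * (x + 1) ^ (-(p + 1)) ≤ x ^ (-p) - (x + 1) ^ (-p) := by
  have hx1 : 0 < x + 1 := by linarith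
  have h1 := Real.one_sub_inv_le_log_of_pos (div_pos hx1 hx)
  have h2 : 1 - ((x + 1) / x)⁻¹ = (x + 1)⁻¹ := by
    field_simp
    ring
  have h3 : 1 + p * (x + 1)⁻¹ ≤ ((x + 1) / x) ^ p := by
    rw [Real.rpow_def_of_pos (div_pos hx1 hx)]
    have := Real.add_one_le_exp (Real.log ((x + 1) / x) * p)
    have h4 := mul_le_mul_of_nonneg_left h1 hp
    rw [h2] at h4
    linarith
  have h5 : x ^ (-p) = ((x + 1) / x) ^ p * (x + 1) ^ (-p) := by
    rw [Real.div_rpow hx1.le hx.le, Real.rpow_neg hx.le, Real.rpow_neg hx1.le]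
    have := Real.rpow_pos_of_pos hx1 p
    field_simp
  rw [h5, neg_add, Real.rpow_add hx1, Real.rpow_neg_one]
  have h6 := mul_le_mul_of_nonneg_right h3 (Real.rpow_pos_of_pos hx1 (-p)).le
  linarith

theorem sum_tail {σ : ℝ} (hσ : 1 < σ) :
    ∃ C : ℝ, 0 < C ∧ ∀ (X : ℝ) (S : Finset O), 1 ≤ X → (∀ n ∈ S, Rep n) → (∀ n ∈ S, X ≤ nr n) →
      ∑ n ∈ S, nr n ^ (-σ) ≤ C * X ^ (1 - σ) := by
  have hp : 0 < σ - 1 := by linarith
  refine ⟨c7 * (2 + (σ - 1)⁻¹), by positivity, fun X S hX hR hS => ?_⟩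
  have hX0 : 0 < X := by linarith
  have hm : ∀ k : ℕ, 0 < max (k : ℝ) X := fun k => lt_max_of_lt_right hX0
  have hmono : ∀ k : ℕ, max (k : ℝ) X ≤ max ((k + 1 : ℕ) : ℝ) X := fun k =>
    max_le_max_right _ (by simp)
  have h1 : S ⊆ (ball (S.sup nm)).erase 0 := fun z hz => mem_erase_ball.2 ⟨by
    rintro rfl
    have := hS 0 hz
    rw [nr, nm_zero, Nat.cast_zero] at this
    linarith, hR z hz, le_sup (f := nm) hz⟩
  have h2 : ∀ Y : ℕ, ∑ k ∈ range Y, (max ((k + 1 : ℕ) : ℝ) X) ^ (-σ) ≤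
      min (Y : ℝ) (X + 1) * X ^ (-σ) + (σ - 1)⁻¹ * (X ^ (1 - σ) - (max (Y : ℝ) X) ^ (1 - σ)) := by
    intro Y
    induction Y with
    | zero => simp [hX0.le, min_eq_left (by linarith : (0 : ℝ) ≤ X + 1)]
    | succ Y ih =>
      rw [sum_range_succ]
      have h3 : 0 < X ^ (-σ) := Real.rpow_pos_of_pos hX0 _
      rcases lt_or_ge (Y : ℝ) X with h | h
      · have h4 : (max ((Y + 1 : ℕ) : ℝ) X) ^ (-σ) ≤ X ^ (-σ) :=
          Real.rpow_le_rpow_of_nonpos hX0 (le_max_right _ _) (by linarith)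
        have h5 : (max ((Y + 1 : ℕ) : ℝ) X) ^ (1 - σ) ≤ (max (Y : ℝ) X) ^ (1 - σ) :=
          Real.rpow_le_rpow_of_nonpos (hm Y) (hmono Y) (by linarith)
        have h6 := mul_le_mul_of_nonneg_left h5 (inv_pos.2 hp).le
        rw [min_eq_left (by linarith)] at ih
        rw [min_eq_left (by push_cast; linarith)]
        push_cast at *
        linarith
      · have h4 := rpow_step_ge hp.le (hX0.trans_le h)
        rw [show -(σ - 1 + 1) = -σ by ring, show -(σ - 1) = 1 - σ by ring,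
          ← le_inv_mul_iff₀ hp] at h4
        have h5 : min (Y : ℝ) (X + 1) ≤ min ((Y + 1 : ℕ) : ℝ) (X + 1) :=
          min_le_min_right _ (by simp)
        have h6 := mul_le_mul_of_nonneg_right h5 h3.le
        rw [max_eq_left h] at ih
        rw [max_eq_left (by push_cast; linarith)]
        push_cast at *
        linarith
  calc ∑ n ∈ S, nr n ^ (-σ) = ∑ n ∈ S, (max (nm n : ℝ) X) ^ (-σ) :=
        sum_congr rfl fun n hn => by rw [max_eq_left (hS n hn)]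
    _ ≤ ∑ n ∈ (ball (S.sup nm)).erase 0, (max (nm n : ℝ) X) ^ (-σ) :=
        sum_le_sum_of_subset_of_nonneg h1 fun n _ _ => (Real.rpow_pos_of_pos (hm _) _).le
    _ ≤ c7 * ∑ k ∈ range (S.sup nm), (max ((k + 1 : ℕ) : ℝ) X) ^ (-σ) :=
        abel (fun k => (max (k : ℝ) X) ^ (-σ)) (fun k => (Real.rpow_pos_of_pos (hm _) _).le)
          (fun k _ => Real.rpow_le_rpow_of_nonpos (hm k) (hmono k) (by linarith)) _
    _ ≤ _ := by
        have h3 := h2 (S.sup nm)
        have h4 : min ((S.sup nm : ℕ) : ℝ) (X + 1) * X ^ (-σ) ≤ (2 * X) * X ^ (-σ) :=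
          mul_le_mul_of_nonneg_right ((min_le_right _ _).trans (by linarith))
            (Real.rpow_pos_of_pos hX0 _).le
        have h5 : X ^ (1 - σ) = X * X ^ (-σ) := by
          rw [sub_eq_add_neg, Real.rpow_add hX0, Real.rpow_one]
        have h6 := mul_nonneg (inv_pos.2 hp).le
          (Real.rpow_pos_of_pos (hm (S.sup nm)) (1 - σ)).le
        rw [h5] at h3 ⊢
        rw [mul_assoc]
        refine mul_le_mul_of_nonneg_left ?_ c7_pos.le
        linarith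

theorem sum_all {σ : ℝ} (hσ : 1 < σ) :
    ∃ C : ℝ, 0 < C ∧ ∀ S : Finset O, (∀ n ∈ S, Rep n) → ∑ n ∈ S, nr n ^ (-σ) ≤ C := by
  obtain ⟨C, hC, h⟩ := sum_tail hσ
  refine ⟨C, hC, fun S hR => ?_⟩
  rw [← sum_erase S (a := 0) (by
    rw [nr, nm_zero, Nat.cast_zero, Real.zero_rpow (by linarith)])]
  simpa using h 1 (S.erase 0) le_rfl (fun n hn => hR n (mem_of_mem_erase hn))
    fun n hn => one_le_nr (ne_of_mem_erase hn)

theorem sum_le_prod {α β : Type} (A : Finset α) (B : Finset β) (F : α → β → O) {S : Finset O}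
    (h : ∀ j ∈ S, ∃ a ∈ A, ∃ b ∈ B, j = F a b) (f : O → ℝ) (hf : ∀ j, 0 ≤ f j) :
    ∑ j ∈ S, f j ≤ ∑ a ∈ A, ∑ b ∈ B, f (F a b) := by
  classical
  rw [← sum_product']
  refine (sum_le_sum_of_subset_of_nonneg (t := (A ×ˢ B).image fun x => F x.1 x.2)
    (fun j hj => ?_) fun j _ _ => hf j).trans (sum_image_le_of_nonneg fun j _ => hf j)
  obtain ⟨a, ha, b, hb, rfl⟩ := h j hj
  exact mem_image.2 ⟨(a, b), mem_product.2 ⟨ha, hb⟩, rfl⟩

theorem nr_mul_rpow (a b : O) (s : ℝ) : nr (a * b) ^ s = nr a ^ s * nr b ^ s := by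
  rw [nr_mul, Real.mul_rpow (Nat.cast_nonneg _) (Nat.cast_nonneg _)]

theorem nr_pow_rpow (a : O) (k : ℕ) (s : ℝ) : nr (a ^ k) ^ s = nr a ^ (k * s) := by
  rw [nr_pow, Real.rpow_natCast_mul (Nat.cast_nonneg _)]

theorem two_le_nm {p : O} (hp : Prime p) : 2 ≤ nm p := by
  have h1 : nm p ≠ 0 := fun h => hp.ne_zero (nm_eq_zero.1 h)
  have h2 : nm p ≠ 1 := fun h => hp.not_isUnit (isUnit_iff_nm.2 h)
  omega

/-- Euler product bound. -/
theorem euler {σ : ℝ} (hσ : 0 < σ) (U P : Finset O) (hP : ∀ p ∈ P, 2 ≤ nm p) :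
    ∀ S : Finset O, (∀ j ∈ S, ∃ u ∈ U, ∃ e : O → ℕ, j = u * ∏ p ∈ P, p ^ e p) →
      ∑ j ∈ S, nr j ^ (-σ) ≤ (∑ u ∈ U, nr u ^ (-σ)) * (1 - 2 ^ (-σ))⁻¹ ^ P.card := by
  classical
  induction P using Finset.induction_on with
  | empty =>
    intro S hS
    simp only [prod_empty, mul_one, card_empty, pow_zero] at hS ⊢
    refine sum_le_sum_of_subset_of_nonneg (fun j hj => ?_) fun _ _ _ => by positivity
    obtain ⟨u, hu, -, rfl⟩ := hS j hj
    exact hu
  | insert q P hq ih =>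
    intro S hS
    choose! u hu e he using hS
    have h1 := ih (fun p hp => hP p (mem_insert_of_mem hp))
      (S.image fun j => u j * ∏ p ∈ P, p ^ e j p) fun j hj => by
        obtain ⟨j, hj', rfl⟩ := mem_image.1 hj
        exact ⟨_, hu j hj', _, rfl⟩
    have h2 : (2 : ℝ) ^ (-σ) < 1 := Real.rpow_lt_one_of_one_lt_of_neg one_lt_two (by linarith)
    have h3 : ∑ k ∈ range (S.sup (e · q) + 1), (nr q ^ (-σ)) ^ k ≤ (1 - 2 ^ (-σ))⁻¹ := by
      have h4 : nr q ^ (-σ) ≤ 2 ^ (-σ) := Real.rpow_le_rpow_of_nonpos two_pos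
        (by exact_mod_cast hP q (mem_insert_self q P)) (by linarith)
      rw [← tsum_geometric_of_lt_one (by positivity) h2]
      exact (sum_le_sum fun k _ => pow_le_pow_left₀ (by positivity) h4 k).trans
        ((summable_geometric_of_lt_one (by positivity) h2).sum_le_tsum _ fun _ _ => by positivity)
    refine (sum_le_prod (range (S.sup (e · q) + 1)) (S.image fun j => u j * ∏ p ∈ P, p ^ e j p)
      (fun k j => q ^ k * j) (fun j hj => ⟨e j q, mem_range.2 (Nat.lt_succ_of_le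
        (le_sup (f := (e · q)) hj)), _, mem_image_of_mem _ hj, ?_⟩) _
        fun _ => by positivity).trans ?_
    · conv_lhs => rw [he j hj, prod_insert hq]
      ring
    · simp only [nr_mul_rpow (q ^ _), nr_pow_rpow, mul_comm (_ : ℝ) (-σ),
        Real.rpow_mul_natCast (Nat.cast_nonneg (nm q))]
      rw [← sum_mul_sum, card_insert_of_notMem hq, pow_succ, ← mul_assoc, mul_comm]
      exact mul_le_mul h1 h3 (sum_nonneg fun _ _ => by positivity)
        ((sum_nonneg fun _ _ => by positivity).trans h1)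

end CountAux

open CountAux

theorem Count_pow_card_pf_le {ε : ℝ} (hε : 0 < ε) (B : ℝ) :
    ∃ C : ℝ, 0 < C ∧ ∀ n : O, n ≠ 0 → B ^ (pf n).card ≤ C * nr n ^ ε := by
  classical
  set B' := max |B| 1 with hB'
  have h1 : 1 ≤ B' := le_max_right _ _
  set T := ball ⌈B' ^ ε⁻¹⌉₊
  refine ⟨B' ^ T.card, by positivity, fun n hn => ?_⟩
  have h2 : ∀ p ∈ pf n, B' ≤ (if p ∈ T then B' else 1) * nr p ^ ε := by
    intro p hp
    split_ifs with h
    · exact le_mul_of_one_le_right (by linarith)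
        (Real.one_le_rpow (one_le_nr ((mem_pf hn).1 hp).1.ne_zero) hε.le)
    · rw [((mem_pf hn).1 hp).2.1.mem_ball, not_le] at h
      rw [one_mul, ← Real.rpow_inv_rpow (by linarith : 0 ≤ B') hε.ne']
      exact Real.rpow_le_rpow (by positivity) (Nat.ceil_le.1 h.le) hε.le
  calc B ^ (pf n).card ≤ B' ^ (pf n).card := (le_abs_self _).trans (by
        rw [abs_pow]
        exact pow_le_pow_left₀ (abs_nonneg _) (le_max_left _ _) _)
    _ = ∏ _p ∈ pf n, B' := (Finset.prod_const _).symm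
    _ ≤ ∏ p ∈ pf n, (if p ∈ T then B' else 1) * nr p ^ ε :=
        Finset.prod_le_prod (fun _ _ => by linarith) h2
    _ = B' ^ (pf n ∩ T).card * nr (rad n) ^ ε := by
        rw [Finset.prod_mul_distrib, Finset.prod_ite_mem, Finset.prod_const,
          Real.finsetProd_rpow _ _ (fun _ _ => Nat.cast_nonneg _), rad, nr, nm_prod, Nat.cast_prod]
    _ ≤ _ := mul_le_mul (pow_le_pow_right₀ h1 (Finset.card_le_card Finset.inter_subset_right))
        (Real.rpow_le_rpow (Nat.cast_nonneg _) (Nat.cast_le.2 (nm_le_of_dvd (rad_dvd n) hn)) hε.le)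
        (by positivity) (by positivity)

theorem Count_sum_smooth_le {ε σ : ℝ} (hε : 0 < ε) (hσ : 0 < σ) :
    ∃ C : ℝ, 0 < C ∧ ∀ (h : O) (S : Finset O), h ≠ 0 → (∀ j ∈ S, Rep j) →
      (∀ j ∈ S, j ≠ 0 ∧ pf j ⊆ pf h) → ∑ j ∈ S, nr j ^ (-σ) ≤ C * nr h ^ ε := by
  classical
  have h2 : (2 : ℝ) ^ (-σ) < 1 := Real.rpow_lt_one_of_one_lt_of_neg one_lt_two (by linarith)
  have hB : 0 < (1 - (2 : ℝ) ^ (-σ))⁻¹ := inv_pos.2 (by linarith)
  obtain ⟨C, hC, hpow⟩ := Count_pow_card_pf_le hε (1 - (2 : ℝ) ^ (-σ))⁻¹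
  have hU : 0 ≤ ∑ u ∈ U0, nr u ^ (-σ) := Finset.sum_nonneg fun _ _ => by positivity
  refine ⟨(∑ u ∈ U0, nr u ^ (-σ) + 1) * C, by positivity, fun h S hh hR hS => ?_⟩
  refine (euler hσ U0 (pf h) (fun p hp => two_le_nm ((mem_pf hh).1 hp).1) S
    fun j hj => ?_).trans ?_
  · obtain ⟨hj0, hj'⟩ := hS j hj
    obtain ⟨u, hu, n, hn, rfl⟩ := (hR j hj).exists hj0
    rw [pf_unit_mul (isUnit_of_mem_U0 hu)] at hj'
    refine ⟨u, hu, fun p => vp p n, ?_⟩
    rw [BasicB.prod_superset hn.ne_zero (fun q hq => BasicB.pf_sub hq) hj', ← hn.eq_prod]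
  · rw [mul_assoc]
    exact mul_le_mul (by linarith) (hpow h hh) (by positivity) (by positivity)

/-- Rankin's trick. -/
theorem Count_rankin {S : Finset O} {X : ℕ} (hS : ∀ j ∈ S, j ≠ 0 ∧ j ∈ ball X) {σ : ℝ}
    (hσ : 0 ≤ σ) : (S.card : ℝ) ≤ (X : ℝ) ^ σ * ∑ j ∈ S, nr j ^ (-σ) := by
  rw [Finset.mul_sum, Finset.card_eq_sum_ones, Nat.cast_sum]
  refine Finset.sum_le_sum fun j hj => ?_
  rw [Real.rpow_neg (Nat.cast_nonneg _), ← div_eq_mul_inv, Nat.cast_one,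
    one_le_div (Real.rpow_pos_of_pos (nr_pos (hS j hj).1) _)]
  exact Real.rpow_le_rpow (Nat.cast_nonneg _) (Nat.cast_le.2 (mem_ball.1 (hS j hj).2).2) hσ

theorem Count_card_smooth_le {ε : ℝ} (hε : 0 < ε) :
    ∃ C : ℝ, 0 < C ∧ ∀ (h : O) (X : ℕ), h ≠ 0 → 1 ≤ X →
      (((ball X).filter (fun j => j ≠ 0 ∧ pf j ⊆ pf h)).card : ℝ) ≤ C * (X * nr h) ^ ε := by
  obtain ⟨C, hC, hs⟩ := Count_sum_smooth_le hε hε
  refine ⟨C, hC, fun h X hh _ => (Count_rankin (X := X) (fun j hj => ?_) hε.le).trans ?_⟩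
  · rw [Finset.mem_filter] at hj
    exact ⟨hj.2.1, hj.1⟩
  · rw [Real.mul_rpow (Nat.cast_nonneg _) (Nat.cast_nonneg _), mul_left_comm]
    exact mul_le_mul_of_nonneg_left (hs h _ hh (fun j hj => (mem_ball.1 (Finset.mem_filter.1 hj).1).1)
      fun j hj => (Finset.mem_filter.1 hj).2) (by positivity)

/-- Divisor bound. -/
theorem card_pdiv_le {ε : ℝ} (hε : 0 < ε) :
    ∃ C : ℝ, 0 < C ∧ ∀ n : O, n ≠ 0 → ((pdiv n).card : ℝ) ≤ C * nr n ^ ε := by
  obtain ⟨C, hC, h⟩ := Count_card_smooth_le (half_pos hε)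
  refine ⟨C, hC, fun n hn => ?_⟩
  have h1 := h n (nm n) hn (Nat.one_le_iff_ne_zero.2 fun h => hn (nm_eq_zero.1 h))
  rw [Real.mul_rpow (Nat.cast_nonneg _) (Nat.cast_nonneg _), ← Real.rpow_add (nr_pos hn),
    add_halves] at h1
  refine le_trans (Nat.cast_le.2 (Finset.card_le_card fun d hd => ?_)) h1
  obtain ⟨h2, h3⟩ := (mem_pdiv hn).1 hd
  refine Finset.mem_filter.2 ⟨h2.mem_ball.2 (nm_le_of_dvd h3 hn), h2.ne_zero, fun p hp => ?_⟩
  rw [mem_pf h2.ne_zero] at hp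
  exact (mem_pf hn).2 ⟨hp.1, hp.2.1, hp.2.2.trans h3⟩

/-- `B ^ ω(n) ≪ N(n)^ε`. -/
theorem pow_card_pf_le {ε : ℝ} (hε : 0 < ε) (B : ℝ) :
    ∃ C : ℝ, 0 < C ∧ ∀ n : O, n ≠ 0 → B ^ (pf n).card ≤ C * nr n ^ ε := by
  exact Count_pow_card_pf_le hε B

/-- Elements composed of the primes of `h` (and units of `U0`): there are few of them. -/
theorem card_smooth_le {ε : ℝ} (hε : 0 < ε) :
    ∃ C : ℝ, 0 < C ∧ ∀ (h : O) (X : ℕ), h ≠ 0 → 1 ≤ X →
      (((ball X).filter (fun j => j ≠ 0 ∧ pf j ⊆ pf h)).card : ℝ) ≤ C * (X * nr h) ^ ε := by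
  exact Count_card_smooth_le hε

/-- Weighted version: `∑_{j ∣ h^∞} N(j)^{-σ} ≪ N(h)^ε` (any finite subsum). -/
theorem sum_smooth_le {ε σ : ℝ} (hε : 0 < ε) (hσ : 0 < σ) :
    ∃ C : ℝ, 0 < C ∧ ∀ (h : O) (S : Finset O), h ≠ 0 → (∀ j ∈ S, Rep j) →
      (∀ j ∈ S, j ≠ 0 ∧ pf j ⊆ pf h) → ∑ j ∈ S, nr j ^ (-σ) ≤ C * nr h ^ ε := by
  exact Count_sum_smooth_le hε hσ

/-- Powerful primary elements. -/
def Powerful (n : O) : Prop := Primary n ∧ ∀ p ∈ pf n, 2 ≤ vp p n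

theorem Powerful.two_le_vp {n : O} (h : Powerful n) {p : O} (hp : p ∈ pf n) : 2 ≤ vp p n :=
  h.2 p hp

theorem Powerful.exists_sq_cube {n : O} (h : Powerful n) :
    ∃ a b : O, Primary a ∧ Primary b ∧ n = a ^ 2 * b ^ 3 := by
  refine ⟨∏ p ∈ pf n, p ^ ((vp p n - 3 * (vp p n % 2)) / 2), ∏ p ∈ pf n, p ^ (vp p n % 2),
    BasicB.primary_prod_pow (fun q hq => BasicB.pf_sub hq) _,
    BasicB.primary_prod_pow (fun q hq => BasicB.pf_sub hq) _, ?_⟩
  rw [← Finset.prod_pow, ← Finset.prod_pow, ← Finset.prod_mul_distrib]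
  refine h.1.eq_prod.trans (Finset.prod_congr rfl fun p hp => ?_)
  rw [← pow_mul, ← pow_mul, ← pow_add]
  have := h.two_le_vp hp
  congr 1
  omega

open Classical in
theorem Count_sum_powerful_le {ε : ℝ} (hε : 0 < ε) :
    ∃ C : ℝ, 0 < C ∧ ∀ X : ℕ, 1 ≤ X →
      ∑ n ∈ (ball X).filter Powerful, nr n ^ (-(1 / 2 : ℝ)) ≤ C * (X : ℝ) ^ ε := by
  obtain ⟨C, hC, h1⟩ := sum_rpow_le (σ := -1 + ε) (by linarith)
  obtain ⟨C', hC', h2⟩ := sum_all (σ := 3 / 2) (by norm_num)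
  refine ⟨C * C', by positivity, fun X hX => ?_⟩
  refine (sum_le_prod ((ball X).erase 0) (ball X) (fun a b => a ^ 2 * b ^ 3) (fun j hj => ?_) _
    fun _ => by positivity).trans ?_
  · rw [Finset.mem_filter, mem_ball] at hj
    obtain ⟨a, b, hpa, hpb, hab⟩ := hj.2.exists_sq_cube
    have h0 := hj.2.1.ne_zero
    have ha : a ∣ j := hab ▸ (dvd_pow_self a two_ne_zero).mul_right _
    have hb : b ∣ j := hab ▸ (dvd_pow_self b three_ne_zero).mul_left _
    exact ⟨a, mem_erase_ball.2 ⟨hpa.ne_zero, hpa.rep, (nm_le_of_dvd ha h0).trans hj.1.2⟩,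
      b, hpb.mem_ball.2 ((nm_le_of_dvd hb h0).trans hj.1.2), hab⟩
  · simp only [nr_mul_rpow, nr_pow_rpow]
    rw [← Finset.sum_mul_sum, mul_right_comm]
    refine mul_le_mul ((Finset.sum_le_sum fun a ha => ?_).trans ((h1 X hX).trans_eq ?_)) ?_
      (Finset.sum_nonneg fun _ _ => by positivity) (by positivity)
    · exact Real.rpow_le_rpow_of_exponent_le (one_le_nr (Finset.ne_of_mem_erase ha))
        (by push_cast; linarith)
    · rw [add_neg_cancel_left]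
    · rw [show ((3 : ℕ) : ℝ) * -(1 / 2) = -(3 / 2) by norm_num]
      exact h2 _ fun n hn => (mem_ball.1 hn).1

open Classical in
theorem card_powerful_le {ε : ℝ} (hε : 0 < ε) :
    ∃ C : ℝ, 0 < C ∧ ∀ X : ℕ, 1 ≤ X →
      (((ball X).filter Powerful).card : ℝ) ≤ C * (X : ℝ) ^ (1 / 2 + ε) := by
  obtain ⟨C, hC, h⟩ := Count_sum_powerful_le hε
  refine ⟨C, hC, fun X hX => (Count_rankin (X := X) (σ := 1 / 2) (fun j hj => ?_)
    (by norm_num)).trans ?_⟩
  · rw [Finset.mem_filter] at hj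
    exact ⟨hj.2.1.ne_zero, hj.1⟩
  · rw [Real.rpow_add (by exact_mod_cast hX), mul_left_comm]
    exact mul_le_mul_of_nonneg_left (h X hX) (by positivity)

open Classical in
theorem sum_powerful_le {ε : ℝ} (hε : 0 < ε) :
    ∃ C : ℝ, 0 < C ∧ ∀ X : ℕ, 1 ≤ X →
      ∑ n ∈ (ball X).filter Powerful, nr n ^ (-(1 / 2 : ℝ)) ≤ C * (X : ℝ) ^ ε := by
  exact Count_sum_powerful_le hε

theorem Powerful.nr_rad_sq_le {n : O} (h : Powerful n) : nr (rad n) ^ 2 ≤ nr n := by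
  rw [← nr_pow]
  refine Nat.cast_le.2 (nm_le_of_dvd ?_ h.1.ne_zero)
  conv_rhs => rw [h.1.eq_prod]
  rw [rad, ← Finset.prod_pow]
  exact Finset.prod_dvd_prod_of_dvd _ _ fun p hp => pow_dvd_pow p (h.two_le_vp hp)

/-- Splitting a primary element into its squarefree part and its powerful part. -/
theorem exists_sqfree_powerful {n : O} (hn : Primary n) :
    ∃ k h : O, Primary k ∧ Squarefree k ∧ Powerful h ∧ IsCoprime k h ∧ n = k * h := by
  classical
  have h0 := hn.ne_zero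
  have h1 : ∀ (P : O → Prop) [DecidablePred P], ∀ q ∈ (pf n).filter P, Prime q ∧ Primary q :=
    fun P _ q hq => by
      have := (mem_pf h0).1 (Finset.mem_filter.1 hq).1
      exact ⟨this.1, this.2.1⟩
  obtain ⟨k1, k2, k3⟩ := squarefree_prod_primes (h1 fun p => vp p n = 1)
  have h2 : Primary (∏ p ∈ (pf n).filter fun p => ¬ vp p n = 1, p ^ vp p n) :=
    Primary.prod fun p hp => (h1 _ p hp).2.pow _
  have h3 : ∀ p ∈ pf (∏ p ∈ (pf n).filter fun p => ¬ vp p n = 1, p ^ vp p n),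
      ¬ vp p n = 1 ∧ 2 ≤ vp p (∏ p ∈ (pf n).filter fun p => ¬ vp p n = 1, p ^ vp p n) := by
    intro p hp
    rw [mem_pf h2.ne_zero] at hp
    have h4 := (vp_eq_zero_iff hp.1 h2.ne_zero).not.2 (not_not.2 hp.2.2)
    rw [vp_prod_pow (h1 _) _ hp.1 hp.2.1] at h4 ⊢
    split_ifs at h4 ⊢ with h5
    · have := (Finset.mem_filter.1 h5).2
      omega
    · exact absurd rfl h4
  refine ⟨_, _, k2, k1, ⟨h2, fun p hp => (h3 p hp).2⟩,
    isCoprime_of_disjoint_pf k2 h2.ne_zero ?_, ?_⟩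
  · rw [k3]
    exact Finset.disjoint_left.2 fun p hp hp' => (h3 p hp').1 (Finset.mem_filter.1 hp).2
  · rw [Finset.prod_congr rfl (g := fun p => p ^ vp p n) fun p hp => by
      rw [(Finset.mem_filter.1 hp).2, pow_one], Finset.prod_filter_mul_prod_filter_not]
    exact hn.eq_prod

open Classical in
/-- Rows which are sixth powers away from the primes of `h`. -/
theorem card_exc_le {ε : ℝ} (hε : 0 < ε) :
    ∃ C : ℝ, 0 < C ∧ ∀ (h : O) (X : ℕ), h ≠ 0 → 1 ≤ X →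
      (((ball X).filter (fun a => a ≠ 0 ∧ Exc h a)).card : ℝ)
        ≤ C * (X : ℝ) ^ (1 / 6 : ℝ) * (X * nr h) ^ ε := by
  obtain ⟨C, hC, h1⟩ := Count_sum_smooth_le hε (σ := 1 / 6 + ε) (by linarith)
  obtain ⟨C', hC', h2⟩ := sum_all (σ := 1 + 6 * ε) (by linarith)
  refine ⟨C * C', by positivity, fun h X hh hX => (Count_rankin (X := X) (σ := 1 / 6 + ε)
    (fun j hj => ?_) (by linarith)).trans ?_⟩
  · rw [Finset.mem_filter] at hj
    exact ⟨hj.2.1, hj.1⟩
  rw [Real.rpow_add (by exact_mod_cast hX), Real.mul_rpow (Nat.cast_nonneg _) (Nat.cast_nonneg _),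
    show C * C' * (X : ℝ) ^ (1 / 6 : ℝ) * ((X : ℝ) ^ ε * nr h ^ ε) =
      (X : ℝ) ^ (1 / 6 : ℝ) * (X : ℝ) ^ ε * (C * nr h ^ ε * C') by ring]
  refine mul_le_mul_of_nonneg_left ((sum_le_prod ((ball X).filter fun j => j ≠ 0 ∧ pf j ⊆ pf h)
    (ball X) (fun s c => s * c ^ 6) (fun a ha => ?_) _ fun _ => by positivity).trans ?_)
    (by positivity)
  · rw [Finset.mem_filter, mem_ball] at ha
    obtain ⟨⟨haR, haX⟩, ha, he⟩ := ha
    have h3 : ∀ q ∈ (pf a).filter fun p => ¬ p ∣ h, Prime q ∧ Primary q := fun q hq => by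
      have := (mem_pf ha).1 (Finset.mem_filter.1 hq).1
      exact ⟨this.1, this.2.1⟩
    have h4 : Primary (∏ p ∈ (pf a).filter fun p => ¬ p ∣ h, p ^ (vp p a / 6)) :=
      Primary.prod fun p hp => (h3 p hp).2.pow _
    have h5 := fun p hp hp' => vp_prod_pow h3 (fun p => vp p a / 6) (p := p) hp hp'
    generalize (∏ p ∈ (pf a).filter fun p => ¬ p ∣ h, p ^ (vp p a / 6)) = c at h4 h5
    have h6 : c ^ 6 ∣ a := ((h4.pow 6).dvd_iff_vp ha).2 fun p hp => by
      rw [mem_pf (h4.pow 6).ne_zero] at hp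
      rw [vp_pow hp.1 h4.ne_zero, h5 p hp.1 hp.2.1]
      split_ifs <;> omega
    obtain ⟨s, hs⟩ := exists_eq_mul_left_of_dvd h6
    have hsa : s ∣ a := Dvd.intro _ hs.symm
    have hs0 : s ≠ 0 := ne_zero_of_dvd_ne_zero ha hsa
    have hsR : Rep s := (rep_mul_iff' (h4.pow 6)).1 (hs ▸ haR)
    refine ⟨s, Finset.mem_filter.2 ⟨mem_ball.2 ⟨hsR, (nm_le_of_dvd hsa ha).trans haX⟩, hs0,
      fun p hp => ?_⟩, c, h4.mem_ball.2 ((nm_le_of_dvd ((dvd_pow_self c (by norm_num)).trans h6)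
        ha).trans haX), hs⟩
    rw [mem_pf hs0] at hp
    refine (mem_pf hh).2 ⟨hp.1, hp.2.1, by_contra fun h7 => ?_⟩
    have h8 : p ∈ pf a := (mem_pf ha).2 ⟨hp.1, hp.2.1, hp.2.2.trans hsa⟩
    have h9 := vp_mul hp.1 hs0 (h4.pow 6).ne_zero
    rw [← hs, vp_pow hp.1 h4.ne_zero, h5 p hp.1 hp.2.1, if_pos (Finset.mem_filter.2 ⟨h8, h7⟩)] at h9
    have h10 := he p h8 h7
    exact (vp_eq_zero_iff hp.1 hs0).1 (by omega) hp.2.2
  · simp only [nr_mul_rpow, nr_pow_rpow]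
    rw [← Finset.sum_mul_sum]
    refine mul_le_mul (h1 h _ hh (fun j hj => (mem_ball.1 (Finset.mem_filter.1 hj).1).1)
      fun j hj => (Finset.mem_filter.1 hj).2) ?_
      (Finset.sum_nonneg fun _ _ => by positivity) (by positivity)
    rw [show ((6 : ℕ) : ℝ) * -(1 / 6 + ε) = -(1 + 6 * ε) by push_cast; ring]
    exact h2 _ fun n hn => (mem_ball.1 hn).1

theorem sum_inv_nr_le :
    ∃ C : ℝ, 0 < C ∧ ∀ X : ℕ, ∑ n ∈ (ball X).erase 0, (nr n)⁻¹ ≤ C * (1 + Real.log (X + 1)) := by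
  refine ⟨c7, c7_pos, fun X => (CountAux.abel (fun k => (k : ℝ)⁻¹) (fun k => by positivity)
    (fun k hk => inv_anti₀ (by exact_mod_cast hk) (by simp)) X).trans ?_⟩
  have h1 := harmonic_le_one_add_log X
  simp only [harmonic, Rat.cast_sum, Rat.cast_inv, Rat.cast_natCast] at h1
  have h2 : Real.log X ≤ Real.log (X + 1) := by
    rcases Nat.eq_zero_or_pos X with rfl | hX
    · simp
    · exact Real.log_le_log (by exact_mod_cast hX) (by linarith)
  exact mul_le_mul_of_nonneg_left (by linarith) c7_pos.le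

open Classical in
theorem summable_nr_rpow {σ : ℝ} (hσ : 1 < σ) :
    Summable (fun n : O => if Rep n then nr n ^ (-σ) else 0) := by
  obtain ⟨C, -, h⟩ := sum_all hσ
  refine summable_of_sum_le (c := C) (fun _ => by split_ifs <;> positivity) fun S => ?_
  rw [← Finset.sum_filter]
  exact h _ fun n hn => (Finset.mem_filter.1 hn).2

open Classical in
theorem summable_nr_rpow_primary {σ : ℝ} (hσ : 1 < σ) :
    Summable (fun n : O => if Primary n then nr n ^ (-σ) else 0) := by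
  refine (summable_nr_rpow hσ).of_nonneg_of_le (fun _ => by split_ifs <;> positivity) fun n => ?_
  by_cases h : Primary n
  · rw [if_pos h, if_pos h.rep]
  · rw [if_neg h]
    split_ifs <;> positivity

/-- Summability of a function supported on the rows. -/
theorem summable_of_rep {E : Type*} [NormedAddCommGroup E] [CompleteSpace E] {f : O → E}
    {σ C : ℝ} (hσ : 1 < σ) (h0 : ∀ n, ¬ Rep n → f n = 0)
    (h : ∀ n, n ≠ 0 → Rep n → ‖f n‖ ≤ C * nr n ^ (-σ)) : Summable f := by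
  classical
  refine Summable.of_norm_bounded_eventually ((summable_nr_rpow hσ).mul_left C) ?_
  refine Filter.eventually_cofinite.2 ((Set.finite_singleton (0 : O)).subset fun n hn => ?_)
  by_contra hn0
  refine hn ?_
  by_cases hR : Rep n
  · simpa only [if_pos hR] using h n hn0 hR
  · simp [hR, h0 n hR]

theorem summable_nr_rpow_subtype {σ : ℝ} (hσ : 1 < σ) :
    Summable (fun n : {n : O // Primary n} => nr n.1 ^ (-σ)) := by
  classical
  have := (summable_nr_rpow_primary hσ).subtype {n | Primary n}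
  refine this.congr fun n => ?_
  exact if_pos n.2

/-- `∑_{N n ≤ X} N(n)^σ ≪ X^{1+σ}` for `σ > -1`. -/
theorem sum_nr_rpow_le {σ : ℝ} (hσ : -1 < σ) :
    ∃ C : ℝ, 0 < C ∧ ∀ X : ℕ, 1 ≤ X → ∑ n ∈ (ball X).erase 0, nr n ^ σ ≤ C * (X : ℝ) ^ (1 + σ) := by
  exact sum_rpow_le hσ

/-- Tails: `∑_{N n > X} N(n)^{-σ} ≪ X^{1-σ}` for `σ > 1` (any finite subsum). -/
theorem sum_nr_rpow_tail {σ : ℝ} (hσ : 1 < σ) :
    ∃ C : ℝ, 0 < C ∧ ∀ (X : ℝ) (S : Finset O), 1 ≤ X → (∀ n ∈ S, Rep n) → (∀ n ∈ S, X ≤ nr n) →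
      ∑ n ∈ S, nr n ^ (-σ) ≤ C * X ^ (1 - σ) := by
  exact sum_tail hσ

/-- Sums over primary elements (any finite set). -/
theorem sum_primary_rpow_le {σ : ℝ} (hσ : 1 < σ) :
    ∃ C : ℝ, 0 < C ∧ ∀ S : Finset O, (∀ n ∈ S, Primary n) → ∑ n ∈ S, nr n ^ (-σ) ≤ C := by
  obtain ⟨C, hC, h⟩ := sum_all hσ
  exact ⟨C, hC, fun S hS => h S fun n hn => (hS n hn).rep⟩

theorem pball_subset_erase (X : ℕ) : pball X ⊆ (ball X).erase 0 := fun z hz =>
  mem_erase_ball.2 ⟨(mem_pball.1 hz).1.ne_zero, (mem_pball.1 hz).1.rep, (mem_pball.1 hz).2⟩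

theorem card_rows_le {A : ℝ} (hA : 0 ≤ A) : ((rows A).card : ℝ) ≤ c7 * A :=
  (card_erase_le _).trans (mul_le_mul_of_nonneg_left (Nat.floor_le hA) c7_pos.le)

end Crest.Agent.T27
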