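import Crest.Agent.T27.Recip_55
import Crest.Agent.T27.Count_55

/-!
# Row 27: the analytic inputs of the quadratic large sieve on the frame `Fr`
-/

set_option autoImplicit false

noncomputable section

namespace Crest.Agent.T27

open scoped ComplexConjugate

variable [Fr]

namespace LS2Ad

theorem ft_quad {q : O} (hq : Primary q) (hs : Squarefree q) (h : O) :
    ft q (quad q) h = quad q h * (Real.sqrt (nr q) : ℂ) * g4 q := by
  have e1 : ∀ k, ft q (quad q) k = gs 3 q k := by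
    intro k
    unfold ft gs
    refine Finset.sum_congr rfl fun x _ => ?_
    rw [sym_pow_add_six hq x (by norm_num), sym_pow_three hq]
  have hpos : (0 : ℝ) < nr q := nr_pos hq.ne_zero
  have hne : (Real.sqrt (nr q) : ℂ) ≠ 0 := by
    exact_mod_cast (Real.sqrt_pos.2 hpos).ne'
  rw [e1, gs_sqfree (by norm_num) hq.po hs, sym_pow_three hq, conj_quad, ← gam_three hq.po hs, gam]
  field_simp

theorem g4_pair {m₁ m₂ : O} (h₁ : m₁ ≠ 0) (hc : cls m₁ = cls m₂) : g4 (m₁ * m₂) = 1 := by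
  have e : cls (m₁ * m₂) = cls (1 * m₁ ^ 2) := by
    rw [map_mul, ← hc, one_mul, map_pow, sq]
  rw [g4_congr e, g4_mul_sq one_ne_zero h₁, g4_one]

/-- Poisson summation for a primitive quadratic character. -/
theorem poisson_quad {q : O} (hq : Primary q) (hs : Squarefree q) {X : ℝ} (hX : 0 < X) :
    ∑' k : O, quad q k * (gr k (nr k / X) : ℂ) =
      g4 q * ((X / Real.sqrt (nr q) : ℝ) : ℂ) * ∑' k : O, quad q k * (gr k (X * nr k / nr q) : ℂ) := by
  have hpos : (0 : ℝ) < nr q := nr_pos hq.ne_zero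
  have h := Fr.kerAx.poisson q (quad q) X hq.ne_zero
    (fun x y hxy => quad_congr ((rad_dvd q).trans hxy)) (uinv_quad q) hX
  have e : ∀ k : O, ft q (quad q) k * (grp Fr.gwF k (X * nr k / nr q) : ℂ) =
      ((Real.sqrt (nr q) : ℂ) * g4 q) * (quad q k * (gr k (X * nr k / nr q) : ℂ)) := by
    intro k
    rw [ft_quad hq hs]
    show _ * ((gr k (X * nr k / nr q) : ℝ) : ℂ) = _
    ring
  simp only [e] at h
  rw [tsum_mul_left] at h
  have hs0 : Real.sqrt (nr q) ≠ 0 := (Real.sqrt_pos.2 hpos).ne'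
  have e2 : ((X / nr q : ℝ) : ℂ) * (Real.sqrt (nr q) : ℂ) = ((X / Real.sqrt (nr q) : ℝ) : ℂ) := by
    rw [← Complex.ofReal_mul]
    congr 1
    have := Real.mul_self_sqrt hpos.le
    field_simp
    rw [sq, this]
  refine h.trans ?_
  rw [← e2]; ring

/-- Item (4) of the list: the pair `m₁, m₂` in the same class. -/
theorem poisson_pair {m₁ m₂ : O} (h₁ : Primary m₁) (h₂ : Primary m₂) (hs : Squarefree (m₁ * m₂))
    (hc : cls m₁ = cls m₂) {X : ℝ} (hX : 0 < X) :
    ∑' k : O, quad (m₁ * m₂) k * (gr k (nr k / X) : ℂ) =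
      ((X / Real.sqrt (nr (m₁ * m₂)) : ℝ) : ℂ) *
        ∑' k : O, quad (m₁ * m₂) k * (gr k (X * nr k / nr (m₁ * m₂)) : ℂ) := by
  rw [poisson_quad (h₁.mul h₂) hs hX, g4_pair h₁.ne_zero hc, one_mul]

open Classical in
/-- The two forms of a sum over the primary elements. -/
theorem tsum_primary {E : Type} [NormedAddCommGroup E] (f : O → E) :
    ∑' c : {c : O // Primary c}, f c = ∑' c : O, if Primary c then f c else 0 := by
  have := tsum_subtype {c : O | Primary c} f
  refine this.trans (tsum_congr fun c => ?_)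
  by_cases h : Primary c
  · rw [if_pos h, Set.indicator_of_mem (by exact h)]
  · rw [if_neg h, Set.indicator_of_notMem (by exact h)]

open Classical in
/-- The two forms of a sum over the rows. -/
theorem tsum_rep (f : O → ℂ) (x : O → ℝ) :
    ∑' k : {k : O // Rep k}, f k * (gw (x k) : ℂ) = ∑' k : O, f k * (gr k (x k) : ℂ) := by
  have := tsum_subtype {k : O | Rep k} fun k => f k * (gw (x k) : ℂ)
  refine this.trans (tsum_congr fun c => ?_)
  by_cases h : Rep c
  · rw [Set.indicator_of_mem (by exact h), gr, grp, if_pos h]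
  · rw [Set.indicator_of_notMem (by exact h), gr, grp, if_neg h]; simp

/-- Item (4) with sums over the subtype of rows. -/
theorem poisson_pair' {m₁ m₂ : O} (h₁ : Primary m₁) (h₂ : Primary m₂) (hs : Squarefree (m₁ * m₂))
    (hc : cls m₁ = cls m₂) {X : ℝ} (hX : 0 < X) :
    ∑' k : {k : O // Rep k}, quad (m₁ * m₂) k * (gw (nr (k : O) / X) : ℂ) =
      ((X / Real.sqrt (nr (m₁ * m₂)) : ℝ) : ℂ) *
        ∑' k : {k : O // Rep k}, quad (m₁ * m₂) k * (gw (X * nr (k : O) / nr (m₁ * m₂)) : ℂ) := by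
  rw [tsum_rep (quad (m₁ * m₂)) fun k => nr k / X,
    tsum_rep (quad (m₁ * m₂)) fun k => X * nr k / nr (m₁ * m₂), poisson_pair h₁ h₂ hs hc hX]

/-- Item (5): the theta series over the squares. -/
theorem th2_asymp : ∃ κ : ℝ, ∀ η : ℝ, 0 < η → η ≤ 1 / 2 → ∃ C : ℝ, 0 < C ∧ ∀ y : ℝ, 0 < y →
    |(∑' c : {c : O // Primary c}, gw (y * nr (c : O) ^ 2)) - κ / Real.sqrt y| ≤ C * y ^ (-η) := by
  obtain ⟨κ, h⟩ := Fr.kerAx.er
  refine ⟨κ, fun η h0 h1 => ?_⟩
  obtain ⟨C, hC, h⟩ := h η h0 h1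
  refine ⟨C, hC, fun y hy => ?_⟩
  rw [tsum_primary fun c => gw (y * nr c ^ 2)]
  exact (h y hy).trans (mul_le_mul_of_nonneg_left (min_le_left _ _) hC.le)

end LS2Ad

end Crest.Agent.T27
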