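import Mathlib

/-!
# Row 27, reflected energy, abstract core (helper56)

Interface independent part of the energy estimate: a large sieve inequality for a kernel `q k n`
and a Mellin representation of the reflected kernel `V` give the mean square bound for the dual
sums `∑ b(ν) q_k(ν) V (N ν · K² / (B (N k)²))`.
-/

set_option autoImplicit false

noncomputable section

namespace Crest.Agent.T27.En56

open scoped ComplexConjugate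
open MeasureTheory Finset

/-- The reflected kernel `V x s` has, on every line `Re t = σ ∈ ℕ`, a Mellin representation whose
density is integrable with polynomial dependence on the twist `s` (verbatim `R17.KernelOK`). -/
def KernelOK (Kr : ℂ → ℂ → ℂ) (V : ℝ → ℂ → ℂ) : Prop :=
  ∀ (σ : ℕ) (B : ℝ), ∃ (C : ℝ) (J : ℕ), ∀ s : ℂ, |s.re| ≤ B →
    Integrable (fun u : ℝ => Kr (σ + u * Complex.I) s) ∧
    (∫ u : ℝ, ‖Kr (σ + u * Complex.I) s‖) ≤ C * (1 + |s.im|) ^ J ∧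
    ∀ x : ℝ, 0 < x →
      V x s = ∫ u : ℝ, Kr (σ + u * Complex.I) s * (x : ℂ) ^ (-((σ : ℂ) + u * Complex.I))

/-! ### Cauchy–Schwarz -/

theorem sq_sum_le_card {α : Type*} (I : Finset α) (a : α → ℂ) :
    ‖∑ i ∈ I, a i‖ ^ 2 ≤ I.card * ∑ i ∈ I, ‖a i‖ ^ 2 :=
  (pow_le_pow_left₀ (norm_nonneg _) (norm_sum_le _ _) 2).trans sq_sum_le_card_mul_sum_sq

theorem sq_sum_le_weight {α : Type*} (I : Finset α) (a : α → ℂ) {w : α → ℝ}
    (hw : ∀ i ∈ I, 0 < w i) :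
    ‖∑ i ∈ I, a i‖ ^ 2 ≤ (∑ i ∈ I, (w i)⁻¹) * ∑ i ∈ I, w i * ‖a i‖ ^ 2 := by
  refine (pow_le_pow_left₀ (norm_nonneg _) (norm_sum_le _ _) 2).trans ?_
  refine sum_sq_le_sum_mul_sum_of_sq_le_mul I (fun i hi => (inv_pos.2 (hw i hi)).le)
    (fun i hi => mul_nonneg (hw i hi).le (sq_nonneg _)) fun i hi => ?_
  rw [inv_mul_cancel_left₀ (hw i hi).ne']

theorem l2_sum_le {α κ : Type*} (S : Finset κ) (I : Finset α) (f : α → κ → ℂ) {E : ℝ}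
    (h : ∀ i ∈ I, ∑ k ∈ S, ‖f i k‖ ^ 2 ≤ E) :
    ∑ k ∈ S, ‖∑ i ∈ I, f i k‖ ^ 2 ≤ (I.card : ℝ) ^ 2 * E := by
  calc _ ≤ ∑ k ∈ S, (I.card : ℝ) * ∑ i ∈ I, ‖f i k‖ ^ 2 :=
        sum_le_sum fun k _ => sq_sum_le_card I _
    _ = I.card * ∑ i ∈ I, ∑ k ∈ S, ‖f i k‖ ^ 2 := by rw [← mul_sum, sum_comm]
    _ ≤ I.card * ∑ _i ∈ I, E := mul_le_mul_of_nonneg_left (sum_le_sum h) (Nat.cast_nonneg _)
    _ = _ := by rw [sum_const, nsmul_eq_mul]; ring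

/-- weighted version: the pieces have energy `≤ E / w²` -/
theorem l2_sum_le_weight {α κ : Type*} (S : Finset κ) (I : Finset α) (f : α → κ → ℂ) {w : α → ℝ}
    (hw : ∀ i ∈ I, 0 < w i) {E : ℝ} (h : ∀ i ∈ I, w i ^ 2 * ∑ k ∈ S, ‖f i k‖ ^ 2 ≤ E) :
    ∑ k ∈ S, ‖∑ i ∈ I, f i k‖ ^ 2 ≤ (∑ i ∈ I, (w i)⁻¹) ^ 2 * E := by
  have h0 : 0 ≤ ∑ i ∈ I, (w i)⁻¹ := sum_nonneg fun i hi => (inv_pos.2 (hw i hi)).le
  calc _ ≤ ∑ k ∈ S, (∑ i ∈ I, (w i)⁻¹) * ∑ i ∈ I, w i * ‖f i k‖ ^ 2 :=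
        sum_le_sum fun k _ => sq_sum_le_weight I _ hw
    _ = (∑ i ∈ I, (w i)⁻¹) * ∑ i ∈ I, w i * ∑ k ∈ S, ‖f i k‖ ^ 2 := by
        rw [← mul_sum, sum_comm]
        simp only [mul_sum]
    _ ≤ (∑ i ∈ I, (w i)⁻¹) * ∑ i ∈ I, (w i)⁻¹ * E := by
        refine mul_le_mul_of_nonneg_left (sum_le_sum fun i hi => ?_) h0
        rw [le_inv_mul_iff₀ (hw i hi), ← mul_assoc, ← sq]
        exact h i hi
    _ = _ := by rw [← sum_mul]; ring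

theorem l2_integral {κ : Type*} (S : Finset κ) {Kr : ℝ → ℂ} {G : ℝ → κ → ℂ} {E : ℝ}
    (hK : Integrable Kr) (hG : ∀ k ∈ S, Integrable fun u => Kr u * G u k)
    (h : ∀ u, ∑ k ∈ S, ‖G u k‖ ^ 2 ≤ E) :
    ∑ k ∈ S, ‖∫ u, Kr u * G u k‖ ^ 2 ≤ (∫ u, ‖Kr u‖) ^ 2 * E := by
  set a : κ → ℂ := fun k => ∫ u, Kr u * G u k with ha
  set T : ℝ := ∑ k ∈ S, ‖a k‖ ^ 2 with hT
  have hT0 : 0 ≤ T := sum_nonneg fun _ _ => sq_nonneg _
  have hE : 0 ≤ E := (sum_nonneg fun _ _ => sq_nonneg _).trans (h 0)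
  have hI : 0 ≤ ∫ u, ‖Kr u‖ := integral_nonneg fun _ => norm_nonneg _
  have h1 : (T : ℂ) = ∫ u, ∑ k ∈ S, conj (a k) * (Kr u * G u k) := by
    rw [integral_finsetSum _ fun k hk => (hG k hk).const_mul _, hT]
    push_cast
    refine sum_congr rfl fun k _ => ?_
    rw [integral_const_mul, Complex.conj_mul']
  have h2 : ∀ u, ‖∑ k ∈ S, conj (a k) * (Kr u * G u k)‖ ≤ ‖Kr u‖ * (√T * √E) := by
    intro u
    have h3 : ∑ k ∈ S, ‖a k‖ * ‖G u k‖ ≤ √T * √E := by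
      refine (Real.sum_mul_le_sqrt_mul_sqrt S _ _).trans ?_
      exact mul_le_mul_of_nonneg_left (Real.sqrt_le_sqrt (h u)) (Real.sqrt_nonneg _)
    refine (norm_sum_le _ _).trans (le_trans (le_of_eq ?_)
      (mul_le_mul_of_nonneg_left h3 (norm_nonneg _)))
    rw [mul_sum]
    refine sum_congr rfl fun k _ => ?_
    rw [norm_mul, norm_mul, Complex.norm_conj]
    ring
  have h4 : T ≤ (∫ u, ‖Kr u‖) * (√T * √E) := by
    calc T = ‖(T : ℂ)‖ := by rw [Complex.norm_real, Real.norm_of_nonneg hT0]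
      _ ≤ ∫ u, ‖Kr u‖ * (√T * √E) := by
        rw [h1]
        exact norm_integral_le_of_norm_le (hK.norm.mul_const _) (Filter.Eventually.of_forall h2)
      _ = _ := integral_mul_const _ _
  have h5 := Real.sq_sqrt hT0
  have h6 := Real.sq_sqrt hE
  nlinarith [sq_nonneg (√T - (∫ u, ‖Kr u‖) * √E)]

/-- A mean square bound for all finite partial sums passes to the series (no summability
hypothesis is needed: a divergent `tsum` is `0`). -/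
theorem l2_tsum_le {α κ : Type*} (S : Finset κ) (f : α → κ → ℂ) {E : ℝ}
    (h : ∀ A : Finset α, ∑ k ∈ S, ‖∑ i ∈ A, f i k‖ ^ 2 ≤ E) :
    ∑ k ∈ S, ‖∑' i, f i k‖ ^ 2 ≤ E := by
  classical
  set S' := S.filter fun k => Summable fun i => f i k with hS'
  have e : ∑ k ∈ S, ‖∑' i, f i k‖ ^ 2 = ∑ k ∈ S', ‖∑' i, f i k‖ ^ 2 := by
    rw [hS', sum_filter]
    refine sum_congr rfl fun k _ => ?_
    split_ifs with hk
    · rfl
    · rw [tsum_eq_zero_of_not_summable hk]; simp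
  rw [e]
  have ht : Filter.Tendsto (fun A : Finset α => ∑ k ∈ S', ‖∑ i ∈ A, f i k‖ ^ 2) Filter.atTop
      (nhds (∑ k ∈ S', ‖∑' i, f i k‖ ^ 2)) := by
    refine tendsto_finsetSum _ fun k hk => ?_
    exact ((mem_filter.1 hk).2.hasSum.norm).pow 2
  refine le_of_tendsto' ht fun A => le_trans ?_ (h A)
  exact sum_le_sum_of_subset_of_nonneg (filter_subset _ _) fun _ _ _ => sq_nonneg _

/-! ### One block -/

/-- the Mellin factor -/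
def ee (σ : ℕ) (x u : ℝ) : ℂ := (x : ℂ) ^ (-((σ : ℂ) + u * Complex.I))

theorem ee_norm (σ : ℕ) {x : ℝ} (hx : 0 < x) (u : ℝ) : ‖ee σ x u‖ = (x ^ σ)⁻¹ := by
  rw [ee, Complex.norm_cpow_eq_rpow_re_of_pos hx]
  simp [Real.rpow_neg hx.le]

theorem ee_mul (σ : ℕ) {x y : ℝ} (hx : 0 ≤ x) (hy : 0 ≤ y) (u : ℝ) :
    ee σ (x * y) u = ee σ x u * ee σ y u := by
  rw [ee, Complex.ofReal_mul, Complex.mul_cpow_ofReal_nonneg hx hy]
  rfl

theorem ee_cont (σ : ℕ) {x : ℝ} (hx : 0 < x) : Continuous (ee σ x) :=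
  Continuous.const_cpow (by fun_prop) (Or.inl (Complex.ofReal_ne_zero.2 hx.ne'))

theorem sum_int {α : Type*} (σ : ℕ) {Kr : ℝ → ℂ} (hK : Integrable Kr) (S : Finset α) (w : α → ℂ)
    (x : α → ℝ) (hx : ∀ i ∈ S, 0 < x i) (V : ℝ → ℂ)
    (hV : ∀ y, 0 < y → V y = ∫ u, Kr u * ee σ y u) :
    Integrable (fun u => Kr u * ∑ i ∈ S, w i * ee σ (x i) u) ∧
      ∑ i ∈ S, w i * V (x i) = ∫ u, Kr u * ∑ i ∈ S, w i * ee σ (x i) u := by
  have h1 : ∀ i ∈ S, Integrable (fun u => Kr u * (w i * ee σ (x i) u)) ∧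
      w i * V (x i) = ∫ u, Kr u * (w i * ee σ (x i) u) := by
    intro i hi
    have hp := hx i hi
    simp only [mul_left_comm (Kr _) (w i)]
    refine ⟨(hK.mul_bdd (c := (x i ^ σ)⁻¹) (ee_cont σ hp).aestronglyMeasurable
      (Filter.Eventually.of_forall fun u => (ee_norm σ hp u).le)).const_mul _, ?_⟩
    rw [integral_const_mul, hV _ hp]
  simp only [Finset.mul_sum]
  refine ⟨integrable_finsetSum _ fun i hi => (h1 i hi).1, ?_⟩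
  rw [integral_finsetSum _ fun i hi => (h1 i hi).1]
  exact Finset.sum_congr rfl fun i hi => (h1 i hi).2

/-- One block: the columns `a ∈ A` have size `x a ≥ Y`, the rows have size `≤ K`. -/
theorem block {α κ : Type*} (σ : ℕ) {Kr : ℝ → ℂ} (hK : Integrable Kr) {V : ℝ → ℂ}
    (hV : ∀ y, 0 < y → V y = ∫ u, Kr u * ee σ y u) (S : Finset κ) (A : Finset α)
    (q : κ → α → ℂ) (x : α → ℝ) (z : κ → ℝ) {Y Z L : ℝ} (hY : 0 < Y) (hZ : 0 < Z) (hL : 0 ≤ L)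
    (hx : ∀ a ∈ A, Y ≤ x a) (hz : ∀ k ∈ S, Z ≤ z k)
    (hLS : ∀ β : α → ℂ, ∑ k ∈ S, ‖∑ a ∈ A, β a * q k a‖ ^ 2 ≤ L * ∑ a ∈ A, ‖β a‖ ^ 2)
    (β : α → ℂ) :
    ∑ k ∈ S, ‖∑ a ∈ A, β a * q k a * V (x a * z k)‖ ^ 2 ≤
      (∫ u, ‖Kr u‖) ^ 2 * ((((Y * Z) ^ σ)⁻¹) ^ 2 * (L * ∑ a ∈ A, ‖β a‖ ^ 2)) := by
  have hx0 : ∀ a ∈ A, 0 < x a := fun a ha => hY.trans_le (hx a ha)
  have hz0 : ∀ k ∈ S, 0 < z k := fun k hk => hZ.trans_le (hz k hk)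
  have h5 := fun k (hk : k ∈ S) => sum_int σ hK A (fun a => β a * q k a) (fun a => x a * z k)
    (fun a ha => mul_pos (hx0 a ha) (hz0 k hk)) V hV
  rw [sum_congr rfl fun k hk => by rw [(h5 k hk).2]]
  refine l2_integral S hK (fun k hk => (h5 k hk).1) fun u => ?_
  have e : ∀ k ∈ S, ‖∑ a ∈ A, β a * q k a * ee σ (x a * z k) u‖ ^ 2 ≤
      ((Z ^ σ)⁻¹) ^ 2 * ‖∑ a ∈ A, (β a * ee σ (x a) u) * q k a‖ ^ 2 := fun k hk => by
    have : ∑ a ∈ A, β a * q k a * ee σ (x a * z k) u =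
        ee σ (z k) u * ∑ a ∈ A, (β a * ee σ (x a) u) * q k a := by
      rw [mul_sum]
      refine sum_congr rfl fun a ha => ?_
      rw [ee_mul σ (hx0 a ha).le (hz0 k hk).le]
      ring
    rw [this, norm_mul, mul_pow, ee_norm σ (hz0 k hk)]
    have := hz k hk
    have := hz0 k hk
    gcongr
  refine (sum_le_sum e).trans ?_
  rw [← mul_sum]
  have h2 : ∑ a ∈ A, ‖β a * ee σ (x a) u‖ ^ 2 ≤ ((Y ^ σ)⁻¹) ^ 2 * ∑ a ∈ A, ‖β a‖ ^ 2 := by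
    rw [mul_sum]
    refine sum_le_sum fun a ha => ?_
    rw [norm_mul, mul_pow, ee_norm σ (hx0 a ha), mul_comm]
    have := hx a ha
    have := hx0 a ha
    gcongr
  calc _ ≤ ((Z ^ σ)⁻¹) ^ 2 * (L * (((Y ^ σ)⁻¹) ^ 2 * ∑ a ∈ A, ‖β a‖ ^ 2)) :=
        mul_le_mul_of_nonneg_left ((hLS _).trans (mul_le_mul_of_nonneg_left h2 hL)) (by positivity)
    _ = _ := by rw [mul_pow Y Z, mul_inv]; ring

/-! ### Real inequalities -/

theorem real_key {K Y B θ m : ℝ} (hK : 0 ≤ K) (hY : 0 < Y) (hB : 0 < B) (hθ : 0 ≤ θ) (hθ1 : θ ≤ 1)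
    (hm : m ≤ 1 ∧ Y ≤ B ∨ m ≤ (((Y * B⁻¹) ^ 2)⁻¹) ^ 2 ∧ B ≤ Y) :
    m * (Y ^ (1 + θ) * (K + Y)) ≤ B ^ (1 + θ) * (K + B) := by
  rcases hm with ⟨h1, h2⟩ | ⟨h1, h2⟩
  · calc m * (Y ^ (1 + θ) * (K + Y)) ≤ 1 * (B ^ (1 + θ) * (K + B)) := by gcongr
      _ = _ := one_mul _
  · set t := B / Y with ht
    have ht0 : 0 < t := by positivity
    have ht1 : t ≤ 1 := (div_le_one hY).2 h2
    have e1 : (((Y * B⁻¹) ^ 2)⁻¹) ^ 2 = t ^ 2 * t * t := by rw [ht]; field_simp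
    have e2 : B = t * Y := by rw [ht]; field_simp
    have e3 : t ^ 2 ≤ t ^ (1 + θ) := by
      rw [← Real.rpow_natCast]
      exact Real.rpow_le_rpow_of_exponent_ge ht0 ht1 (by push_cast; linarith)
    have e4 : t * (K + Y) ≤ K + B := by rw [e2]; nlinarith
    calc m * (Y ^ (1 + θ) * (K + Y)) ≤ t ^ 2 * t * t * (Y ^ (1 + θ) * (K + Y)) := by
          rw [← e1]; gcongr
      _ = t * ((t ^ 2 * Y ^ (1 + θ)) * (t * (K + Y))) := by ring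
      _ ≤ 1 * ((t ^ (1 + θ) * Y ^ (1 + θ)) * (K + B)) := by gcongr
      _ = _ := by rw [one_mul, ← Real.mul_rpow ht0.le hY.le, ← e2]

theorem two_pow_log {x : ℝ} (hx : 1 ≤ x) :
    (2 : ℝ) ^ Nat.log 2 ⌊x⌋₊ ≤ x ∧ x ≤ 2 * 2 ^ Nat.log 2 ⌊x⌋₊ := by
  have h0 : ⌊x⌋₊ ≠ 0 := by
    have := (Nat.one_le_floor_iff x).2 hx
    omega
  refine ⟨le_trans (by exact_mod_cast Nat.pow_log_le_self 2 h0) (Nat.floor_le (by linarith)), ?_⟩
  have h1 := Nat.lt_pow_succ_log_self one_lt_two ⌊x⌋₊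
  have h2 : ((⌊x⌋₊ + 1 : ℕ) : ℝ) ≤ ((2 ^ (Nat.log 2 ⌊x⌋₊ + 1) : ℕ) : ℝ) := by exact_mod_cast h1
  have h3 := Nat.lt_floor_add_one x
  push_cast at h2
  rw [pow_succ'] at h2
  linarith

theorem sum_geom_le {η : ℝ} (hη : 0 < η) : ∃ C : ℝ, 0 < C ∧ ∀ T : Finset ℕ,
    ∑ j ∈ T, (((2 : ℝ) ^ j) ^ η)⁻¹ ≤ C := by
  have h1 : (2 : ℝ) ^ (-η) < 1 := Real.rpow_lt_one_of_one_lt_of_neg one_lt_two (by linarith)
  have h0 : 0 < (2 : ℝ) ^ (-η) := by positivity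
  have hs := hasSum_geometric_of_lt_one h0.le h1
  refine ⟨(1 - (2 : ℝ) ^ (-η))⁻¹, inv_pos.2 (by linarith), fun T => ?_⟩
  refine le_trans (le_of_eq (sum_congr rfl fun j _ => ?_))
    (sum_le_hasSum T (fun _ _ => by positivity) hs)
  rw [← Real.rpow_natCast, ← Real.rpow_natCast, ← Real.rpow_mul (by norm_num),
    ← Real.rpow_mul (by norm_num), ← Real.rpow_neg (by norm_num)]
  congr 1
  ring

/-! ### The dual sum -/

/-- Large sieve hypothesis for the kernel `q`. -/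
def LSH {κ ι : Type*} (Pk : κ → Prop) (nk : κ → ℝ) (Pn : ι → Prop) (nn : ι → ℝ)
    (q : κ → ι → ℂ) : Prop :=
  ∀ ε : ℝ, 0 < ε → ∃ C : ℝ, 0 < C ∧ ∀ (K N : ℝ) (S : Finset κ) (A : Finset ι) (β : ι → ℂ),
    1 ≤ K → 1 ≤ N → (∀ k ∈ S, Pk k ∧ nk k ≤ K) → (∀ n ∈ A, Pn n ∧ nn n ≤ N) →
    ∑ k ∈ S, ‖∑ n ∈ A, β n * q k n‖ ^ 2 ≤ C * (K * N) ^ ε * (K + N) * ∑ n ∈ A, ‖β n‖ ^ 2

theorem sum_reindex {α ι β : Type*} [AddCommMonoid β] [DecidableEq ι] [Nonempty α] {A : Finset α}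
    {n : α → ι} (hn : Set.InjOn n A) (f : α → ι → β) :
    ∑ x ∈ A.image n, f (Function.invFunOn n A x) x = ∑ a ∈ A, f a (n a) := by
  rw [sum_image hn]
  exact sum_congr rfl fun a ha => by rw [hn.leftInvOn_invFunOn ha]

theorem block_real {K B Y a D N g η C I m τ C₀ : ℝ} (hK : 1 ≤ K) (hB : 0 < B) (ha : 1 ≤ a)
    (hD : 1 ≤ D) (hN : 1 ≤ N) (hg : 0 < g) (hη : 0 < η) (hη1 : η ≤ 1 / 4) (hC : 0 ≤ C)
    (hI : 0 ≤ I) (hm0 : 0 ≤ m) (hτ : 0 ≤ τ) (hY : Y = a * (N * D ^ 3))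
    (hm : m ≤ 1 ∧ Y ≤ B ∨ m ≤ (((Y * B⁻¹) ^ 2)⁻¹) ^ 2 ∧ B ≤ Y) :
    (a ^ η * (D ^ (1 + η) / g) * N ^ η) ^ 2 * (I * (m * (C * (K * (2 * N)) ^ η * (K + 2 * N) *
      (C₀ ^ 2 * a * D * g ^ 2 * ((2 * N) ^ (1 + η) * τ))))) ≤
      16 * C * I * C₀ ^ 2 * τ * (K ^ η * (B ^ (1 + 4 * η) * (K + B))) := by
  have ha0 : 0 < a := by linarith
  have hD0 : 0 < D := by linarith
  have hN0 : 0 < N := by linarith
  have hK0 : 0 < K := by linarith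
  have hY0 : 0 < Y := by rw [hY]; positivity
  have hNY : N ≤ Y := by
    rw [hY]
    calc N = 1 * (N * 1) := by ring
      _ ≤ a * (N * D ^ 3) := by gcongr; exact one_le_pow₀ hD
  have key := real_key hK0.le hY0 hB (θ := 4 * η) (by positivity) (by linarith) hm
  have e2 : (2 : ℝ) ^ η ≤ 2 := by
    simpa using Real.rpow_le_rpow_of_exponent_le (x := 2) (by norm_num) (show η ≤ 1 by linarith)
  have e3 : (2 : ℝ) ^ (1 + η) ≤ 4 := by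
    rw [Real.rpow_add two_pos, Real.rpow_one]; linarith
  have f1 : (a ^ η) ^ 2 * a ≤ a ^ (1 + 4 * η) := by
    rw [← Real.rpow_natCast, ← Real.rpow_mul ha0.le, ← Real.rpow_add_one ha0.ne']
    exact Real.rpow_le_rpow_of_exponent_le ha (by push_cast; linarith)
  have f2 : (D ^ (1 + η)) ^ 2 * D ≤ (D ^ 3) ^ (1 + 4 * η) := by
    rw [← Real.rpow_natCast, ← Real.rpow_natCast, ← Real.rpow_mul hD0.le, ← Real.rpow_mul hD0.le,
      ← Real.rpow_add_one hD0.ne']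
    exact Real.rpow_le_rpow_of_exponent_le hD (by push_cast; linarith)
  have f3 : (N ^ η) ^ 2 * N ^ η * N ^ (1 + η) = N ^ (1 + 4 * η) := by
    rw [← Real.rpow_natCast, ← Real.rpow_mul hN0.le, ← Real.rpow_add hN0, ← Real.rpow_add hN0]
    congr 1
    push_cast
    ring
  have f4 : a ^ (1 + 4 * η) * (N ^ (1 + 4 * η) * (D ^ 3) ^ (1 + 4 * η)) = Y ^ (1 + 4 * η) := by
    rw [hY, Real.mul_rpow ha0.le (by positivity), Real.mul_rpow hN0.le (by positivity)]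
  have f5 : K + 2 * N ≤ 2 * (K + Y) := by linarith
  rw [Real.mul_rpow hK0.le (by positivity), Real.mul_rpow two_pos.le hN0.le,
    Real.mul_rpow two_pos.le hN0.le]
  calc _ = C * I * C₀ ^ 2 * τ * K ^ η * (2 ^ η * 2 ^ (1 + η)) * (m * (((a ^ η) ^ 2 * a) *
        (((N ^ η) ^ 2 * N ^ η * N ^ (1 + η)) * ((D ^ (1 + η)) ^ 2 * D)) * (K + 2 * N))) := by
        field_simp
    _ ≤ C * I * C₀ ^ 2 * τ * K ^ η * (2 * 4) * (m * (a ^ (1 + 4 * η) *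
        (N ^ (1 + 4 * η) * (D ^ 3) ^ (1 + 4 * η)) * (2 * (K + Y)))) := by
        rw [f3]; gcongr
    _ = 16 * C * I * C₀ ^ 2 * τ * (K ^ η * (m * (Y ^ (1 + 4 * η) * (K + Y)))) := by
        rw [f4]; ring
    _ ≤ _ := by gcongr

/-- **The dual sum.**  The index `l` of the dual series has an `S`-part `sI l` of size `Ns`, a
squarefree part `n l` and a cube part `d l`. -/
theorem core {κ ι δ T Λ : Type*} {Kr : ℂ → ℂ → ℂ} {V : ℝ → ℂ → ℂ} (hV : KernelOK Kr V)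
    {Pk : κ → Prop} {nk : κ → ℝ} {Pn : ι → Prop} {nn : ι → ℝ} {q : κ → ι → ℂ}
    (hLS : LSH Pk nk Pn nn q) {Ns : T → ℝ} (hNs : ∀ t, 1 ≤ Ns t)
    (hsum : ∀ η : ℝ, 0 < η → Summable fun t => Ns t ^ (-η)) {η : ℝ} (hη : 0 < η)
    (hη1 : η ≤ 1 / 4) (R₀ : ℝ) : ∃ (C : ℝ) (J : ℕ), 0 < C ∧
    ∀ (K B τ C₀ : ℝ) (S : Finset κ) (b : Λ → ℂ) (sI : Λ → T) (n : Λ → ι) (d : Λ → δ)
      (Pd : δ → Prop) (nd g : δ → ℝ) (G : ι → ℝ) (u : κ → T → δ → ℂ) (Q : κ → Λ → ℂ) (x : Λ → ℝ)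
      (z : κ → ℝ) (s : ℂ), 1 ≤ K → 0 < B → 0 ≤ τ → |s.re| ≤ R₀ →
      (∀ k ∈ S, Pk k ∧ nk k ≤ K ∧ B⁻¹ ≤ z k) → (∀ k t e, ‖u k t e‖ ≤ 1) → (∀ m, 0 ≤ G m) →
      (∀ e, 0 < g e) →
      (∀ l, b l ≠ 0 → Pn (n l) ∧ 1 ≤ nn (n l) ∧ Pd (d l) ∧ 1 ≤ nd (d l) ∧
        x l = Ns (sI l) * (nn (n l) * nd (d l) ^ 3) ∧
        (∀ k ∈ S, Q k l = u k (sI l) (d l) * q k (n l)) ∧
        ‖b l‖ ^ 2 ≤ C₀ ^ 2 * Ns (sI l) * nd (d l) * g (d l) ^ 2 * G (n l)) →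
      (∀ l l', b l ≠ 0 → b l' ≠ 0 → sI l = sI l' → d l = d l' → n l = n l' → l = l') →
      (∀ A : Finset ι, (∀ m ∈ A, Pn m ∧ 1 ≤ nn m) → ∑ m ∈ A, G m * (nn m ^ (1 + η))⁻¹ ≤ τ) →
      (∀ A : Finset δ, (∀ e ∈ A, Pd e ∧ 1 ≤ nd e) → ∑ e ∈ A, g e * (nd e ^ (1 + η))⁻¹ ≤ τ) →
      ∑ k ∈ S, ‖∑' l, b l * Q k l * V (x l * z k) s‖ ^ 2 ≤
        C * C₀ ^ 2 * τ ^ 3 * (1 + |s.im|) ^ J * (K ^ η * (B ^ (1 + 4 * η) * (K + B))) := by
  classical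
  obtain ⟨CL, hCL, hL⟩ := hLS η hη
  obtain ⟨C0, J0, h0⟩ := hV 0 R₀
  obtain ⟨C2, J2, h2⟩ := hV 2 R₀
  obtain ⟨Cg, hCg, hg⟩ := sum_geom_le hη
  set Cs : ℝ := ∑' t, Ns t ^ (-η) with hCs
  have hCs0 : 0 ≤ Cs := tsum_nonneg fun t => Real.rpow_nonneg (by linarith [hNs t]) _
  have hs' : ∀ A : Finset T, ∑ t ∈ A, (Ns t ^ η)⁻¹ ≤ Cs := fun A => by
    refine le_trans (le_of_eq (sum_congr rfl fun t _ => ?_)) ((hsum η hη).sum_le_tsum A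
      fun t _ => Real.rpow_nonneg (by linarith [hNs t]) _)
    rw [Real.rpow_neg (by linarith [hNs t])]
  refine ⟨(Cs * Cg) ^ 2 * (16 * CL * (C0 ^ 2 + C2 ^ 2)) + 1, 2 * (J0 + J2), by positivity, ?_⟩
  intro K B τ C₀ S b sI n d Pd nd g G u Q x z s hK hB hτ hs hS hu hG hg0 hb hinj hτn hτd
  obtain ⟨k0, i0, v0⟩ := h0 s hs
  obtain ⟨k2, i2, v2⟩ := h2 s hs
  set W : ℝ := 1 + |s.im| with hW
  have hW1 : 1 ≤ W := le_add_of_nonneg_right (abs_nonneg _)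
  set I : ℝ := (C0 ^ 2 + C2 ^ 2) * W ^ (2 * (J0 + J2)) with hI
  have hI0 : 0 ≤ I := by positivity
  have hIa : ∀ {c Cc : ℝ} {j : ℕ}, 0 ≤ c → c ≤ Cc * W ^ j → Cc ^ 2 ≤ C0 ^ 2 + C2 ^ 2 →
      j ≤ J0 + J2 → c ^ 2 ≤ I := fun {c Cc j} h1 h2 h3 h4 => by
    refine (pow_le_pow_left₀ h1 h2 2).trans ?_
    rw [mul_pow, ← pow_mul, hI]
    exact mul_le_mul h3 (pow_le_pow_right₀ hW1 (by omega)) (by positivity) (by positivity)
  have hI_0 := hIa (integral_nonneg fun _ => norm_nonneg _) i0 (by nlinarith) (by omega)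
  have hI_2 := hIa (integral_nonneg fun _ => norm_nonneg _) i2 (by nlinarith) (by omega)
  set F : ℝ := K ^ η * (B ^ (1 + 4 * η) * (K + B)) with hF
  have hF0 : 0 ≤ F := by positivity
  refine l2_tsum_le S _ fun A₀ => ?_
  set A := A₀.filter fun l => b l ≠ 0 with hA
  have hbA : ∀ l ∈ A, b l ≠ 0 := fun l hl => (mem_filter.1 hl).2
  let cl : Λ → T × δ × ℕ := fun l => (sI l, d l, Nat.log 2 ⌊nn (n l)⌋₊)
  let w : T × δ × ℕ → ℝ := fun c =>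
    Ns c.1 ^ η * (nd c.2.1 ^ (1 + η) / g c.2.1) * ((2 : ℝ) ^ c.2.2) ^ η
  have hsum1 : ∀ k, ∑ l ∈ A₀, b l * Q k l * V (x l * z k) s =
      ∑ c ∈ A.image cl, ∑ l ∈ A.filter (fun l => cl l = c), b l * Q k l * V (x l * z k) s :=
    fun k => by
      rw [sum_fiberwise_of_maps_to fun l hl => mem_image_of_mem cl hl, hA,
        sum_filter_of_ne (p := fun l => b l ≠ 0) fun l _ h0 h1 =>
          h0 (by rw [h1, zero_mul, zero_mul])]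
  simp only [hsum1]
  have hw0 : ∀ c ∈ A.image cl, 0 < w c := fun c hc => by
    obtain ⟨l, hl, rfl⟩ := mem_image.1 hc
    have a1 := hNs (sI l)
    have a2 := (hb l (hbA l hl)).2.2.2.1
    have a3 := hg0 (d l)
    simp only [w, cl]
    positivity
  refine (l2_sum_le_weight S _ _ hw0 (E := 16 * CL * I * C₀ ^ 2 * τ * F) fun c hc => ?_).trans ?_
  · obtain ⟨l₀, hl₀, hc'⟩ := mem_image.1 hc
    have : Nonempty Λ := ⟨l₀⟩
    obtain ⟨t, e, j⟩ := c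
    set A' := A.filter (fun l => cl l = (t, e, j)) with hA'
    have hcl : ∀ l ∈ A', b l ≠ 0 ∧ sI l = t ∧ d l = e ∧ (2 : ℝ) ^ j ≤ nn (n l) ∧
        nn (n l) ≤ 2 * 2 ^ j := fun l hl => by
      obtain ⟨h1, h2⟩ := mem_filter.1 hl
      simp only [cl, Prod.mk.injEq] at h2
      obtain ⟨r1, r2, r3⟩ := h2
      have := two_pow_log (hb l (hbA l h1)).2.1
      rw [r3] at this
      exact ⟨hbA l h1, r1, r2, this⟩
    have hl₀' : l₀ ∈ A' := mem_filter.2 ⟨hl₀, hc'⟩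
    have he1 : 1 ≤ nd e := (hcl l₀ hl₀').2.2.1 ▸ (hb l₀ (hbA l₀ hl₀)).2.2.2.1
    have ht1 := hNs t
    have hj1 : (1 : ℝ) ≤ 2 ^ j := one_le_pow₀ one_le_two
    set Y : ℝ := Ns t * (2 ^ j * nd e ^ 3) with hY
    have hY0 : 0 < Y := by positivity
    have hinj' : Set.InjOn n A' := fun l hl l' hl' h =>
      hinj l l' (hcl l hl).1 (hcl l' hl').1 ((hcl l hl).2.1.trans (hcl l' hl').2.1.symm)
        ((hcl l hl).2.2.1.trans (hcl l' hl').2.2.1.symm) h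
    have hPn : ∀ m ∈ A'.image n, Pn m ∧ 1 ≤ nn m ∧ nn m ≤ 2 * 2 ^ j := fun m hm => by
      obtain ⟨l, hl, rfl⟩ := mem_image.1 hm
      exact ⟨(hb l (hcl l hl).1).1, (hb l (hcl l hl).1).2.1, (hcl l hl).2.2.2.2⟩
    have hLS' : ∀ β : Λ → ℂ, ∑ k ∈ S, ‖∑ l ∈ A', β l * q k (n l)‖ ^ 2 ≤
        CL * (K * (2 * 2 ^ j)) ^ η * (K + 2 * 2 ^ j) * ∑ l ∈ A', ‖β l‖ ^ 2 := fun β => by
      have := hL K (2 * 2 ^ j) S (A'.image n) (fun m => β (Function.invFunOn n A' m)) hK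
        (by linarith) (fun k hk => ⟨(hS k hk).1, (hS k hk).2.1⟩)
        fun m hm => ⟨(hPn m hm).1, (hPn m hm).2.2⟩
      rw [sum_reindex hinj' fun l _ => ‖β l‖ ^ 2] at this
      simpa only [fun k => sum_reindex hinj' fun l m => β l * q k m] using this
    have hx : ∀ l ∈ A', Y ≤ x l := fun l hl => by
      obtain ⟨r0, r1, r2, r3, -⟩ := hcl l hl
      rw [(hb l r0).2.2.2.2.1, r1, r2, hY]
      gcongr
    have hz : ∀ k ∈ S, B⁻¹ ≤ z k := fun k hk => (hS k hk).2.2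
    have hb2 : ∑ l ∈ A', ‖b l‖ ^ 2 ≤
        C₀ ^ 2 * Ns t * nd e * g e ^ 2 * ((2 * 2 ^ j) ^ (1 + η) * τ) := by
      have r1 : ∑ l ∈ A', G (n l) ≤ (2 * 2 ^ j) ^ (1 + η) * τ := by
        rw [← sum_image (f := G) hinj']
        refine le_trans ?_ (mul_le_mul_of_nonneg_left
          (hτn _ fun m hm => ⟨(hPn m hm).1, (hPn m hm).2.1⟩) (by positivity))
        rw [mul_sum]
        refine sum_le_sum fun m hm => ?_
        obtain ⟨-, p1, p2⟩ := hPn m hm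
        have p3 : 0 < nn m ^ (1 + η) := by positivity
        rw [mul_left_comm]
        refine le_mul_of_one_le_right (hG m) ?_
        rw [← div_eq_mul_inv, one_le_div p3]
        gcongr
      refine le_trans ?_ (mul_le_mul_of_nonneg_left r1 (by positivity))
      rw [mul_sum]
      refine sum_le_sum fun l hl => ?_
      obtain ⟨r0, r1, r2, -⟩ := hcl l hl
      rw [← r1, ← r2]
      exact (hb l r0).2.2.2.2.2.2
    have hQ : ∀ k ∈ S, ‖∑ l ∈ A', b l * Q k l * V (x l * z k) s‖ ^ 2 ≤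
        ‖∑ l ∈ A', b l * q k (n l) * V (x l * z k) s‖ ^ 2 := fun k hk => by
      have : ∑ l ∈ A', b l * Q k l * V (x l * z k) s =
          u k t e * ∑ l ∈ A', b l * q k (n l) * V (x l * z k) s := by
        rw [mul_sum]
        refine sum_congr rfl fun l hl => ?_
        obtain ⟨r0, r1, r2, -⟩ := hcl l hl
        rw [(hb l r0).2.2.2.2.2.1 k hk, r1, r2]
        ring
      rw [this, norm_mul]
      exact pow_le_pow_left₀ (by positivity) (mul_le_of_le_one_left (norm_nonneg _) (hu _ _ _)) 2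
    have hL0 : 0 ≤ CL * (K * (2 * 2 ^ j)) ^ η * (K + 2 * 2 ^ j) := by positivity
    have hfin : ∀ m : ℝ, 0 ≤ m → (m ≤ 1 ∧ Y ≤ B ∨ m ≤ (((Y * B⁻¹) ^ 2)⁻¹) ^ 2 ∧ B ≤ Y) →
        ∀ c : ℝ, c ≤ I → ∑ k ∈ S, ‖∑ l ∈ A', b l * q k (n l) * V (x l * z k) s‖ ^ 2 ≤
          c * (m * (CL * (K * (2 * 2 ^ j)) ^ η * (K + 2 * 2 ^ j) * ∑ l ∈ A', ‖b l‖ ^ 2)) →
        w (t, e, j) ^ 2 * ∑ k ∈ S, ‖∑ l ∈ A', b l * Q k l * V (x l * z k) s‖ ^ 2 ≤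
          16 * CL * I * C₀ ^ 2 * τ * F := fun m hm0 hm c hc hle => by
      refine le_trans ?_ (block_real (C₀ := C₀) hK hB ht1 he1 hj1 (hg0 e) hη hη1 hCL.le hI0 hm0 hτ
        hY hm)
      refine mul_le_mul_of_nonneg_left (((sum_le_sum hQ).trans hle).trans ?_) (sq_nonneg _)
      have : 0 ≤ ∑ l ∈ A', ‖b l‖ ^ 2 := sum_nonneg fun _ _ => sq_nonneg _
      gcongr
    rcases le_total Y B with hYB | hYB
    · exact hfin _ (by positivity) (Or.inl ⟨by simp, hYB⟩) _ hI_0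
        (block 0 k0 (V := fun y => V y s) v0 S A' (fun k l => q k (n l)) x z hY0 (inv_pos.2 hB)
          hL0 hx hz hLS' b)
    · exact hfin _ (by positivity) (Or.inr ⟨le_rfl, hYB⟩) _ hI_2
        (block 2 k2 (V := fun y => V y s) v2 S A' (fun k l => q k (n l)) x z hY0 (inv_pos.2 hB)
          hL0 hx hz hLS' b)
  · have hsub : A.image cl ⊆ A.image sI ×ˢ A.image d ×ˢ (A.image cl).image (·.2.2) := by
      intro c hc
      obtain ⟨l, hl, rfl⟩ := mem_image.1 hc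
      exact mem_product.2 ⟨mem_image_of_mem _ hl, mem_product.2
        ⟨mem_image_of_mem _ hl, mem_image_of_mem _ hc⟩⟩
    have hd : ∀ e ∈ A.image d, Pd e ∧ 1 ≤ nd e := fun e he => by
      obtain ⟨l, hl, rfl⟩ := mem_image.1 he
      exact ⟨(hb l (hbA l hl)).2.2.1, (hb l (hbA l hl)).2.2.2.1⟩
    have hw : ∑ c ∈ A.image cl, (w c)⁻¹ ≤ Cs * (τ * Cg) := by
      refine (sum_le_sum_of_subset_of_nonneg hsub fun c hc _ => ?_).trans ?_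
      · have a1 := hNs c.1
        have a2 := (hd _ (mem_product.1 (mem_product.1 hc).2).1).2
        have a3 := hg0 c.2.1
        simp only [w]
        positivity
      have e : ∀ c : T × δ × ℕ, (w c)⁻¹ = (Ns c.1 ^ η)⁻¹ *
          ((g c.2.1 * (nd c.2.1 ^ (1 + η))⁻¹) * (((2 : ℝ) ^ c.2.2) ^ η)⁻¹) := fun c => by
        simp only [w, mul_inv, div_eq_mul_inv, inv_inv]
        ring
      simp only [e, sum_product, ← mul_sum, ← sum_mul]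
      refine mul_le_mul (hs' _) (mul_le_mul (hτd _ hd) (hg _) (sum_nonneg fun _ _ => by positivity)
        hτ) (mul_nonneg (sum_nonneg fun e he => ?_) (sum_nonneg fun _ _ => by positivity)) hCs0
      have a2 := (hd e he).2
      have a3 := hg0 e
      positivity
    have hw' : 0 ≤ ∑ c ∈ A.image cl, (w c)⁻¹ := sum_nonneg fun c hc => (inv_pos.2 (hw0 c hc)).le
    calc _ ≤ (Cs * (τ * Cg)) ^ 2 * (16 * CL * I * C₀ ^ 2 * τ * F) := by gcongr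
      _ = (Cs * Cg) ^ 2 * (16 * CL * (C0 ^ 2 + C2 ^ 2)) * C₀ ^ 2 * τ ^ 3 * W ^ (2 * (J0 + J2)) *
          F := by rw [hI]; ring
      _ ≤ _ := by gcongr; linarith

end Crest.Agent.T27.En56
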