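import Crest.Agent.T27.Basic_55
import Crest.Agent.T27.EnCore_56

/-!
# Row 27: the statements around the reflected energy (definitions only, helper56)

`VorFr` (twisted Voronoi formula, to be proved for the instance from the theta function)
`→ ReflStmt` (finite Fourier algebra) and `LS2Stmt → ReflStmt → EnFixed → EnergyStmt`.
DO NOT change a definition of this file.
-/

set_option autoImplicit false

noncomputable section

namespace Crest.Agent.T27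

open scoped ComplexConjugate

/-- Sizes of the `S`-parts of the dual variable. -/
def IdxOK {S : Type} (a : S → ℝ) : Prop :=
  (∃ c₀ : ℝ, 0 < c₀ ∧ ∀ t, c₀ ≤ a t) ∧ ∀ η : ℝ, 0 < η → Summable fun t => a t ^ (-η)

variable [Fr0]

/-- Class functions bounded by `1`. -/
def ClsB (φ : O → ℂ) : Prop := (∀ n, ‖φ n‖ ≤ 1) ∧ ∀ n n', cls n = cls n' → φ n = φ n'

/-- The completed theta sum of the dual row `h` (`th` vanishes off the primary elements). -/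
def TT (φ : O → ℂ) (X : ℝ) (s : ℂ) (h : O) : ℂ :=
  ∑' n : O, th n * φ n * sym n h * Wc (nr n / X) s

/-- `b` is supported on the elements `n d³` (`n` squarefree) and bounded there by `C √(N d)`. -/
def DualA (C : ℝ) (b : O → ℂ) : Prop :=
  ∀ ν, b ν ≠ 0 → ∃ n d : O, Primary n ∧ Squarefree n ∧ Primary d ∧ ν = n * d ^ 3 ∧
    ‖b ν‖ ≤ C * Real.sqrt (nr d)

open Classical in
/-- The same with the Ramanujan factors at the active primes `p ∣ r`, `v_p(h) ≡ 4 (mod 6)`. -/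
def DualB (C : ℝ) (h r : O) (b : O → ℂ) : Prop :=
  ∀ ν, b ν ≠ 0 → ∃ n d : O, Primary n ∧ Squarefree n ∧ Primary d ∧ ν = n * d ^ 3 ∧
    ‖b ν‖ ≤ C * Real.sqrt (nr d) * ∏ p ∈ (pf r).filter (fun p => vp p h % 6 = 4),
      ((Real.sqrt (nr p))⁻¹ + if p ∣ ν then Real.sqrt (nr p) else 0)

/-- Characters modulo `D` as functions on `O`. -/
structure IsChr (D : O) (ψ : O → ℂ) : Prop where
  mul : ∀ x y, ψ (x * y) = ψ x * ψ y
  per : ∀ x y, D ∣ x - y → ψ x = ψ y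
  zero : ∀ x, ¬ IsCoprime x D → ψ x = 0
  norm : ∀ x, IsCoprime x D → ‖ψ x‖ = 1

/-- The dual character. -/
def dualChr (D : O) (ψ : O → ℂ) (x : O) : ℂ := conj (ψ x) * cub D x

open Classical in
/-- **Twisted Voronoi formula** for the columns of class `c` and the moduli of class `c'`. -/
def VorFr : Prop :=
  ∃ (Kr : ℂ → ℂ → ℂ) (V : ℝ → ℂ → ℂ), En56.KernelOK Kr V ∧ ∀ c c' : WithZero Cl,
    ∃ (S : Type) (a : S → ℝ) (t : S → O) (C : ℝ) (B : S × O → ℂ), IdxOK a ∧ (∀ i, IsUnit (t i)) ∧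
      (∀ i, DualA (C * Real.sqrt (a i)) fun ν => B (i, ν)) ∧
      ∀ (D : O) (ψ : O → ℂ), Primary D → cls D = c' → IsChr D ψ →
        (∀ v, IsUnit v → cls v = 1 → ψ v = 1) → ∀ X : ℝ, 0 < X → ∀ s : ℂ, ∃ ω : ℂ, ‖ω‖ ≤ 1 ∧
          (∑' n : O, if cls n = c then th n * ft D ψ n * Wc (nr n / X) s else 0) =
            ω * (X / nr D : ℝ) * ∑' p : S × O, B p * ft D (dualChr D ψ) (-(t p.1 * p.2)) *
              V (a p.1 * nr p.2 * X / nr D ^ 2) s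

/-- **Reflection.**  `k` is the generic (squarefree) part of the dual row, `h` the frozen part,
`r ∣ rad h` the active part. -/
def ReflStmt : Prop :=
  ∃ (I : Type) (_ : Fintype I) (S : I → Type) (a : ∀ i, S i → ℝ) (C : ℝ) (Kr : ℂ → ℂ → ℂ)
    (V : ℝ → ℂ → ℂ), (∀ i, IdxOK (a i)) ∧ En56.KernelOK Kr V ∧
    ∀ φ : O → ℂ, ClsB φ → ∀ h : O, Primary h → ∃ b : ∀ i, O → S i × O → ℂ,
      (∀ i, ∀ r ∈ pdiv (rad h), ∀ t, DualB (C * Real.sqrt (a i t)) h r fun ν => b i r (t, ν)) ∧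
      ∀ k : O, SP h k → ∀ X : ℝ, 0 < X → ∀ s : ℂ, ∃ ρ : I → O → ℂ, (∀ i r, ‖ρ i r‖ ≤ 1) ∧
        TT φ X s (k * h) = ∑ i, ∑ r ∈ pdiv (rad h), ρ i r * (X / (nr k * nr r) : ℝ) *
          ∑' p : S i × O, b i r p * quad k p.2 * V (a i p.1 * nr p.2 * X / (nr k * nr r) ^ 2) s

/-- **Quadratic large sieve** (for arbitrary finite sets of squarefree primary elements). -/
def LS2Stmt : Prop :=
  ∀ ε : ℝ, 0 < ε → ∃ C : ℝ, 0 < C ∧ ∀ (K N : ℝ) (S A : Finset O) (β : O → ℂ), 1 ≤ K → 1 ≤ N →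
    (∀ k ∈ S, (Primary k ∧ Squarefree k) ∧ nr k ≤ K) →
    (∀ n ∈ A, (Primary n ∧ Squarefree n) ∧ nr n ≤ N) →
    ∑ k ∈ S, ‖∑ n ∈ A, β n * quad k n‖ ^ 2 ≤ C * (K * N) ^ ε * (K + N) * ∑ n ∈ A, ‖β n‖ ^ 2

/-- **Energy with a fixed frozen part** `h`. -/
def EnFixed : Prop :=
  ∀ ε : ℝ, 0 < ε → ∀ R₀ : ℝ, ∃ (C : ℝ) (J : ℕ), 0 < C ∧
    ∀ (Q K D : ℝ) (φ : O → ℂ) (h : O) (s : ℂ) (S : Finset O), 1 ≤ K → K ≤ Q → 0 < D → D⁻¹ ≤ Q →
      nr (rad h) ≤ Q → ClsB φ → Primary h → |s.re| ≤ R₀ → (∀ k ∈ S, SP h k ∧ nr k ≤ K) →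
      ∑ k ∈ S, ‖TT φ D s (k * h)‖ ^ 2 ≤
        C * Q ^ ε * (1 + |s.im|) ^ J * (D * K + K ^ 2 * nr (rad h) ^ 2)

/-- **Reflected energy** over all non-zero rows. -/
def EnergyStmt : Prop :=
  ∀ ε : ℝ, 0 < ε → ∀ R₀ : ℝ, ∃ (C : ℝ) (J : ℕ), 0 < C ∧
    ∀ (Q K D : ℝ) (φ : O → ℂ) (h₀ : O) (s : ℂ) (S : Finset O), 1 ≤ K → K ≤ Q → 0 < D → D⁻¹ ≤ Q →
      nr (rad h₀) ≤ Q → ClsB φ → Primary h₀ → |s.re| ≤ R₀ →
      (∀ k ∈ S, k ≠ 0 ∧ Rep k ∧ nr k ≤ K) →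
      ∑ k ∈ S, ‖TT φ D s (k * h₀)‖ ^ 2 ≤
        C * Q ^ ε * (1 + |s.im|) ^ J * (D * K + K ^ 2 * nr (rad h₀) ^ 2)

end Crest.Agent.T27
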