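import Crest.Agent.T27.LS2_81
import Crest.Agent.T27.LS2Ad_93
import Crest.Agent.T27.ReflDefs_56

/-!
# Row 27: the quadratic large sieve on the frame `Fr`
-/

set_option autoImplicit false

noncomputable section

namespace Crest.Agent.T27

variable [Fr]

open Classical in
/-- The frame `Fr` gives the data used by the proof of the quadratic large sieve. -/
@[reducible] def lf81 : LS.LF where
  O := O
  nm := nm
  nm_mul' := nm_mul
  nm_eq_zero' := fun _ => nm_eq_zero
  nm_eq_one' := fun _ => isUnit_iff_nm.symm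
  Primary := Primary
  prim_one := Fr0.prim_one
  prim_mul := Fr0.prim_mul
  prim_ne := Fr0.prim_ne
  prim_eq := Fr0.prim_assoc
  prim_ex := fun a ha => by
    obtain ⟨u, hu, h⟩ := Fr0.prim_ex a ha
    exact ⟨u * a, h, associated_unit_mul_left a u hu⟩
  U0 := U0
  U0_unit := Fr0.unit_U0F
  one_mem := Fr0.one_mem_U0F
  Rep := Rep
  rep_iff := fun _ => Iff.rfl
  count := ⟨Fr0.kp, fun X S hS => by
    have h : S ⊆ pball X := fun n hn => mem_pball.2 (hS n hn)
    exact_mod_cast (Finset.card_le_card h).trans (card_pball_le X)⟩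
  quad := quad
  quad_mul_left' := fun _ _ a hm hn => quad_mul_left hm.ne_zero hn.ne_zero a
  quad_mul_right' := fun n a b _ => quad_mul_right' n a b
  quad_sq' := fun _ _ hn h => quad_sq hn h
  quad_zero' := fun _ _ hn h => (Symbol_quad_eq_zero_iff hn).2 h
  norm_quad_le' := norm_quad_le
  conj_quad' := conj_quad
  Cl := WithZero Cl
  fin := Fintype.ofFinite _
  cls := fun n => cls n
  cls_cancel := fun g a b hg _ _ h => by
    rw [map_mul, map_mul] at h
    exact mul_left_cancel₀ (cls_ne_zero hg.ne_zero) h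
  Rs := fun x y => if x ≠ 0 ∧ y ≠ 0 then
    Rq (Function.surjInv cls_surjective x) (Function.surjInv cls_surjective y) else 0
  norm_Rs := fun x y => by
    split_ifs with h
    · refine (norm_Rq (fun h0 => h.1 ?_) (fun h0 => h.2 ?_)).le
      · rw [← Function.surjInv_eq cls_surjective x, h0, map_zero]
      · rw [← Function.surjInv_eq cls_surjective y, h0, map_zero]
    · simp
  recip := fun n k hn hk => by
    rw [if_pos ⟨cls_ne_zero hn.ne_zero, cls_ne_zero hk.ne_zero⟩, quad_recip' hn.ne_zero hk.ne_zero,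
      Rq_congr (Function.surjInv_eq cls_surjective (cls n))
        (Function.surjInv_eq cls_surjective (cls k))]
  gw := gw
  gw_pos' := Fr.kerAx.pos
  gw_anti' := fun _ _ hx h => Fr.kerAx.anti hx (lt_of_lt_of_le hx h) h
  gw_le' := fun A hA => by
    obtain ⟨C, -, h⟩ := Fr.kerAx.le_rpow A (by linarith)
    exact ⟨C, h⟩
  pois := fun _ _ h₁ h₂ hs hc _ hX => LS2Ad.poisson_pair' h₁ h₂ hs hc hX
  th2_asymp := by
    obtain ⟨κ, h⟩ := LS2Ad.th2_asymp
    refine ⟨κ, fun η h0 h1 => ?_⟩
    obtain ⟨C, -, h⟩ := h η h0 h1.le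
    exact ⟨C, h⟩

/-- **Heath-Brown's quadratic large sieve** on the frame. -/
theorem ls2_81 : LS2Stmt := by
  intro ε hε
  obtain ⟨C, hC, h⟩ := @LS.quad_large_sieve' lf81 ε hε
  exact ⟨C, hC, fun K N S A β hK hN hS hA => h K N S A β hK hN
    (fun k hk => ⟨(hS k hk).1.1, (hS k hk).1.2, (hS k hk).2⟩)
    (fun n hn => ⟨(hA n hn).1.1, (hA n hn).1.2, (hA n hn).2⟩)⟩

end Crest.Agent.T27
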