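import Crest.Agent.T27.ThC2_50

/-!
# Row 27, theta module C1: the Hecke relations (`HeckeStmt`)
-/

set_option autoImplicit false

noncomputable section

namespace Crest.Agent.T27.TH.C50

open scoped ComplexConjugate
open NumberField

variable {F : Type} [Field F] [NumberField F] [Emb F] [Ar F]

theorem N_mem_L : (Ar.N F : F) ∈ (Ar.L : Subring F) := natCast_mem _ _

theorem deep_mono {j J : ℕ} (h : j ≤ J) {x : F} (hx : Deep J x) : Deep j x := by
  obtain ⟨y, hy, rfl⟩ := hx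
  obtain ⟨k, rfl⟩ := Nat.exists_eq_add_of_le h
  exact ⟨_, mul_mem (pow_mem N_mem_L k) hy, by ring⟩

theorem pow_mul_mem {k J : ℕ} (h : k ≤ J) {x : F} (hx : (Ar.N F : F) ^ k * x ∈ (Ar.L : Subring F)) :
    (Ar.N F : F) ^ J * x ∈ (Ar.L : Subring F) := by
  obtain ⟨i, rfl⟩ := Nat.exists_eq_add_of_le h
  rw [pow_add, mul_comm _ ((Ar.N F : F) ^ i), mul_assoc]
  exact mul_mem (pow_mem N_mem_L i) hx

theorem eF_eq_psi {J : ℕ} {x y : F} (hx : (Ar.N F : F) ^ J * x ∈ (Ar.L : Subring F))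
    (hy : Deep J y) : eF (x * y) = Ar.psi (x * y) := by
  obtain ⟨l, hl, rfl⟩ := hy
  refine (Ar.psi_L _ ?_).symm
  rw [← mul_assoc, mul_comm x]
  exact mul_mem hx hl

theorem exists_reps {p : RR F} (hp : p ≠ 0) (J : ℕ) :
    ∃ a : Kp p → RR F, (∀ x, rd p (a x) = x) ∧ ∀ x, Deep J ((a x : F) / p) := by
  have h : ∀ x : Kp p, ∃ y : RR F, rd p y = x ∧ Deep J ((y : F) / p) := fun x => by
    obtain ⟨r, hr, l, hl, h⟩ := Ar.approx (((x.out : RR F) : F) / p) ((Ar.N F : F) ^ J)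
      (pow_ne_zero _ N_ne)
    refine ⟨x.out - p * ⟨r, hr⟩, ?_, l, hl, ?_⟩
    · rw [map_sub, mk_out, mk_eq_zero.2 (dvd_mul_right _ _), sub_zero]
    · have := coe_ne hp
      push_cast
      rw [sub_div, h, mul_div_cancel_left₀ _ this]
      ring
  choose a h1 h2 using h
  exact ⟨a, h1, h2⟩

theorem psi_congr {x y : F} (h : x - y ∈ (Ar.R : Subring F)) : Ar.psi x = Ar.psi y := by
  rw [show x = y + (x - y) by ring, Ar.psi_add, Ar.psi_R _ h, mul_one]

namespace Dat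

variable {κ : ℝ} {f : F × F → ℂ} {p : RR F} {j : ℕ} {a : Kp p → RR F} (D : Dat κ f p j a)
include D

theorem t0 : (cr (p : F) : ℂ) ≠ 0 := Complex.ofReal_ne_zero.2 (cr_pos D.P0).ne'

omit D in
/-- The coefficients of the combination. -/
def co (p : RR F) : Kp p ⊕ Unit ⊕ Kp p → ℂ :=
  Sum.elim (fun _ => 1) (Sum.elim (fun _ => -((absS (p : F) : ℂ) * (cr (p : F) : ℂ) ^ 3) ^ 2)
    fun x => -((absS (p : F) : ℂ) * (cr (p : F) : ℂ) ^ 3) ^ 2 * chi p x ^ 2)

omit D in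
/-- The row functions of the combination. -/
def rw_ (f : F × F → ℂ) (p : RR F) : Kp p ⊕ Unit ⊕ Kp p → F × F → ℂ :=
  Sum.elim (fun _ => xiF f) (Sum.elim (fun _ => xiF (opC (p : F) f)) fun _ => xiF (opT (p : F) f))

omit D in
/-- The matrices of the combination. -/
def ma (p : RR F) (a : Kp p → RR F) : Kp p ⊕ Unit ⊕ Kp p → Mat F :=
  Sum.elim (fun x => !![1, -((a x : F) / p); 0, 1])
    (Sum.elim (fun _ => !![((p : F) ^ 3)⁻¹, 0; 0, 1])
      fun x => !![((p : F) ^ 2)⁻¹, -((a x : F) / (p : F) ^ 3); 0, (p : F)⁻¹])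

theorem good (i : Kp p ⊕ Unit ⊕ Kp p) : Good (rw_ f p i) := by
  rcases i with x | x | x
  exacts [(D.hC _ D.tf).1, (D.hC _ D.tC).1, (D.hC _ D.tT).1]

omit D in
theorem det1 (x : Kp p) : (ma p a (Sum.inl x)).det = 1 := by
  simp [ma, Matrix.det_fin_two_of]

omit D in
theorem det2 (x : Unit) : (ma p a (Sum.inr (Sum.inl x))).det = ((p : F) ^ 3)⁻¹ := by
  simp [ma, Matrix.det_fin_two_of]

omit D in
theorem det3 (x : Kp p) : (ma p a (Sum.inr (Sum.inr x))).det = ((p : F) ^ 3)⁻¹ := by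
  simp only [ma, Sum.elim_inr, Matrix.det_fin_two_of]
  rw [mul_zero, sub_zero, ← mul_inv]; ring

theorem det_ne (i : Kp p ⊕ Unit ⊕ Kp p) : (ma p a i).det ≠ 0 := by
  have := inv_ne_zero (pow_ne_zero 3 D.P0)
  rcases i with x | x | x
  · rw [det1]; exact one_ne_zero
  · rwa [det2]
  · rwa [det3]

theorem cr_inv3 : (cr (((p : F) ^ 3)⁻¹) : ℂ) = ((cr (p : F) : ℂ) ^ 3)⁻¹ := by
  rw [cr_inv (pow_ne_zero 3 D.P0), cr_pow D.P0]; push_cast; rfl

variable (hT : TauStmt F)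
include hT

theorem tau1 (x : Kp p) (r : F) : tau (tr (rw_ f p (Sum.inl x)) (ma p a (Sum.inl x))) r =
    eF (r * ((a x : F) / p)) * tau (xiF f) r := by
  have := hT.tau_tri _ (D.good (Sum.inl x)) 1 (-((a x : F) / p)) 1 r one_ne_zero one_ne_zero
  rw [nF_one, Real.one_rpow] at this
  simpa [ma, rw_] using this

theorem tau2 (x : Unit) (r : F) :
    tau (tr (rw_ f p (Sum.inr (Sum.inl x))) (ma p a (Sum.inr (Sum.inl x)))) r =
    ((cr (p : F) : ℂ) ^ 3)⁻¹ * tau (xiF (opC (p : F) f)) (r / (p : F) ^ 3) := by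
  have := hT.tau_tri _ (D.good (Sum.inr (Sum.inl x))) ((p : F) ^ 3)⁻¹ 0 1 r
    (inv_ne_zero (pow_ne_zero 3 D.P0)) one_ne_zero
  rw [nF_one, one_mul, show nF ((p : F) ^ 3)⁻¹ ^ (1 / 3 : ℝ) = cr ((p : F) ^ 3)⁻¹ from rfl,
    D.cr_inv3, mul_zero, zero_div, neg_zero, show eF (0 : F) = 1 by simp [eF, eV, em], mul_one,
    div_one, ← div_eq_mul_inv] at this
  exact this

theorem tau3 (x : Kp p) (r : F) :
    tau (tr (rw_ f p (Sum.inr (Sum.inr x))) (ma p a (Sum.inr (Sum.inr x)))) r =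
    ((cr (p : F) : ℂ) ^ 5)⁻¹ * eF (r / p * ((a x : F) / p)) *
      tau (xiF (opT (p : F) f)) (r / p) := by
  have P0 := D.P0
  have := hT.tau_tri _ (D.good (Sum.inr (Sum.inr x))) ((p : F) ^ 2)⁻¹ (-((a x : F) / (p : F) ^ 3))
    (p : F)⁻¹ r (inv_ne_zero (pow_ne_zero 2 P0)) (inv_ne_zero P0)
  rw [show nF ((p : F) ^ 2)⁻¹ ^ (1 / 3 : ℝ) = cr ((p : F) ^ 2)⁻¹ from rfl,
    cr_inv (pow_ne_zero 2 P0), cr_pow P0, nF_inv P0, ← cr_cube P0,
    show -(r * -((a x : F) / (p : F) ^ 3) / (p : F)⁻¹) = r / p * ((a x : F) / p) by field_simp,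
    show r * ((p : F) ^ 2)⁻¹ / (p : F)⁻¹ = r / p by field_simp, ← mul_inv, ← pow_add] at this
  push_cast at this
  exact this

variable [Fintype (Kp p)]

/-- All the constant terms of the combination vanish. -/
theorem ct_zero (γ : SL F) :
    ∑ i, co p i * tau (tr (rw_ f p i) ((γ : Mat F) * ma p a i)) 0 = 0 := by
  have P0 := D.P0
  have t0 := D.t0
  have s0 := D.s0
  by_cases h : γ 1 0 = 0
  · have hd := γ.det_coe
    rw [Matrix.det_fin_two, h, mul_zero, sub_zero] at hd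
    have h0 : γ 0 0 ≠ 0 := left_ne_zero_of_mul_eq_one hd
    have h1 : γ 1 1 ≠ 0 := right_ne_zero_of_mul_eq_one hd
    have e : (γ : Mat F) = !![γ 0 0, γ 0 1; 0, γ 1 1] := by rw [← h]; exact Matrix.eta_fin_two _
    have e0 : eF (0 : F) = 1 := by simp [eF, eV, em]
    have e1 : ∀ i, tau (tr (rw_ f p i) ((γ : Mat F) * ma p a i)) 0 =
        ((nF (γ 1 1) * nF (γ 0 0) ^ (1 / 3 : ℝ) : ℝ) : ℂ) * tau (tr (rw_ f p i) (ma p a i)) 0 :=
      fun i => by
        rw [tr_mul]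
        conv_lhs => rw [e]
        rw [hT.tau_tri _ (hT.good_tr _ _ (D.good i) (D.det_ne i)) _ _ _ _ h0 h1]
        simp [e0]
    simp only [e1, Fintype.sum_sum_type, D.tau1 hT, D.tau2 hT, D.tau3 hT, co, Sum.elim_inl,
      Sum.elim_inr, zero_mul, zero_div, e0, (D.hC _ D.tf).2.1, (D.hC _ D.tC).2.1,
      D.hI.lam_opC f p D.tf P0, mul_assoc, ← Finset.mul_sum, ← Finset.sum_mul, sum_chi_sq D.hp,
      Finset.sum_const, Finset.card_univ, nsmul_eq_mul, D.card, Fintype.card_unit]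
    push_cast
    field_simp
    ring
  · obtain ⟨ρ, α, β, hρ, hβ, hc, e1, e2⟩ := exists_prim (γ 1 1) (neg_ne_zero.2 h)
    have e3 : γ 1 0 = -(ρ * β) := by rw [← e2, neg_neg]
    have B0 := coe_ne hβ
    have hρ' : ρ * ((p : F) ^ 3)⁻¹ ≠ 0 := mul_ne_zero hρ (inv_ne_zero (pow_ne_zero 3 P0))
    have hd : ∀ i, ((γ : Mat F) * ma p a i).det = (ma p a i).det := fun i => by
      rw [Matrix.det_mul, γ.det_coe, one_mul]
    have k1 : ∀ x, tau (tr (rw_ f p (Sum.inl x)) ((γ : Mat F) * ma p a (Sum.inl x))) 0 =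
        (cr (ρ * ((p : F) ^ 3)⁻¹) : ℂ) ^ 2 *
          CT f ((p : F) ^ 3 * α + a x * (p : F) ^ 2 * β) ((p : F) ^ 3 * β) := fun x => by
      rw [show rw_ f p (Sum.inl x) = xiF f from rfl,
        tau_tr_eq D.hC D.tf (hd _ ▸ D.det_ne _) hρ' (mul_ne_zero (pow_ne_zero 3 P0) B0)
          (α := (p : F) ^ 3 * α + a x * (p : F) ^ 2 * β), hd, det1, cr1, mul_one]
      · simp only [ma, Sum.elim_inl, Matrix.mul_apply, Fin.sum_univ_two, e1, e3]
        simp
        field_simp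
      · simp only [ma, Sum.elim_inl, Matrix.mul_apply, Fin.sum_univ_two, e1, e3]
        simp
        field_simp
        ring
    have k2 : ∀ x, tau (tr (rw_ f p (Sum.inr (Sum.inl x)))
        ((γ : Mat F) * ma p a (Sum.inr (Sum.inl x)))) 0 =
        (cr (ρ * ((p : F) ^ 3)⁻¹) : ℂ) ^ 2 * ((cr (p : F) : ℂ) ^ 3)⁻¹ *
          CT (opC (p : F) f) ((p : F) ^ 3 * α) β := fun x => by
      rw [show rw_ f p (Sum.inr (Sum.inl x)) = xiF (opC (p : F) f) from rfl,
        tau_tr_eq D.hC D.tC (hd _ ▸ D.det_ne _) hρ' B0 (α := (p : F) ^ 3 * α), hd, det2,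
        D.cr_inv3]
      · simp only [ma, Sum.elim_inl, Sum.elim_inr, Matrix.mul_apply, Fin.sum_univ_two, e1, e3]
        simp
        field_simp
      · simp only [ma, Sum.elim_inl, Sum.elim_inr, Matrix.mul_apply, Fin.sum_univ_two, e1, e3]
        simp
        field_simp
    have k3 : ∀ x, tau (tr (rw_ f p (Sum.inr (Sum.inr x)))
        ((γ : Mat F) * ma p a (Sum.inr (Sum.inr x)))) 0 =
        (cr (ρ * ((p : F) ^ 3)⁻¹) : ℂ) ^ 2 * ((cr (p : F) : ℂ) ^ 3)⁻¹ *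
          CT (opT (p : F) f) ((p : F) ^ 2 * α + a x * β) (p * β) := fun x => by
      rw [show rw_ f p (Sum.inr (Sum.inr x)) = xiF (opT (p : F) f) from rfl,
        tau_tr_eq D.hC D.tT (hd _ ▸ D.det_ne _) hρ' (mul_ne_zero P0 B0)
          (α := (p : F) ^ 2 * α + a x * β), hd, det3, D.cr_inv3]
      · simp only [ma, Sum.elim_inr, Matrix.mul_apply, Fin.sum_univ_two, e1, e3]
        simp
        field_simp
      · simp only [ma, Sum.elim_inr, Matrix.mul_apply, Fin.sum_univ_two, e1, e3]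
        simp
        field_simp
        ring
    have H := D.HK_all hc hβ
    unfold HK at H
    have e4 : ∀ (x : Kp p) (A B C : ℂ), -A ^ 2 * chi p x ^ 2 * (B * C) =
        -A ^ 2 * B * (chi p x ^ 2 * C) := fun _ _ _ _ => by ring
    simp only [Fintype.sum_sum_type, k1, k2, k3, co, Sum.elim_inl, Sum.elim_inr, one_mul, e4,
      ← Finset.mul_sum, Finset.sum_const, Finset.card_univ, Fintype.card_unit, one_smul]
    generalize (∑ x, CT f ((p : F) ^ 3 * α + a x * (p : F) ^ 2 * β) ((p : F) ^ 3 * β)) = S1 at H ⊢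
    generalize (∑ x, chi p x ^ 2 * CT (opT (p : F) f) ((p : F) ^ 2 * α + a x * β) (p * β)) = S3
      at H ⊢
    generalize CT (opC (p : F) f) ((p : F) ^ 3 * α) β = S2 at H ⊢
    generalize (cr (ρ * ((p : F) ^ 3)⁻¹) : ℂ) = c
    have H' : S1 = ((cr (p : F) : ℂ) ^ 3)⁻¹ *
        (((absS (p : F) : ℂ) * (cr (p : F) : ℂ) ^ 3) ^ 2 * (S2 + S3)) := by
      rw [← H, ← mul_assoc, inv_mul_cancel₀ (pow_ne_zero 3 t0), one_mul]
    rw [H']
    ring

/-- The Hecke identity read on the Fourier coefficients. -/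
theorem coeff (hTh : ThetaStmt F) (r : F) :
    (∑ x, eF (r * ((a x : F) / p))) * tau (xiF f) r =
      ((absS (p : F) : ℂ) * (cr (p : F) : ℂ) ^ 3) ^ 2 *
        (((cr (p : F) : ℂ) ^ 3)⁻¹ * tau (xiF (opC (p : F) f)) (r / (p : F) ^ 3) +
          ((cr (p : F) : ℂ) ^ 5)⁻¹ * (∑ x, chi p x ^ 2 * eF (r / p * ((a x : F) / p))) *
            tau (xiF (opT (p : F) f)) (r / p)) := by
  have H := vanish_comb hT hTh (co p) (rw_ f p) (ma p a) D.good D.det_ne (D.ct_zero hT) r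
  have e4 : ∀ (x : Kp p) (A B C E : ℂ), -A ^ 2 * chi p x ^ 2 * (B * C * E) =
      -A ^ 2 * B * E * (chi p x ^ 2 * C) := fun _ _ _ _ _ => by ring
  simp only [Fintype.sum_sum_type, D.tau1 hT, D.tau2 hT, D.tau3 hT, co, Sum.elim_inl, Sum.elim_inr,
    one_mul, e4, ← Finset.mul_sum, ← Finset.sum_mul, Finset.sum_const, Finset.card_univ,
    Fintype.card_unit, one_smul] at H
  linear_combination H

end Dat

omit [Ar F] in
theorem sixth_pow {x : F} (hx : x ≠ 0) (n : ℕ) {r : F} (hr : r ≠ 0) :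
    nF (x ^ n * r) ^ (1 / 6 : ℝ) = Real.sqrt (cr x) ^ n * nF r ^ (1 / 6 : ℝ) := by
  have h1 : nF x ^ (1 / 6 : ℝ) = Real.sqrt (cr x) := by
    rw [Real.sqrt_eq_rpow, cr, ← Real.rpow_mul (nF_pos hx).le]; norm_num
  rw [nF_mul, Real.mul_rpow (nF_pos (pow_ne_zero _ hx)).le (nF_pos hr).le, nF_pow, ← h1,
    ← Real.rpow_natCast, ← Real.rpow_natCast, ← Real.rpow_mul (nF_pos hx).le,
    ← Real.rpow_mul (nF_pos hx).le, mul_comm (n : ℝ)]

theorem sqrt_nm {x : F} (hx : x ≠ 0) :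
    Real.sqrt (Ar.nm x) = Real.sqrt (absS x) * Real.sqrt (cr x) ^ 3 := by
  rw [nm_eq_absS hx, Real.sqrt_mul (absS_pos hx).le, pow_succ (cr x) 2,
    Real.sqrt_mul (sq_nonneg _), Real.sqrt_sq (cr_pos hx).le, pow_succ (Real.sqrt _) 2,
    Real.sq_sqrt (cr_pos hx).le]

end Crest.Agent.T27.TH.C50

namespace Crest.Agent.T27.TH

open C50 NumberField

/-- **The Hecke relations.** -/
theorem hecke_50 (F : Type) [Field F] [NumberField F] [Emb F] [Ar F] (hO : OpStmt F)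
    (hI : IntStmt F) (hC : CuspStmt F) (hT : TauStmt F) (hTh : ThetaStmt F) : HeckeStmt F := by
  intro f hf p r hp hr
  obtain ⟨κ, -, hC⟩ := hC
  have P0 := coe_ne hp.ne_zero
  have R0 := coe_ne hr
  have := Ar.fin_quot p hp.ne_zero
  let _ : Fintype (Kp p) := Fintype.ofFinite _
  obtain ⟨j1, h1⟩ := hf
  obtain ⟨j2, h2⟩ := hO.test_opT f p P0 ⟨j1, h1⟩
  obtain ⟨k0, hk0⟩ := Ar.pow_mem_L (r : F)
  obtain ⟨k1, hk1⟩ := Ar.pow_mem_L ((p : F) * r)
  obtain ⟨k2, hk2⟩ := Ar.pow_mem_L ((p : F) ^ 2 * r)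
  obtain ⟨k3, hk3⟩ := Ar.pow_mem_L ((p : F) ^ 3 * r)
  obtain ⟨a, ha1, ha2⟩ := exists_reps hp.ne_zero (j1 + j2 + k0 + k1 + k2 + k3)
  have D : Dat κ f p (j1 + j2 + k0 + k1 + k2 + k3) a :=
    ⟨hO, hI, hC, hp, hO.mono _ _ _ h1 (by omega), hO.mono _ _ _ h2 (by omega), ha1, ha2⟩
  have one : ∀ (k : ℕ) (y : RR F), (Ar.N F : F) ^ k * ((p : F) * y) ∈ (Ar.L : Subring F) →
      k ≤ j1 + j2 + k0 + k1 + k2 + k3 → ∀ x, eF ((p : F) * y * ((a x : F) / p)) = 1 :=
    fun k y hy hk x => by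
      rw [eF_eq_psi (pow_mul_mem hk hy) (ha2 x),
        show (p : F) * y * ((a x : F) / p) = ((y * a x : RR F) : F) by push_cast; field_simp]
      exact Ar.psi_R _ (y * a x).2
  have o1 := one k1 r hk1 (by omega)
  have o2 := one k2 (p * r) (by push_cast; rwa [← mul_assoc (p : F), ← sq]) (by omega)
  have o3 := one k3 (p ^ 2 * r) (by push_cast; rwa [← mul_assoc (p : F), ← pow_succ']) (by omega)
  push_cast at o2 o3
  simp only [← mul_assoc (p : F), ← sq, ← pow_succ'] at o2 o3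
  have t0 := D.t0
  have s0 := D.s0
  have hs : (absS (p : F) : ℂ) = (Real.sqrt (absS (p : F)) : ℂ) ^ 2 := by
    rw [← Complex.ofReal_pow, Real.sq_sqrt (absS_pos P0).le]
  have ht : (cr (p : F) : ℂ) = (Real.sqrt (cr (p : F)) : ℂ) ^ 2 := by
    rw [← Complex.ofReal_pow, Real.sq_sqrt (cr_pos P0).le]
  have nd : ¬ p ∣ r → tau (xiF (opC (p : F) f)) (r / p) = 0 ∧
      tau (xiF (opC (p : F) f)) (r / (p : F) ^ 2) = 0 := fun hn => by
    have e : (r : F) / p ∉ (Ar.R : Subring F) := fun h =>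
      hn ⟨⟨_, h⟩, Subtype.ext (by push_cast; field_simp)⟩
    refine ⟨by_contra fun h => e ((hC _ D.tC).2.2.2.2 _ h), by_contra fun h => e ?_⟩
    have := mul_mem p.2 ((hC _ D.tC).2.2.2.2 _ h)
    rwa [show (p : F) * (r / (p : F) ^ 2) = r / p by field_simp] at this
  refine ⟨?_, fun hn => ?_, fun hn => ?_⟩
  · have H := D.coeff hT hTh ((p : F) ^ 3 * r)
    rw [show (p : F) ^ 3 * r / (p : F) ^ 3 = r by field_simp,
      show (p : F) ^ 3 * r / p = (p : F) ^ 2 * r by field_simp] at H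
    simp only [o2, o3, mul_one, sum_chi_sq hp, Finset.sum_const, Finset.card_univ, nsmul_eq_mul,
      D.card, mul_zero, zero_mul, add_zero] at H
    have H' : tau (xiF f) ((p : F) ^ 3 * r) = absS (p : F) * tau (xiF (opC (p : F) f)) r := by
      field_simp at H
      linear_combination H
    rw [tt, tt, H', sixth_pow P0 3 R0, Real.sqrt_mul (absS_pos P0).le, sqrt_nm P0]
    push_cast
    rw [hs]
    simp only [← hs]
    linear_combination (tau (xiF (opC (p : F) f)) r * (Real.sqrt (cr (p : F)) : ℂ) ^ 3 *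
      ((nF (r : F) ^ (1 / 6 : ℝ) : ℝ) : ℂ)) * hs
  · have H := D.coeff hT hTh ((p : F) ^ 2 * r)
    rw [show (p : F) ^ 2 * r / (p : F) ^ 3 = r / p by field_simp,
      show (p : F) ^ 2 * r / p = (p : F) * r by field_simp, (nd hn).1] at H
    simp only [o1, o2, mul_one, sum_chi_sq hp, Finset.sum_const, Finset.card_univ, nsmul_eq_mul,
      D.card, mul_zero, zero_mul, add_zero] at H
    rw [tt, (mul_eq_zero.1 H).resolve_left (mul_ne_zero s0 (pow_ne_zero 3 t0)), zero_mul]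
  · have H := D.coeff hT hTh ((p : F) * r)
    rw [show (p : F) * r / (p : F) ^ 3 = r / (p : F) ^ 2 by field_simp,
      show (p : F) * r / p = r by field_simp, (nd hn).2] at H
    have hg : ∑ x, chi p x ^ 2 * eF (r * ((a x : F) / p)) =
        (Real.sqrt (Ar.nm (p : F)) : ℂ) * gn (r : F) p := by
      rw [gn, ← mul_assoc, mul_inv_cancel₀ (Complex.ofReal_ne_zero.2
        (Real.sqrt_pos.2 (Ar.nm_pos _ P0)).ne'), one_mul, finsum_eq_sum_of_fintype]
      refine Finset.sum_congr rfl fun x _ => ?_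
      rw [eF_eq_psi (pow_mul_mem (by omega) hk0) (ha2 x), chi, ← conj_sr _ hp.ne_zero, sr]
      congr 1
      obtain ⟨c, hc⟩ : p ∣ a x - x.out := mk_eq_iff.1 (by rw [ha1, mk_out])
      have hc' : (a x : F) - (x.out : RR F) = p * c := congrArg Subtype.val hc
      refine psi_congr ?_
      rw [show (r : F) * ((a x : F) / p) - r * ((x.out : RR F) : F) / p = ((r * c : RR F) : F) by
        push_cast; rw [← mul_div_assoc, ← sub_div, ← mul_sub, hc']; field_simp]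
      exact (r * c).2
    simp only [o1, mul_one, Finset.sum_const, Finset.card_univ, nsmul_eq_mul,
      D.card, mul_zero, zero_add, hg] at H
    have H' : tau (xiF f) ((p : F) * r) = absS (p : F) * ((cr (p : F) : ℂ) ^ 2)⁻¹ *
        ((Real.sqrt (Ar.nm (p : F)) : ℂ) * gn (r : F) p) * tau (xiF (opT (p : F) f)) r := by
      field_simp at H ⊢
      linear_combination H
    have e := sixth_pow P0 1 R0
    rw [pow_one, pow_one] at e
    have e2 : absS (p : F) ^ (3 / 2 : ℝ) = Real.sqrt (absS (p : F)) ^ 3 := by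
      rw [Real.sqrt_eq_rpow, ← Real.rpow_natCast, ← Real.rpow_mul (absS_pos P0).le]; norm_num
    rw [tt, tt, H', e, e2, sqrt_nm P0]
    push_cast
    generalize (Real.sqrt (absS (p : F)) : ℂ) = σ at hs
    generalize (Real.sqrt (cr (p : F)) : ℂ) = u at ht
    rw [hs, ht]
    have u0 : u ≠ 0 := fun h => t0 (by rw [ht, h]; ring)
    field_simp

end Crest.Agent.T27.TH
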