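import Crest.Agent.T27.ThW_80

/-!
# Row 27, theta module A1: `GeomStmt`
-/

set_option autoImplicit false

noncomputable section

namespace Crest.Agent.T27.TH.G

open scoped ComplexConjugate ENNReal NumberField
open MeasureTheory NumberField
open Crest.Agent.R17 (H hy hp μH Qf actC IsWt)

variable {F : Type} [Field F] [NumberField F] [Emb F]

/-- Rows with entries in `M⁻¹ 𝒪`. -/
abbrev Rows (F : Type) [Field F] (M : ℕ) : Set (F × F) :=
  {u : F × F | IsIntegral ℤ ((M : F) * u.1) ∧ IsIntegral ℤ ((M : F) * u.2)}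

theorem exp_neg_Qv (v : Pl F → ℝ) (w : HH F) (u : F × F) :
    Real.exp (-Qv v w u) =
      Real.exp (-∑ j, Real.exp (v j + lF w j) * ‖em u.1 j - (0 : Pl F → ℂ) j‖ ^ 2) *
        Real.exp (-∑ j, Real.exp (v j - lF w j) * ‖em u.2 j - (-(em u.1 * zF w)) j‖ ^ 2) := by
  rw [← Real.exp_add, Qv_eq, ← neg_add, ← Finset.sum_add_distrib]
  congr 2
  refine Finset.sum_congr rfl fun j _ => ?_
  rw [QF_eq, Real.exp_add, Real.exp_sub, Pi.zero_apply, sub_zero, Pi.neg_apply, sub_neg_eq_add,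
    Pi.mul_apply, add_comm (em u.2 j)]
  field_simp
  ring

/-- The Gaussian sum over rows, uniformly in all parameters. -/
theorem sum_exp_Qv_le {M : ℕ} (hM : M ≠ 0) : ∃ C : ℝ, 0 < C ∧
    ∀ (v : Pl F → ℝ) (w : HH F) (S : Finset (F × F)), (∀ u ∈ S, u ∈ Rows F M) →
      ∑ u ∈ S, Real.exp (-Qv v w u) ≤
        C * ((1 + ∏ j, (Real.exp (v j + lF w j))⁻¹) * (1 + ∏ j, (Real.exp (v j - lF w j))⁻¹)) := by
  classical
  obtain ⟨C, hC, h⟩ := gauss_sum_le (F := F) hM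
  refine ⟨C * C, by positivity, fun v w S hS => ?_⟩
  have hsub : S ⊆ S.image Prod.fst ×ˢ S.image Prod.snd := fun u hu =>
    Finset.mem_product.2 ⟨Finset.mem_image_of_mem _ hu, Finset.mem_image_of_mem _ hu⟩
  refine (Finset.sum_le_sum_of_subset_of_nonneg hsub fun _ _ _ => (Real.exp_pos _).le).trans ?_
  rw [Finset.sum_product]
  have h1 := h 0 (fun j => Real.exp (v j + lF w j)) (S.image Prod.fst) (fun _ => Real.exp_pos _)
    fun x hx => by
      obtain ⟨u, hu, rfl⟩ := Finset.mem_image.1 hx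
      exact (hS u hu).1
  have h2 := fun c : F => h (-(em c * zF w)) (fun j => Real.exp (v j - lF w j)) (S.image Prod.snd)
    (fun _ => Real.exp_pos _) fun x hx => by
      obtain ⟨u, hu, rfl⟩ := Finset.mem_image.1 hx
      exact (hS u hu).2
  simp only [exp_neg_Qv, ← Finset.mul_sum]
  refine (Finset.sum_le_sum fun c _ =>
    mul_le_mul_of_nonneg_left (h2 c) (Real.exp_pos _).le).trans ?_
  rw [← Finset.sum_mul]
  refine (mul_le_mul_of_nonneg_right h1 (by positivity)).trans (le_of_eq ?_)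
  ring

theorem tsum_exp_Qv_le {M : ℕ} (hM : M ≠ 0) : ∃ C : ℝ, 0 < C ∧ ∀ (v : Pl F → ℝ) (w : HH F),
    (Summable fun u : F × F => (Rows F M).indicator (fun u => Real.exp (-Qv v w u)) u) ∧
      ∑' u : F × F, (Rows F M).indicator (fun u => Real.exp (-Qv v w u)) u ≤
        C * ((1 + ∏ j, (Real.exp (v j + lF w j))⁻¹) * (1 + ∏ j, (Real.exp (v j - lF w j))⁻¹)) := by
  classical
  obtain ⟨C, hC, h⟩ := sum_exp_Qv_le (F := F) hM
  refine ⟨C, hC, fun v w => ?_⟩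
  have key : ∀ S : Finset (F × F),
      ∑ u ∈ S, (Rows F M).indicator (fun u => Real.exp (-Qv v w u)) u ≤
        C * ((1 + ∏ j, (Real.exp (v j + lF w j))⁻¹) *
          (1 + ∏ j, (Real.exp (v j - lF w j))⁻¹)) := fun S => by
    simp only [Set.indicator_apply]
    rw [← Finset.sum_filter]
    exact h v w _ fun u hu => (Finset.mem_filter.1 hu).2
  have hs := summable_of_sum_le
    (fun u => Set.indicator_nonneg (fun _ _ => (Real.exp_pos _).le) u) key
  exact ⟨hs, hs.tsum_le_of_sum_le key⟩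

theorem summ {M : ℕ} (hM : M ≠ 0) (v : Pl F → ℝ) (w : HH F) :
    Summable fun u : F × F => (Rows F M).indicator (fun u => Real.exp (-Qv v w u)) u := by
  obtain ⟨C, -, h⟩ := tsum_exp_Qv_le (F := F) hM
  exact (h v w).1

theorem summable_wOf {Δ : Subgroup (SL F)} (hΔ : Δ ≤ Gam0 F) (w : HH F) :
    Summable fun δ : Δ =>
      Real.exp (-(Qv 0 ((δ : SL F) • w) (1, 0) + Qv 0 ((δ : SL F) • w) (0, 1))) := by
  have hs := summ one_ne_zero 0 w
  have h0 : ∀ u, 0 ≤ (Rows F 1).indicator (fun u => Real.exp (-Qv 0 w u)) u :=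
    fun u => Set.indicator_nonneg (fun _ _ => (Real.exp_pos _).le) u
  have h2 := hs.mul_of_nonneg hs h0 h0
  have hi : Function.Injective fun δ : Δ =>
      ((((δ : SL F) 0 0, (δ : SL F) 0 1), ((δ : SL F) 1 0, (δ : SL F) 1 1)) : (F × F) × F × F) := by
    intro δ δ' h
    simp only [Prod.mk.injEq] at h
    refine Subtype.ext (Matrix.SpecialLinearGroup.ext _ _ fun i j => ?_)
    fin_cases i <;> fin_cases j
    exacts [h.1.1, h.1.2, h.2.1, h.2.2]
  refine (h2.comp_injective hi).congr fun δ => ?_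
  have hδ := hΔ δ.2
  simp only [Function.comp, Qv_smul_SL, rmul_one_zero, rmul_zero_one, row2]
  rw [Set.indicator_of_mem (by exact ⟨den_one.2 (hδ _ _), den_one.2 (hδ _ _)⟩),
    Set.indicator_of_mem (by exact ⟨den_one.2 (hδ _ _), den_one.2 (hδ _ _)⟩), ← Real.exp_add,
    neg_add]

theorem isWt_wOf {Δ : Subgroup (SL F)} (hΔ : Δ ≤ Gam0 F) : IsWt Δ (wOf Δ : HH F → ℝ) := by
  have hE : Continuous fun w : HH F => Real.exp (-(Qv 0 w (1, 0) + Qv 0 w (0, 1))) :=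
    Real.continuous_exp.comp ((continuous_Qv _ _).add (continuous_Qv _ _)).neg
  have hm : ∀ δ : Δ, Measurable fun w : HH F =>
      Real.exp (-(Qv 0 ((δ : SL F) • w) (1, 0) + Qv 0 ((δ : SL F) • w) (0, 1))) := fun δ => by
    simp only [Qv_smul_SL]
    exact (Real.continuous_exp.comp ((continuous_Qv _ _).add (continuous_Qv _ _)).neg).measurable
  refine ⟨hE.measurable.div (Measurable.tsum hm), fun w =>
    div_nonneg (Real.exp_pos _).le (tsum_nonneg fun _ => (Real.exp_pos _).le), fun w => ?_⟩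
  have hpos := (summable_wOf hΔ w).tsum_pos (fun _ => (Real.exp_pos _).le) 1 (Real.exp_pos _)
  have h1 := (summable_wOf hΔ w).hasSum.div_const
    (∑' δ : Δ, Real.exp (-(Qv 0 ((δ : SL F) • w) (1, 0) + Qv 0 ((δ : SL F) • w) (0, 1))))
  rw [div_self hpos.ne'] at h1
  refine (funext fun γ => ?_ : _ = fun γ : Δ => wOf Δ (γ • w)) ▸ h1
  unfold wOf
  congr 1
  symm
  simp only [Subgroup.smul_def, ← mul_smul, ← Subgroup.coe_mul]
  exact (Equiv.mulRight γ).tsum_eq fun δ : Δ =>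
    Real.exp (-(Qv 0 ((δ : SL F) • w) (1, 0) + Qv 0 ((δ : SL F) • w) (0, 1)))

theorem thY_aut (ξ : F × F → ℂ) (γ : SL F) (v : Pl F → ℝ) (w : HH F) :
    thY (tr ξ (γ : Mat F)) v (γ • w) = thY ξ v w := by
  unfold thY
  congr 1
  simp only [Qv_smul_SL, tr]
  exact (rowEquiv γ).tsum_eq fun u => ξ u * (Real.exp (-Qv v w u) : ℂ)

omit [NumberField F] [Emb F] in
theorem adm_bound {ξ : F × F → ℂ} (hξ : Adm ξ) : ∃ (M : ℕ) (B : ℝ), M ≠ 0 ∧ 0 ≤ B ∧
    ∀ (u : F × F) (φ : F × F → ℝ), 0 ≤ φ u → ‖ξ u * (φ u : ℂ)‖ ≤ B * (Rows F M).indicator φ u := by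
  obtain ⟨B, hB⟩ := hξ.bdd
  obtain ⟨M, hM, h⟩ := hξ.supp
  have hB0 : 0 ≤ B := (norm_nonneg _).trans (hB 0)
  refine ⟨M, B, hM, hB0, fun u φ hφ => ?_⟩
  by_cases h0 : ξ u = 0
  · rw [h0, zero_mul, norm_zero]
    exact mul_nonneg hB0 (Set.indicator_apply_nonneg fun _ => hφ)
  · rw [Set.indicator_of_mem (by exact ⟨(h u h0).1, (h u h0).2.1⟩), norm_mul, Complex.norm_real,
      Real.norm_of_nonneg hφ]
    exact mul_le_mul_of_nonneg_right (hB u) hφ

theorem summable_thY {ξ : F × F → ℂ} (hξ : Adm ξ) (v : Pl F → ℝ) (w : HH F) :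
    Summable fun u : F × F => ‖ξ u * (Real.exp (-Qv v w u) : ℂ)‖ := by
  obtain ⟨M, B, hM, -, h⟩ := adm_bound hξ
  exact ((summ hM v w).mul_left B).of_nonneg_of_le (fun _ => norm_nonneg _) fun u =>
    h u (fun u => Real.exp (-Qv v w u)) (Real.exp_pos _).le

/-- The comparison constant between `Qf w` and the standard form. -/
def Kf (w : H) : ℝ := (2 + (1 + 2 * ‖w.1‖ ^ 2) / hy w ^ 2) * hy w

theorem Kf_pos (w : H) : 0 < Kf w := by
  have := R17.hy_pos w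
  unfold Kf
  positivity

theorem continuous_Kf : Continuous Kf := by
  have := R17.continuous_hy
  unfold Kf
  refine Continuous.mul (continuous_const.add (Continuous.div (by fun_prop) (by fun_prop)
    fun w => (pow_pos (R17.hy_pos w) 2).ne')) this

theorem le_Kf_mul (w : H) (c d : ℂ) : ‖d‖ ^ 2 + ‖c‖ ^ 2 ≤ Kf w * Qf w c d := by
  have hy0 := R17.hy_pos w
  have h2 : ‖d‖ ≤ ‖c * w.1 + d‖ + ‖c‖ * ‖w.1‖ := by
    rw [← norm_mul]
    simpa using norm_sub_le (c * w.1 + d) (c * w.1)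
  have h3 : ‖d‖ ^ 2 ≤ 2 * ‖c * w.1 + d‖ ^ 2 + 2 * (‖c‖ ^ 2 * ‖w.1‖ ^ 2) := by
    have := pow_le_pow_left₀ (norm_nonneg _) h2 2
    nlinarith [sq_nonneg (‖c * w.1 + d‖ - ‖c‖ * ‖w.1‖)]
  have h4 : Kf w * Qf w c d =
      2 * ‖c * w.1 + d‖ ^ 2 + (1 + 2 * ‖w.1‖ ^ 2) * ‖c‖ ^ 2 + (2 * (‖c‖ ^ 2 * hy w ^ 2) +
        (1 + 2 * ‖w.1‖ ^ 2) / hy w ^ 2 * ‖c * w.1 + d‖ ^ 2) := by
    rw [Kf, Qf]; field_simp; ring
  rw [h4]
  have h5 : 0 ≤ 2 * (‖c‖ ^ 2 * hy w ^ 2) +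
      (1 + 2 * ‖w.1‖ ^ 2) / hy w ^ 2 * ‖c * w.1 + d‖ ^ 2 := by positivity
  nlinarith

/-- Locally uniform lower bound for `Qv`. -/
theorem exists_Qv_ge (v : Pl F → ℝ) (w₀ : HH F) : ∃ (v' : Pl F → ℝ) (U : Set (HH F)),
    U ∈ nhds w₀ ∧ ∀ w ∈ U, ∀ u, Qv v' (pt 0 0) u ≤ Qv v w u := by
  refine ⟨fun j => v j - Real.log (Kf (w₀ j) + 1), {w | ∀ j, Kf (w j) < Kf (w₀ j) + 1}, ?_,
    fun w hw u => Finset.sum_le_sum fun j _ => ?_⟩
  · rw [Set.ofPred_forall]
    exact (isOpen_iInter_of_finite fun j => isOpen_lt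
      (continuous_Kf.comp (continuous_apply j)) continuous_const).mem_nhds
      (Set.mem_iInter.2 fun j => lt_add_one (Kf (w₀ j)))
  have h0 := Kf_pos (w₀ j)
  have h1 := le_Kf_mul (w j) (em u.1 j) (em u.2 j)
  have h2 : Qf (pt (0 : Pl F → ℂ) 0 j) (em u.1 j) (em u.2 j) = ‖em u.2 j‖ ^ 2 + ‖em u.1 j‖ ^ 2 := by
    simp [Qf, pt, hy]
  rw [h2, Real.exp_sub, Real.exp_log (by linarith), div_mul_eq_mul_div, mul_div_assoc]
  refine mul_le_mul_of_nonneg_left ?_ (Real.exp_pos _).le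
  rw [div_le_iff₀ (by linarith), mul_comm]
  exact h1.trans (mul_le_mul_of_nonneg_right (hw j).le (R17.Qf_nonneg _ _ _))

theorem continuous_thY {ξ : F × F → ℂ} (hξ : Adm ξ) (v : Pl F → ℝ) : Continuous (thY ξ v) := by
  obtain ⟨M, B, hM, hB, h⟩ := adm_bound hξ
  refine continuous_const.mul (continuous_iff_continuousAt.2 fun w₀ => ?_)
  obtain ⟨v', U, hU, hv'⟩ := exists_Qv_ge v w₀
  refine (continuousOn_tsum (s := U) (fun u => ?_) ((summ hM v' (pt 0 0)).mul_left B)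
    fun u w hw => ?_).continuousAt hU
  · exact (continuous_const.mul (Complex.continuous_ofReal.comp
      (Real.continuous_exp.comp (continuous_Qv v u).neg))).continuousOn
  refine (h u (fun u => Real.exp (-Qv v w u)) (Real.exp_pos _).le).trans
    (mul_le_mul_of_nonneg_left ?_ hB)
  exact Set.indicator_le_indicator (Real.exp_le_exp.2 (neg_le_neg (hv' w hw u)))

theorem one_add_le {κ : Type} [Fintype κ] {E : ℝ} (hE : 0 ≤ E) {a : κ → ℝ} (ha : ∀ j, 0 ≤ a j) :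
    1 + E * ∏ j, a j ≤ (1 + E) * ∏ j, (1 + a j) := by
  have h1 : 1 ≤ ∏ j, (1 + a j) := by
    simpa using Finset.prod_le_prod (s := Finset.univ) (f := fun _ : κ => (1 : ℝ))
      (g := fun j => 1 + a j) (fun _ _ => zero_le_one) fun j _ => by linarith [ha j]
  have h2 : ∏ j, a j ≤ ∏ j, (1 + a j) :=
    Finset.prod_le_prod (fun j _ => ha j) fun j _ => by linarith
  nlinarith [mul_le_mul_of_nonneg_left h2 hE]

theorem norm_thY_le {ξ : F × F → ℂ} (hξ : Adm ξ) : ∃ C : ℝ, 0 ≤ C ∧ ∀ (v : Pl F → ℝ) (w : HH F),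
    ‖thY ξ v w‖ ≤ C * Real.exp (4 / 3 * ∑ j, v j) *
      ((1 + ∏ j, (Real.exp (v j + lF w j))⁻¹) * (1 + ∏ j, (Real.exp (v j - lF w j))⁻¹)) := by
  obtain ⟨M, B, hM, hB, h⟩ := adm_bound hξ
  obtain ⟨C, hC, h2⟩ := tsum_exp_Qv_le (F := F) hM
  refine ⟨B * C, by positivity, fun v w => ?_⟩
  have h3 := tsum_of_norm_bounded ((h2 v w).1.hasSum.mul_left B) fun u =>
    h u (fun u => Real.exp (-Qv v w u)) (Real.exp_pos _).le
  rw [thY, norm_mul, Complex.norm_real, Real.norm_of_nonneg (Real.exp_pos _).le]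
  refine (mul_le_mul_of_nonneg_left (h3.trans (mul_le_mul_of_nonneg_left (h2 v w).2 hB))
    (Real.exp_pos _).le).trans (le_of_eq ?_)
  ring

theorem thY_le {ξ : F × F → ℂ} (hξ : Adm ξ) (v : Pl F → ℝ) : ∃ C : ℝ, ∀ w : HH F,
    ‖thY ξ v w‖ ≤ C * ∏ j, (1 + Real.exp (w j).2) * (1 + Real.exp (-(w j).2)) := by
  obtain ⟨C, hC, h⟩ := norm_thY_le hξ
  set E := ∏ j, Real.exp (-v j) with hE
  have hE0 : 0 ≤ E := Finset.prod_nonneg fun _ _ => (Real.exp_pos _).le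
  refine ⟨C * Real.exp (4 / 3 * ∑ j, v j) * ((1 + E) * (1 + E)), fun w => (h v w).trans ?_⟩
  have h1 : ∏ j, (Real.exp (v j + lF w j))⁻¹ = E * ∏ j, Real.exp (-(w j).2) := by
    rw [hE, ← Finset.prod_mul_distrib]
    refine Finset.prod_congr rfl fun j _ => ?_
    rw [← Real.exp_neg, ← Real.exp_add, neg_add, lF]
  have h2 : ∏ j, (Real.exp (v j - lF w j))⁻¹ = E * ∏ j, Real.exp (w j).2 := by
    rw [hE, ← Finset.prod_mul_distrib]
    refine Finset.prod_congr rfl fun j _ => ?_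
    rw [← Real.exp_neg, ← Real.exp_add, neg_sub, lF, sub_eq_neg_add]
  rw [h1, h2, mul_assoc _ ((1 + E) * (1 + E)), Finset.prod_mul_distrib]
  refine mul_le_mul_of_nonneg_left ?_ (by positivity)
  refine (mul_le_mul (one_add_le hE0 fun _ => (Real.exp_pos _).le)
    (one_add_le hE0 fun _ => (Real.exp_pos _).le) (by positivity) (by positivity)).trans
    (le_of_eq ?_)
  ring

end Crest.Agent.T27.TH.G

namespace Crest.Agent.T27.TH

/-- **Leaf A1**. -/
theorem geomStmt_80 (F : Type) [Field F] [NumberField F] [Emb F] : GeomStmt F where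
  meas _ := G.measurePreserving_act
  cont _ := G.continuous_act
  lint _ := G.lintegral_μHH
  int _ := G.integral_μHH
  wt _ := G.isWt_wOf
  summ _ v w hM := G.summ hM v w
  aut := G.thY_aut
  thY_cont _ v hξ := G.continuous_thY hξ v
  thY_le _ v hξ := G.thY_le hξ v

end Crest.Agent.T27.TH
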