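import Crest.Agent.T27.KerT_65

/-!
# Row 27, kernel (T): the `S`-adic theta identity `ThetaO` for the model (helper87)
-/

set_option autoImplicit false
set_option linter.unusedSectionVars false

noncomputable section

open NumberField
open scoped nonZeroDivisors

namespace Crest.Agent.T27.ThO87

open HeckeB87 (FI el dl cov)

theorem hasSum_ite_iff {α β M : Type*} [AddCommMonoid M] [TopologicalSpace M] {e : α → β}
    (he : Function.Injective e) {P : α → Prop} [DecidablePred P] {S : Set β}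
    (hS : ∀ b, b ∈ S ↔ ∃ a, P a ∧ e a = b) (g : β → M) (c : M) :
    HasSum (fun a => if P a then g (e a) else 0) c ↔ HasSum (fun s : S => g s) c := by
  have h1 : (fun a => if P a then g (e a) else 0) = S.indicator g ∘ e := by
    funext a
    by_cases hP : P a
    · rw [if_pos hP, Function.comp, Set.indicator_of_mem ((hS _).2 ⟨a, hP, rfl⟩)]
    · rw [if_neg hP, Function.comp, Set.indicator_of_notMem]
      intro h
      obtain ⟨a', h2, h3⟩ := (hS _).1 h
      exact hP (he h3 ▸ h2)
  rw [h1, he.hasSum_iff]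
  · exact hasSum_subtype_iff_indicator.symm
  · intro b hb
    refine Set.indicator_of_notMem (fun h => ?_) _
    obtain ⟨a, -, h3⟩ := (hS _).1 h
    exact hb ⟨a, h3⟩

variable {F : Type*} [Field F] [NumberField F] {N : ℕ} [hG : SGood F N]

theorem el_inj {I J : FI F} (h : ∀ x, x ∈ el I ↔ x ∈ el J) : I = J :=
  Units.ext (FractionalIdeal.ext h)

theorem mem_el_dl {J : FI F} {x : F} : x ∈ el (dl J) ↔ ∀ w ∈ el J, eTr (x * w) = 1 := by
  have h := FractionalIdeal.mem_dual (A := ℤ) (K := ℚ) (L := F) (B := 𝓞 F) J.ne_zero (x := x)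
  refine h.trans (forall₂_congr fun w _ => ?_)
  rw [eTr_eq_one_iff, Algebra.traceForm_apply]
  exact ⟨fun ⟨k, hk⟩ => ⟨k, hk.symm⟩, fun ⟨k, hk⟩ => ⟨k, hk.symm⟩⟩

/-- The lattice `a R ∩ y Λ` is a fractional ideal of norm `N_R(a) N_Λ(y)`. -/
theorem exists_lat {a y : F} (ha : a ≠ 0) (hy : y ≠ 0) :
    ∃ J : FI F, (∀ x, x ∈ el J ↔ x / a ∈ RS F N ∧ x / y ∈ LS F N) ∧
      HeckeB87.nm J = nmQ (Submonoid.powers N) a * nmQ (copM N) y := by
  obtain ⟨m, hm, a', ha'⟩ := exists_nat_mul_eq a
  obtain ⟨n, hn, y', hy'⟩ := exists_nat_mul_eq y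
  have hm' : (m : F) ≠ 0 := by exact_mod_cast hm
  have hn' : (n : F) ≠ 0 := by exact_mod_cast hn
  set M : F := m * n with hM
  have hM0 : M ≠ 0 := mul_ne_zero hm' hn'
  have hMi : IsIntegral ℤ M := (isIntegral_natCast m).mul (isIntegral_natCast n)
  let A : RS F N := ⟨M * a, by
    rw [show M * a = n * a' by rw [hM, ← ha']; ring]
    exact mul_mem (natCast_mem _ n) (coe_mem_LocS a')⟩
  let B : LS F N := ⟨M * y, by
    rw [show M * y = m * y' by rw [hM, ← hy']; ring]
    exact mul_mem (natCast_mem _ m) (coe_mem_LocS y')⟩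
  have hA : (A : F) ≠ 0 := mul_ne_zero hM0 ha
  have hB : (B : F) ≠ 0 := mul_ne_zero hM0 hy
  have hA0 : A ≠ 0 := fun h => hA (by rw [h]; rfl)
  have hB0 : B ≠ 0 := fun h => hB (by rw [h]; rfl)
  have hcop : IsCoprime (idS A) (idS B) := by
    obtain ⟨k, hk⟩ := pow_mem_idS_LS hB0
    refine ((idS_isCoprime_N hA0).pow_right (n := k)).of_isCoprime_of_dvd_right ?_
    rw [Ideal.span_singleton_pow, Ideal.dvd_span_singleton]
    exact hk
  have hI : idS A * idS B ≠ ⊥ :=
    mul_ne_zero (idS_ne_bot (SGood.h0R F N) hA0) (idS_ne_bot (SGood.h0L F N) hB0)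
  have hI' : ((idS A * idS B : Ideal (𝓞 F)) : FractionalIdeal (𝓞 F)⁰ F) ≠ 0 :=
    FractionalIdeal.coeIdeal_ne_zero.2 hI
  have hs : FractionalIdeal.spanSingleton (𝓞 F)⁰ M⁻¹ ≠ 0 := by
    rw [FractionalIdeal.spanSingleton_ne_zero_iff]; exact inv_ne_zero hM0
  refine ⟨Units.mk0 _ (mul_ne_zero hs hI'), fun x => ?_, ?_⟩
  · change x ∈ FractionalIdeal.spanSingleton (𝓞 F)⁰ M⁻¹ * _ ↔ _
    rw [FractionalIdeal.mem_singleton_mul]
    constructor
    · rintro ⟨v, hv, rfl⟩
      obtain ⟨c, hc, rfl⟩ := (FractionalIdeal.mem_coeIdeal _).1 hv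
      rw [Ideal.mul_eq_inf_of_isCoprime hcop] at hc
      have h1 := (dvd_iff_subring hA).1 (mem_idS.1 hc.1)
      have h2 := (dvd_iff_subring hB).1 (mem_idS.1 hc.2)
      refine ⟨?_, ?_⟩
      · convert h1 using 1
        change _ = (c : F) / (M * a)
        rw [show algebraMap (𝓞 F) F c = (c : F) from rfl]; field_simp
      · convert h2 using 1
        change _ = (c : F) / (M * y)
        rw [show algebraMap (𝓞 F) F c = (c : F) from rfl]; field_simp
    · rintro ⟨h1, h2⟩
      have h3 : M * x ∈ RS F N := by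
        rw [show M * x = A * (x / a) by change _ = M * a * _; field_simp]
        exact mul_mem A.2 h1
      have h4 : M * x ∈ LS F N := by
        rw [show M * x = B * (x / y) by change _ = M * y * _; field_simp]
        exact mul_mem B.2 h2
      obtain ⟨c, hc⟩ := exists_coe_of_mem_RS_LS h3 h4
      refine ⟨c, (FractionalIdeal.mem_coeIdeal _).2 ⟨c, ?_, rfl⟩, by rw [hc]; field_simp⟩
      rw [Ideal.mul_eq_inf_of_isCoprime hcop]
      refine ⟨mem_idS.2 ((dvd_iff_subring hA).2 ?_), mem_idS.2 ((dvd_iff_subring hB).2 ?_)⟩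
      · convert h1 using 1
        change (c : F) / (M * a) = _
        rw [hc]; field_simp
      · convert h2 using 1
        change (c : F) / (M * y) = _
        rw [hc]; field_simp
  · have h1 := nmQ_mul_nmQ (N := N) M
    have h2 : nmQ (Submonoid.powers N) M * nmQ (Submonoid.powers N) a = nmS A := by
      rw [← nmQ_mul (SGood.h0R F N), ← nmQ_coe (SGood.h0R F N)]
    have h3 : nmQ (copM N) M * nmQ (copM N) y = nmS B := by
      rw [← nmQ_mul (SGood.h0L F N), ← nmQ_coe (SGood.h0L F N)]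
    have h4 := nmQ_pos (SGood.h0R F N) hM0
    have h5 := nmQ_pos (SGood.h0L F N) hM0
    rw [HeckeB87.nm, Units.val_mk0, map_mul, FractionalIdeal.absNorm_span_singleton,
      FractionalIdeal.coeIdeal_absNorm, map_mul, ← nmS_eq (SGood.h0R F N),
      ← nmS_eq (SGood.h0L F N), Algebra.norm_inv]
    push_cast
    rw [← h2, ← h3, abs_inv, ← h1]
    field_simp

variable (N) in
/-- the character `ψ_S`, trivial on `Λ` -/
def pS (x : F) : ℂ := eTr (x - sPart N x)

theorem eTr_eq (x : F) : eTr x = pS N x * psiS N x := by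
  rw [pS, psiS, ← eTr_add, sub_add_cancel]

theorem psiS_ne (x : F) : psiS N x ≠ 0 := fun h => by
  have := norm_psiS (N := N) x
  rw [h, norm_zero] at this
  exact zero_ne_one this

theorem pS_add (x y : F) : pS N (x + y) = pS N x * pS N y := by
  have h := eTr_add x y
  rw [eTr_eq (N := N), eTr_eq (N := N) x, eTr_eq (N := N) y, psiS_add hG.ne] at h
  refine mul_right_cancel₀ (mul_ne_zero (psiS_ne (N := N) x) (psiS_ne (N := N) y)) ?_
  rw [h]; ring

theorem pS_of_mem_LS {l : F} (hl : l ∈ LS F N) : pS N l = 1 := by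
  have h := eTr_eq (N := N) l
  rw [← psiS_of_mem_LS hG.ne hl] at h
  exact (mul_right_cancel₀ (psiS_ne (N := N) l) (by rw [← h, one_mul])).symm

theorem pS_of_mem_RS {r : F} (hr : r ∈ RS F N) : pS N r = eTr r := by
  rw [eTr_eq (N := N) r, psiS_of_mem_RS hG.ne hr, mul_one]

variable (F N) in
/-- The local different. -/
theorem exists_delta : ∃ δ : F, δ ≠ 0 ∧ ∀ x : F, (∀ l ∈ LS F N, pS N (x * l) = 1) ↔
    x * δ ∈ LS F N := by
  have hD : ((discr F : ℤ) : F) ≠ 0 := Int.cast_ne_zero.2 (discr_ne_zero F)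
  let I : Ideal (LS F N) :=
    { carrier := {v | ∀ l ∈ LS F N, pS N ((v : F) / discr F * l) = 1}
      add_mem' := fun {u v} hu hv l hl => by
        rw [show ((u + v : LS F N) : F) / discr F * l =
          (u : F) / discr F * l + (v : F) / discr F * l by push_cast; ring, pS_add, hu l hl,
          hv l hl, one_mul]
      zero_mem' := fun l _ => pS_of_mem_LS (by simp)
      smul_mem' := fun c v hv l hl => by
        rw [show ((c • v : LS F N) : F) / discr F * l = (v : F) / discr F * (c * l) by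
          rw [smul_eq_mul]; push_cast; ring]
        exact hv _ (mul_mem c.2 hl) }
  have hI : ∀ v : LS F N, v ∈ I ↔ ∀ l ∈ LS F N, pS N ((v : F) / discr F * l) = 1 :=
    fun v => Iff.rfl
  obtain ⟨g, hg⟩ := (IsPrincipalIdealRing.principal I).principal
  have hdI : (⟨discr F, intCast_mem _ _⟩ : LS F N) ∈ I := (hI _).2 fun l hl =>
    pS_of_mem_LS (by change ((discr F : ℤ) : F) / discr F * l ∈ _; rw [div_self hD, one_mul]; exact hl)
  have hg0 : (g : F) ≠ 0 := by
    intro h0
    have : g = 0 := Subtype.ext h0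
    rw [hg, this, Submodule.span_zero_singleton, Submodule.mem_bot] at hdI
    exact hD (congrArg Subtype.val hdI)
  have hmem : ∀ v : LS F N, v ∈ I ↔ (v : F) / g ∈ LS F N := fun v => by
    rw [hg, ← dvd_iff_subring hg0]
    exact Ideal.mem_span_singleton
  refine ⟨discr F / g, div_ne_zero hD hg0, fun x => ⟨fun h => ?_, fun h l hl => ?_⟩⟩
  · obtain ⟨r, hr, l, hl, hx⟩ := exists_add_pow hG.ne 0 x
    rw [pow_zero, one_mul] at hx
    have h1 : IsIntegral ℤ ((discr F : F) * r) := isIntegral_discr_mul fun a => by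
      have h2 := h a (coe_mem_LocS a)
      rwa [hx, add_mul, pS_add, pS_of_mem_LS (mul_mem hl (coe_mem_LocS a)), mul_one,
        pS_of_mem_RS (mul_mem hr (coe_mem_LocS a))] at h2
    have h3 : (discr F : F) * x ∈ LS F N := by
      rw [hx, mul_add]
      exact add_mem (mem_LocS_of_isIntegral h1) (mul_mem (intCast_mem _ _) hl)
    have h4 : (⟨_, h3⟩ : LS F N) ∈ I := (hI _).2 fun l hl => by
      change pS N ((discr F : F) * x / discr F * l) = 1
      rw [mul_div_cancel_left₀ _ hD]
      exact h l hl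
    have h5 := (hmem _).1 h4
    convert h5 using 1
    change _ = (discr F : F) * x / g
    ring
  · have h1 : g ∈ I := by rw [hg]; exact Submodule.mem_span_singleton_self g
    have h2 := (hI g).1 h1 _ (mul_mem h hl)
    convert h2 using 2
    field_simp

theorem exists_mul_mem {M : Submonoid ℕ} {a : F} (ha : a ≠ 0) (x : F) :
    ∃ m : F, m ≠ 0 ∧ m / a ∈ LocS F M ∧ x * m ∈ LocS F M := by
  obtain ⟨n, hn, c, hc⟩ := exists_nat_mul_eq (x * a)
  refine ⟨a * n, mul_ne_zero ha (by exact_mod_cast hn), ?_, ?_⟩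
  · rw [mul_div_cancel_left₀ _ ha]; exact natCast_mem _ n
  · rw [show x * (a * n) = c by rw [← hc]; ring]; exact coe_mem_LocS c

/-- The dual of `a R ∩ y Λ`. -/
theorem mem_dl_lat {δ : F} (hδ : ∀ x : F, (∀ l ∈ LS F N, pS N (x * l) = 1) ↔ x * δ ∈ LS F N)
    {a y : F} (ha : a ≠ 0) (hy : y ≠ 0) {J : FI F}
    (hJ : ∀ x, x ∈ el J ↔ x / a ∈ RS F N ∧ x / y ∈ LS F N) (x : F) :
    x ∈ el (dl J) ↔ x * a ∈ RS F N ∧ x * y * δ ∈ LS F N := by
  rw [mem_el_dl]
  constructor
  · intro h
    obtain ⟨m, hm, hm1, hm2⟩ := exists_mul_mem (M := Submonoid.powers N) ha x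
    obtain ⟨n, hn, hn1, hn2⟩ := exists_mul_mem (M := copM N) hy x
    refine ⟨mem_RS_of_psiS fun r hr => ?_, (hδ _).1 fun l hl => ?_⟩
    · obtain ⟨w, ⟨r', hr', h1⟩, l', hl', h2⟩ := exists_approx hG.ne hm hn (a * r) 0
      rw [zero_add] at h2
      have h3 : w ∈ el J := (hJ w).2 ⟨by
        rw [h1, show (a * r + m * r') / a = r + m / a * r' by field_simp]
        exact add_mem hr (mul_mem hm1 hr'), by
        rw [h2, show n * l' / y = n / y * l' by ring]
        exact mul_mem hn1 hl'⟩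
      have h4 : x * w ∈ LS F N := by rw [h2, ← mul_assoc]; exact mul_mem hn2 hl'
      rw [← h w h3, ← psiS_of_mem_LS hG.ne h4]
      refine psiS_congr hG.ne ?_
      rw [h1, show x * a * r - x * (a * r + m * r') = -(x * m * r') by ring]
      exact neg_mem (mul_mem hm2 hr')
    · obtain ⟨w, ⟨r', hr', h1⟩, l', hl', h2⟩ := exists_approx hG.ne hm hn 0 (y * l)
      rw [zero_add] at h1
      have h3 : w ∈ el J := (hJ w).2 ⟨by
        rw [h1, show m * r' / a = m / a * r' by ring]
        exact mul_mem hm1 hr', by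
        rw [h2, show (y * l + n * l') / y = l + n / y * l' by field_simp]
        exact add_mem hl (mul_mem hn1 hl')⟩
      have h4 : x * w ∈ RS F N := by rw [h1, ← mul_assoc]; exact mul_mem hm2 hr'
      rw [← h w h3, ← pS_of_mem_RS h4, h2, mul_add, pS_add, ← mul_assoc x n,
        pS_of_mem_LS (mul_mem hn2 hl'), mul_one, mul_assoc]
  · rintro ⟨h1, h2⟩ w hw
    obtain ⟨h3, h4⟩ := (hJ w).1 hw
    rw [eTr_eq (N := N), psiS_of_mem_RS hG.ne (by
      rw [show x * w = x * a * (w / a) by field_simp]; exact mul_mem h1 h3), mul_one,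
      show x * w = x * y * (w / y) by field_simp]
    exact (hδ _).2 h2 _ h4

theorem absS_delta {δ : F} (h0 : δ ≠ 0)
    (hδ : ∀ x : F, (∀ l ∈ LS F N, pS N (x * l) = 1) ↔ x * δ ∈ LS F N) :
    absS N δ = |(discr F : ℝ)|⁻¹ := by
  obtain ⟨J, hJ, hn⟩ := exists_lat (N := N) (one_ne_zero (α := F)) (one_ne_zero (α := F))
  obtain ⟨J', hJ', hn'⟩ := exists_lat (N := N) (one_ne_zero (α := F)) (inv_ne_zero h0)
  have h1 : dl J = J' := el_inj fun x => by
    rw [mem_dl_lat hδ one_ne_zero one_ne_zero hJ, hJ']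
    simp
  have h2 := HeckeB87.nm_dl J
  have h3 : nmQ (Submonoid.powers N) (1 : F) = 1 :=
    nmQ_of_mem_unitsIn (SGood.h0R F N) (x := (1 : Fˣ)) (one_mem _)
  have h4 : nmQ (copM N) (1 : F) = 1 :=
    nmQ_of_mem_unitsIn (SGood.h0L F N) (x := (1 : Fˣ)) (one_mem _)
  rw [h1, hn, hn', h3, h4] at h2
  have h5 := absS_inv (N := N) δ
  rw [absS, inv_inj] at h5
  rw [← h5, ← h2]; ring

theorem gs_div (t : InfinitePlace F → ℝ) (h q : F) :
    HeckeB87.gs (fun w => (t w)⁻¹) (h / q) =
      HeckeB87.gs (fun w => (t w * w q ^ 2)⁻¹) h := by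
  simp only [HeckeB87.gs, HeckeB87.gz, InfinitePlace.apply, map_div₀, norm_div]
  congr 3
  refine Finset.sum_congr rfl fun φ _ => ?_
  rw [div_pow, mul_inv]; ring

end Crest.Agent.T27.ThO87

namespace Crest.Agent.T27

open ThO87 HeckeB87

/-- **Theta inversion on the lattices `R ∩ yΛ`.** -/
theorem thetaO_87 [Fr0] {F : Type*} [Field F] [NumberField F] {N J : ℕ} {j : O →+* F}
    (h : IsModel F N J j) : ThetaO F N j := by
  classical
  have hG := h.good
  obtain ⟨δ, h0, hδ⟩ := exists_delta F N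
  refine ⟨δ, h0, absS_delta h0 hδ, fun y t hy ht => ⟨?_, fun q f hq hf => ?_⟩⟩
  · obtain ⟨L, hL, -⟩ := exists_lat (N := N) (one_ne_zero (α := F)) hy
    obtain ⟨c, hc⟩ := summable_gs L ht 0
    refine ⟨c, (hasSum_ite_iff h.inj (P := fun x => j x / y ∈ LS F N) (S := el L) (fun b => ?_)
      (HeckeB87.gs t) c).2 (by simpa using hc)⟩
    rw [hL, div_one]
    exact ⟨fun ⟨h1, h2⟩ => by
      obtain ⟨a, rfl⟩ := h.exists_eq h1
      exact ⟨a, h2, rfl⟩, fun ⟨a, h2, e⟩ => e ▸ ⟨h.mem a, h2⟩⟩
  have hq' := h.ne_zero hq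
  obtain ⟨L, hL, hn⟩ := exists_lat (N := N) hq' hy
  set c : ℝ := absS N y / (nr q * Real.sqrt |(discr F : ℝ)| * Real.sqrt (∏ w, t w ^ w.mult))
    with hc
  have hc' : (cov L * Real.sqrt (∏ w, t w ^ w.mult))⁻¹ = c := by
    rw [hc, cov, hn, ← h.nr_eq_nmQ, absS]
    ring
  set G : O → ℂ := fun k => HeckeB87.gs (fun w => (t w * w (j q) ^ 2)⁻¹) (j k) with hGd
  have key : ∀ a : O, ∃ s : ℂ,
      HasSum (fun x : O => if q ∣ x - a ∧ j x / y ∈ LS F N then (HeckeB87.gs t (j x) : ℂ) else 0) s ∧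
      HasSum (fun k : O => if j k / (j q / (δ * y)) ∈ LS F N then c * G k * eq (k * a) q else 0)
        s := by
    intro a
    obtain ⟨z, ⟨r, hr, hz1⟩, l, hl, hz2⟩ := exists_approx hG.ne hq' hy (j a) 0
    rw [zero_add] at hz2
    have hzy : z / y ∈ LS F N := by rw [hz2, mul_div_cancel_left₀ _ hy]; exact hl
    refine ⟨∑' x : el L, ((HeckeB87.gs t (z + x) : ℝ) : ℂ), ?_, ?_⟩
    · have h1 := (Complex.summable_ofReal.2 (summable_gs L ht z)).hasSum
      have h2 := (hasSum_ite_iff (e := fun x : O => j x - z)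
        (fun x x' e => h.inj (sub_left_injective e))
        (P := fun x => q ∣ x - a ∧ j x / y ∈ LS F N) (S := el L) (fun b => ?_)
        (fun w => ((HeckeB87.gs t (z + w) : ℝ) : ℂ)) _).2 h1
      · simpa only [add_sub_cancel] using h2
      rw [hL]
      constructor
      · rintro ⟨h3, h4⟩
        have h5 : z + b ∈ RS F N := by
          rw [hz1, show j a + j q * r + b = j a + j q * (r + b / j q) by field_simp; ring]
          exact add_mem (h.mem a) (mul_mem (h.mem q) (add_mem hr h3))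
        obtain ⟨x, hx⟩ := h.exists_eq h5
        refine ⟨x, ⟨(h.dvd_iff hq).2 ?_, ?_⟩, by rw [hx]; ring⟩
        · rw [map_sub, hx, hz1, show (j a + j q * r + b - j a) / j q = r + b / j q by
            field_simp; ring]
          exact add_mem hr h3
        · rw [hx, add_div]; exact add_mem hzy h4
      · rintro ⟨x, ⟨h3, h4⟩, rfl⟩
        refine ⟨?_, by rw [sub_div]; exact sub_mem h4 hzy⟩
        have h5 := (h.dvd_iff hq).1 h3
        rw [hz1, show (j x - (j a + j q * r)) / j q = j (x - a) / j q - r by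
          rw [map_sub]; field_simp; ring]
        exact sub_mem h5 hr
    · have h1 := theta_coset L ht z
      rw [hc'] at h1
      have h2 := (hasSum_ite_iff (e := fun k : O => j k / j q)
        (fun x x' e => h.inj ((div_left_inj' hq').1 e))
        (P := fun k => j k / (j q / (δ * y)) ∈ LS F N) (S := el (dl L)) (fun b => ?_)
        (fun v => ((c * HeckeB87.gs (fun w => (t w)⁻¹) v : ℝ) : ℂ) * eTr (z * v)) _).2 h1
      · convert h2 using 2 with k
        split_ifs with hk
        · rw [gs_div, h.eq_eq, eTr_eq (N := N)]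
          have h3 : pS N (z * (j k / j q)) = 1 := by
            rw [show z * (j k / j q) = j k / j q * y * (z / y) by field_simp]
            refine (hδ _).2 ?_ _ hzy
            convert hk using 1
            field_simp
          have h4 : psiS N (z * (j k / j q)) = psiS N (j (k * a) / j q) := by
            refine psiS_congr hG.ne ?_
            rw [hz1, map_mul, show (j a + j q * r) * (j k / j q) - j k * j a / j q = r * j k by
              field_simp; ring]
            exact mul_mem hr (h.mem k)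
          rw [h3, h4, hGd]
          push_cast
          ring
        · rfl
      rw [mem_dl_lat hδ hq' hy hL]
      constructor
      · rintro ⟨h3, h4⟩
        obtain ⟨k, hk⟩ := h.exists_eq h3
        refine ⟨k, ?_, by rw [hk]; field_simp⟩
        convert h4 using 1
        rw [hk]; field_simp
      · rintro ⟨k, hk, rfl⟩
        refine ⟨by rw [div_mul_cancel₀ _ hq']; exact h.mem k, ?_⟩
        convert hk using 1
        field_simp
  choose s hs1 hs2 using key
  have H1 := hasSum_sum (s := res q) fun a _ => (hs1 a).mul_left (f a)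
  have H2 := hasSum_sum (s := res q) fun a _ => (hs2 a).mul_left (f a)
  rw [← tsum_mul_left]
  refine (tsum_congr fun x => ?_).trans
    ((H1.tsum_eq.trans H2.tsum_eq.symm).trans (tsum_congr fun k => ?_))
  · obtain ⟨a, ⟨ha, hxa⟩, hu⟩ := exists_unique_res hq x
    rw [Finset.sum_eq_single_of_mem a ha fun b hb hne => by
      rw [if_neg fun hh => hne (hu b ⟨hb, hh.1⟩), mul_zero]]
    by_cases hx : j x / y ∈ LS F N
    · rw [if_pos hx, if_pos ⟨hxa, hx⟩, hf x a hxa]
    · rw [if_neg hx, if_neg fun hh => hx hh.2, mul_zero]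
  · by_cases hk : j k / (j q / (δ * y)) ∈ LS F N
    · simp only [if_pos hk, ft, Finset.sum_mul, Finset.mul_sum]
      exact Finset.sum_congr rfl fun a _ => by rw [hGd]; ring
    · simp only [if_neg hk, mul_zero, Finset.sum_const_zero]

end Crest.Agent.T27
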