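import Crest.Agent.T27.ThB1_83

/-!
# Row 27, theta module B1 (continued): the action `rho`, the bracket `f⟨t⟩`, `ξ_f (u g)`
-/

set_option autoImplicit false

noncomputable section

namespace Crest.Agent.T27.B83

open scoped BigOperators ComplexConjugate

/-! ## building `Bi` and `Sy` from a reciprocity law -/

/-- The Steinberg relation follows from the reciprocity law. -/
theorem stein_of_recip {F : Type*} [Field F] {R : Type*} [CommRing R] [IsDomain R]
    [IsPrincipalIdealRing R] [Algebra R F] [IsFractionRing R F] (c : F → F → ZMod 3)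
    (s : R → R → ZMod 3) (h0l : ∀ y, c 0 y = 0) (h0r : ∀ x, c x 0 = 0)
    (hml : ∀ {x x' : F} (y : F), x ≠ 0 → x' ≠ 0 → c (x * x') y = c x y + c x' y)
    (hmr : ∀ (x : F) {y y' : F}, y ≠ 0 → y' ≠ 0 → c x (y * y') = c x y + c x y')
    (hself : ∀ x, c x x = 0)
    (hcongr : ∀ {x x' y : R}, y ∣ x - x' → s x y = s x' y)
    (hneg : ∀ {x y : R}, IsCoprime x y → s (-x) y = s x y)
    (hrec : ∀ {x y : R}, IsCoprime x y → x ≠ 0 → y ≠ 0 →
      c (algebraMap R F x) (algebraMap R F y) = s x y - s y x) (x : F) : c x (1 - x) = 0 := by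
  rcases eq_or_ne x 0 with rfl | hx
  · exact h0l _
  rcases eq_or_ne (1 - x) 0 with h1 | h1
  · rw [h1]; exact h0r _
  obtain ⟨a, b, hab, e⟩ := IsFractionRing.exists_reduced_fraction R x
  have hb : (b : R) ≠ 0 := nonZeroDivisors.coe_ne_zero b
  have inj := IsFractionRing.injective R F
  have hbF : algebraMap R F b ≠ 0 := (map_ne_zero_iff _ inj).2 hb
  have ex : x * algebraMap R F b = algebraMap R F a := by
    rw [← e, IsLocalization.mk'_spec]
  have haF : algebraMap R F a ≠ 0 := by rw [← ex]; exact mul_ne_zero hx hbF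
  have ha : a ≠ 0 := (map_ne_zero_iff _ inj).1 haF
  have ey : (1 - x) * algebraMap R F b = algebraMap R F (b - a) := by
    rw [map_sub, ← ex]; ring
  have hcF : algebraMap R F (b - a) ≠ 0 := by rw [← ey]; exact mul_ne_zero h1 hbF
  have hc : (b : R) - a ≠ 0 := (map_ne_zero_iff _ inj).1 hcF
  have hco : IsCoprime a (b : R) := hab.isCoprime
  have h1' : IsCoprime a ((b : R) - a) := by
    obtain ⟨p, q, hpq⟩ := hco
    exact ⟨p + q, q, by linear_combination hpq⟩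
  have h2' : IsCoprime (b : R) ((b : R) - a) := by
    obtain ⟨p, q, hpq⟩ := hco
    exact ⟨p + q, -p, by linear_combination hpq⟩
  have r1 := hrec h1' ha hc
  have r2 := hrec hco ha hb
  have r3 := hrec h2' hb hc
  have c1 : s (b - a) a = s b a := hcongr ⟨-1, by ring⟩
  have c2 : s (b : R) (b - a) = s a (b - a) := hcongr ⟨1, by ring⟩
  have c3 : s (b - a) b = s a b := by
    rw [← hneg hco]; exact hcongr ⟨1, by ring⟩
  have k1 : c (algebraMap R F a) (algebraMap R F (b - a)) =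
      c x (1 - x) + c x (algebraMap R F b) + c (algebraMap R F b) (algebraMap R F (b - a)) := by
    rw [← ex, hml _ hx hbF]
    congr 1
    rw [← ey, hmr _ h1 hbF]
  have k2 : c (algebraMap R F a) (algebraMap R F b) = c x (algebraMap R F b) := by
    rw [← ex, hml _ hx hbF, hself, add_zero]
  linear_combination r1 - r2 - r3 - k1 + k2 - c1 - c2 + c3

namespace Ar

variable {F : Type*} [Field F] {A : Ar F}

/-! ## the action `rho` -/

theorem X_add_mul (c d x : F) : X c (d + c * x) = X c d := by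
  rcases eq_or_ne c 0 with rfl | hc
  · simp
  · rw [X_ne hc, X_ne hc]

/-- `ρ(n(x) g) = ρ(n(x)) ρ(g)`. -/
theorem rho_N_left (a b c1 d1 x : F) (f : F → F → ℂ) :
    A.rho (a + x * c1) (b + x * d1) c1 d1 f = opN x (A.rho a b c1 d1 f) := by
  funext c d
  have e1 : c * (a + x * c1) + d * c1 = c * a + (d + c * x) * c1 := by ring
  have e2 : c * (b + x * d1) + d * d1 = c * b + (d + c * x) * d1 := by ring
  simp only [rho, opN, kap, e1, e2, X_add_mul]

/-- `ρ(g n(y)) = ρ(g) ρ(n(y))`. -/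
theorem rho_N_right (a b c1 d1 y : F) (f : F → F → ℂ) :
    A.rho a (b + a * y) c1 (d1 + c1 * y) f = A.rho a b c1 d1 (opN y f) := by
  funext c d
  have e2 : c * (b + a * y) + d * (d1 + c1 * y) = c * b + d * d1 + (c * a + d * c1) * y := by ring
  simp only [rho, opN, kap, e2, X_add_mul]

theorem rho_n (x : F) (f : F → F → ℂ) : A.rho 1 x 0 1 f = opN x f := by
  funext c d
  have e1 : c * 1 + d * 0 = c := by ring
  have e2 : c * x + d * 1 = d + c * x := by ring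
  simp only [rho, opN, kap, e1, e2, X_add_mul]
  rcases eq_or_ne (X c d) 0 with h | h
  · simp [h]
  · simp [div_self h]

theorem rho_one (f : F → F → ℂ) : A.rho 1 0 0 1 f = f := by
  rw [rho_n]; funext c d; simp [opN]

/-- The big cell, normalised. -/
theorem rho_w {c1 : F} (h1 : c1 ≠ 0) (f : F → F → ℂ) :
    A.rho 0 (-c1⁻¹) c1 0 f = A.opW (A.opA c1 (A.opD c1⁻¹ f)) := by
  funext c d
  have e1 : c * 0 + d * c1 = c1 * d := by ring
  have e2 : c * -c1⁻¹ + d * 0 = c1⁻¹ * -c := by ring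
  simp only [rho, opW, opA, opD, kap, e1, e2, X_ne h1]
  rw [mul_e3_e3 _ rfl, mul_e3_e3 _ rfl]
  congr 2
  rcases eq_or_ne c 0 with rfl | hc
  · rcases eq_or_ne d 0 with rfl | hd
    · simp [X_zero]
    · rw [X_zero, X_ne (mul_ne_zero h1 hd), mul_div_cancel_right₀ _ hd, mul_div_cancel_left₀ _ h1]
      simp [A.B.mul_right _ h1 hd]
  rcases eq_or_ne d 0 with rfl | hd
  · have e3 : c1⁻¹ * -c / c = -c1⁻¹ := by field_simp
    have e4 : c1⁻¹ * -c / c1 = -(c / c1 ^ 2) := by field_simp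
    rw [mul_zero, X_zero, X_ne hc, e3, e4]
    simp [A.B.div_right _ hc (pow_ne_zero 2 h1), A.B.sq_right, A.B.swap c1 c]
  · rw [X_ne hc, X_ne (mul_ne_zero h1 hd), mul_div_cancel_left₀ _ h1,
      A.B.div_left _ (mul_ne_zero h1 hd) hc, A.B.mul_left _ h1 hd]
    simp [A.B.mul_right _ h1 hd]
    ring

/-- The explicit form of the big cell for `c d ≠ 0`. -/
theorem rho_w_apply {c1 c d : F} (h1 : c1 ≠ 0) (hc : c ≠ 0) (hd : d ≠ 0) (d1 : F) (f : F → F → ℂ) :
    A.rho 0 (-c1⁻¹) c1 d1 f c d = f (d * c1) (d * d1 - c / c1) * e3 (A.B.c c d + A.B.c d c1) := by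
  have e1 : c * 0 + d * c1 = d * c1 := by ring
  have e2 : c * -c1⁻¹ + d * d1 = d * d1 - c / c1 := by ring
  simp only [rho, kap, e1, e2, X_ne h1, X_ne hc, X_ne (mul_ne_zero hd h1)]
  rw [mul_div_cancel_right₀ _ h1, A.B.div_left _ (mul_ne_zero hd h1) hc, A.B.mul_left _ hd h1,
    A.B.swap c1 d, A.B.self]
  congr 2; ring

/-- Bruhat decomposition. -/
theorem rho_bruhat {a b c1 d1 : F} (hdet : a * d1 - b * c1 = 1) (h1 : c1 ≠ 0) (f : F → F → ℂ) :
    A.rho a b c1 d1 f = opN (a / c1) (A.rho 0 (-c1⁻¹) c1 d1 f) := by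
  rw [← rho_N_left]
  congr 1
  · field_simp; ring
  · field_simp; linear_combination -hdet

theorem rho_bruhat' {a b c1 d1 : F} (hdet : a * d1 - b * c1 = 1) (h1 : c1 ≠ 0) (f : F → F → ℂ) :
    A.rho a b c1 d1 f = opN (a / c1) (A.rho 0 (-c1⁻¹) c1 0 (opN (d1 / c1) f)) := by
  rw [rho_bruhat hdet h1, ← rho_N_right]
  congr 2
  · ring
  · field_simp; ring

/-- The torus. -/
theorem rho_h {a : F} (ha : a ≠ 0) (f : F → F → ℂ) :
    A.rho a 0 0 a⁻¹ f = A.opA a (A.opD a⁻¹ f) := by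
  funext c d
  have e1 : c * a + d * 0 = a * c := by ring
  have e2 : c * 0 + d * a⁻¹ = a⁻¹ * d := by ring
  simp only [rho, opA, opD, kap, e1, e2, X_zero]
  rw [mul_e3_e3 _ rfl]
  congr 2
  rcases eq_or_ne c 0 with rfl | hc
  · rcases eq_or_ne d 0 with rfl | hd
    · simp [X_zero]
    · rw [mul_zero, X_zero, X_zero, mul_div_cancel_right₀ _ hd,
        mul_div_cancel_left₀ _ (inv_ne_zero ha)]
      simp [A.B.swap d a]
  · rw [X_ne hc, X_ne (mul_ne_zero ha hc), mul_div_cancel_right₀ _ hc,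
      A.B.div_right _ (mul_ne_zero ha hc) (inv_ne_zero ha)]
    simp [A.B.mul_right _ ha hc]

theorem rho_borel {a b d1 : F} (hdet : a * d1 = 1) (f : F → F → ℂ) :
    A.rho a b 0 d1 f = A.opA a (A.opD a⁻¹ (opN (b / a) f)) := by
  have ha : a ≠ 0 := left_ne_zero_of_mul_eq_one hdet
  rw [← rho_h ha, ← rho_N_right]
  congr 1
  · field_simp; ring
  · rw [zero_mul, add_zero]; exact eq_inv_of_mul_eq_one_right hdet

theorem IsTest.rho {f : F → F → ℂ} (hf : A.IsTest f) {a b c1 d1 : F}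
    (hdet : a * d1 - b * c1 = 1) : A.IsTest (A.rho a b c1 d1 f) := by
  rcases eq_or_ne c1 0 with rfl | h1
  · have h : a * d1 = 1 := by linear_combination hdet
    have ha : a ≠ 0 := left_ne_zero_of_mul_eq_one h
    rw [rho_borel h]
    exact ((hf.opN _).opD (inv_ne_zero ha)).opA ha
  · rw [rho_bruhat' hdet h1, rho_w h1]
    exact ((((hf.opN _).opD (inv_ne_zero h1)).opA h1).opW).opN _

theorem IsTest.rho0 {f : F → F → ℂ} (hf : A.IsTest f) (α : F) {β : F} (hβ : β ≠ 0) :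
    A.IsTest (A.rho 0 β⁻¹ (-β) α f) :=
  hf.rho (by field_simp; ring)

theorem rho_smul (a b c1 d1 : F) (z : ℂ) (f : F → F → ℂ) :
    A.rho a b c1 d1 (fun c d => z * f c d) = fun c d => z * A.rho a b c1 d1 f c d := by
  funext c d; simp only [rho, mul_assoc]

theorem rho_add (a b c1 d1 : F) (f g : F → F → ℂ) :
    A.rho a b c1 d1 (fun c d => f c d + g c d) =
      fun c d => A.rho a b c1 d1 f c d + A.rho a b c1 d1 g c d := by
  funext c d; simp only [rho, add_mul]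

/-- Deep translations act trivially. -/
theorem Test.opN_deep {j : ℕ} {f : F → F → ℂ} (hf : A.Test j f) {x : F}
    (hx : x ∈ A.lat (A.N ^ (j + j))) : Ar.opN x f = f := by
  funext c d
  unfold Ar.opN
  by_cases h : A.N ^ j * c ∈ A.L
  · exact hf.per c (by rw [add_sub_cancel_left]; exact bd_mul_latN h hx)
  · have h1 : ∀ e, f c e = 0 := fun e => by
      by_contra h0; exact h (hf.sup h0).1
    rw [h1, h1]

theorem kap_deep {a b c1 d1 : F} (hdet : a * d1 - b * c1 = 1) (ha : A.P 1 a) (hd : A.P 1 d1)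
    (c d : F) : A.kap a b c1 d1 c d = A.B.c d c - A.B.c d (c * a + d * c1) := by
  have ha0 := ha.ne_zero le_rfl
  have hd0 := hd.ne_zero le_rfl
  unfold kap
  rcases eq_or_ne c 0 with rfl | hc
  · rcases eq_or_ne d 0 with rfl | hd'
    · simp [X_zero]
    rcases eq_or_ne c1 0 with rfl | h1
    · simp [X_zero, mul_div_cancel_left₀ _ hd', hd.c_left le_rfl]
    · simp [X_zero, X_ne h1, X_ne (mul_ne_zero hd' h1), mul_div_cancel_left₀ _ hd',
        mul_div_cancel_right₀ _ h1, A.B.mul_right _ hd' h1, A.B.swap c1 d]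
  rcases eq_or_ne c1 0 with rfl | h1
  · rw [mul_zero, add_zero, X_ne hc, X_ne (mul_ne_zero hc ha0), mul_div_cancel_left₀ _ hc,
      ha.c_left le_rfl, mul_comm c a, ha.c_mul_right le_rfl, sub_self]
  rw [X_ne hc, X_ne h1]
  rcases eq_or_ne d 0 with rfl | hd'
  · rw [zero_mul, add_zero, X_ne (mul_ne_zero hc ha0), mul_div_cancel_left₀ _ hc,
      ha.c_left le_rfl]
    simp
  rcases eq_or_ne (c * a + d * c1) 0 with h2 | h2
  · have e1 : c * b + d * d1 = -(c / c1) := by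
      field_simp; linear_combination d1 * h2 - c * hdet
    have e3 : -(c / c1) / c = -c1⁻¹ := by field_simp
    have e4 : -(c / c1) / c1 = -(c / c1 ^ 2) := by field_simp
    have e5 : A.B.c d c + A.B.c c1 c = 0 := by
      rw [← A.B.mul_left _ hd' h1, show d * c1 = -(a * c) by linear_combination h2, A.B.neg_left,
        ha.c_mul_left le_rfl, A.B.self]
    rw [h2, X_zero, e1, e3, e4]
    simp only [A.B.neg_left, A.B.neg_right, A.B.inv_left, A.B.zero_right,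
      A.B.div_right _ hc (pow_ne_zero 2 h1), A.B.sq_right, A.B.self]
    linear_combination -e5
  · have st := A.B.add_form (mul_ne_zero hc ha0) (mul_ne_zero hd' h1) h2 rfl
    rw [X_ne h2, A.B.div_left _ h2 hc, A.B.div_right _ h2 h1, A.B.div_right _ h2 h1, A.B.self]
    generalize c * a + d * c1 = c' at st ⊢
    rw [mul_comm c a, ha.c_mul_left le_rfl, ha.c_mul_left le_rfl, A.B.mul_right _ hd' h1,
      A.B.mul_right _ hd' h1] at st
    have s1 := A.B.swap c d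
    have s2 := A.B.swap c' d
    linear_combination st - s1 + s2

/-- The principal congruence subgroup of level `N^{2j}` acts trivially. -/
theorem Test.rho_deep {j : ℕ} (hj : 1 ≤ j) {f : F → F → ℂ} (hf : A.Test j f) {a b c1 d1 : F}
    (hdet : a * d1 - b * c1 = 1) (ha : A.P (j + j) a) (hb : b ∈ A.lat (A.N ^ (j + j)))
    (hc : c1 ∈ A.lat (A.N ^ (j + j))) (hd : A.P (j + j) d1) : A.rho a b c1 d1 f = f := by
  funext c d
  unfold Ar.rho
  by_cases h : A.N ^ j * c ∈ A.L ∧ A.N ^ j * d ∈ A.L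
  · have h1 : c * a + d * c1 - c ∈ A.lat (A.N ^ j) := by
      rw [show c * a + d * c1 - c = c * (a - 1) + d * c1 by ring]
      exact add_mem (bd_mul_latN h.1 ha) (bd_mul_latN h.2 hc)
    have h2 : c * b + d * d1 - d ∈ A.lat (A.N ^ j) := by
      rw [show c * b + d * d1 - d = c * b + d * (d1 - 1) by ring]
      exact add_mem (bd_mul_latN h.1 hb) (bd_mul_latN h.2 hd)
    rw [hf.loc c d _ _ h1 h2, kap_deep hdet (ha.mono (by omega)) (hd.mono (by omega)),
      mul_e3_e3 _ (add_neg_cancel _), e3_zero, mul_one]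
  · have h1 : f c d = 0 := by
      by_contra h0; exact h ⟨(hf.sup h0).1, (hf.sup h0).2.1⟩
    have h2 : f (c * a + d * c1) (c * b + d * d1) = 0 := by
      by_contra h0
      obtain ⟨s1, s2, -⟩ := hf.sup h0
      refine h ⟨?_, ?_⟩
      · have := bd_sub (bd_mul_L s1 hd.mem) (bd_mul_L s2 (latN_L hc))
        convert this using 2
        linear_combination (-c) * hdet
      · have := bd_sub (bd_mul_L s2 ha.mem) (bd_mul_L s1 (latN_L hb))
        convert this using 2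
        linear_combination (-d) * hdet
    rw [h1, h2, zero_mul]

/-- Invariance under the principal congruence subgroup gives local constancy. -/
theorem test_of_inv {j : ℕ} (hj : 1 ≤ j) {f : F → F → ℂ} (hb : ∃ C : ℝ, ∀ c d, ‖f c d‖ ≤ C)
    (hs : ∀ c d, f c d ≠ 0 → A.Sup j c d)
    (hi : ∀ a b c1 d1, a * d1 - b * c1 = 1 → A.P j a → b ∈ A.lat (A.N ^ j) →
      c1 ∈ A.lat (A.N ^ j) → A.P j d1 → A.rho a b c1 d1 f = f) : A.Test (j + j + j + j) f := by
  have key : ∀ c d c' d', f c d ≠ 0 → c' - c ∈ A.lat (A.N ^ (j + j + j + j)) →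
      d' - d ∈ A.lat (A.N ^ (j + j + j + j)) → f c' d' = f c d * e3 (A.B.c d c - A.B.c d c') := by
    intro c d c' d' h0 h1 h2
    obtain ⟨sc, sd, p, hp, q, hq, e⟩ := hs c d h0
    have hN := A.Np_ne j
    obtain ⟨P, rfl⟩ : ∃ P, p = A.N ^ j * P := ⟨(A.N ^ j)⁻¹ * p, by field_simp⟩
    obtain ⟨Q, rfl⟩ : ∃ Q, q = A.N ^ j * Q := ⟨(A.N ^ j)⁻¹ * q, by field_simp⟩
    have e1 : c * P + d * Q = 1 := mul_left_cancel₀ hN (by linear_combination e)
    have hδ : A.P (j + j + j) (P * c' + Q * d') := by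
      rw [Ar.P, show P * c' + Q * d' - 1 = P * (c' - c) + Q * (d' - d) by linear_combination e1]
      exact add_mem (bd_mul_latN hp h1) (bd_mul_latN hq h2)
    have hδ0 := hδ.ne_zero (by omega)
    have hε : (P * c' + Q * d')⁻¹ - 1 ∈ A.lat (A.N ^ (j + (j + j))) := by
      rw [← add_assoc]; exact hδ.inv (by omega)
    have hδ1 := mul_inv_cancel₀ hδ0
    generalize (P * c' + Q * d')⁻¹ = ε at hε hδ1
    have g1 : ∀ {x y : F}, A.N ^ j * x ∈ A.L → y ∈ A.lat (A.N ^ (j + j + j + j)) →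
        x * y ∈ A.lat (A.N ^ j) := fun hx hy => latN_mono (by omega) (bd_mul_latN hx hy)
    have g2 : ∀ {x y : F}, A.N ^ j * x ∈ A.L → A.N ^ j * y ∈ A.L →
        x * y * (ε - 1) ∈ A.lat (A.N ^ j) := fun hx hy => bd_mul_latN (bd_mul hx hy) hε
    have ka : A.P j (d * Q * ε + P * c') := by
      rw [Ar.P, show d * Q * ε + P * c' - 1 = d * Q * (ε - 1) + P * (c' - c) by
        linear_combination e1]
      exact add_mem (g2 sd hq) (g1 hp h1)
    have kd : A.P j (c * P * ε + Q * d') := by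
      rw [Ar.P, show c * P * ε + Q * d' - 1 = c * P * (ε - 1) + Q * (d' - d) by
        linear_combination e1]
      exact add_mem (g2 sc hp) (g1 hq h2)
    have kb : P * d' - d * P * ε ∈ A.lat (A.N ^ j) := by
      rw [show P * d' - d * P * ε = P * (d' - d) - d * P * (ε - 1) by ring]
      exact sub_mem (g1 hp h2) (g2 sd hp)
    have kc : Q * c' - c * Q * ε ∈ A.lat (A.N ^ j) := by
      rw [show Q * c' - c * Q * ε = Q * (c' - c) - c * Q * (ε - 1) by ring]
      exact sub_mem (g1 hq h1) (g2 sc hq)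
    have hdet : (d * Q * ε + P * c') * (c * P * ε + Q * d') -
        (P * d' - d * P * ε) * (Q * c' - c * Q * ε) = 1 := by
      linear_combination hδ1 + (P * c' + Q * d') * ε * e1
    have h3 := congrFun (congrFun (hi _ _ _ _ hdet ka kb kc kd) c) d
    have f1 : c * (d * Q * ε + P * c') + d * (Q * c' - c * Q * ε) = c' := by
      linear_combination c' * e1
    have f2 : c * (P * d' - d * P * ε) + d * (c * P * ε + Q * d') = d' := by
      linear_combination d' * e1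
    rw [Ar.rho, kap_deep hdet (ka.mono hj) (kd.mono hj), f1, f2] at h3
    rw [← h3, mul_e3_e3 _ (neg_add_cancel _), e3_zero, mul_one]
  refine ⟨hb, fun c d h => (hs c d h).mono (by omega), fun c d c' d' h1 h2 => ?_⟩
  by_cases h0 : f c d = 0
  · by_contra h3
    rw [h0, zero_mul] at h3
    have := key c' d' c d h3 (by rw [← neg_sub]; exact neg_mem h1)
      (by rw [← neg_sub]; exact neg_mem h2)
    exact mul_ne_zero h3 (e3_ne_zero _) (this.symm.trans h0)
  · exact key c d c' d' h0 h1 h2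

theorem P.c_congr {t t' : F} (ht : A.P 1 t) (ht' : A.P 1 t') (x y : F) :
    A.B.c (x * t) (y * t') = A.B.c x y := by
  rw [mul_comm x, mul_comm y, ht.c_mul_left le_rfl, ht'.c_mul_right le_rfl]

/-- `f^{D k} = f^D` for a deep principal unit `k`. -/
theorem Test.rho_w_deep {j : ℕ} (hj : 1 ≤ j) {f : F → F → ℂ} (hf : A.Test j f) {k D : F}
    (hD : D ≠ 0) (hk : A.P (j + j) k) :
    A.rho 0 (D * k)⁻¹ (-(D * k)) 0 f = A.rho 0 D⁻¹ (-D) 0 f := by
  have hk1 : A.P 1 k := hk.mono (by omega)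
  have hk0 := hk1.ne_zero le_rfl
  have hki := hk1.inv le_rfl
  have hdet : k * k⁻¹ - 0 * 0 = 1 := by field_simp; ring
  have h := hf.rho_deep hj hdet hk (zero_mem _) (zero_mem _) (hk.inv (by omega))
  have h2 : ∀ C E, f (C * k) (E * k⁻¹) = f C E := by
    intro C E
    have h1 := congrFun (congrFun h C) E
    rw [Ar.rho, kap_deep hdet hk1 hki] at h1
    simpa [mul_comm C k, hk1.c_mul_right le_rfl] using h1
  funext c d
  have e1 : c * 0 + d * -(D * k) = (c * 0 + d * -D) * k := by ring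
  have e2 : c * (D * k)⁻¹ + d * 0 = (c * D⁻¹ + d * 0) * k⁻¹ := by rw [mul_inv]; ring
  rw [Ar.rho, Ar.rho, kap, kap, e1, e2, h2, X_ne (neg_ne_zero.2 hD),
    X_ne (neg_ne_zero.2 (mul_ne_zero hD hk0))]
  congr 3
  generalize c * 0 + d * -D = C
  generalize c * D⁻¹ + d * 0 = E
  rcases eq_or_ne C 0 with rfl | hC
  · rw [zero_mul, X_zero, X_zero, ← P.c_congr hki (hki.mul hki) (E / X c d) (E / -D)]
    congr 1 <;> field_simp
  · rw [X_ne hC, X_ne (mul_ne_zero hC hk0), ← P.c_congr hk1 (A.P_one 1) (C / X c d) (C / -D)]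
    congr 1 <;> field_simp

/-! ## the bracket `f⟨t⟩` -/

theorem br_apply (t : F) (f : F → F → ℂ) (c d : F) : A.br t f c d =
    f (t ^ 2 * c) (t * d) *
      e3 (A.B.c t (t ^ 2 * c) + (A.B.c d (t ^ 2 * c) - A.B.c d c - A.B.c d (t ^ 2))) := by
  simp only [br, opA, opD]; rw [mul_e3_e3 _ rfl]

theorem br_apply_ne {t c : F} (ht : t ≠ 0) (hc : c ≠ 0) (f : F → F → ℂ) (d : F) :
    A.br t f c d = f (t ^ 2 * c) (t * d) * e3 (A.B.c t c) := by
  rw [br_apply, A.B.mul_right _ (pow_ne_zero 2 ht) hc, A.B.mul_right _ (pow_ne_zero 2 ht) hc,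
    A.B.sq_right t, A.B.self]
  congr 2; ring

theorem br_apply_zero (t : F) (f : F → F → ℂ) (d : F) :
    A.br t f 0 d = f 0 (t * d) * e3 (A.B.c d t) := by
  rw [br_apply, A.B.sq_right]; simp

theorem br_one (f : F → F → ℂ) : A.br 1 f = f := by
  funext c d; rw [br_apply]; simp

theorem br_smul (t : F) (z : ℂ) (f : F → F → ℂ) :
    A.br t (fun c d => z * f c d) = fun c d => z * A.br t f c d := by
  funext c d; simp only [br_apply, mul_assoc]

/-- `f⟨t⟩⟨t'⟩ = conj c(t, t') f⟨t t'⟩` (for `f (0, 0) = 0`). -/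
theorem br_br {t t' : F} (ht : t ≠ 0) (ht' : t' ≠ 0) {f : F → F → ℂ} (h0 : f 0 0 = 0) :
    A.br t' (A.br t f) = fun c d => e3 (-A.B.c t t') * A.br (t * t') f c d := by
  funext c d
  rcases eq_or_ne c 0 with rfl | hc
  · rw [br_apply_zero, br_apply_zero, br_apply_zero, ← mul_assoc t]
    rcases eq_or_ne d 0 with rfl | hd
    · simp [h0]
    rw [mul_e3_e3 _ rfl, mul_left_comm, ← e3_add, A.B.mul_left _ ht' hd, A.B.mul_right _ ht ht',
      A.B.swap t' t]
    congr 2; ring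
  · rw [br_apply_ne ht' hc, br_apply_ne ht (mul_ne_zero (pow_ne_zero 2 ht') hc),
      br_apply_ne (mul_ne_zero ht ht') hc, mul_e3_e3 _ rfl, mul_left_comm (e3 _), ← e3_add,
      A.B.mul_right _ (pow_ne_zero 2 ht') hc, A.B.sq_right, A.B.mul_left _ ht ht', ← mul_assoc,
      ← mul_assoc, mul_pow]
    congr 2; ring

/-- `f⟨k⟩ = f` for a deep principal unit `k`. -/
theorem Test.br_deep {j : ℕ} (hj : 1 ≤ j) {f : F → F → ℂ} (hf : A.Test j f) {k : F}
    (hk : A.P (j + j) k) : A.br k f = f := by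
  have hk1 : A.P 1 k := hk.mono (by omega)
  have hk0 := hk1.ne_zero le_rfl
  funext c d
  rw [br_apply]
  by_cases h : A.N ^ j * c ∈ A.L ∧ A.N ^ j * d ∈ A.L
  · have h1 : k ^ 2 * c - c ∈ A.lat (A.N ^ j) := by
      rw [← sub_one_mul]; exact latN_mul_bd (hk.pow 2) h.1
    have h2 : k * d - d ∈ A.lat (A.N ^ j) := by
      rw [← sub_one_mul]; exact latN_mul_bd hk h.2
    rw [hf.loc c d _ _ h1 h2, mul_e3_e3 _ rfl, hk1.c_left le_rfl, (hk1.pow 2).c_right le_rfl]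
    simp
  · have h1 : f c d = 0 := by
      by_contra h0; exact h ⟨(hf.sup h0).1, (hf.sup h0).2.1⟩
    have h2 : f (k ^ 2 * c) (k * d) = 0 := by
      by_contra h0
      obtain ⟨s1, s2, -⟩ := hf.sup h0
      refine h ⟨?_, ?_⟩
      · have := bd_mul_L s1 ((hk1.pow 2).inv_mem le_rfl)
        convert this using 2
        field_simp
      · have := bd_mul_L s2 (hk1.inv_mem le_rfl)
        convert this using 2
        field_simp
    rw [h1, h2, zero_mul]

/-- `f⟨m³ r⟩ = (f[m³]⟨r⟩)(m³ ·)`. -/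
theorem br_cube_mul {m r : F} (hm : m ≠ 0) (hr : r ≠ 0) (f : F → F → ℂ) :
    A.br (m ^ 3 * r) f = sc m m (A.br r (sc m 1 f)) := by
  have h3 : m ^ 3 ≠ 0 := pow_ne_zero _ hm
  funext c d
  simp only [sc]
  rcases eq_or_ne c 0 with rfl | hc
  · rw [mul_zero, br_apply_zero, br_apply_zero, A.B.cube_mul_right _ _ hm,
      A.B.cube_mul_left _ _ hm]
    simp only [sc]
    congr 2 <;> ring
  · rw [br_apply_ne (mul_ne_zero h3 hr) hc, br_apply_ne hr (mul_ne_zero h3 hc),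
      A.B.cube_mul_right _ _ hm, A.B.cube_mul_left _ _ hm]
    simp only [sc]
    congr 2 <;> ring

/-! ## the functions `ξ_f` -/

variable (A) in
/-- Coprime rows of `R`. -/
def Cop (c d : F) : Prop := c ∈ A.R ∧ d ∈ A.R ∧ ∃ p ∈ A.R, ∃ q ∈ A.R, p * c + q * d = 1

variable (A) in
open Classical in
/-- The exponent of the cubic symbol `(x / y)` as a function on `F`. -/
def sy (x y : F) : ZMod 3 := if h : x ∈ A.R ∧ y ∈ A.R then A.S.s ⟨x, h.1⟩ ⟨y, h.2⟩ else 0

theorem sy_coe (x y : A.R) : A.sy x y = A.S.s x y := dif_pos ⟨x.2, y.2⟩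

theorem sy_mk {x y : F} (hx : x ∈ A.R) (hy : y ∈ A.R) : A.sy x y = A.S.s ⟨x, hx⟩ ⟨y, hy⟩ :=
  dif_pos ⟨hx, hy⟩

theorem cop_mk {c d : F} (hc : c ∈ A.R) (hd : d ∈ A.R) :
    A.Cop c d ↔ IsCoprime (⟨c, hc⟩ : A.R) ⟨d, hd⟩ := by
  constructor
  · rintro ⟨-, -, p, hp, q, hq, e⟩
    exact ⟨⟨p, hp⟩, ⟨q, hq⟩, Subtype.ext e⟩
  · rintro ⟨p, q, e⟩
    exact ⟨hc, hd, p, p.2, q, q.2, congrArg Subtype.val e⟩

theorem cop_coe (c d : A.R) : A.Cop c d ↔ IsCoprime c d := cop_mk c.2 d.2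

theorem Cop.symm {c d : F} (h : A.Cop c d) : A.Cop d c := by
  obtain ⟨h1, h2, p, hp, q, hq, e⟩ := h
  exact ⟨h2, h1, q, hq, p, hp, by rw [← e]; ring⟩

theorem xi_of_cop {c d : F} (h : A.Cop c d) (f : F → F → ℂ) :
    A.xi f c d = f c d * e3 (A.sy d c) := by
  rw [xi, dif_pos ⟨h.1, h.2.1⟩, if_pos ((cop_mk _ _).1 h), sy_mk h.2.1 h.1]

theorem xi_of_not_cop {c d : F} (h : ¬ A.Cop c d) (f : F → F → ℂ) : A.xi f c d = 0 := by
  rw [xi]
  split_ifs with h1 h2
  · exact absurd ((cop_mk _ _).2 h2) h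
  · rfl
  · rfl

theorem xi_ne_zero {f : F → F → ℂ} {c d : F} (h : A.xi f c d ≠ 0) : A.Cop c d ∧ f c d ≠ 0 := by
  by_cases h1 : A.Cop c d
  · rw [xi_of_cop h1] at h; exact ⟨h1, left_ne_zero_of_mul h⟩
  · exact absurd (xi_of_not_cop h1 f) h

theorem norm_xi_le (f : F → F → ℂ) (c d : F) : ‖A.xi f c d‖ ≤ ‖f c d‖ := by
  by_cases h1 : A.Cop c d
  · rw [xi_of_cop h1, norm_mul, norm_e3, mul_one]
  · rw [xi_of_not_cop h1, norm_zero]; exact norm_nonneg _

theorem xi_smul (z : ℂ) (f : F → F → ℂ) (c d : F) :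
    A.xi (fun c d => z * f c d) c d = z * A.xi f c d := by
  by_cases h1 : A.Cop c d
  · rw [xi_of_cop h1, xi_of_cop h1, mul_assoc]
  · rw [xi_of_not_cop h1, xi_of_not_cop h1, mul_zero]

theorem xi_add (f g : F → F → ℂ) (c d : F) :
    A.xi (fun c d => f c d + g c d) c d = A.xi f c d + A.xi g c d := by
  by_cases h1 : A.Cop c d
  · rw [xi_of_cop h1, xi_of_cop h1, xi_of_cop h1, add_mul]
  · rw [xi_of_not_cop h1, xi_of_not_cop h1, xi_of_not_cop h1, add_zero]

theorem xi_sum {ι : Type*} (s : Finset ι) (f : ι → F → F → ℂ) (c d : F) :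
    A.xi (fun c d => ∑ i ∈ s, f i c d) c d = ∑ i ∈ s, A.xi (f i) c d := by
  by_cases h1 : A.Cop c d
  · simp only [xi_of_cop h1, Finset.sum_mul]
  · simp only [xi_of_not_cop h1, Finset.sum_const_zero]

theorem cop_mul_iff {a b c1 d1 : F} (ha : a ∈ A.R) (hb : b ∈ A.R) (hc : c1 ∈ A.R) (hd : d1 ∈ A.R)
    (hdet : a * d1 - b * c1 = 1) (c d : F) :
    A.Cop (c * a + d * c1) (c * b + d * d1) ↔ A.Cop c d := by
  constructor
  · rintro ⟨h1, h2, p, hp, q, hq, e⟩
    refine ⟨?_, ?_, p * a + q * b, add_mem (mul_mem hp ha) (mul_mem hq hb), p * c1 + q * d1,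
      add_mem (mul_mem hp hc) (mul_mem hq hd), by rw [← e]; ring⟩
    · convert sub_mem (mul_mem h1 hd) (mul_mem h2 hc) using 1
      linear_combination (-c) * hdet
    · convert sub_mem (mul_mem h2 ha) (mul_mem h1 hb) using 1
      linear_combination (-d) * hdet
  · rintro ⟨h1, h2, p, hp, q, hq, e⟩
    exact ⟨add_mem (mul_mem h1 ha) (mul_mem h2 hc), add_mem (mul_mem h1 hb) (mul_mem h2 hd),
      p * d1 - q * b, sub_mem (mul_mem hp hd) (mul_mem hq hb), q * a - p * c1,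
      sub_mem (mul_mem hq ha) (mul_mem hp hc), by linear_combination e + (p * c + q * d) * hdet⟩

theorem coe_X (c d : A.R) : algebraMap A.R F (X c d) = X (c : F) (d : F) := by
  rcases eq_or_ne c 0 with rfl | hc
  · rw [X_zero, ZeroMemClass.coe_zero, X_zero]; rfl
  · rw [X_ne hc, X_ne (by exact_mod_cast hc)]; rfl

/-- MASTER in terms of `sy` and `kap`. -/
theorem sy_master {a b c1 d1 : F} (ha : a ∈ A.R) (hb : b ∈ A.R) (hc : c1 ∈ A.R) (hd : d1 ∈ A.R)
    (hdet : a * d1 - b * c1 = 1) {c d : F} (h : A.Cop c d) :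
    A.sy (c * b + d * d1) (c * a + d * c1) = A.sy d c + A.sy d1 c1 - A.kap a b c1 d1 c d := by
  have := A.pid
  have := A.inf
  have h' := (cop_mul_iff ha hb hc hd hdet c d).2 h
  have key := A.S.master (a := ⟨a, ha⟩) (b := ⟨b, hb⟩) (c1 := ⟨c1, hc⟩) (d1 := ⟨d1, hd⟩)
    (c := ⟨c, h.1⟩) (d := ⟨d, h.2.1⟩) (c' := ⟨_, h'.1⟩) (d' := ⟨_, h'.2.1⟩) (Subtype.ext hdet)
    ((cop_mk _ _).1 h) rfl rfl
  rw [coe_X, coe_X, coe_X] at key
  rw [sy_mk h'.2.1 h'.1, sy_mk h.2.1 h.1, sy_mk hd hc, key]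
  rfl

/-- `ξ_f (u g) = (d₁ / c₁) ξ_{ρ(g) f} (u)` for `g ∈ SL₂(R)`. -/
theorem xi_rho {a b c1 d1 : F} (ha : a ∈ A.R) (hb : b ∈ A.R) (hc : c1 ∈ A.R) (hd : d1 ∈ A.R)
    (hdet : a * d1 - b * c1 = 1) (f : F → F → ℂ) (c d : F) :
    A.xi f (c * a + d * c1) (c * b + d * d1) = e3 (A.sy d1 c1) * A.xi (A.rho a b c1 d1 f) c d := by
  by_cases h : A.Cop c d
  · rw [xi_of_cop h, xi_of_cop ((cop_mul_iff ha hb hc hd hdet c d).2 h),
      sy_master ha hb hc hd hdet h, rho, mul_e3_e3 _ rfl, mul_left_comm, ← e3_add]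
    congr 2; ring
  · rw [xi_of_not_cop h, xi_of_not_cop (mt (cop_mul_iff ha hb hc hd hdet c d).1 h), mul_zero]

theorem sy_zero (x : F) : A.sy x 0 = 0 := by
  by_cases hx : x ∈ A.R
  · rw [sy_mk hx (zero_mem _)]; exact A.S.zero _
  · exact dif_neg fun h => hx h.1

/-- `ξ_f (c, d + c x) = ξ_{n(x) f} (c, d)` for `x ∈ R`. -/
theorem xi_opN {x : F} (hx : x ∈ A.R) (f : F → F → ℂ) (c d : F) :
    A.xi f c (d + c * x) = A.xi (opN x f) c d := by
  have h := xi_rho (A := A) (one_mem _) hx (zero_mem _) (one_mem _) (by ring) f c d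
  rw [rho_n, sy_zero, e3_zero, one_mul] at h
  rw [← h]; congr 1 <;> ring

/-- On the principal congruence subgroup `ξ_f` transforms by Kubota's character. -/
theorem Test.xi_deep {j : ℕ} (hj : 1 ≤ j) {f : F → F → ℂ} (hf : A.Test j f) {a b c1 d1 : F}
    (ha : a ∈ A.R) (hb : b ∈ A.R) (hc : c1 ∈ A.R) (hd : d1 ∈ A.R) (hdet : a * d1 - b * c1 = 1)
    (ha' : A.P (j + j) a) (hb' : b ∈ A.lat (A.N ^ (j + j))) (hc' : c1 ∈ A.lat (A.N ^ (j + j)))
    (hd' : A.P (j + j) d1) (c d : F) :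
    A.xi f (c * a + d * c1) (c * b + d * d1) = e3 (A.sy d1 c1) * A.xi f c d := by
  rw [xi_rho ha hb hc hd hdet, hf.rho_deep hj hdet ha' hb' hc' hd']

/-! ## the symbol on `F`, units of `R` -/

theorem sy_congr {x x' y t : F} (hx : x ∈ A.R) (hy : y ∈ A.R) (ht : t ∈ A.R)
    (h : x' = x + y * t) : A.sy x' y = A.sy x y := by
  have hx' : x' ∈ A.R := h ▸ add_mem hx (mul_mem hy ht)
  rw [sy_mk hx hy, sy_mk hx' hy]
  exact A.S.congr ⟨⟨t, ht⟩, Subtype.ext (by simp [h])⟩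

theorem Cop.mul_left {x x' y : F} (h : A.Cop x y) (h' : A.Cop x' y) : A.Cop (x * x') y :=
  (cop_mk (mul_mem h.1 h'.1) h.2.1).2 (((cop_mk h.1 h.2.1).1 h).mul_left ((cop_mk h'.1 h.2.1).1 h'))

theorem Cop.mul_right {x y y' : F} (h : A.Cop x y) (h' : A.Cop x y') : A.Cop x (y * y') :=
  (h.symm.mul_left h'.symm).symm

theorem sy_mul_left {x x' y : F} (h : A.Cop x y) (h' : A.Cop x' y) :
    A.sy (x * x') y = A.sy x y + A.sy x' y := by
  rw [sy_mk h.1 h.2.1, sy_mk h'.1 h.2.1, sy_mk (mul_mem h.1 h'.1) h.2.1]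
  exact A.S.mul_left ((cop_mk _ _).1 h) ((cop_mk _ _).1 h')

theorem sy_mul_right {x y y' : F} (h : A.Cop x y) (h' : A.Cop x y') (hy : y ≠ 0) (hy' : y' ≠ 0) :
    A.sy x (y * y') = A.sy x y + A.sy x y' := by
  rw [sy_mk h.1 h.2.1, sy_mk h.1 h'.2.1, sy_mk h.1 (mul_mem h.2.1 h'.2.1)]
  exact A.S.mul_right ((cop_mk _ _).1 h) ((cop_mk _ _).1 h') (fun e => hy (congrArg Subtype.val e))
    (fun e => hy' (congrArg Subtype.val e))

theorem sy_recip {x y : F} (h : A.Cop x y) (hx : x ≠ 0) (hy : y ≠ 0) :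
    A.B.c x y = A.sy x y - A.sy y x := by
  rw [sy_mk h.1 h.2.1, sy_mk h.2.1 h.1]
  exact A.S.recip ((cop_mk _ _).1 h) (fun e => hx (congrArg Subtype.val e))
    (fun e => hy (congrArg Subtype.val e))

theorem sy_neg_left {x y : F} (h : A.Cop x y) : A.sy (-x) y = A.sy x y := by
  rw [sy_mk h.1 h.2.1, sy_mk (neg_mem h.1) h.2.1]
  exact A.S.neg_left ((cop_mk _ _).1 h)

theorem sy_neg_right {x y : F} (h : A.Cop x y) : A.sy x (-y) = A.sy x y := by
  rw [sy_mk h.1 h.2.1, sy_mk h.1 (neg_mem h.2.1)]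
  exact A.S.neg_right ((cop_mk _ _).1 h)

variable (A) in
/-- Units of `R`. -/
def Un (u : F) : Prop := u ≠ 0 ∧ u ∈ A.R ∧ u⁻¹ ∈ A.R

theorem Un.isUnit {u : F} (hu : A.Un u) : IsUnit (⟨u, hu.2.1⟩ : A.R) :=
  IsUnit.of_mul_eq_one ⟨u⁻¹, hu.2.2⟩ (Subtype.ext (mul_inv_cancel₀ hu.1))

theorem un_of_isUnit {u : A.R} (hu : IsUnit u) : A.Un u := by
  obtain ⟨v, hv⟩ := hu.exists_right_inv
  have h : (u : F) * v = 1 := congrArg Subtype.val hv
  exact ⟨left_ne_zero_of_mul_eq_one h, u.2, by rw [← eq_inv_of_mul_eq_one_right h]; exact v.2⟩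

theorem Un.inv {u : F} (hu : A.Un u) : A.Un u⁻¹ :=
  ⟨inv_ne_zero hu.1, hu.2.2, by rw [inv_inv]; exact hu.2.1⟩

theorem Un.mul {u v : F} (hu : A.Un u) (hv : A.Un v) : A.Un (u * v) :=
  ⟨mul_ne_zero hu.1 hv.1, mul_mem hu.2.1 hv.2.1, by rw [mul_inv]; exact mul_mem hu.2.2 hv.2.2⟩

theorem Un.pow {u : F} (hu : A.Un u) (n : ℕ) : A.Un (u ^ n) :=
  ⟨pow_ne_zero _ hu.1, pow_mem hu.2.1 n, by rw [← inv_pow]; exact pow_mem hu.2.2 n⟩

theorem un_N (A : Ar F) : A.Un A.N := ⟨A.N_ne, A.N_R, A.Ninv_R⟩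

theorem Un.cop {u y : F} (hu : A.Un u) (hy : y ∈ A.R) : A.Cop u y :=
  ⟨hu.2.1, hy, u⁻¹, hu.2.2, 0, zero_mem _, by rw [inv_mul_cancel₀ hu.1]; ring⟩

theorem Cop.un {d : F} (h : A.Cop 0 d) : A.Un d := by
  obtain ⟨-, hd, p, -, q, hq, e⟩ := h
  have h : d * q = 1 := by linear_combination e
  exact ⟨left_ne_zero_of_mul_eq_one h, hd, by rw [← eq_inv_of_mul_eq_one_right h]; exact hq⟩

theorem Un.sy_right {u : F} (hu : A.Un u) (x : F) : A.sy x u = 0 := by
  by_cases hx : x ∈ A.R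
  · rw [sy_mk hx hu.2.1]; exact A.S.unit _ hu.isUnit
  · exact dif_neg fun h => hx h.1

theorem Un.sy_left {u y : F} (hu : A.Un u) (hy : y ∈ A.R) : A.sy u y = A.B.c u y := by
  rw [sy_mk hu.2.1 hy]; exact A.S.unit_left hu.isUnit _

theorem Un.c_eq {u v : F} (hu : A.Un u) (hv : A.Un v) : A.B.c u v = 0 := by
  rw [← hu.sy_left hv.2.1, hv.sy_right]

theorem Un.sy_mul_right {u x y : F} (hu : A.Un u) (h : A.Cop x y) :
    A.sy x (u * y) = A.sy x y := by
  rw [sy_mk h.1 h.2.1, sy_mk h.1 (mul_mem hu.2.1 h.2.1)]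
  exact A.S.unit_mul_right hu.isUnit ((cop_mk _ _).1 h)

theorem Un.cop_mul_iff {u : F} (hu : A.Un u) (c d : F) : A.Cop (u * c) d ↔ A.Cop c d := by
  constructor
  · intro h
    have := (hu.inv.cop h.2.1).mul_left h
    rwa [inv_mul_cancel_left₀ hu.1] at this
  · intro h; exact (hu.cop h.2.1).mul_left h

theorem Un.cop_mul_iff' {u : F} (hu : A.Un u) (c d : F) : A.Cop c (u * d) ↔ A.Cop c d :=
  ⟨fun h => ((hu.cop_mul_iff d c).1 h.symm).symm, fun h => ((hu.cop_mul_iff d c).2 h.symm).symm⟩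

theorem Un.xi_opD {s : F} (hs : A.Un s) (f : F → F → ℂ) (c d : F) :
    A.xi (A.opD s f) c d = A.xi f c (s * d) := by
  by_cases h : A.Cop c d
  · rw [xi_of_cop h, xi_of_cop ((hs.cop_mul_iff' c d).2 h), opD, mul_e3_e3 _ rfl,
      sy_mul_left (hs.cop h.1) h.symm, hs.sy_left h.1]
  · rw [xi_of_not_cop h, xi_of_not_cop (mt (hs.cop_mul_iff' c d).1 h)]

theorem Un.xi_opA {t : F} (ht : A.Un t) (f : F → F → ℂ) (c d : F) :
    A.xi (A.opA t f) c d = A.xi f (t * c) d := by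
  by_cases h : A.Cop c d
  · rw [xi_of_cop h, xi_of_cop ((ht.cop_mul_iff c d).2 h), opA, mul_e3_e3 _ rfl,
      ht.sy_mul_right h.symm]
    congr 2
    rcases eq_or_ne c 0 with rfl | hc
    · simp [h.un.c_eq ht]
    · rw [A.B.mul_right _ ht.1 hc]; ring
  · rw [xi_of_not_cop h, xi_of_not_cop (mt (ht.cop_mul_iff c d).1 h)]

/-- `ξ_{f⟨u⟩} (c, d) = ξ_f (u² c, u d)` for a unit `u` of `R`. -/
theorem Un.xi_br {u : F} (hu : A.Un u) (f : F → F → ℂ) (c d : F) :
    A.xi (A.br u f) c d = A.xi f (u ^ 2 * c) (u * d) := by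
  rw [br, (hu.pow 2).xi_opA, hu.xi_opD]

theorem Un.xi_sc {m n : F} (hm : A.Un m) (hn : A.Un n) (f : F → F → ℂ) (c d : F) :
    A.xi (sc m n f) c d = A.xi f (m ^ 3 * c) (n ^ 3 * d) := by
  rw [sc_eq (A := A) hm.1, (hm.pow 3).xi_opA, (hn.pow 3).xi_opD]

/-! ## approximation -/

/-- `R` is dense in `F_S`. -/
theorem exists_approx (A : Ar F) (j : ℕ) (y : F) : ∃ r ∈ A.R, y - r ∈ A.lat (A.N ^ j) := by
  obtain ⟨r, hr, h⟩ := A.dense ((A.N ^ j)⁻¹ * y)
  refine ⟨A.N ^ j * r, mul_mem (pow_mem A.N_R j) hr, ?_⟩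
  rw [mem_lat, mul_sub, inv_mul_cancel_left₀ (A.Np_ne j)]
  exact h

theorem exists_approx_lat (A : Ar F) (m y : F) :
    ∃ r ∈ A.R, y - r ∈ A.lat m := by
  obtain ⟨j, hj⟩ := A.bdd m⁻¹
  obtain ⟨r, hr, h⟩ := A.exists_approx j y
  obtain ⟨z, hz, e⟩ := mem_latN.1 h
  refine ⟨r, hr, ?_⟩
  rw [mem_lat, e, ← mul_assoc, mul_comm m⁻¹]
  exact mul_mem hj hz

/-- Strong approximation with a congruence condition modulo `M`. -/
theorem exists_approx_mod (A : Ar F) (m : F) {M : F} (hM : M ≠ 0) (a y : F) :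
    ∃ r ∈ A.R, y - (a + M * r) ∈ A.lat m := by
  obtain ⟨r, hr, h⟩ := A.exists_approx_lat (m / M) ((y - a) / M)
  refine ⟨r, hr, ?_⟩
  rw [mem_lat] at h ⊢
  convert h using 1
  field_simp; ring

/-- Every first column `(α, β)` of coprime elements of `R` can be completed to `(α b; β δ)`. -/
theorem Cop.exists_det {α β : F} (h : A.Cop α β) : ∃ b ∈ A.R, ∃ δ ∈ A.R, α * δ - b * β = 1 := by
  obtain ⟨-, -, p, hp, q, hq, e⟩ := h
  exact ⟨-q, neg_mem hq, p, hp, by linear_combination e⟩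

/-- Every non-zero vector is a multiple of a coprime vector of `R`. -/
theorem exists_cop (A : Ar F) {x y : F} (h : ¬ (x = 0 ∧ y = 0)) :
    ∃ ρ α β : F, ρ ≠ 0 ∧ A.Cop α β ∧ x = ρ * α ∧ y = ρ * β := by
  classical
  have := A.pid
  obtain ⟨b, hb, hb0, hx⟩ := A.frac x
  obtain ⟨b', hb', hb0', hy⟩ := A.frac y
  have hx' : b * b' * x ∈ A.R := by rw [mul_comm b, mul_assoc]; exact mul_mem hb' hx
  have hy' : b * b' * y ∈ A.R := by rw [mul_assoc]; exact mul_mem hb hy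
  let : GCDMonoid A.R := IsBezout.toGCDDomain A.R
  obtain ⟨α, β, e1, e2, hu⟩ := extract_gcd (⟨_, hx'⟩ : A.R) ⟨_, hy'⟩
  set g := gcd (⟨_, hx'⟩ : A.R) ⟨_, hy'⟩
  have e1' : b * b' * x = g * α := congrArg Subtype.val e1
  have e2' : b * b' * y = g * β := congrArg Subtype.val e2
  have hbb := mul_ne_zero hb0 hb0'
  have hg : (g : F) ≠ 0 := by
    intro h0
    rw [h0, zero_mul] at e1' e2'
    exact h ⟨(mul_eq_zero.1 e1').resolve_left hbb, (mul_eq_zero.1 e2').resolve_left hbb⟩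
  refine ⟨g / (b * b'), α, β, div_ne_zero hg hbb, (cop_coe _ _).2 ((gcd_isUnit_iff _ _).1 hu), ?_, ?_⟩
  · field_simp; linear_combination e1'
  · field_simp; linear_combination e2'

end Ar

end Crest.Agent.T27.B83
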