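import Crest.Agent.T27.ThB_54
import Crest.Agent.T27.ThB1b_83

/-!
# Row 27, theta leaf B1: `OpStmt`
-/

set_option autoImplicit false
set_option linter.unusedSectionVars false

noncomputable section

namespace Crest.Agent.T27.TH

open scoped ComplexConjugate
open NumberField B83

namespace Op83

/-! ## discrete logarithm -/

/-- The discrete logarithm of a cube root of unity. -/
def lg3 (z : ℂ) : ZMod 3 := Function.invFun e3 z

theorem lg3_e3 (k : ZMod 3) : lg3 (e3 k) = k := Function.leftInverse_invFun e3_injective k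

theorem e3_lg3 {z : ℂ} (hz : z ^ 3 = 1) : e3 (lg3 z) = z := by
  refine Function.invFun_eq (f := e3) ?_
  have h1 : e3 1 ≠ 1 := fun h => absurd (e3_injective (h.trans e3_zero.symm)) (by decide)
  have h2 : e3 1 ^ 2 + e3 1 + 1 = 0 := by
    have : (e3 1 - 1) * (e3 1 ^ 2 + e3 1 + 1) = 0 := by linear_combination e3_cube 1
    exact (mul_eq_zero.1 this).resolve_left (sub_ne_zero.2 h1)
  have h3 : e3 2 = e3 1 ^ 2 := by rw [pow_two, ← e3_add]; rfl
  have h4 : (z - 1) * ((z - e3 1) * (z - e3 1 ^ 2)) = 0 := by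
    linear_combination hz + (z - 1) * e3_cube 1 - (z - 1) * z * h2
  rcases mul_eq_zero.1 h4 with h | h
  · exact ⟨0, by rw [e3_zero, sub_eq_zero.1 h]⟩
  rcases mul_eq_zero.1 h with h | h
  · exact ⟨1, (sub_eq_zero.1 h).symm⟩
  · exact ⟨2, by rw [h3, sub_eq_zero.1 h]⟩

theorem lg3_mul {z w : ℂ} (hz : z ^ 3 = 1) (hw : w ^ 3 = 1) : lg3 (z * w) = lg3 z + lg3 w := by
  conv_lhs => rw [← e3_lg3 hz, ← e3_lg3 hw, ← e3_add, lg3_e3]

theorem lg3_one : lg3 1 = 0 := by rw [← e3_zero, lg3_e3]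

variable {F : Type} [Field F] [NumberField F] [Emb F] [Ar F]

/-! ## the additive data -/

open Classical in
/-- The exponent of `cc`. -/
def cB (x y : F) : ZMod 3 := if x = 0 ∨ y = 0 then 0 else lg3 (Ar.cc x y)

theorem cB_ne {x y : F} (hx : x ≠ 0) (hy : y ≠ 0) : cB x y = lg3 (Ar.cc x y) :=
  if_neg (not_or.2 ⟨hx, hy⟩)

theorem cB_zero_left (y : F) : cB 0 y = 0 := if_pos (Or.inl rfl)

theorem cB_zero_right (x : F) : cB x 0 = 0 := if_pos (Or.inr rfl)

theorem e3_cB {x y : F} (hx : x ≠ 0) (hy : y ≠ 0) : e3 (cB x y) = Ar.cc x y := by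
  rw [cB_ne hx hy, e3_lg3 (Ar.cc_cube x y hx hy)]

theorem cB_mul_left {x x' : F} (y : F) (hx : x ≠ 0) (hx' : x' ≠ 0) :
    cB (x * x') y = cB x y + cB x' y := by
  rcases eq_or_ne y 0 with rfl | hy
  · simp [cB_zero_right]
  rw [cB_ne (mul_ne_zero hx hx') hy, cB_ne hx hy, cB_ne hx' hy, Ar.cc_mul_left _ _ _ hx hx' hy,
    lg3_mul (Ar.cc_cube _ _ hx hy) (Ar.cc_cube _ _ hx' hy)]

theorem cB_mul_right (x : F) {y y' : F} (hy : y ≠ 0) (hy' : y' ≠ 0) :
    cB x (y * y') = cB x y + cB x y' := by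
  rcases eq_or_ne x 0 with rfl | hx
  · simp [cB_zero_left]
  rw [cB_ne hx (mul_ne_zero hy hy'), cB_ne hx hy, cB_ne hx hy', Ar.cc_mul_right _ _ _ hx hy hy',
    lg3_mul (Ar.cc_cube _ _ hx hy) (Ar.cc_cube _ _ hx hy')]

theorem cB_self (x : F) : cB x x = 0 := by
  rcases eq_or_ne x 0 with rfl | hx
  · exact cB_zero_left _
  refine eq_zero_of_two ?_
  rw [cB_ne hx hx, ← lg3_mul (Ar.cc_cube _ _ hx hx) (Ar.cc_cube _ _ hx hx), Ar.cc_swap x x hx hx,
    lg3_one]

open Classical in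
/-- The exponent of `sy`. -/
def sB (x y : RR F) : ZMod 3 := if y ≠ 0 ∧ IsCoprime x y then lg3 (Ar.sy (x : F) (y : F)) else 0

theorem sB_pos {x y : RR F} (hy : y ≠ 0) (h : IsCoprime x y) :
    sB x y = lg3 (Ar.sy (x : F) (y : F)) := if_pos ⟨hy, h⟩

theorem e3_sB {x y : RR F} (hy : y ≠ 0) (h : IsCoprime x y) :
    e3 (sB x y) = Ar.sy (x : F) (y : F) := by
  rw [sB_pos hy h, e3_lg3 (Ar.sy_cube x y hy h)]

theorem coe_ne {y : RR F} (hy : y ≠ 0) : (y : F) ≠ 0 := fun h => hy (Subtype.ext h)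

theorem sB_zero (x : RR F) : sB x 0 = 0 := if_neg fun h => h.1 rfl

theorem sB_congr {x x' y : RR F} (h : y ∣ x - x') : sB x y = sB x' y := by
  obtain ⟨t, ht⟩ := h
  have e : x = x' + y * t := by linear_combination ht
  subst e
  unfold sB
  rcases eq_or_ne y 0 with rfl | hy
  · simp
  rw [IsCoprime.add_mul_left_left_iff]
  split_ifs
  · rw [Subring.coe_add, Subring.coe_mul, Ar.sy_congr _ x'.2 _ y.2 _ t.2 (coe_ne hy)]
  · rfl

theorem sB_mul_left {x x' y : RR F} (h : IsCoprime x y) (h' : IsCoprime x' y) :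
    sB (x * x') y = sB x y + sB x' y := by
  rcases eq_or_ne y 0 with rfl | hy
  · simp [sB_zero]
  rw [sB_pos hy h, sB_pos hy h', sB_pos hy (h.mul_left h'), Subring.coe_mul,
    Ar.sy_mul_left _ x.2 _ x'.2 _ y.2 (coe_ne hy),
    lg3_mul (Ar.sy_cube x y hy h) (Ar.sy_cube x' y hy h')]

theorem sB_mul_right {x y y' : RR F} (h : IsCoprime x y) (h' : IsCoprime x y') (hy : y ≠ 0)
    (hy' : y' ≠ 0) : sB x (y * y') = sB x y + sB x y' := by
  rw [sB_pos hy h, sB_pos hy' h', sB_pos (mul_ne_zero hy hy') (h.mul_right h'), Subring.coe_mul,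
    Ar.sy_mul_right _ x.2 _ y.2 _ y'.2 (coe_ne hy) (coe_ne hy'),
    lg3_mul (Ar.sy_cube x y hy h) (Ar.sy_cube x y' hy' h')]

theorem sB_unit (x : RR F) {y : RR F} (hy : IsUnit y) : sB x y = 0 := by
  obtain ⟨v, hv⟩ := hy.exists_right_inv
  have h : (y : F) * v = 1 := congrArg Subtype.val hv
  unfold sB
  split_ifs with h1
  · rw [Ar.sy_unit _ x.2 _ y.2 (coe_ne h1.1)
      (by rw [← eq_inv_of_mul_eq_one_right h]; exact v.2), lg3_one]
  · rfl

theorem sB_recip {x y : RR F} (h : IsCoprime x y) (hx : x ≠ 0) (hy : y ≠ 0) :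
    cB (algebraMap (RR F) F x) (algebraMap (RR F) F y) = sB x y - sB y x := by
  apply e3_injective
  rw [sub_eq_add_neg, e3_add, e3_neg, e3_sB hy h, e3_sB hx h.symm]
  exact (e3_cB (coe_ne hx) (coe_ne hy)).trans (Ar.cc_eq x y hx hy h)

theorem sB_neg {x y : RR F} (h : IsCoprime x y) : sB (-x) y = sB x y := by
  have h1 : IsCoprime (-1 : RR F) y := isCoprime_one_left.neg_left
  have h0 : sB (1 : RR F) y = 0 := by
    have h := sB_mul_left (x := 1) (x' := 1) (y := y) isCoprime_one_left isCoprime_one_left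
    rw [mul_one] at h
    linear_combination -h
  have h2 := sB_mul_left h1 h1
  rw [neg_mul_neg, mul_one, h0] at h2
  rw [← neg_one_mul, sB_mul_left h1 h, eq_zero_of_two h2.symm, zero_add]

theorem N_ne : (Ar.N F : F) ≠ 0 := by
  have := Ar.two_le (F := F)
  exact Nat.cast_ne_zero.2 (by omega)

theorem mem_R_of_int {x : F} (hx : IsIntegral ℤ x) : x ∈ (Ar.R : Subring F) :=
  (Ar.mem_R x).2 ⟨0, by simpa using hx⟩

theorem mem_L_of_int {x : F} (hx : IsIntegral ℤ x) : x ∈ (Ar.L : Subring F) :=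
  (Ar.mem_L x).2 ⟨1, Nat.coprime_one_left _, by simpa using hx⟩

theorem frac (x : F) : ∃ b ∈ (Ar.R : Subring F), b ≠ 0 ∧ b * x ∈ (Ar.R : Subring F) := by
  obtain ⟨m, hm, h⟩ := ((IsFractionRing.isAlgebraic_iff ℤ ℚ F).2
    (Algebra.IsAlgebraic.isAlgebraic (R := ℚ) x)).exists_integral_multiple
  refine ⟨(m : F), intCast_mem _ m, Int.cast_ne_zero.2 hm, mem_R_of_int ?_⟩
  simpa using h

instance : IsFractionRing (RR F) F := by
  refine IsFractionRing.of_field _ _ fun z => ?_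
  obtain ⟨b, hb, hb0, h⟩ := frac z
  exact ⟨⟨_, h⟩, ⟨b, hb⟩, (mul_div_cancel_left₀ _ hb0).symm⟩

variable (F) in
/-- The bicharacter. -/
def biOf : Bi F where
  c := cB
  zero_left := cB_zero_left
  zero_right := cB_zero_right
  mul_left := cB_mul_left
  mul_right := cB_mul_right
  self := cB_self
  stein := stein_of_recip cB sB cB_zero_left cB_zero_right cB_mul_left cB_mul_right cB_self
    sB_congr sB_neg sB_recip

theorem pow_kc : (Ar.N F : F) ^ Ar.kc F = Ar.N F * (Ar.N F : F) ^ (Ar.kc F - 1) := by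
  rw [← pow_succ', Nat.sub_add_cancel Ar.one_le_kc]

variable (F) in
/-- The arithmetic datum of `ThAr_83`. -/
def arOf : B83.Ar F where
  B := biOf F
  R := Ar.R
  L := Ar.L
  N := (Ar.N F : F) ^ Ar.kc F
  N_ne := pow_ne_zero _ N_ne
  N_L := pow_mem (natCast_mem _ _) _
  N_R := pow_mem (natCast_mem _ _) _
  Ninv_R := (Ar.mem_R _).2 ⟨Ar.kc F, by
    rw [mul_inv_cancel₀ (pow_ne_zero _ N_ne)]; exact isIntegral_one⟩
  P_ne x hx := by
    rw [pow_kc, mul_assoc]; exact (Ar.unit_P _ (mul_mem (pow_mem (natCast_mem _ _) _) hx)).1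
  P_inv x hx := by
    rw [pow_kc, mul_assoc]; exact (Ar.unit_P _ (mul_mem (pow_mem (natCast_mem _ _) _) hx)).2
  bdd x := by
    obtain ⟨k, hk⟩ := Ar.pow_mem_L x
    refine ⟨k, ?_⟩
    rw [pow_kc, mul_pow, mul_comm ((Ar.N F : F) ^ k), mul_assoc]
    exact mul_mem (pow_mem (pow_mem (natCast_mem _ _) _) _) hk
  c_P x hx y := by
    rcases eq_or_ne y 0 with rfl | hy
    · exact cB_zero_right _
    have h0 : 1 + (Ar.N F : F) ^ Ar.kc F * x ≠ 0 := by
      rw [pow_kc, mul_assoc]; exact (Ar.unit_P _ (mul_mem (pow_mem (natCast_mem _ _) _) hx)).1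
    show cB _ _ = 0
    rw [cB_ne h0 hy, Ar.cc_P x hx y hy, lg3_one]
  dense y := by
    obtain ⟨r, hr, l, hl, e⟩ := Ar.approx y 1 one_ne_zero
    exact ⟨r, hr, by rw [e]; simpa using hl⟩
  pid := Ar.pidR
  inf := inferInstance
  frac := frac
  S :=
    { s := sB
      congr := sB_congr
      mul_left := sB_mul_left
      mul_right := sB_mul_right
      unit := sB_unit
      zero := sB_zero
      recip := sB_recip }

theorem A_c (x y : F) : (arOf F).B.c x y = cB x y := rfl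

theorem A_N : (arOf F).N = (Ar.N F : F) ^ Ar.kc F := rfl

theorem deep_iff {j : ℕ} {x : F} : Deep (Ar.kc F * j) x ↔ x ∈ (arOf F).lat ((arOf F).N ^ j) := by
  rw [B83.Ar.mem_latN, A_N, ← pow_mul]; rfl

theorem deep_mono {j k : ℕ} (h : j ≤ k) {x : F} (hx : Deep k x) : Deep j x := by
  obtain ⟨i, rfl⟩ := Nat.exists_eq_add_of_le h
  obtain ⟨y, hy, rfl⟩ := hx
  exact ⟨(Ar.N F : F) ^ i * y, mul_mem (pow_mem (natCast_mem _ _) _) hy, by ring⟩

/-! ## translation -/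

/-- Currying. -/
def cu (f : F × F → ℂ) (c d : F) : ℂ := f (c, d)

theorem XK_zero (d : F) : XK ((0 : F), d) = d⁻¹ := if_pos rfl

theorem XK_ne {c : F} (hc : c ≠ 0) (d : F) : XK (c, d) = c := if_neg hc

theorem XK_ne_zero {c d : F} (h : ¬ (c = 0 ∧ d = 0)) : XK (c, d) ≠ 0 := by
  rcases eq_or_ne c 0 with rfl | hc
  · rw [XK_zero]; exact inv_ne_zero fun hd => h ⟨rfl, hd⟩
  · rwa [XK_ne hc]

theorem kap_eq {a b c1 d1 c d : F} (hdet : a * d1 - b * c1 = 1) (h : ¬ (c = 0 ∧ d = 0)) :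
    (arOf F).B.c (XK (c * a + d * c1, c * b + d * d1) / XK (c, d))
      (XK (c * a + d * c1, c * b + d * d1) / XK (c1, d1)) = (arOf F).kap a b c1 d1 c d := by
  unfold B83.Ar.kap
  generalize (arOf F).B = B
  rcases eq_or_ne c1 0 with rfl | h1
  · have ha : a ≠ 0 := left_ne_zero_of_mul_eq_one (b := d1) (by linear_combination hdet)
    have hd1 : d1 = a⁻¹ := eq_inv_of_mul_eq_one_right (by linear_combination hdet)
    subst hd1
    rcases eq_or_ne c 0 with rfl | hc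
    · have hd : d ≠ 0 := fun hd => h ⟨rfl, hd⟩
      simp only [zero_mul, mul_zero, add_zero, zero_add, XK_zero, X_zero]
      rw [show (d * a⁻¹)⁻¹ / d⁻¹ = a by field_simp, show (d * a⁻¹)⁻¹ / a⁻¹⁻¹ = d⁻¹ by field_simp,
        show d * a⁻¹ / d = a⁻¹ by field_simp, show d * a⁻¹ / a⁻¹ = d by field_simp]
      simp
    · simp only [mul_zero, add_zero, XK_zero, X_zero, XK_ne hc, X_ne hc, XK_ne (mul_ne_zero hc ha),
        X_ne (mul_ne_zero hc ha)]
      rw [mul_div_cancel_left₀ _ hc, B.div_right _ (mul_ne_zero hc ha) (inv_ne_zero ha),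
        B.div_right _ (mul_ne_zero hc ha) (inv_ne_zero (inv_ne_zero ha))]
      simp
  rw [XK_ne h1, X_ne h1]
  rcases eq_or_ne c 0 with rfl | hc
  · have hd : d ≠ 0 := fun hd => h ⟨rfl, hd⟩
    simp only [zero_mul, zero_add, XK_zero, X_zero, XK_ne (mul_ne_zero hd h1),
      X_ne (mul_ne_zero hd h1)]
    rw [mul_div_cancel_right₀ _ h1, B.div_left _ (mul_ne_zero hd h1) hd,
      B.div_left _ (mul_ne_zero hd h1) (inv_ne_zero hd)]
    simp
  rw [XK_ne hc, X_ne hc]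
  rcases eq_or_ne (c * a + d * c1) 0 with h2 | h2
  · have e1 : c * b + d * d1 = -(c / c1) := by
      field_simp; linear_combination d1 * h2 - c * hdet
    rw [h2, XK_zero, X_zero, e1, show (-(c / c1))⁻¹ / c = -(c1 / c ^ 2) by field_simp,
      show (-(c / c1))⁻¹ / c1 = -c⁻¹ by field_simp, show -(c / c1) / c = -c1⁻¹ by field_simp,
      show -(c / c1) / c1 = -(c / c1 ^ 2) by field_simp]
    simp [B.div_right _ hc (pow_ne_zero 2 h1), B.div_left _ h1 (pow_ne_zero 2 hc), B.sq_right,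
      B.sq_left]
  · rw [XK_ne h2, X_ne h2]

theorem det_eq {g : Mat F} (hg : g.det = 1) : g 0 0 * g 1 1 - g 0 1 * g 1 0 = 1 := by
  rw [← hg, Matrix.det_fin_two]

theorem row_ne {a b c1 d1 c d : F} (hdet : a * d1 - b * c1 = 1) (h : ¬ (c = 0 ∧ d = 0)) :
    ¬ (c * a + d * c1 = 0 ∧ c * b + d * d1 = 0) := fun h' =>
  h ⟨by linear_combination d1 * h'.1 - c1 * h'.2 - c * hdet,
    by linear_combination a * h'.2 - b * h'.1 - d * hdet⟩

theorem rho_apply {g : Mat F} (hg : g.det = 1) (f : F × F → ℂ) {c d : F}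
    (h : ¬ (c = 0 ∧ d = 0)) :
    rho g f (c, d) = (arOf F).rho (g 0 0) (g 0 1) (g 1 0) (g 1 1) (cu f) c d := by
  have hdet := det_eq hg
  have h1 := XK_ne_zero h
  have h2 := XK_ne_zero (row_ne hdet h)
  have h3 : XK (g 1 0, g 1 1) ≠ 0 := XK_ne_zero fun h' => by
    rw [h'.1, h'.2] at hdet; simp at hdet
  rw [B83.Ar.rho, ← kap_eq hdet h, e3_neg, A_c, e3_cB (div_ne_zero h2 h1) (div_ne_zero h2 h3)]
  rfl

omit [NumberField F] [Emb F] [Ar F] in
theorem rmul_zero (g : Mat F) : rmul 0 g = 0 := by simp [rmul]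

theorem rho_zero (g : Mat F) {f : F × F → ℂ} (h0 : f 0 = 0) : rho g f 0 = 0 := by
  rw [rho, rmul_zero, h0, zero_mul]

theorem cu_rho {g : Mat F} (hg : g.det = 1) {f : F × F → ℂ} (h0 : f 0 = 0) :
    cu (rho g f) = (arOf F).rho (g 0 0) (g 0 1) (g 1 0) (g 1 1) (cu f) := by
  funext c d
  by_cases h : c = 0 ∧ d = 0
  · obtain ⟨rfl, rfl⟩ := h
    have h1 : cu f 0 0 = 0 := h0
    simp only [B83.Ar.rho, zero_mul, add_zero, h1]
    exact rho_zero g h0
  · exact rho_apply hg f h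

omit [Field F] [NumberField F] [Emb F] [Ar F] in
theorem cu_inj {f g : F × F → ℂ} (h : cu f = cu g) : f = g :=
  funext fun u => congrFun (congrFun h u.1) u.2

theorem cu_opT {t : F} (ht : t ≠ 0) {f : F × F → ℂ} (h0 : f 0 = 0) :
    cu (opT t f) = (arOf F).br t (cu f) := by
  funext c d
  rcases eq_or_ne c 0 with rfl | hc
  · rw [B83.Ar.br_apply_zero]
    rcases eq_or_ne d 0 with rfl | hd
    · have h1 : f (0, 0) = 0 := h0
      simp [cu, opT, h1]
    · simp only [cu, opT, mul_zero, XK_zero]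
      rw [← e3_cB ht (inv_ne_zero hd), ← A_c, Bi.inv_right, ← Bi.swap]
  · rw [B83.Ar.br_apply_ne ht hc, A_c, e3_cB ht hc]
    simp only [cu, opT, XK_ne hc]

theorem cu_opC (m : F) (f : F × F → ℂ) : cu (opC m f) = B83.Ar.sc m 1 (cu f) := by
  funext c d; simp [cu, opC, B83.Ar.sc]

theorem cu_opS (m : F) (f : F × F → ℂ) : cu (opS m f) = B83.Ar.sc m m (cu f) := rfl

theorem opT_zero (t : F) {f : F × F → ℂ} (h0 : f 0 = 0) : opT t f 0 = 0 := by
  have h1 : f (0, 0) = 0 := h0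
  simp [opT, h1]

theorem opC_zero (t : F) {f : F × F → ℂ} (h0 : f 0 = 0) : opC t f 0 = 0 := by
  have h1 : f (0, 0) = 0 := h0
  simp [opC, h1]

theorem cop_iff (c d : F) : Cop c d ↔ (arOf F).Cop c d := Iff.rfl

theorem syR_eq {c d : F} (h : Cop c d) : syR (c, d) = e3 ((arOf F).sy d c) := by
  rcases eq_or_ne c 0 with rfl | hc
  · rw [B83.Ar.sy_zero, e3_zero]; exact if_pos rfl
  · rw [B83.Ar.sy_mk (A := arOf F) h.2.1 h.1, syR, if_neg hc]
    exact (e3_sB (x := ⟨d, h.2.1⟩) (y := ⟨c, h.1⟩) (fun e => hc (congrArg Subtype.val e))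
      ((B83.Ar.cop_mk (A := arOf F) h.1 h.2.1).1 h).symm).symm

theorem xiF_eq (f : F × F → ℂ) (c d : F) : xiF f (c, d) = (arOf F).xi (cu f) c d := by
  by_cases h : Cop c d
  · rw [B83.Ar.xi_of_cop ((cop_iff c d).1 h), ← syR_eq h]; exact if_pos h
  · rw [B83.Ar.xi_of_not_cop (mt (cop_iff c d).2 h)]; exact if_neg h

theorem xi_congr {f g : F → F → ℂ} (h : ∀ c d, ¬ (c = 0 ∧ d = 0) → f c d = g c d) (c d : F) :
    (arOf F).xi f c d = (arOf F).xi g c d := by
  by_cases h1 : (arOf F).Cop c d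
  · rw [B83.Ar.xi_of_cop h1, B83.Ar.xi_of_cop h1, h]
    rintro ⟨rfl, rfl⟩
    exact h1.un.1 rfl
  · rw [B83.Ar.xi_of_not_cop h1, B83.Ar.xi_of_not_cop h1]

theorem mono (f : F × F → ℂ) (j j' : ℕ) (hf : TestFn j f) (h : j ≤ j') : TestFn j' f := by
  refine ⟨hf.le.trans h, hf.bdd, fun u hu => ?_, fun k hk => hf.inv k fun i i' =>
    deep_mono h (hk i i')⟩
  obtain ⟨i, rfl⟩ := Nat.exists_eq_add_of_le h
  obtain ⟨h1, h2, a, ha, b, hb, e⟩ := hf.supp u hu
  have hN : (Ar.N F : F) ^ i ∈ (Ar.L : Subring F) := pow_mem (natCast_mem _ _) _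
  refine ⟨?_, ?_, _, mul_mem hN ha, _, mul_mem hN hb, by rw [pow_add, ← e]; ring⟩
  · rw [pow_add, mul_comm (_ ^ j), mul_assoc]; exact mul_mem hN h1
  · rw [pow_add, mul_comm (_ ^ j), mul_assoc]; exact mul_mem hN h2

theorem test_zero {f : F × F → ℂ} {j : ℕ} (hf : TestFn j f) : f 0 = 0 := by
  by_contra h
  obtain ⟨-, -, a, -, b, -, e⟩ := hf.supp 0 h
  exact pow_ne_zero j N_ne (by rw [← e]; simp)

theorem isTest_of {f : F × F → ℂ} (hf : Test f) : ∃ j, 1 ≤ j ∧ (arOf F).Test j (cu f) := by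
  obtain ⟨j, hj⟩ := hf
  have h1 : 1 ≤ j := Ar.one_le_kc.trans hj.le
  have hf := mono f j (Ar.kc F * j) hj (Nat.le_mul_of_pos_left _ Ar.one_le_kc)
  refine ⟨j + j + j + j, by omega, B83.Ar.test_of_inv h1 (hf.bdd.imp fun C hC c d => hC _) ?_ ?_⟩
  · intro c d h
    obtain ⟨h1, h2, a, ha, b, hb, e⟩ := hf.supp (c, d) h
    rw [pow_mul] at h1 h2 e
    exact ⟨h1, h2, a, ha, b, hb, by rw [A_N, ← e]; ring⟩
  · intro a b c1 d1 hdet ha hb hc hd
    have h2 := hf.inv (mkSL a b c1 d1 hdet) (by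
      intro i i'
      fin_cases i <;> fin_cases i'
      · simpa [mkSL] using deep_iff.2 ha
      · simpa [mkSL] using deep_iff.2 hb
      · simpa [mkSL] using deep_iff.2 hc
      · simpa [mkSL] using deep_iff.2 hd)
    have h3 := cu_rho (mkSL a b c1 d1 hdet).det_coe (test_zero hf)
    rw [h2] at h3
    exact h3.symm

theorem testFn_of {f : F × F → ℂ} {j : ℕ} (h1 : 1 ≤ j) (hf : (arOf F).Test j (cu f)) :
    TestFn (Ar.kc F * (j + j)) f := by
  refine ⟨Nat.le_mul_of_pos_right _ (by omega), hf.bdd.imp fun C hC u => hC _ _, fun u hu => ?_,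
    fun k hk => cu_inj ?_⟩
  · obtain ⟨h1, h2, a, ha, b, hb, e⟩ := (hf.sup (c := u.1) (d := u.2) hu).mono (Nat.le_add_right j j)
    rw [A_N, ← pow_mul] at h1 h2 e
    exact ⟨h1, h2, a, ha, b, hb, by rw [← e]; ring⟩
  · rw [cu_rho k.det_coe hf.zero_zero]
    refine hf.rho_deep h1 (det_eq k.det_coe) (deep_iff.1 ?_) (deep_iff.1 ?_) (deep_iff.1 ?_)
      (deep_iff.1 ?_)
    · simpa using hk 0 0
    · simpa using hk 0 1
    · simpa using hk 1 0
    · simpa using hk 1 1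

theorem test_iff {f : F × F → ℂ} : Test f ↔ (arOf F).IsTest (cu f) :=
  ⟨fun h => let ⟨j, _, hj⟩ := isTest_of h; ⟨j, hj⟩,
    fun ⟨j, hj⟩ => ⟨_, testFn_of (Nat.le_add_left 1 j) (hj.mono (Nat.le_succ j))⟩⟩

theorem test_zero' {f : F × F → ℂ} (hf : Test f) : f 0 = 0 := let ⟨_, hj⟩ := hf; test_zero hj

/-! ## the fields of `OpStmt` -/

theorem steinberg (x y : F) (hx : x ≠ 0) (hy : y ≠ 0) (h : x + y = 1) : Ar.cc x y = 1 := by
  rw [← e3_cB hx hy, show y = 1 - x by linear_combination h, ← A_c, Bi.stein, e3_zero]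

theorem close (f : F × F → ℂ) (j : ℕ) (hf : TestFn j f) : ∃ J, ∀ u u' : F × F,
    Deep J (u'.1 - u.1) → Deep J (u'.2 - u.2) →
      (u.2 ≠ 0 → f u' * Ar.cc u.2 (XK u') = f u * Ar.cc u.2 (XK u)) ∧ (u.2 = 0 → f u' = f u) := by
  obtain ⟨i, -, hi⟩ := isTest_of ⟨j, hf⟩
  refine ⟨Ar.kc F * (i + 1), ?_⟩
  rintro ⟨c, d⟩ ⟨c', d'⟩ h1 h2
  have h1' := deep_iff.1 h1
  have h2' := deep_iff.1 h2
  have key : f (c', d') = f (c, d) * e3 ((arOf F).B.c d c - (arOf F).B.c d c') :=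
    (hi.mono (Nat.le_succ i)).loc c d c' d' h1' h2'
  refine ⟨fun hd => ?_, fun hd => ?_⟩
  · have hd : d ≠ 0 := hd
    by_cases h0 : f (c', d') = 0
    · have h3 : f (c, d) = 0 := by
        rw [h0] at key; exact (mul_eq_zero.1 key.symm).resolve_right (e3_ne_zero _)
      rw [h0, h3, zero_mul, zero_mul]
    have hu' : ¬ (c' = 0 ∧ d' = 0) := by
      rintro ⟨rfl, rfl⟩; exact h0 (test_zero hf)
    have e1 : (arOf F).B.c d (XK (c, d)) = (arOf F).B.c d c := by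
      rcases eq_or_ne c 0 with rfl | hc
      · simp [XK_zero]
      · rw [XK_ne hc]
    have e2 : (arOf F).B.c d (XK (c', d')) = (arOf F).B.c d c' := by
      rcases eq_or_ne c' 0 with rfl | hc
      · obtain ⟨t, y, ht, -, rfl⟩ := (hi.sup (c := 0) (d := d') h0).symm.close (c' := d) le_rfl
          (by rw [← neg_sub]; exact neg_mem h2')
        simp [XK_zero, ht.c_mul_left le_rfl]
      · rw [XK_ne hc]
    rw [← e3_cB hd (XK_ne_zero hu'), ← e3_cB hd (XK_ne_zero fun h => hd h.2), ← A_c, ← A_c, e1, e2,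
      key, mul_e3_e3 _ (sub_add_cancel _ _)]
  · have hd : d = 0 := hd
    subst hd
    simpa using key

theorem master (f : F × F → ℂ) (g : Mat F) (hg : g.det = 1) (hR : InR g) :
    tr (xiF f) g = fun u => syR (g 1 0, g 1 1) * xiF (rho g f) u := by
  have hdet := det_eq hg
  funext ⟨c, d⟩
  have hc : Cop (g 1 0) (g 1 1) :=
    ⟨hR 1 0, hR 1 1, -g 0 1, neg_mem (hR 0 1), g 0 0, hR 0 0, by linear_combination hdet⟩
  rw [syR_eq hc, xiF_eq, xi_congr (f := cu (rho g f)) fun c d h => rho_apply hg f h,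
    ← B83.Ar.xi_rho (A := arOf F) (hR 0 0) (hR 0 1) (hR 1 0) (hR 1 1) hdet, ← xiF_eq]
  rfl

theorem deep_of_latt {j : ℕ} {x : F} (hx : x ∈ latt F (Ar.N F ^ j)) : Deep j x := by
  obtain ⟨y, hy, rfl⟩ := hx
  exact ⟨y, mem_L_of_int hy, by push_cast; rfl⟩

variable (F) in
/-- The elements acting on `ξ` by a cube root of unity. -/
def Proj (ξ : F × F → ℂ) : Subgroup (SL F) where
  carrier := {g | ∃ k : ZMod 3, tr ξ (g : Mat F) = fun u => e3 k * ξ u}
  one_mem' := ⟨0, by rw [Matrix.SpecialLinearGroup.coe_one, tr_one]; simp⟩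
  mul_mem' := by
    rintro g h ⟨k, hk⟩ ⟨l, hl⟩
    refine ⟨l + k, ?_⟩
    rw [Matrix.SpecialLinearGroup.coe_mul, tr_mul, hl]
    funext u
    have := congrFun hk u
    simp only [tr] at this ⊢
    rw [this, e3_add, mul_assoc]
  inv_mem' := by
    rintro g ⟨k, hk⟩
    refine ⟨-k, ?_⟩
    funext u
    have h1 := congrFun hk (rmul u ((g⁻¹ : SL F) : Mat F))
    simp only [tr] at h1 ⊢
    rw [← rmul_mul, ← Matrix.SpecialLinearGroup.coe_mul, inv_mul_cancel,
      Matrix.SpecialLinearGroup.coe_one, rmul_one] at h1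
    rw [h1, ← mul_assoc, e3_neg_mul, one_mul]

omit [NumberField F] [Emb F] [Ar F] in
theorem stab_proj (ξ : F × F → ℂ) : (Stab ξ).relIndex (Proj F ξ) ≠ 0 := by
  have hk : ∀ g : Proj F ξ, ∃ k : ZMod 3, tr ξ ((g : SL F) : Mat F) = fun u => e3 k * ξ u :=
    fun g => g.2
  choose k hk using hk
  have : Finite (Proj F ξ ⧸ (Stab ξ).subgroupOf (Proj F ξ)) := by
    refine Finite.of_injective (fun q => k q.out) fun q q' h => ?_
    rw [← q.out_eq, ← q'.out_eq]
    refine QuotientGroup.eq.2 ?_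
    show tr ξ (((q.out : SL F)⁻¹ * (q'.out : SL F) : SL F) : Mat F) = ξ
    have h' : k q.out = k q'.out := h
    rw [Matrix.SpecialLinearGroup.coe_mul, tr_mul, hk, ← h', ← hk, ← tr_mul,
      ← Matrix.SpecialLinearGroup.coe_mul, inv_mul_cancel, Matrix.SpecialLinearGroup.coe_one, tr_one]
  exact Subgroup.index_ne_zero_of_finite

theorem adm (hR : RowStmt F) (f : F × F → ℂ) (hf : Test f) : Adm (xiF f) := by
  obtain ⟨j, hj⟩ := hf
  refine ⟨hj.bdd.imp fun C hC u => ?_, ⟨Ar.N F ^ j, pow_ne_zero _ ?_, ?_⟩, ?_⟩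
  · rw [xiF_eq]; exact (B83.Ar.norm_xi_le _ _ _).trans (hC u)
  · have := Ar.two_le (F := F); omega
  · rintro ⟨c, d⟩ hu
    rw [xiF_eq] at hu
    obtain ⟨⟨hc, hd, p', hp', q', hq', e'⟩, h0⟩ := B83.Ar.xi_ne_zero hu
    obtain ⟨h1, h2, p, hp, q, hq, e⟩ := hj.supp (c, d) h0
    have hN : (Ar.N F : F) ^ j ∈ (Ar.R : Subring F) := pow_mem (natCast_mem _ _) _
    push_cast
    refine ⟨Ar.int_of _ (mul_mem hN hc) h1, Ar.int_of _ (mul_mem hN hd) h2, ?_⟩
    simp only at e h1 h2 ⊢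
    have hM := pow_ne_zero j (N_ne (F := F))
    generalize (Ar.N F : F) ^ j = M at *
    obtain ⟨r, hr, l, hl, el⟩ := Ar.approx (q' * (M * p' - p) - p' * (M * q' - q)) M hM
    refine ⟨p + l * (M * d), q - l * (M * c), Ar.int_of _ ?_ (add_mem hp (mul_mem hl h2)),
      Ar.int_of _ ?_ (sub_mem hq (mul_mem hl h1)), by linear_combination e⟩
    · rw [show p + l * (M * d) = M * p' - r * d by
        linear_combination (-d) * el + (M * p' - p) * e' - p' * (M * e' - e)]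
      exact sub_mem (mul_mem hN hp') (mul_mem hr hd)
    · rw [show q - l * (M * c) = M * q' + r * c by
        linear_combination c * el + (M * q' - q) * e' - q' * (M * e' - e)]
      exact add_mem (mul_mem hN hq') (mul_mem hr hc)
  · refine Subgroup.relIndex_ne_zero_trans (stab_proj _) ?_
    refine hR.cong (Ar.N F ^ j) _ (pow_ne_zero _ (by have := Ar.two_le (F := F); omega)) ?_
    intro g hg hg1
    have hRg : InR (g : Mat F) := fun i i' => mem_R_of_int (hg i i')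
    have hc : Cop (g 1 0) (g 1 1) := ⟨hRg 1 0, hRg 1 1, -g 0 1, neg_mem (hRg 0 1), g 0 0, hRg 0 0,
      by linear_combination det_eq g.det_coe⟩
    refine ⟨(arOf F).sy (g 1 1) (g 1 0), ?_⟩
    rw [master f g g.det_coe hRg, hj.inv g fun i i' => deep_of_latt (hg1 i i'), syR_eq hc]

omit [NumberField F] [Emb F] [Ar F] in
theorem nT_coe (p : F) : ((nT p : SL F) : Mat F) = !![1, p; 0, 1] := rfl

theorem cu_rho_nT (p : F) {f : F × F → ℂ} (h0 : f 0 = 0) :
    cu (rho (nT p : SL F) f) = B83.Ar.opN p (cu f) := by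
  rw [cu_rho (nT p).det_coe h0, ← B83.Ar.rho_n (A := arOf F)]
  rfl

theorem rho_nT_mul (f : F × F → ℂ) (g : Mat F) (p : F) (hg : g.det = 1) (h0 : f 0 = 0) :
    rho (((nT p : SL F) : Mat F) * g) f = rho (nT p : SL F) (rho g f) := by
  apply cu_inj
  rw [cu_rho_nT p (rho_zero g h0), cu_rho hg h0,
    cu_rho (by rw [Matrix.det_mul, hg, (nT p).det_coe, one_mul]) h0, ← B83.Ar.rho_N_left]
  simp [nT_coe, Matrix.mul_apply, Fin.sum_univ_two]

theorem rho_mul_nT (f : F × F → ℂ) (g : Mat F) (p : F) (hg : g.det = 1) (h0 : f 0 = 0) :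
    rho (g * ((nT p : SL F) : Mat F)) f = rho g (rho (nT p : SL F) f) := by
  apply cu_inj
  rw [cu_rho hg (rho_zero _ h0), cu_rho_nT p h0,
    cu_rho (by rw [Matrix.det_mul, hg, (nT p).det_coe, one_mul]) h0, ← B83.Ar.rho_N_right]
  simp [nT_coe, Matrix.mul_apply, Fin.sum_univ_two, add_comm]

theorem XK_smul {m : F} (hm : m ≠ 0) (c d : F) :
    ∃ n : F, n ≠ 0 ∧ XK (m ^ 3 * c, m ^ 3 * d) = n ^ 3 * XK (c, d) := by
  rcases eq_or_ne c 0 with rfl | hc
  · exact ⟨m⁻¹, inv_ne_zero hm, by rw [mul_zero, XK_zero, XK_zero, mul_inv, inv_pow]⟩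
  · exact ⟨m, hm, by rw [XK_ne hc, XK_ne (mul_ne_zero (pow_ne_zero _ hm) hc)]⟩

theorem rho_opS (f : F × F → ℂ) (g : Mat F) (m : F) (hg : g.det = 1) (hm : m ≠ 0) :
    rho g (opS m f) = opS m (rho g f) := by
  funext ⟨c, d⟩
  by_cases h : c = 0 ∧ d = 0
  · obtain ⟨rfl, rfl⟩ := h
    simp [rho, opS, rmul]
  have hdet := det_eq hg
  have h1 := XK_ne_zero h
  have h2 := XK_ne_zero (row_ne hdet h)
  have h3 : XK (g 1 0, g 1 1) ≠ 0 := XK_ne_zero fun h' => by
    rw [h'.1, h'.2] at hdet; simp at hdet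
  have e : rmul (m ^ 3 * c, m ^ 3 * d) g =
      (m ^ 3 * (c * g 0 0 + d * g 1 0), m ^ 3 * (c * g 0 1 + d * g 1 1)) := by
    simp only [rmul]; congr 1 <;> ring
  obtain ⟨n, hn, en⟩ := XK_smul hm c d
  obtain ⟨n', hn', en'⟩ := XK_smul hm (c * g 0 0 + d * g 1 0) (c * g 0 1 + d * g 1 1)
  simp only [rho, opS]
  rw [e, en, en']
  simp only [rmul]
  generalize XK (c * g 0 0 + d * g 1 0, c * g 0 1 + d * g 1 1) = x' at h2 ⊢
  generalize XK (c, d) = x at h1 ⊢
  generalize XK (g 1 0, g 1 1) = x1 at h3 ⊢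
  rw [show n' ^ 3 * x' / (n ^ 3 * x) = (n' / n) ^ 3 * (x' / x) by field_simp, mul_div_assoc,
    ← e3_cB (div_ne_zero h2 h1) (div_ne_zero h2 h3),
    ← e3_cB (mul_ne_zero (pow_ne_zero _ (div_ne_zero hn' hn)) (div_ne_zero h2 h1))
      (mul_ne_zero (pow_ne_zero _ hn') (div_ne_zero h2 h3)), ← A_c, ← A_c,
    Bi.cube_mul_left _ _ _ (div_ne_zero hn' hn), Bi.cube_mul_right _ _ _ hn']

theorem opT_opT (f : F × F → ℂ) (t t' : F) (ht : t ≠ 0) (ht' : t' ≠ 0) (h0 : f 0 = 0) :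
    opT t' (opT t f) = fun u => conj (Ar.cc t t') * opT (t * t') f u := by
  apply cu_inj
  rw [cu_opT ht' (opT_zero t h0), cu_opT ht h0, B83.Ar.br_br ht ht' h0,
    ← cu_opT (mul_ne_zero ht ht') h0, e3_neg, A_c, e3_cB ht ht']
  rfl

theorem opT_cube (f : F × F → ℂ) (t m : F) (ht : t ≠ 0) (hm : m ≠ 0) (h0 : f 0 = 0) :
    opT (m ^ 3 * t) f = opS m (opT t (opC m f)) := by
  apply cu_inj
  rw [cu_opT (mul_ne_zero (pow_ne_zero _ hm) ht) h0, B83.Ar.br_cube_mul hm ht, cu_opS,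
    cu_opT ht (opC_zero m h0), cu_opC]

theorem opT_P (f : F × F → ℂ) (hf : Test f) :
    ∃ J, ∀ t k : F, t ≠ 0 → PJ J k → opT (t * k) f = opT t f := by
  obtain ⟨j, hj, h⟩ := isTest_of hf
  refine ⟨Ar.kc F * (j + j), fun t k ht hk => cu_inj ?_⟩
  have hk' : (arOf F).P (j + j) k := deep_iff.1 hk
  have hk0 := hk'.ne_zero (by omega)
  have h1 := B83.Ar.br_br (A := arOf F) hk0 ht h.zero_zero
  rw [h.br_deep hj hk', hk'.c_left (by omega)] at h1
  rw [cu_opT (mul_ne_zero ht hk0) (test_zero' hf), cu_opT ht (test_zero' hf), h1, mul_comm t]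
  simp

omit [NumberField F] [Emb F] [Ar F] in
theorem det_gam (α : F) {β : F} (hβ : β ≠ 0) : (gam α β).det = 1 := by
  rw [gam, Matrix.det_fin_two_of]; field_simp; ring

theorem opW_P (f : F × F → ℂ) (hf : Test f) :
    ∃ J, ∀ D k : F, D ≠ 0 → PJ J k → opW (D * k) f = opW D f := by
  obtain ⟨j, hj, h⟩ := isTest_of hf
  refine ⟨Ar.kc F * (j + j), fun D k hD hk => cu_inj ?_⟩
  have hk' : (arOf F).P (j + j) k := deep_iff.1 hk
  have hk0 := hk'.ne_zero (by omega)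
  rw [opW, opW, cu_rho (det_gam 0 hD) (test_zero' hf),
    cu_rho (det_gam 0 (mul_ne_zero hD hk0)) (test_zero' hf)]
  exact h.rho_w_deep hj hD hk'

theorem xi_opT_unit (f : F × F → ℂ) (u : F) (hu : UR u) :
    xiF (opT u f) = tr (xiF f) !![u ^ 2, 0; 0, u] := by
  classical
  funext ⟨c, d⟩
  have e : rmul (c, d) !![u ^ 2, 0; 0, u] = (u ^ 2 * c, u * d) := by
    simp [rmul, mul_comm]
  have h0 : Function.update f 0 0 0 = 0 := Function.update_self _ _ _
  have h1 : ∀ c d : F, ¬ (c = 0 ∧ d = 0) → cu f c d = cu (Function.update f 0 0) c d :=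
    fun c d h => (Function.update_of_ne (fun e => h (Prod.mk.inj e)) _ _).symm
  rw [tr, e, xiF_eq, xiF_eq, xi_congr h1, ← B83.Ar.Un.xi_br (A := arOf F) hu, ← cu_opT hu.1 h0]
  refine xi_congr (fun c d h => ?_) c d
  have h2 : ¬ (u ^ 2 * c = 0 ∧ u * d = 0) := fun h' =>
    h ⟨(mul_eq_zero.1 h'.1).resolve_left (pow_ne_zero _ hu.1),
      (mul_eq_zero.1 h'.2).resolve_left hu.1⟩
  have h3 := h1 _ _ h2
  simp only [cu, opT] at h3 ⊢
  rw [h3]

theorem hermite (g : Mat F) (hg : g.det ≠ 0) : ∃ (ρ b e : F) (σ : Mat F), ρ ≠ 0 ∧ e ≠ 0 ∧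
    σ.det = 1 ∧ InR σ ∧ g = !![ρ, b; 0, e] * σ := by
  rw [Matrix.det_fin_two] at hg
  obtain ⟨e, γ, δ, he, hc, e1, e2⟩ := (arOf F).exists_cop (x := g 1 0) (y := g 1 1) fun h => hg (by
    rw [h.1, h.2]; ring)
  obtain ⟨hγ, hδ, p, hp, q, hq, e3⟩ := hc
  refine ⟨g 0 0 * δ - g 0 1 * γ, g 0 0 * p + g 0 1 * q, e, !![q, -p; γ, δ], fun h => hg ?_, he,
    ?_, ?_, ?_⟩
  · rw [e1, e2]; linear_combination e * h
  · rw [Matrix.det_fin_two_of]; linear_combination e3
  · intro i j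
    fin_cases i <;> fin_cases j
    · exact hq
    · exact neg_mem hp
    · exact hγ
    · exact hδ
  · ext i j
    fin_cases i <;> fin_cases j <;> simp [Matrix.mul_apply, Fin.sum_univ_two]
    · linear_combination (-g 0 0) * e3
    · linear_combination (-g 0 1) * e3
    · exact e1
    · exact e2

end Op83

open Op83 in
/-- **Leaf B1.** -/
theorem opStmt_83 (F : Type) [Field F] [NumberField F] [Emb F] [Ar F] (hR : RowStmt F) :
    OpStmt F where
  steinberg := steinberg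
  mono := mono
  add f g hf hg := test_iff.2 ((test_iff.1 hf).add (test_iff.1 hg))
  smul a f hf := test_iff.2 ((test_iff.1 hf).smul a)
  zero := test_iff.2 ⟨0, (arOf F).test_zero 0⟩
  test_rho f g hg hf := test_iff.2 (by
    rw [cu_rho hg (test_zero' hf)]; exact (test_iff.1 hf).rho (det_eq hg))
  test_opC f m hm hf := test_iff.2 (by rw [cu_opC]; exact (test_iff.1 hf).sc hm one_ne_zero)
  test_opS f m hm hf := test_iff.2 (by rw [cu_opS]; exact (test_iff.1 hf).sc hm hm)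
  test_opT f t ht hf := test_iff.2 (by rw [cu_opT ht (test_zero' hf)]; exact (test_iff.1 hf).br ht)
  close := close
  master := master
  adm := adm hR
  rho_nT f p h0 := cu_inj (cu_rho_nT p h0)
  rho_nT_mul := rho_nT_mul
  rho_mul_nT := rho_mul_nT
  rho_opS := rho_opS
  opT_opT := opT_opT
  opT_cube := opT_cube
  opT_P := opT_P
  opW_P := opW_P
  xi_opT_unit := xi_opT_unit
  hermite := hermite

end Crest.Agent.T27.TH
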