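import Mathlib
import Crest.Agent.T27.HeckeC_87
import Crest.Agent.R014.EulB_534

/-!
# Row 27, Hecke integral, part D (helper87): the Mellin transform of a theta series

`∫_D θ_J(φ)(c) e^{s ll c} dc = w κ Γ_K(s) N(J)^{-s} Z_J(ψ, s)` for `1 < re s`, where `Z_J` is the
partial Dirichlet series over the integral ideals `A` with `A J` principal.
-/

set_option autoImplicit false
set_option linter.unusedSectionVars false

noncomputable section

open MeasureTheory Complex Set Filter Topology NumberField Module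
open NumberField.Units IsDedekindDomain
open scoped Real ComplexConjugate nonZeroDivisors
open Crest.Agent.T27.HeckeA87 Crest.Agent.T27.HeckeB87 Crest.Agent.T27.HeckeC87

namespace Crest.Agent.T27.HeckeD87

theorem integrable_tsum {α ι E : Type*} [MeasurableSpace α] {μ : Measure α} [Countable ι]
    [NormedAddCommGroup E] {F : ι → α → E} (hm : AEStronglyMeasurable (fun a => ∑' i, F i a) μ)
    (hF : ∀ i, Integrable (F i) μ) (hs : Summable fun i => ∫ a, ‖F i a‖ ∂μ) :
    Integrable (fun a => ∑' i, F i a) μ := by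
  refine ⟨hm, ?_⟩
  rw [hasFiniteIntegral_iff_enorm]
  calc ∫⁻ a, ‖∑' i, F i a‖ₑ ∂μ ≤ ∫⁻ a, ∑' i, ‖F i a‖ₑ ∂μ :=
        lintegral_mono fun a => enorm_tsum_le_tsum_enorm
    _ = ∑' i, ∫⁻ a, ‖F i a‖ₑ ∂μ := lintegral_tsum fun i => (hF i).1.enorm
    _ = ∑' i, ENNReal.ofReal (∫ a, ‖F i a‖ ∂μ) := by
        simp only [ofReal_integral_norm_eq_lintegral_enorm (hF _)]
    _ = ENNReal.ofReal (∑' i, ∫ a, ‖F i a‖ ∂μ) :=
        (ENNReal.ofReal_tsum_of_nonneg (fun i => integral_nonneg fun a => norm_nonneg _) hs).symm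
    _ < ⊤ := ENNReal.ofReal_lt_top

variable {K : Type*} [Field K] [NumberField K]

/-! ### sums over all ideals -/

open Crest.Agent.R014.EulA_534 Crest.Agent.R014.EulB_534 in
theorem summable_ideal_aux {σ : ℝ} (hσ : 1 < σ) :
    Summable (fun A : Ideal (𝓞 K) => (Ideal.absNorm A : ℝ) ^ (-σ)) ∧
      ∑' A : Ideal (𝓞 K), (Ideal.absNorm A : ℝ) ^ (-σ) ≤
        Real.exp (2 * (finrank ℚ K * ∑' n : ℕ, (n : ℝ) ^ (-σ))) := by
  let y : HeightOneSpectrum (𝓞 K) → ℝ := fun P => (Ideal.absNorm P.asIdeal : ℝ) ^ (-σ)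
  have h0 : ∀ P, 0 ≤ y P := fun P => Real.rpow_nonneg (Nat.cast_nonneg _) _
  have h1 : ∀ P, y P ≤ 1 / 2 := by
    intro P
    have h2 : (2 : ℝ) ≤ (Ideal.absNorm P.asIdeal : ℝ) := by exact_mod_cast two_le P
    calc y P ≤ (2 : ℝ) ^ (-σ) := Real.rpow_le_rpow_of_nonpos (by norm_num) h2 (by linarith)
      _ ≤ (2 : ℝ) ^ (-1 : ℝ) := Real.rpow_le_rpow_of_exponent_le (by norm_num) (by linarith)
      _ = 1 / 2 := by rw [Real.rpow_neg_one]; norm_num
  obtain ⟨hs, hb⟩ := summable_of_fibre (below (E := K)) (finrank ℚ K) card_below y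
    (fun n : ℕ => (n : ℝ) ^ (-σ)) h0
    (fun P => Real.rpow_le_rpow_of_nonpos (by exact_mod_cast (below_spec P).1.pos)
      (by exact_mod_cast (below_spec P).2.2.1) (by linarith))
    (fun n => Real.rpow_nonneg (Nat.cast_nonneg n) _)
    (Real.summable_nat_rpow.2 (by linarith))
  let f : Ideal (𝓞 K) →* ℝ :=
    { toFun := fun A => (Ideal.absNorm A : ℝ) ^ (-σ)
      map_one' := by simp
      map_mul' := fun A B => by
        rw [map_mul, Nat.cast_mul, Real.mul_rpow (Nat.cast_nonneg _) (Nat.cast_nonneg _)] }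
  have h3 : ∀ v, mon y v = f (idE v).1 := fun v => (map_idl f v).symm
  have h4 := summable_mon_real y h0 h1 hs
  have h5 : ∑' v, mon y v ≤ Real.exp (2 * ∑' P, y P) :=
    h4.tsum_le_of_sum_le fun V => sum_le y h0 h1 hs V
  have h6 : HasSum (fun I : {I : Ideal (𝓞 K) // I ≠ ⊥} => f I.1) (∑' v, mon y v) := by
    rw [← (idE (E := K)).hasSum_iff]
    have h9 : ((fun I : {I : Ideal (𝓞 K) // I ≠ ⊥} => f I.1) ∘ idE) = mon y :=
      funext fun v => (h3 v).symm
    rw [h9]
    exact h4.hasSum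
  have h7 : HasSum (fun A : Ideal (𝓞 K) => f A) (∑' v, mon y v) := by
    refine (hasSum_subtype_iff_of_support_subset (s := {I : Ideal (𝓞 K) | I ≠ ⊥}) ?_).1 h6
    intro A hA h
    apply hA
    show (Ideal.absNorm A : ℝ) ^ (-σ) = 0
    rw [h, Ideal.absNorm_bot, Nat.cast_zero, Real.zero_rpow (by linarith)]
  refine ⟨h7.summable, ?_⟩
  have h8 : ∑' A : Ideal (𝓞 K), (Ideal.absNorm A : ℝ) ^ (-σ) = ∑' v, mon y v := h7.tsum_eq
  rw [h8]
  refine h5.trans (Real.exp_le_exp.2 ?_)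
  linarith

theorem summable_ideal {σ : ℝ} (hσ : 1 < σ) :
    Summable fun A : Ideal (𝓞 K) => (Ideal.absNorm A : ℝ) ^ (-σ) := (summable_ideal_aux hσ).1

theorem tsum_ideal_two :
    ∑' A : Ideal (𝓞 K), (Ideal.absNorm A : ℝ) ^ (-2 : ℝ) ≤ Real.exp (4 * finrank ℚ K) := by
  refine (summable_ideal_aux (K := K) (σ := 2) (by norm_num)).2.trans (Real.exp_le_exp.2 ?_)
  have h1 : ∑' n : ℕ, (n : ℝ) ^ (-2 : ℝ) = π ^ 2 / 6 := by
    rw [← hasSum_zeta_two.tsum_eq]
    refine tsum_congr fun n => ?_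
    rw [Real.rpow_neg (Nat.cast_nonneg n), one_div]
    norm_cast
  rw [h1]
  have h2 : π ^ 2 / 6 ≤ 2 := by nlinarith [Real.pi_lt_d2, Real.pi_pos]
  have h3 := finrank_pos' (K := K)
  nlinarith

theorem norm_ideal_cpow (A : Ideal (𝓞 K)) {s : ℂ} (hs : 0 < s.re) :
    ‖(Ideal.absNorm A : ℂ) ^ (-s)‖ = (Ideal.absNorm A : ℝ) ^ (-s.re) := by
  rw [Complex.norm_natCast_cpow_of_re_ne_zero _ (by rw [neg_re]; linarith), neg_re]

theorem summable_psi {ψ : Ideal (𝓞 K) → ℂ} (hψ : ∀ A, ‖ψ A‖ ≤ 1) {s : ℂ} (hs : 1 < s.re) :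
    Summable fun A : Ideal (𝓞 K) => ψ A * (Ideal.absNorm A : ℂ) ^ (-s) := by
  refine Summable.of_norm_bounded (summable_ideal hs) fun A => ?_
  rw [norm_mul, norm_ideal_cpow A (by linarith)]
  exact mul_le_of_le_one_left (Real.rpow_nonneg (Nat.cast_nonneg _) _) (hψ A)

theorem dedekindZeta_eq {s : ℂ} (hs : 1 < s.re) :
    dedekindZeta K s = ∑' A : Ideal (𝓞 K), (Ideal.absNorm A : ℂ) ^ (-s) := by
  have h1 := summable_psi (K := K) (ψ := fun _ => 1) (by simp) hs
  simp only [one_mul] at h1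
  have h2 := Crest.Agent.R014.EulB_534.hasSum_fibre (fun A : Ideal (𝓞 K) => Ideal.absNorm A)
    (fun n => (Ideal.finite_setOfPred_absNorm_eq (S := 𝓞 K) n).to_subtype)
    (fun n => (n : ℂ) ^ (-s)) h1
  rw [← h2.tsum_eq, dedekindZeta, LSeries]
  refine tsum_congr fun n => ?_
  have hs0 : s ≠ 0 := by
    rintro rfl
    norm_num at hs
  rw [LSeries.term_of_ne_zero' hs0, cpow_neg, div_eq_mul_inv]

/-! ### elements and ideals -/

/-- nonzero elements -/
def nz (J : FI K) : Set K := {x | x ∈ el J ∧ x ≠ 0}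

instance countable_field : Countable K :=
  (Module.finBasis ℚ K).equivFun.injective.countable

open Classical in
/-- the integral ideal `x J⁻¹` -/
def idl (J : FI K) (x : K) : Ideal (𝓞 K) :=
  if h : ∃ A : Ideal (𝓞 K), (A : FractionalIdeal (𝓞 K)⁰ K) * J.1 =
    FractionalIdeal.spanSingleton (𝓞 K)⁰ x then h.choose else ⊥

theorem idl_spec {J : FI K} {x : K} (hx : x ∈ el J) :
    (idl J x : FractionalIdeal (𝓞 K)⁰ K) * J.1 = FractionalIdeal.spanSingleton (𝓞 K)⁰ x := by
  have h : ∃ A : Ideal (𝓞 K), (A : FractionalIdeal (𝓞 K)⁰ K) * J.1 =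
      FractionalIdeal.spanSingleton (𝓞 K)⁰ x := by
    have h1 : FractionalIdeal.spanSingleton (𝓞 K)⁰ x * (J⁻¹ : FI K).1 ≤ 1 := by
      calc FractionalIdeal.spanSingleton (𝓞 K)⁰ x * (J⁻¹ : FI K).1 ≤ J.1 * (J⁻¹ : FI K).1 :=
            mul_le_mul_left (FractionalIdeal.spanSingleton_le_iff_mem.2 hx) _
        _ = 1 := J.mul_inv
    obtain ⟨A, hA⟩ := FractionalIdeal.le_one_iff_exists_coeIdeal.1 h1
    exact ⟨A, by rw [hA, Units.inv_mul_cancel_right]⟩
  rw [idl, dif_pos h]
  exact h.choose_spec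

theorem idl_eq {J : FI K} {x : K} {A : Ideal (𝓞 K)}
    (h : (A : FractionalIdeal (𝓞 K)⁰ K) * J.1 = FractionalIdeal.spanSingleton (𝓞 K)⁰ x) :
    x ∈ el J ∧ idl J x = A := by
  have hx : x ∈ el J := by
    refine FractionalIdeal.spanSingleton_le_iff_mem.1 ?_
    rw [← h]
    calc (A : FractionalIdeal (𝓞 K)⁰ K) * J ≤ 1 * J :=
          mul_le_mul_left FractionalIdeal.coeIdeal_le_one _
      _ = J := one_mul _
  refine ⟨hx, ?_⟩
  have h1 := (idl_spec hx).trans h.symm
  exact FractionalIdeal.coeIdeal_injective ((Units.mul_left_inj J).1 h1)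

theorem idl_ne_bot {J : FI K} {x : K} (hx : x ∈ nz J) : idl J x ≠ ⊥ := by
  intro h
  have h1 := idl_spec hx.1
  rw [h, FractionalIdeal.coeIdeal_bot, zero_mul, eq_comm,
    FractionalIdeal.spanSingleton_eq_zero_iff] at h1
  exact hx.2 h1

theorem norm_idl {J : FI K} {x : K} (hx : x ∈ el J) :
    (((|Algebra.norm ℚ x| : ℚ)) : ℝ) = Ideal.absNorm (idl J x) * nm J := by
  have h1 := congrArg FractionalIdeal.absNorm (idl_spec hx)
  rw [map_mul, FractionalIdeal.coeIdeal_absNorm, FractionalIdeal.absNorm_span_singleton] at h1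
  rw [← h1, nm]
  push_cast
  rfl

/-- the integral ideals in the inverse class of `J` -/
def Pr (J : FI K) : Set (Ideal (𝓞 K)) :=
  {A | A ≠ ⊥ ∧ ∃ x, (A : FractionalIdeal (𝓞 K)⁰ K) * J.1 = FractionalIdeal.spanSingleton (𝓞 K)⁰ x}

theorem idl_mem_Pr {J : FI K} {x : K} (hx : x ∈ nz J) : idl J x ∈ Pr J :=
  ⟨idl_ne_bot hx, x, idl_spec hx.1⟩

theorem Pr.exists {J : FI K} {A : Ideal (𝓞 K)} (h : A ∈ Pr J) : ∃ x ∈ nz J, idl J x = A := by
  obtain ⟨h0, x, hx⟩ := h
  refine ⟨x, ⟨(idl_eq hx).1, ?_⟩, (idl_eq hx).2⟩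
  rintro rfl
  rw [FractionalIdeal.spanSingleton_zero, mul_eq_zero] at hx
  rcases hx with hx | hx
  · exact h0 (FractionalIdeal.coeIdeal_eq_zero.1 hx)
  · exact J.ne_zero hx

theorem span_unit_mul (u : (𝓞 K)ˣ) (x : K) :
    FractionalIdeal.spanSingleton (𝓞 K)⁰ ((u : K) * x) = FractionalIdeal.spanSingleton (𝓞 K)⁰ x := by
  rw [eq_comm, FractionalIdeal.spanSingleton_eq_spanSingleton]
  exact ⟨u, by rw [Units.smul_def, Algebra.smul_def]⟩

/-- the map from nonzero elements to ideals -/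
def pj (J : FI K) (x : nz J) : Ideal (𝓞 K) := idl J x

/-- a fibre is a torsor under the units -/
def fibEquiv {J : FI K} {x : K} (hx : x ∈ nz J) : (𝓞 K)ˣ ≃ (pj J ⁻¹' {idl J x}) :=
  Equiv.ofBijective
    (fun u => ⟨⟨(u : K) * x, (idl_eq ((idl_spec hx.1).trans (span_unit_mul u x).symm)).1,
        mul_ne_zero (Units.coe_ne_zero u) hx.2⟩,
      (idl_eq ((idl_spec hx.1).trans (span_unit_mul u x).symm)).2⟩)
    ⟨fun u v h => by
      have h1 : (u : K) * x = (v : K) * x := congrArg (fun y => y.1.1) h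
      exact Units.coe_injective K (mul_right_cancel₀ hx.2 h1),
    fun y => by
      have h1 : idl J y.1.1 = idl J x := y.2
      have h2 := idl_spec y.1.2.1
      rw [h1, idl_spec hx.1, FractionalIdeal.spanSingleton_eq_spanSingleton] at h2
      obtain ⟨u, hu⟩ := h2
      refine ⟨u, Subtype.ext (Subtype.ext ?_)⟩
      rw [← hu, Units.smul_def, Algebra.smul_def]⟩

/-- the constant -/
def cst (J : FI K) (s : ℂ) : ℂ :=
  torsionOrder K * (kap K * Gam K s) * cexp (-(s * Real.log (nm J)))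

theorem hasSum_fibre {D : Set (X K)} (hD : IsFD D) (J : FI K) {s : ℂ} (hs : 0 < s.re)
    (A : Ideal (𝓞 K)) :
    HasSum (fun y : pj J ⁻¹' {A} => ∫ c in D, ker s (y.1 : K) c)
      ((Pr J).indicator (fun A => cst J s * (Ideal.absNorm A : ℂ) ^ (-s)) A) := by
  by_cases hA : A ∈ Pr J
  · obtain ⟨x, hx, rfl⟩ := Pr.exists hA
    rw [indicator_of_mem hA, ← (fibEquiv hx).hasSum_iff]
    have h1 := hasSum_ker_units hD hs hx.2
    have h2 : 0 < (Ideal.absNorm (idl J x) : ℝ) := by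
      have : Ideal.absNorm (idl J x) ≠ 0 := by
        rw [Ne, Ideal.absNorm_eq_zero_iff]
        exact idl_ne_bot hx
      positivity
    have h3 : (torsionOrder K : ℂ) *
        (kap K * Gam K s * cexp (-(s * Real.log (|Algebra.norm ℚ x| : ℚ)))) =
        cst J s * (Ideal.absNorm (idl J x) : ℂ) ^ (-s) := by
      rw [norm_idl hx.1, Real.log_mul h2.ne' (nm_pos J).ne', cst, ← Complex.ofReal_natCast
        (Ideal.absNorm _), cpow_pos h2, mul_assoc, mul_assoc, mul_assoc, mul_assoc,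
        ← Complex.exp_add]
      congr 4
      push_cast
      ring
    rw [h3] at h1
    exact h1
  · rw [indicator_of_notMem hA]
    have : IsEmpty (pj J ⁻¹' {A}) := ⟨fun y => hA (by
      have h1 : idl J y.1.1 = A := y.2
      rw [← h1]
      exact idl_mem_Pr y.1.2)⟩
    exact hasSum_empty

theorem norm_ker (s : ℂ) (x : K) (c : X K) :
    ‖ker s x c‖ = gs (tt c) x * Real.exp (s.re * ll c) := by
  rw [HeckeC87.ker, norm_mul_exp, Complex.norm_real, Real.norm_of_nonneg (gs_pos _ _).le]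

theorem ker_ofReal (σ : ℝ) (x : K) (c : X K) :
    ker σ x c = ((gs (tt c) x * Real.exp (σ * ll c) : ℝ) : ℂ) := by
  rw [HeckeC87.ker]
  push_cast
  rfl

theorem summable_int_ker {D : Set (X K)} (hD : IsFD D) (J : FI K) {σ : ℝ} (hσ : 1 < σ) :
    Summable fun x : nz J => ∫ c in D, gs (tt c) (x : K) * Real.exp (σ * ll c) := by
  have h0 : ∀ x : nz J, 0 ≤ ∫ c in D, gs (tt c) (x : K) * Real.exp (σ * ll c) := fun x =>
    integral_nonneg fun c => mul_nonneg (gs_pos _ _).le (Real.exp_pos _).le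
  have hσ' : 0 < (σ : ℂ).re := by rw [ofReal_re]; linarith
  have h1 : ∀ A, HasSum (fun y : pj J ⁻¹' {A} =>
      ∫ c in D, gs (tt c) (y.1 : K) * Real.exp (σ * ll c))
      ((Pr J).indicator (fun A => cst J σ * (Ideal.absNorm A : ℂ) ^ (-(σ : ℂ))) A).re := by
    intro A
    have h2 := Complex.hasSum_re (hasSum_fibre hD J hσ' A)
    simp only [ker_ofReal, integral_complex_ofReal, ofReal_re] at h2
    exact h2
  rw [summable_partition h0 (s := fun A => pj J ⁻¹' {A}) (fun x => by simp)]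
  refine ⟨fun A => (h1 A).summable, ?_⟩
  simp only [(h1 _).tsum_eq]
  refine Summable.of_norm_bounded ((summable_ideal hσ).mul_left ‖cst J σ‖) fun A => ?_
  refine (Complex.abs_re_le_norm _).trans ((norm_indicator_le_norm_self _ _).trans ?_)
  rw [norm_mul, norm_ideal_cpow A hσ', ofReal_re]

/-- the theta series without the zero term -/
def th (J : FI K) (φ : K → ℂ) (c : X K) : ℂ := ∑' x : nz J, φ x * (gs (tt c) (x : K) : ℝ)

/-- the plain theta series without the zero term -/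
def thr (J : FI K) (c : X K) : ℝ := ∑' x : nz J, gs (tt c) (x : K)

theorem thr_nonneg (J : FI K) (c : X K) : 0 ≤ thr J c := tsum_nonneg fun _ => (gs_pos _ _).le

theorem summable_nz (J : FI K) (c : X K) : Summable fun x : nz J => gs (tt c) (x : K) := by
  have h1 := summable_gs J (tt_pos c) 0
  simp only [zero_add] at h1
  exact h1.comp_injective (i := fun x : nz J => (⟨x.1, x.2.1⟩ : el J))
    fun x y h => Subtype.ext (congrArg (fun z : el J => (z : K)) h)

theorem th_one (J : FI K) (c : X K) : th J (fun _ => 1) c = (thr J c : ℝ) := by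
  simp only [th, thr, one_mul, Complex.ofReal_tsum]

theorem norm_th_le (J : FI K) {φ : K → ℂ} (hφ : ∀ x ∈ el J, ‖φ x‖ ≤ 1) (c : X K) :
    ‖th J φ c‖ ≤ thr J c := by
  refine tsum_of_norm_bounded (summable_nz J c).hasSum fun x => ?_
  rw [norm_mul, Complex.norm_real, Real.norm_of_nonneg (gs_pos _ _).le]
  exact mul_le_of_le_one_left (gs_pos _ _).le (hφ _ x.2.1)

theorem measurable_th (J : FI K) (φ : K → ℂ) : Measurable (th J φ) :=
  Measurable.tsum fun x =>
    (continuous_const.mul (Complex.continuous_ofReal.comp (continuous_gs (x : K)))).measurable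

theorem measurable_thr (J : FI K) : Measurable (thr J) :=
  Measurable.tsum fun x => (continuous_gs (x : K)).measurable

theorem integrableOn_thr {D : Set (X K)} (hD : IsFD D) (J : FI K) {σ : ℝ} (hσ : 1 < σ) :
    IntegrableOn (fun c => thr J c * Real.exp (σ * ll c)) D := by
  have hσ' : 0 < (σ : ℂ).re := by rw [ofReal_re]; linarith
  have hl := measurable_ll (K := K)
  have h1 : (fun c => thr J c * Real.exp (σ * ll c)) =
      fun c => ∑' x : nz J, gs (tt c) (x : K) * Real.exp (σ * ll c) := by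
    funext c
    rw [thr, tsum_mul_right]
  have h2 : Measurable fun c => thr J c * Real.exp (σ * ll c) :=
    (measurable_thr J).mul (by fun_prop)
  rw [h1] at h2 ⊢
  refine integrable_tsum h2.aestronglyMeasurable (fun x => ?_) ?_
  · have h3 := (integrable_ker hσ' x.2.2).norm
    simp only [norm_ker, ofReal_re] at h3
    exact h3.integrableOn
  · refine (summable_int_ker hD J hσ).congr fun x => ?_
    refine integral_congr_ae (Eventually.of_forall fun c => ?_)
    exact (Real.norm_of_nonneg (mul_nonneg (gs_pos _ _).le (Real.exp_pos _).le)).symm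

/-- the partial Dirichlet series -/
def Zs (J : FI K) (ψ : Ideal (𝓞 K) → ℂ) (s : ℂ) : ℂ :=
  ∑' A, (Pr J).indicator (fun A => ψ A * (Ideal.absNorm A : ℂ) ^ (-s)) A

/-- **Hecke's integral.** -/
theorem mellin_th {D : Set (X K)} (hD : IsFD D) (J : FI K) {ψ : Ideal (𝓞 K) → ℂ}
    (hψ : ∀ A, ‖ψ A‖ ≤ 1) {φ : K → ℂ} (hφ : ∀ x ∈ nz J, φ x = ψ (idl J x)) {s : ℂ}
    (hs : 1 < s.re) :
    ∫ c in D, th J φ c * cexp (s * ll c) = cst J s * Zs J ψ s := by
  have hs0 : 0 < s.re := by linarith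
  have h1 : ∀ c, th J φ c * cexp (s * ll c) = ∑' x : nz J, ψ (pj J x) * ker s (x : K) c := by
    intro c
    rw [th, ← tsum_mul_right]
    refine tsum_congr fun x => ?_
    rw [hφ _ x.2, HeckeC87.ker, mul_assoc]
    rfl
  have h2 := hasSum_integral_of_summable_integral_norm (μ := volume.restrict D)
    (F := fun (x : nz J) c => ψ (pj J x) * ker s (x : K) c)
    (fun x => ((integrable_ker hs0 x.2.2).const_mul _).integrableOn) (by
      refine Summable.of_nonneg_of_le (fun x => integral_nonneg fun c => norm_nonneg _)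
        (fun x => ?_) (summable_int_ker hD J hs)
      simp only [norm_mul, norm_ker]
      rw [integral_const_mul]
      exact mul_le_of_le_one_left
        (integral_nonneg fun c => mul_nonneg (gs_pos _ _).le (Real.exp_pos _).le) (hψ _))
  simp only [h1]
  rw [← (h2.tsum_fiberwise (pj J)).tsum_eq, Zs, ← tsum_mul_left]
  refine tsum_congr fun A => ?_
  have h3 := (hasSum_fibre hD J hs0 A).mul_left (ψ A)
  have h4 : ∀ y : pj J ⁻¹' {A}, ∫ c in D, ψ (pj J y.1) * ker s (y.1 : K) c =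
      ψ A * ∫ c in D, ker s (y.1 : K) c := by
    intro y
    have h5 : pj J y.1 = A := y.2
    rw [h5, integral_const_mul]
  simp only [h4]
  rw [h3.tsum_eq]
  by_cases hA : A ∈ Pr J
  · rw [indicator_of_mem hA, indicator_of_mem hA]
    ring
  · rw [indicator_of_notMem hA, indicator_of_notMem hA, mul_zero, mul_zero]

end Crest.Agent.T27.HeckeD87
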