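import Crest.Agent.T27.MelB_71
import Crest.Agent.T27.HeckeD_87

/-!
# Row 27, reflection, Mellin part C (helper71): convergence of sums over representatives

* `summable_reps` : `∑ N(x_i)^{-σ} < ∞` (`σ > 1`) for elements of a lattice that are pairwise
  inequivalent modulo the units `≡ 1 mod K`;
* `summable_Sparts` : the same for every `σ > 0` if the `x_i` are `S`-units;
* `transfer_F'` : `transfer_F` with the summability hypotheses discharged.
-/

set_option autoImplicit false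

noncomputable section

namespace Crest.Agent.T27.Mel

open scoped ComplexConjugate Topology
open MeasureTheory Complex Filter Set NumberField UniqueFactorizationMonoid
open Crest.Agent.R17 TH

section ideals

variable {F : Type} [Field F]

/-- The `x i` are pairwise inequivalent modulo the units of `𝒪_F` congruent to `1` modulo `K`. -/
def Ineq {ι : Type*} (K : ℕ) (x : ι → F) : Prop :=
  ∀ u : F, IsIntegral ℤ u → IsIntegral ℤ u⁻¹ → u ≠ 0 → (∃ y, IsIntegral ℤ y ∧ u = 1 + K * y) →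
    ∀ i i', u * x i = x i' → i = i'

theorem Ineq.mul {ι : Type*} {K : ℕ} {x : ι → F} (h : Ineq K x) {c : F} (hc : c ≠ 0) :
    Ineq K fun i => c * x i := fun u h1 h2 h3 h4 i i' h5 =>
  h u h1 h2 h3 h4 i i' (mul_left_cancel₀ hc ((mul_left_comm _ _ _).trans h5))

variable [NumberField F]

theorem summable_of_ideal {ι : Type*} {K : ℕ} (hK : K ≠ 0) {y : ι → 𝓞 F}
    (hin : Ineq K fun i => (y i : F)) {g : Ideal (𝓞 F) → ℝ} (hg0 : ∀ I, 0 ≤ g I)
    (hg : Summable g) : Summable fun i => g (Ideal.span {y i}) := by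
  classical
  have h1 : ∀ i, ∃ a, Ideal.span {a} = Ideal.span {y i} := fun i => ⟨y i, rfl⟩
  set gen : Ideal (𝓞 F) → 𝓞 F := fun I => if h : ∃ a, Ideal.span {a} = I then h.choose else 0
    with hgen
  have h2 : ∀ i, ∃ u : (𝓞 F)ˣ, gen (Ideal.span {y i}) * u = y i := fun i => by
    have : Ideal.span {gen (Ideal.span {y i})} = Ideal.span {y i} := by
      simp only [hgen]
      rw [dif_pos (h1 i)]
      exact (h1 i).choose_spec
    exact Ideal.span_singleton_eq_span_singleton.1 this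
  choose u hu using h2
  have hKne : Ideal.span {(K : 𝓞 F)} ≠ ⊥ := by
    rw [Ne, Ideal.span_singleton_eq_bot]
    exact_mod_cast hK
  have : Finite (𝓞 F ⧸ Ideal.span {(K : 𝓞 F)}) := Ideal.finiteQuotientOfFreeOfNeBot _ hKne
  have hinj : Function.Injective fun i =>
      (Ideal.span {y i}, Ideal.Quotient.mk (Ideal.span {(K : 𝓞 F)}) (u i : 𝓞 F)) := by
    intro i i' h
    obtain ⟨e1, e2⟩ := Prod.ext_iff.1 h
    simp only at e1 e2
    obtain ⟨z, hz⟩ := Ideal.mem_span_singleton'.1 (Ideal.Quotient.eq.1 e2.symm)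
    set v : (𝓞 F)ˣ := u i' * (u i)⁻¹ with hv
    have hv1 : ((v : 𝓞 F) : F) * ((v⁻¹ : (𝓞 F)ˣ) : 𝓞 F) = 1 := by
      have := congrArg (algebraMap (𝓞 F) F) v.mul_inv
      rwa [map_mul, map_one] at this
    refine hin ((v : 𝓞 F) : F) (v : 𝓞 F).isIntegral_coe ?_ (left_ne_zero_of_mul_eq_one hv1)
      ⟨((z * ((u i)⁻¹ : (𝓞 F)ˣ) : 𝓞 F) : F), RingOfIntegers.isIntegral_coe _, ?_⟩ i i' ?_
    · rw [← eq_inv_of_mul_eq_one_right hv1]
      exact RingOfIntegers.isIntegral_coe _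
    · have : (v : 𝓞 F) = 1 + K * (z * ((u i)⁻¹ : (𝓞 F)ˣ)) := by
        have h3 : (u i' : 𝓞 F) = u i + z * K := by rw [hz]; ring
        rw [hv, Units.val_mul, h3, add_mul, Units.mul_inv]
        ring
      rw [this]
      push_cast
      rfl
    · have : (v : 𝓞 F) * y i = y i' := by
        conv_lhs => rw [← hu i]
        conv_rhs => rw [← hu i', ← e1]
        rw [hv, Units.val_mul, mul_mul_mul_comm, Units.inv_mul, mul_one, mul_comm]
      have := congrArg (algebraMap (𝓞 F) F) this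
      rwa [map_mul] at this
  have h3 : Summable fun p : Ideal (𝓞 F) × (𝓞 F ⧸ Ideal.span {(K : 𝓞 F)}) => g p.1 * (1 : ℝ) :=
    hg.mul_of_nonneg (g := fun _ => (1 : ℝ)) Summable.of_finite hg0 fun _ => zero_le_one
  simpa only [Function.comp_def, mul_one] using h3.comp_injective hinj

theorem summable_pi_geometric {S : Type*} [Fintype S] {r : ℝ} (h0 : 0 ≤ r) (h1 : r < 1) :
    Summable fun e : S → ℕ => ∏ P, r ^ e P := by
  classical
  refine summable_of_sum_le (fun e => by positivity) (c := ∏ _P : S, (1 - r)⁻¹) fun T => ?_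
  obtain ⟨n, hn⟩ : ∃ n, ∀ e ∈ T, ∀ P, e P < n :=
    ⟨T.sup (fun e => Finset.univ.sup e) + 1, fun e he P => Nat.lt_succ_of_le
      ((Finset.le_sup (f := e) (Finset.mem_univ P)).trans
        (Finset.le_sup (f := fun e => Finset.univ.sup e) he))⟩
  calc ∑ e ∈ T, ∏ P, r ^ e P ≤ ∑ e ∈ Fintype.piFinset fun _ : S => Finset.range n, ∏ P, r ^ e P :=
        Finset.sum_le_sum_of_subset_of_nonneg
          (fun e he => Fintype.mem_piFinset.2 fun P => Finset.mem_range.2 (hn e he P))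
          fun _ _ _ => by positivity
    _ = ∏ _P : S, ∑ k ∈ Finset.range n, r ^ k := (Finset.prod_univ_sum _ fun _ k => r ^ k).symm
    _ ≤ ∏ _P : S, (1 - r)⁻¹ := by
        refine Finset.prod_le_prod (fun _ _ => by positivity) fun _ _ => ?_
        rw [← tsum_geometric_of_lt_one h0 h1]
        exact (summable_geometric_of_lt_one h0 h1).sum_le_tsum _ fun _ _ => by positivity

/-- Ideals dividing a power of a fixed ideal. -/
theorem summable_ideal_S {J : Ideal (𝓞 F)} (hJ : J ≠ ⊥) {ε : ℝ} (hε : 0 < ε) :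
    Summable ({I : Ideal (𝓞 F) | ∃ k : ℕ, I ∣ J ^ k}.indicator
      fun I => (Ideal.absNorm I : ℝ) ^ (-ε)) := by
  classical
  rw [← summable_subtype_iff_indicator]
  set S := (normalizedFactors J).toFinset with hS
  have hne : ∀ I : {I : Ideal (𝓞 F) | ∃ k : ℕ, I ∣ J ^ k}, (I : Ideal (𝓞 F)) ≠ ⊥ := by
    rintro ⟨I, k, hk⟩ h
    exact pow_ne_zero k hJ (zero_dvd_iff.1 (by simpa only [show I = 0 from h] using hk))
  have hsub : ∀ I : {I : Ideal (𝓞 F) | ∃ k : ℕ, I ∣ J ^ k},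
      ∀ P ∈ normalizedFactors (I : Ideal (𝓞 F)), P ∈ S := by
    intro I P hP
    obtain ⟨k, hk⟩ := I.2
    have h1 := (dvd_iff_normalizedFactors_le_normalizedFactors (hne I) (pow_ne_zero k hJ)).1 hk
    rw [normalizedFactors_pow] at h1
    exact Multiset.mem_toFinset.2 (Multiset.mem_of_mem_nsmul (Multiset.mem_of_le h1 hP))
  set e : {I : Ideal (𝓞 F) | ∃ k : ℕ, I ∣ J ^ k} → (S → ℕ) :=
    fun I P => (normalizedFactors (I : Ideal (𝓞 F))).count (P : Ideal (𝓞 F)) with he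
  have hinj : Function.Injective e := by
    intro I I' h
    have : normalizedFactors (I : Ideal (𝓞 F)) = normalizedFactors (I' : Ideal (𝓞 F)) := by
      ext P
      by_cases hP : P ∈ S
      · exact congrFun h ⟨P, hP⟩
      · rw [Multiset.count_eq_zero.2 fun h => hP (hsub I P h),
          Multiset.count_eq_zero.2 fun h => hP (hsub I' P h)]
    refine Subtype.ext ?_
    rw [← Ideal.prod_normalizedFactors_eq_self (hne I), this,
      Ideal.prod_normalizedFactors_eq_self (hne I')]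
  have hr0 : (0 : ℝ) ≤ (2 : ℝ) ^ (-ε) := by positivity
  have hr1 : (2 : ℝ) ^ (-ε) < 1 := Real.rpow_lt_one_of_one_lt_of_neg one_lt_two (by linarith)
  refine Summable.of_nonneg_of_le (fun I => by simp only [Function.comp_apply]; positivity)
    (fun I => ?_) ((summable_pi_geometric (S := S) hr0 hr1).comp_injective hinj)
  simp only [Function.comp_apply]
  have h1 : 2 ^ Multiset.card (normalizedFactors (I : Ideal (𝓞 F))) ≤
      Ideal.absNorm (I : Ideal (𝓞 F)) := by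
    conv_rhs => rw [← Ideal.prod_normalizedFactors_eq_self (hne I), map_multiset_prod]
    rw [← Multiset.card_map Ideal.absNorm]
    refine Multiset.pow_card_le_prod fun n hn => ?_
    obtain ⟨P, hP, rfl⟩ := Multiset.mem_map.1 hn
    have hp := prime_of_normalized_factor P hP
    have a0 : Ideal.absNorm P ≠ 0 := fun h => hp.ne_zero (Ideal.absNorm_eq_zero_iff.1 h)
    have a1 : Ideal.absNorm P ≠ 1 := fun h =>
      hp.not_isUnit (Ideal.isUnit_iff.2 (Ideal.absNorm_eq_one_iff.1 h))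
    omega
  have h2 : ∑ P : S, e I P = Multiset.card (normalizedFactors (I : Ideal (𝓞 F))) := by
    rw [← Multiset.sum_count_eq_card (hsub I), ← Finset.sum_coe_sort S]
  rw [Finset.prod_pow_eq_pow_sum, h2, ← Real.rpow_natCast, ← Real.rpow_mul zero_le_two, mul_comm,
    Real.rpow_mul zero_le_two, Real.rpow_natCast]
  exact Real.rpow_le_rpow_of_nonpos (by positivity) (by exact_mod_cast h1) (by linarith)

variable [Emb F]

theorem nF_coe (y : 𝓞 F) : nF (y : F) = (Ideal.absNorm (Ideal.span {y}) : ℝ) := by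
  rw [nF_eq_norm, Ideal.absNorm_span_singleton, Nat.cast_natAbs, ← Algebra.coe_norm_int]
  push_cast
  rfl

theorem summable_aux {ι : Type*} {M K : ℕ} (hM : M ≠ 0) (hK : K ≠ 0) {x : ι → F} {y : ι → 𝓞 F}
    (hy : ∀ i, (y i : F) = (M : F) * x i) (hin : Ineq K x) {σ : ℝ} {T : Set (Ideal (𝓞 F))}
    (hT : ∀ i, Ideal.span {y i} ∈ T)
    (hs : Summable (T.indicator fun I => (Ideal.absNorm I : ℝ) ^ (-σ))) :
    Summable fun i => nF (x i) ^ (-σ) := by
  have hM' : (M : F) ≠ 0 := by exact_mod_cast hM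
  have h1 := summable_of_ideal hK (y := y) (by simpa only [hy] using hin.mul hM')
    (fun I => Set.indicator_nonneg (fun _ _ => by positivity) I) hs
  refine (h1.mul_left (nF (M : F) ^ σ)).congr fun i => ?_
  have h0 : 0 ≤ nF (x i) := Finset.prod_nonneg fun j _ => by positivity
  rw [Set.indicator_of_mem (hT i), ← nF_coe, hy, nF_mul, Real.mul_rpow (nF_pos hM').le h0,
    ← mul_assoc, ← Real.rpow_add (nF_pos hM'), add_neg_cancel, Real.rpow_zero, one_mul]

omit [NumberField F] [Emb F] in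
theorem exists_int {x : F} (h : IsIntegral ℤ x) : ∃ y : 𝓞 F, (y : F) = x := ⟨⟨x, h⟩, rfl⟩

/-- Convergence of Dirichlet series over representatives. -/
theorem summable_reps {ι : Type*} {M K : ℕ} (hM : M ≠ 0) (hK : K ≠ 0) {x : ι → F}
    (hx : ∀ i, IsIntegral ℤ ((M : F) * x i)) (hin : Ineq K x) {σ : ℝ} (hσ : 1 < σ) :
    Summable fun i => nF (x i) ^ (-σ) := by
  choose y hy using fun i => exists_int (hx i)
  exact summable_aux hM hK hy hin (T := univ) (fun _ => mem_univ _)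
    (by rw [Set.indicator_univ]; exact HeckeD87.summable_ideal hσ)

theorem le_nF {M : ℕ} (hM : M ≠ 0) {x : F} (h0 : x ≠ 0) (hx : IsIntegral ℤ ((M : F) * x)) :
    (nF (M : F))⁻¹ ≤ nF x := by
  have hM' : (M : F) ≠ 0 := by exact_mod_cast hM
  have := one_le_nF (mul_ne_zero hM' h0) hx
  rw [nF_mul] at this
  rw [inv_le_iff_one_le_mul₀' (nF_pos hM')]
  exact this

/-- Convergence of Dirichlet series over `S`-units with bounded denominators. -/
theorem summable_Sparts {ι : Type*} {M K : ℕ} (hM : M ≠ 0) (hK : K ≠ 0) {x : ι → F}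
    (h0 : ∀ i, x i ≠ 0) (hx : ∀ i, IsIntegral ℤ ((M : F) * x i))
    (hd : ∀ i, ∃ k : ℕ, IsIntegral ℤ ((M : F) ^ k / x i)) (hin : Ineq K x) :
    (∃ c₀ : ℝ, 0 < c₀ ∧ ∀ i, c₀ ≤ nF (x i)) ∧
      ∀ ε : ℝ, 0 < ε → Summable fun i => nF (x i) ^ (-ε) := by
  have hM' : (M : F) ≠ 0 := by exact_mod_cast hM
  refine ⟨⟨_, inv_pos.2 (nF_pos hM'), fun i => le_nF hM (h0 i) (hx i)⟩, fun ε hε => ?_⟩
  have hJ : Ideal.span {(M : 𝓞 F)} ≠ ⊥ := by
    rw [Ne, Ideal.span_singleton_eq_bot]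
    exact_mod_cast hM
  choose y hy using fun i => exists_int (hx i)
  refine summable_aux hM hK hy hin (fun i => ?_) (summable_ideal_S hJ hε)
  obtain ⟨k, hk⟩ := hd i
  obtain ⟨z, hz⟩ := exists_int hk
  refine ⟨k + 1, ?_⟩
  rw [Ideal.span_singleton_pow, Ideal.dvd_span_singleton, Ideal.mem_span_singleton]
  refine ⟨z, RingOfIntegers.ext ?_⟩
  have := h0 i
  have e : ((y i * z : 𝓞 F) : F) = (y i : F) * z := map_mul (algebraMap (𝓞 F) F) _ _
  have e' : (((M : 𝓞 F) ^ (k + 1) : 𝓞 F) : F) = (M : F) ^ (k + 1) := by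
    simp only [map_pow, map_natCast]
  rw [e, e', hy, hz]
  field_simp
  ring

end ideals

variable {F : Type} [Field F] [NumberField F] [Emb F]

omit [NumberField F] [Emb F] in
theorem Reps.ineq {ι : Type*} {U : Subgroup Fˣ} {a : F → ℂ} {e : ι → F} (h : Reps U a e) {K : ℕ}
    (hK : ∀ u : Fˣ, IsIntegral ℤ (u : F) → IsIntegral ℤ (u : F)⁻¹ →
      (∃ y, IsIntegral ℤ y ∧ (u : F) = 1 + K * y) → u ∈ U) : Ineq K e :=
  fun u h1 h2 h3 h4 i i' h5 => h.inj (Units.mk0 u h3) (hK _ h1 h2 h4) i i' h5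

/-- Absolute convergence over representatives for coefficients of moderate growth. -/
theorem summable_coef {ι : Type*} {M K : ℕ} (hM : M ≠ 0) (hK : K ≠ 0) {a : F → ℂ} {e : ι → F}
    (h0 : ∀ i, e i ≠ 0) (hin : Ineq K e) (hs : ∀ x, a x ≠ 0 → IsIntegral ℤ ((M : F) * x)) {C : ℝ}
    (hb : ∀ x, x ≠ 0 → ‖a x‖ ≤ C * (1 + nF x)) {σ : ℝ} (hσ : 2 < σ) :
    Summable fun i => ‖a (e i)‖ * nF (e i) ^ (-σ) := by
  obtain ⟨T, hT⟩ : ∃ T : Set ι, ∀ i, i ∈ T ↔ a (e i) ≠ 0 := ⟨{i | a (e i) ≠ 0}, fun _ => Iff.rfl⟩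
  have h1 : Summable ((fun i => ‖a (e i)‖ * nF (e i) ^ (-σ)) ∘ ((↑) : T → ι)) := by
    have hin' : Ineq K fun i : T => e i := fun u h1 h2 h3 h4 i i' h5 =>
      Subtype.ext (hin u h1 h2 h3 h4 _ _ h5)
    have hx : ∀ i : T, IsIntegral ℤ ((M : F) * e i) := fun i => hs _ ((hT _).1 i.2)
    have s1 := summable_reps hM hK hx hin' (σ := σ) (by linarith)
    have s2 := summable_reps hM hK hx hin' (σ := σ - 1) (by linarith)
    refine Summable.of_nonneg_of_le (fun i => mul_nonneg (norm_nonneg _)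
      (Real.rpow_nonneg (nF_pos (h0 i)).le _)) (fun i => ?_) ((s1.add s2).mul_left C)
    have hp := nF_pos (h0 i)
    refine (mul_le_mul_of_nonneg_right (hb _ (h0 i)) (Real.rpow_nonneg hp.le _)).trans (le_of_eq ?_)
    rw [show -(σ - 1) = 1 + -σ by ring, Real.rpow_add hp, Real.rpow_one]
    ring
  refine (summable_subtype_iff_indicator.1 h1).congr fun i => ?_
  by_cases h : i ∈ T
  · rw [Set.indicator_of_mem h]
  · rw [Set.indicator_of_notMem h, not_not.1 (mt (hT i).2 h), norm_zero, zero_mul]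

/-- **Mellin transfer over a number field**, for coefficients of moderate growth supported in a
lattice and a group `U` of units containing a congruence subgroup. -/
theorem transfer_F' {U : Subgroup Fˣ} (hU : ∀ u ∈ U, IsIntegral ℤ (u : F)) {K : ℕ} (hK0 : K ≠ 0)
    (hK : ∀ u : Fˣ, IsIntegral ℤ (u : F) → IsIntegral ℤ (u : F)⁻¹ →
      (∃ y, IsIntegral ℤ y ∧ (u : F) = 1 + K * y) → u ∈ U) {ι κ : Type*}
    {a b : F → ℂ} {e : ι → F} {e' : κ → F} (he : Reps U a e) (he' : Reps U b e')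
    {M : ℕ} (hM : M ≠ 0) (hsa : ∀ x, a x ≠ 0 → IsIntegral ℤ ((M : F) * x))
    (hsb : ∀ x, b x ≠ 0 → IsIntegral ℤ ((M : F) * x)) {C : ℝ}
    (ha : ∀ x, x ≠ 0 → ‖a x‖ ≤ C * (1 + nF x)) (hb : ∀ x, x ≠ 0 → ‖b x‖ ≤ C * (1 + nF x))
    {A B : Pl F → ℝ} (hA : ∀ j, 0 < A j) (hB : ∀ j, 0 < B j) {ω : ℂ}
    (h : ∀ x : Pl F → ℝ, (∀ j, 0 < x j) →
      ∑' ρ : F, a ρ * ∏ j, (U1 (A j * ‖em ρ j‖ ^ 2 * x j) : ℂ) =
        ω * ((∏ j, x j : ℝ) : ℂ)⁻¹ * ∑' ν : F, b ν * ∏ j, (U1 (B j * ‖em ν j‖ ^ 2 / x j) : ℂ))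
    {X : ℝ} (hX : 0 < X) (s : ℂ) :
    ∑' i, a (e i) * R17.Wc (nF (e i) / X) s = ω * (((∏ j, A j) * X : ℝ) : ℂ) *
      ∑' k, b (e' k) * VR (Fintype.card (Pl F)) ((∏ j, A j) * (∏ j, B j) * X * nF (e' k)) s :=
  transfer_F hU he he'
    (fun _ hσ => summable_coef hM hK0 he.ne (he.ineq hK) hsa ha (by linarith))
    (fun _ hσ => summable_coef hM hK0 he'.ne (he'.ineq hK) hsb hb (by linarith)) hA hB h hX s

end Crest.Agent.T27.Mel
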