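import Crest.Agent.T27.Refl_59

/-!
# Row 27 (helper59): a weaker form of the twisted Voronoi formula which still gives `ReflStmt`
-/

set_option autoImplicit false
set_option linter.unusedSectionVars false

noncomputable section

namespace Crest.Agent.T27.Rf

open scoped ComplexConjugate

open Classical in
/-- **Twisted Voronoi formula, weak form.**  All data may depend on the class `c`; the right-hand
side is a finite combination of double series, the coefficients `ω` may depend on everything. -/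
def VorFr2 [Fr0] : Prop :=
  ∃ (Kr : ℂ → ℂ → ℂ) (V : ℝ → ℂ → ℂ), R17.KernelOK Kr V ∧ ∀ c : Cl,
    ∃ (Γ : Type) (_ : Fintype Γ) (I : Γ → Type) (a : ∀ g, I g → ℝ) (t : ∀ g, I g → O) (C : ℝ)
      (B : ∀ g, I g × O → ℂ), (∀ g, IdxOK (a g)) ∧ (∀ g i, IsUnit (t g i)) ∧
      (∀ g i, DualA (C * Real.sqrt (a g i)) fun ν => B g (i, ν)) ∧
      ∀ (D : O) (ψ : O → ℂ), Primary D → IsChr D ψ → (∀ v, IsUnit v → cls v = 1 → ψ v = 1) →
        ∀ X : ℝ, 0 < X → ∀ s : ℂ, ∃ ω : Γ → ℂ, (∀ g, ‖ω g‖ ≤ 1) ∧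
          (∑' n : O, if cls n = (c : WithZero Cl) then th n * ft D ψ n * Wc (nr n / X) s else 0) =
            ∑ g, ω g * ((X / nr D : ℝ) : ℂ) * ∑' p : I g × O,
              B g p * ft D (dualChr D ψ) (-(t g p.1 * p.2)) * V (a g p.1 * nr p.2 * X / nr D ^ 2) s

section A

variable [Fr0]

open Classical in
/-- Separation of the generic modulus `k` from the active modulus `r`. -/
theorem core2 {Γ : Type} [Fintype Γ] {I : Γ → Type} {a : ∀ g, I g → ℝ} {t : ∀ g, I g → O}
    {V : ℝ → ℂ → ℂ} {B : ∀ g, I g × O → ℂ} {w : Γ → ℂ}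
    {c : WithZero Cl} {k r h : O} (hk : Primary k) (hks : Squarefree k) (hr : Primary r)
    (hkr : IsCoprime k r) {X : ℝ} {s : ℂ}
    (hV : (∑' n : O, if cls n = c then
        th n * ft (k * r) (fun x => sym k x ^ 5 * psiH h r x) n * Wc (nr n / X) s else 0) =
      ∑ g, w g * ((X / nr (k * r) : ℝ) : ℂ) * ∑' p : I g × O, B g p *
        ft (k * r) (dualChr (k * r) fun x => sym k x ^ 5 * psiH h r x) (-(t g p.1 * p.2)) *
          V (a g p.1 * nr p.2 * X / nr (k * r) ^ 2) s) :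
    ∃ ρ : ℂ, ‖ρ‖ ≤ 1 ∧
      (∑' n : O, if cls n = c then th n * (sym k n * ft r (psiH h r) n) * Wc (nr n / X) s else 0) =
        ∑ g, ρ * w g * ((X / (nr k * nr r) : ℝ) : ℂ) * ∑' p : I g × O,
          B g p * ft r (dualChr r (psiH h r)) (-(t g p.1 * p.2)) * quad k (t g p.1) * quad k p.2 *
            V (a g p.1 * nr p.2 * X / (nr k * nr r) ^ 2) s := by
  have hk0 := hk.ne_zero
  have hr0 := hr.ne_zero
  have h1 := isChr_sym_pow hk.po (j := 5) (by norm_num)
  have h2 := isChr_psiH h hr.po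
  have d1 := h1.dual hk
  have d2 := h2.dual hr
  have n1 : ‖sym k r ^ 5‖ = 1 := h1.norm r hkr.symm
  have n2 : ‖psiH h r k‖ = 1 := h2.norm k hkr
  have sa : 0 < Real.sqrt (nr k) := Real.sqrt_pos.2 (nr_pos hk0)
  have g3 := Gauss_norm_gs (j := 3) (by norm_num) hk.po hks
  have g5 := Gauss_norm_gs (j := 5) (by norm_num) hk.po hks
  have ne : ∀ {z : ℂ}, ‖z‖ = 1 → z ≠ 0 := fun hw => norm_ne_zero_iff.1 (hw ▸ one_ne_zero)
  have e1 := ne n1
  have e2 := ne n2
  have e5 : gs 5 k 1 ≠ 0 := norm_ne_zero_iff.1 (g5 ▸ sa.ne')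
  refine ⟨dualChr k (fun x => sym k x ^ 5) r / sym k r ^ 5 * (dualChr r (psiH h r) k / psiH h r k) *
    quad k (-1) * (gs 3 k 1 / gs 5 k 1), O3_mul_le (O3_mul_le (O3_mul_le
      (O3_div_le (O3_norm_le d1 _) n1) (O3_div_le (O3_norm_le d2 _) n2)) (norm_quad_le _ _))
      (by rw [norm_div, g3, g5, div_self sa.ne']), ?_⟩
  rw [O3_dual_mul hk0 hr0] at hV
  simp only [h1.ft_mul hk0 hr0 hkr h2, d1.ft_mul hk0 hr0 hkr d2, ← sym_eq_ft hk.po hks,
    ft_dual_five hk.po hks, nr_mul, quad_mul_right' k (t _ _)] at hV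
  have a1 : (∑' n : O, if cls n = c then th n * (sym k r ^ 5 * psiH h r k * (sym k n * gs 5 k 1) *
      ft r (psiH h r) n) * Wc (nr n / X) s else 0) = sym k r ^ 5 * psiH h r k * gs 5 k 1 *
      ∑' n : O, if cls n = c then th n * (sym k n * ft r (psiH h r) n) * Wc (nr n / X) s else 0 := by
    rw [← tsum_mul_left]
    refine tsum_congr fun n => ?_
    split_ifs
    · ring
    · rw [mul_zero]
  have a2 : ∀ g, (∑' p : I g × O, B g p *
      (dualChr k (fun x => sym k x ^ 5) r * dualChr r (psiH h r) k *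
      (quad k (-1) * gs 3 k 1 * (quad k (t g p.1) * quad k p.2)) *
        ft r (dualChr r (psiH h r)) (-(t g p.1 * p.2))) *
          V (a g p.1 * nr p.2 * X / (nr k * nr r) ^ 2) s) =
      dualChr k (fun x => sym k x ^ 5) r * dualChr r (psiH h r) k * quad k (-1) * gs 3 k 1 *
        ∑' p : I g × O, B g p * ft r (dualChr r (psiH h r)) (-(t g p.1 * p.2)) * quad k (t g p.1) *
          quad k p.2 * V (a g p.1 * nr p.2 * X / (nr k * nr r) ^ 2) s := fun g => by
    rw [← tsum_mul_left]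
    exact tsum_congr fun p => by ring
  simp only [a1, a2] at hV
  refine mul_left_cancel₀ (mul_ne_zero (mul_ne_zero e1 e2) e5) (hV.trans ?_)
  rw [Finset.mul_sum]
  refine Finset.sum_congr rfl fun g _ => ?_
  generalize sym k r ^ 5 = y at e1 ⊢
  field_simp

end A

section B

variable [Fr]

/-- **Reflection** from the weak form. -/
theorem refl2_59 (hV : VorFr2) : ReflStmt := by
  classical
  obtain ⟨Kr, V, hK, hV⟩ := hV
  choose Γ hΓ I a t C B hI ht hB hV using hV
  let _ : Fintype Cl := Fintype.ofFinite _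
  choose rep hrep using fun c : Cl => cls_surjective (c : WithZero Cl)
  have hrep0 : ∀ c, rep c ≠ 0 := fun c h0 => by
    have := hrep c
    rw [h0, map_zero] at this
    exact WithZero.zero_ne_coe this
  have hC : ∀ c, C c ≤ ∑ c', |C c'| := fun c =>
    (le_abs_self _).trans (Finset.single_le_sum (f := fun c' => |C c'|)
      (fun _ _ => abs_nonneg _) (Finset.mem_univ c))
  refine ⟨Σ c : Cl, Γ c × Cl, inferInstance, fun i => I i.1 i.2.1, fun i => a i.1 i.2.1,
    ∑ c', |C c'|, Kr, V, fun i => hI _ _, hK, ?_⟩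
  intro φ hφ h hh
  obtain ⟨coef, hcoef, hcb⟩ := sym_eq_sum hh.po
  refine ⟨fun i r p => B i.1 i.2.1 p *
    (coef r * ft r (dualChr r (psiH h r)) (-(t i.1 i.2.1 p.1 * p.2))) *
      quad (rep i.2.2) (t i.1 i.2.1 p.1), ?_, ?_⟩
  · intro i r hr j ν hν
    beta_reduce at hν ⊢
    obtain ⟨n, d, hn, hns, hd, e, hbd⟩ :=
      hB _ _ j ν (left_ne_zero_of_mul (left_ne_zero_of_mul hν))
    refine ⟨n, d, hn, hns, hd, e, ?_⟩
    have a1 := hcb r hr (t _ _ j * ν)
    simp only [(ht _ _ j).dvd_mul_left] at a1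
    have a2 := norm_quad_le (rep i.2.2) (t _ _ j)
    have a4 := (norm_nonneg _).trans a1
    have a5 : ‖B i.1 i.2.1 (j, ν)‖ ≤ (∑ c', |C c'|) * Real.sqrt (a i.1 i.2.1 j) * Real.sqrt (nr d) :=
      hbd.trans (by have := hC i.1; gcongr)
    have a3 := (norm_nonneg _).trans a5
    rw [norm_mul, norm_mul]
    calc _ ≤ ((∑ c', |C c'|) * Real.sqrt (a i.1 i.2.1 j) * Real.sqrt (nr d)) *
          (∏ p ∈ (pf r).filter (fun p => vp p h % 6 = 4),
          ((Real.sqrt (nr p))⁻¹ + if p ∣ ν then Real.sqrt (nr p) else 0)) * 1 := by gcongr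
      _ = _ := mul_one _
  intro k hk X hX s
  obtain ⟨hk1, hks, hkh⟩ := hk
  have hcore : ∀ (c : Cl) (r : O), ∃ ρ : Γ c → ℂ, (∀ g, ‖ρ g‖ ≤ 1) ∧ (r ∈ pdiv (rad h) →
      (∑' n : O, if cls n = (c : WithZero Cl) then
        th n * (sym k n * ft r (psiH h r) n) * Wc (nr n / X) s else 0) =
        ∑ g, ρ g * ((X / (nr k * nr r) : ℝ) : ℂ) * ∑' p : I c g × O,
          B c g p * ft r (dualChr r (psiH h r)) (-(t c g p.1 * p.2)) * quad k (t c g p.1) *
            quad k p.2 * V (a c g p.1 * nr p.2 * X / (nr k * nr r) ^ 2) s) := by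
    intro c r
    by_cases hr : r ∈ pdiv (rad h)
    swap
    · exact ⟨0, by simp, fun h' => absurd h' hr⟩
    have hr' := (mem_pdiv (primary_rad h).ne_zero).1 hr
    have hkr : IsCoprime k r := hkh.of_isCoprime_of_dvd_right (hr'.2.trans (rad_dvd h))
    have hD := hk1.mul hr'.1
    have hψ := (isChr_sym_pow hk1.po (j := 5) (by norm_num)).mul_mul (isChr_psiH h hr'.1.po)
    obtain ⟨ω, hω, h1⟩ := hV c (k * r) _ hD hψ (fun v hv hv1 => by
      rw [psiH, sym_of_cls_one hv hv1, one_pow, one_mul]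
      exact Finset.prod_eq_one fun p _ => by rw [sym_of_cls_one hv hv1, one_pow]) X hX s
    obtain ⟨ρ, hρ, h3⟩ := core2 (c := (c : WithZero Cl)) (h := h) (a := a c) (t := t c) (V := V)
      (B := B c) (w := ω) (X := X) (s := s) hk1 hks hr'.1 hkr (by convert h1)
    exact ⟨fun g => ρ * ω g, fun g => O3_mul_le hρ (hω g), fun _ => h3⟩
  choose ρ hρ hcore using hcore
  obtain ⟨ck, hck⟩ := WithZero.ne_zero_iff_exists.1 (cls_ne_zero hk1.ne_zero)
  refine ⟨fun i r => if i.2.2 = ck then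
    φ (rep i.1) * Rs (rep i.1) (k * h) * ρ i.1 r i.2.1 else 0, fun i r => ?_, ?_⟩
  · beta_reduce
    split_ifs
    · exact O3_mul_le (O3_mul_le (hφ.1 _) (norm_Rs (hrep0 _) (hk1.mul hh).ne_zero).le) (hρ _ _ _)
    · simp
  rw [split hrep hφ hk1 hh hcoef hX s, Fintype.sum_sigma]
  refine Finset.sum_congr rfl fun c _ => ?_
  rw [Fintype.sum_prod_type, Finset.sum_congr rfl fun r hr => by rw [hcore c r hr, Finset.mul_sum],
    Finset.sum_comm]
  refine Finset.sum_congr rfl fun g _ => ?_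
  rw [Finset.sum_eq_single ck]
  · refine Finset.sum_congr rfl fun r hr => ?_
    have hq : ∀ j, quad (rep ck) (t c g j) = quad k (t c g j) := fun j =>
      quad_unit_congr (hrep0 ck) ((hrep ck).trans hck) (ht c g j)
    simp only [if_true, hq]
    have : (∑' p : I c g × O, B c g p *
        (coef r * ft r (dualChr r (psiH h r)) (-(t c g p.1 * p.2))) * quad k (t c g p.1) *
          quad k p.2 * V (a c g p.1 * nr p.2 * X / (nr k * nr r) ^ 2) s) =
        coef r * ∑' p : I c g × O,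
        B c g p * ft r (dualChr r (psiH h r)) (-(t c g p.1 * p.2)) * quad k (t c g p.1) *
          quad k p.2 * V (a c g p.1 * nr p.2 * X / (nr k * nr r) ^ 2) s := by
      rw [← tsum_mul_left]
      exact tsum_congr fun p => by ring
    rw [this]
    ring
  · intro x _ hx
    exact Finset.sum_eq_zero fun r _ => by simp [if_neg hx]
  · simp

end B

end Crest.Agent.T27.Rf
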