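import Crest.Agent.T27.Final_49
import Crest.Agent.T27.KerF_65
import Crest.Agent.T27.ThO_87
import Crest.Agent.T27.LS2Fr_81
import Crest.Agent.T27.ThG2_80
import Crest.Agent.T27.ThOp_83
import Crest.Agent.T27.ThC_50
import Crest.Agent.T27.VorR_57

/-!
# Row 27: `ChebG` from sextic reciprocity (helper49)
-/

set_option autoImplicit false

namespace Crest.Agent.T27

theorem baseModel_49 : BaseModel := fun _ _ _ _ _ _ h => basePoi_65 h (thetaO_87 h)

theorem ls2All_49 : LS2All := ls2_81

theorem thetaAll_49 : ThetaAll := fun F _ _ _ _ =>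
  have hA := TH.allA_of_geom F (TH.geomStmt_80 F)
  TH.allB_of F hA (TH.opStmt_83 F hA.row) fun hO hI hC => TH.hecke_50 F hO hI hC hA.tau hA.theta

theorem reflModel_49 : ReflModel := fun _ _ _ _ _ _ _ h H =>
  Rf.refl2_59 (TH.vorFr_57 h H.lat H.theta H.tau H.op H.cusp H.main)

theorem invZeta_of_rec_49 (hRec : Rc.RecStmt) : InvZeta (1 / 12) :=
  invZeta_49 hRec baseModel_49 ls2All_49 thetaAll_49 reflModel_49

theorem chebG_of_rec_49 (hRec : Rc.RecStmt) : ChebG :=
  chebG_49 hRec baseModel_49 ls2All_49 thetaAll_49 reflModel_49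

end Crest.Agent.T27
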