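import Crest.Agent.T27.RecDefs_64
import Crest.Agent.T27.Sar2_77

/-!
# Row 27: from reciprocity for deep elements to the bicharacter of `RecStmt` (helper55)
-/

set_option autoImplicit false
set_option linter.unusedSectionVars false

noncomputable section

open NumberField

namespace Crest.Agent.T27.Rc

/-- Reciprocity for coprime pairs one member of which is `≡ 1 (mod M ^ k)`. -/
def RecCop (k : ℕ) : Prop :=
  ∀ (F : Type) [Field F] [NumberField F] (M : ℕ), 6 ∣ M → M ≠ 0 →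
    ∀ (S : Type) [CommRing S] [Algebra S F], Function.Injective (algebraMap S F) →
      (∀ x : F, x ∈ (algebraMap S F).range ↔ ∃ j : ℕ, IsIntegral ℤ ((M : F) ^ j * x)) →
      ∀ ζ : S, ζ ^ 2 - ζ + 1 = 0 → ∀ (x y : S) (t : F), x ≠ 0 → IsIntegral ℤ t →
        algebraMap S F y = 1 + (M : F) ^ k * t → IsCoprime x y → zs ζ x y = zs ζ y x

theorem RecCop.mono {k k' : ℕ} (h : RecCop k) (hk : k ≤ k') : RecCop k' := by
  intro F _ _ M h6 h0 S _ _ hi hr ζ hζ x y t hx ht hy hc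
  obtain ⟨d, rfl⟩ := Nat.exists_eq_add_of_le hk
  exact h F M h6 h0 S hi hr ζ hζ x y ((M : F) ^ d * t) hx
    (((isIntegral_natCast M).pow d).mul ht) (by rw [hy, pow_add, mul_assoc]) hc

namespace Ad

variable {F : Type} [Field F] [NumberField F] {M : ℕ}

theorem one_add_ne (h1 : 1 < M) {j : ℕ} (hj : j ≠ 0) {l : F} (hl : l ∈ LS F M) :
    1 + (M : F) ^ j * l ≠ 0 := by
  obtain ⟨i, rfl⟩ := Nat.exists_eq_succ_of_ne_zero hj
  obtain ⟨d, hd, a, ha⟩ := exists_eq_of_mem_LS hl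
  obtain ⟨u, v, huv⟩ := bezout_cast hd (𝓞 F)
  intro h0
  have he : (d : 𝓞 F) + M * (M ^ i * a) = 0 := by
    refine RingOfIntegers.ext ?_
    change (d : F) + (M : F) * ((M : F) ^ i * (a : F)) = 0
    rw [← ha]
    rw [pow_succ] at h0
    linear_combination (d : F) * h0
  have hc : IsUnit (M : 𝓞 F) :=
    IsUnit.of_mul_eq_one (v - u * (M ^ i * a)) (by linear_combination huv - u * he)
  have h2 := hc.map (Algebra.norm ℤ)
  rw [show (M : 𝓞 F) = algebraMap ℤ (𝓞 F) M by simp, Algebra.norm_algebraMap,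
    isUnit_pow_iff (Module.finrank_pos (R := ℤ) (M := 𝓞 F)).ne', Int.isUnit_iff] at h2
  omega

/-- Newton's method. -/
theorem newton (h6 : 6 ∣ M) (h1 : 1 < M) {t : F} (ht : t ∈ LS F M) (i : ℕ) :
    ∃ s : F, s ≠ 0 ∧ ∃ l ∈ LS F M, (1 + (M : F) ^ 3 * t) * s ^ 6 = 1 + (M : F) ^ (i + 3) * l := by
  induction i with
  | zero => exact ⟨1, one_ne_zero, t, ht, by simp⟩
  | succ i ih =>
    obtain ⟨s, hs, l, hl, h⟩ := ih
    obtain ⟨m, hm⟩ := h6
    have hM : (M : F) = 6 * m := by rw [hm]; push_cast; ring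
    set e : F := (M : F) ^ (i + 2) * m * l with he
    have heL : e ∈ LS F M := mul_mem (mul_mem (pow_mem (natCast_mem _ M) _) (natCast_mem _ m)) hl
    have hq : (-21 + 70 * e - 105 * e ^ 2 + 84 * e ^ 3 - 35 * e ^ 4 + 6 * e ^ 5) ∈ LS F M := by
      have h0 : ∀ n : ℕ, ∀ k : ℕ, (n : F) * e ^ k ∈ LS F M := fun n k =>
        mul_mem (natCast_mem _ n) (pow_mem heL k)
      have := add_mem (sub_mem (add_mem (sub_mem (add_mem (neg_mem (h0 21 0)) (h0 70 1))
        (h0 105 2)) (h0 84 3)) (h0 35 4)) (h0 6 5)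
      simpa using this
    have hl' : (M : F) ^ i * m ^ 2 * l ^ 2 *
        (-21 + 70 * e - 105 * e ^ 2 + 84 * e ^ 3 - 35 * e ^ 4 + 6 * e ^ 5) ∈ LS F M :=
      mul_mem (mul_mem (mul_mem (pow_mem (natCast_mem _ M) _) (pow_mem (natCast_mem _ m) _))
        (pow_mem hl _)) hq
    have h2 : (M : F) ^ (i + 3) * l = 6 * e := by
      rw [he, pow_succ, hM]
      ring
    have h3 : e ^ 2 = (M : F) ^ (i + 1 + 3) * ((M : F) ^ i * m ^ 2 * l ^ 2) := by
      rw [he]
      ring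
    have key : (1 + (M : F) ^ 3 * t) * (s * (1 - e)) ^ 6 = 1 + (M : F) ^ (i + 1 + 3) *
        ((M : F) ^ i * m ^ 2 * l ^ 2 *
          (-21 + 70 * e - 105 * e ^ 2 + 84 * e ^ 3 - 35 * e ^ 4 + 6 * e ^ 5)) := by
      rw [mul_pow, ← mul_assoc, h, h2, ← mul_assoc ((M : F) ^ (i + 1 + 3)), ← h3]
      ring
    refine ⟨s * (1 - e), fun h0 => ?_, _, hl', key⟩
    rw [h0] at key
    exact one_add_ne h1 (j := i + 1 + 3) (by omega) hl' (by rw [← key]; simp)

variable {S : Type} [CommRing S] [Algebra S F]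

/-- `a` represents the class of `x` modulo `1 + M ^ k Λ`. -/
def Rp (F : Type) [Field F] (M k : ℕ) {S : Type} [CommRing S] [Algebra S F] (x : F) (a : S) :
    Prop := ∃ l ∈ LS F M, algebraMap S F a = x * (1 + (M : F) ^ k * l)

theorem Rp.self (k : ℕ) (a : S) : Rp F M k (algebraMap S F a) a := ⟨0, zero_mem _, by simp⟩

theorem Rp.mul {k : ℕ} {x y : F} {a b : S} (h : Rp F M k x a) (h' : Rp F M k y b) :
    Rp F M k (x * y) (a * b) := by
  obtain ⟨l, hl, h⟩ := h
  obtain ⟨l', hl', h'⟩ := h'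
  refine ⟨l + l' + (M : F) ^ k * l * l', add_mem (add_mem hl hl')
    (mul_mem (mul_mem (pow_mem (natCast_mem _ M) _) hl) hl'), ?_⟩
  rw [map_mul, h, h']
  ring

theorem Rp.ne_zero (h1 : 1 < M) {k : ℕ} (hk : k ≠ 0) {x : F} (hx : x ≠ 0) {a : S}
    (h : Rp F M k x a) : a ≠ 0 := by
  obtain ⟨l, hl, h⟩ := h
  rintro rfl
  exact mul_ne_zero hx (one_add_ne h1 hk hl) (h.symm.trans (map_zero _))

/-- The moving lemma. -/
theorem exists_rp (h0 : M ≠ 0) (hi : Function.Injective (algebraMap S F))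
    (hr : ∀ x : F, x ∈ (algebraMap S F).range ↔ ∃ j : ℕ, IsIntegral ℤ ((M : F) ^ j * x)) (k : ℕ)
    {x : F} (hx : x ≠ 0) {m : S} (hm : m ≠ 0) : ∃ a : S, Rp F M k x a ∧ IsCoprime a m := by
  have hm' : algebraMap S F m ≠ 0 := fun h => hm (hi (h.trans (map_zero _).symm))
  have hM : (M : F) ^ k ≠ 0 := pow_ne_zero _ (by exact_mod_cast h0)
  obtain ⟨z, ⟨r, hrR, h1⟩, l, hl, h2⟩ := exists_approx h0 hm' (mul_ne_zero hx hM) 1 x
  obtain ⟨r, rfl⟩ := (hr r).2 (mem_RS.1 hrR)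
  refine ⟨1 + m * r, ⟨l, hl, ?_⟩, 1, -r, by ring⟩
  rw [map_add, map_one, map_mul, ← h1, h2]
  ring

end Ad

open Ad in
theorem recStmt_of_cop_55 (k : ℕ) (h : RecCop k) : RecStmt := by
  intro F _ _ M h6 h0 S _ _ hi hr ζ hζ
  have h1 : 1 < M := by have := Nat.le_of_dvd (Nat.pos_of_ne_zero h0) h6; omega
  have : IsDomain S := hi.isDomain _
  have hM : (M : F) ≠ 0 := by exact_mod_cast h0
  have hne : ∀ {a : S}, a ≠ 0 → algebraMap S F a ≠ 0 := fun ha h =>
    ha (hi (h.trans (map_zero _).symm))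
  have hu : IsUnit (6 : S) := by
    obtain ⟨m, hm⟩ := h6
    obtain ⟨w, hw⟩ := (hr (M : F)⁻¹).2 ⟨1, by simpa [hM] using isIntegral_one⟩
    refine IsUnit.of_mul_eq_one (m * w) (hi ?_)
    rw [map_mul, map_mul, hw, map_one, map_ofNat, map_natCast, ← mul_assoc,
      show (6 : F) * m = M by rw [hm]; push_cast; ring, mul_inv_cancel₀ hM]
  have hfin : ∀ b : S, b ≠ 0 → Finite (S ⧸ Ideal.span {b}) := by
    intro b hb
    let e : S ≃+* RS F M := RingEquiv.ofBijective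
      ((algebraMap S F).codRestrict (RS F M) fun x => mem_RS.2 ((hr _).1 ⟨x, rfl⟩))
      ⟨fun _ _ e => hi (congrArg Subtype.val e), fun x => by
        obtain ⟨a, ha⟩ := (hr x).2 (mem_RS.1 x.2)
        exact ⟨a, Subtype.ext ha⟩⟩
    have : Finite (RS F M ⧸ Ideal.span {e b}) :=
      finite_quot_LocS (zero_notMem_powers h0) (by simpa using hb)
    exact Finite.of_equiv _
      (Ideal.quotientEquiv (Ideal.span {b}) (Ideal.span {e b}) e
        (by simp [Ideal.map_span])).toEquiv.symm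
  refine ⟨hu, hfin, ?_⟩
  have hk : k + 3 ≠ 0 := by omega
  have hc := h.mono (Nat.le_add_right k 3) F M h6 h0 S hi hr ζ hζ
  set K := k + 3 with hK
  let c : S → S → ZMod 6 := fun a b => zs ζ a b - zs ζ b a
  have anti : ∀ a b, c b a = -c a b := fun a b => by simp only [c]; ring
  have add : ∀ a a' b, a ≠ 0 → a' ≠ 0 → b ≠ 0 → IsCoprime a b → IsCoprime a' b →
      c (a * a') b = c a b + c a' b := fun a a' b ha ha' hb h h' => by
    have := hfin b hb
    have := hfin _ (mul_ne_zero ha ha')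
    simp only [c]
    rw [zs_mul_left hζ hu h h', zs_mul_right hζ hu ha (h.symm.mul_right h'.symm)]
    ring
  have deep : ∀ a b, Rp F M K 1 a → b ≠ 0 → IsCoprime a b → c a b = 0 := by
    rintro a b ⟨l, hl, ha⟩ hb hab
    rw [one_mul] at ha
    have hlR : l ∈ RS F M := by
      have h2 : l = (algebraMap S F a - 1) * ((M : F)⁻¹) ^ K := by
        rw [ha, inv_pow]
        field_simp
        ring
      rw [h2]
      exact mul_mem (sub_mem (mem_RS.2 ((hr _).1 ⟨a, rfl⟩)) (one_mem _))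
        (pow_mem (mem_RS.2 ⟨1, by simpa [hM] using isIntegral_one⟩) _)
    simp only [c]
    rw [hc b a l hb (isIntegral_of_mem_RS_LS hlR hl) ha hab.symm, sub_self]
  have inv : ∀ (x : F) a a' b, x ≠ 0 → Rp F M K x a → Rp F M K x a' → b ≠ 0 → IsCoprime a b →
      IsCoprime a' b → c a b = c a' b := by
    intro x a a' b hx ha ha' hb hab hab'
    obtain ⟨w, hw, hwb⟩ := exists_rp h0 hi hr K (inv_ne_zero hx) hb
    have hw0 := hw.ne_zero h1 hk (inv_ne_zero hx)
    have e1 := deep _ b (by simpa [hx] using ha.mul hw) hb (hab.mul_left hwb)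
    have e2 := deep _ b (by simpa [hx] using ha'.mul hw) hb (hab'.mul_left hwb)
    rw [add _ _ _ (ha.ne_zero h1 hk hx) hw0 hb hab hwb] at e1
    rw [add _ _ _ (ha'.ne_zero h1 hk hx) hw0 hb hab' hwb] at e2
    linear_combination e1 - e2
  choose! r hr1 hr2 using fun (x : F) (m : S) (hx : x ≠ 0) (hm : m ≠ 0) =>
    exists_rp h0 hi hr K hx hm
  have spec : ∀ (x y : F) a b, x ≠ 0 → y ≠ 0 → Rp F M K x a → Rp F M K y b → IsCoprime a b →
      c (r x (r y 1)) (r y 1) = c a b := by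
    intro x y a b hx hy ha hb hab
    have hy1 := hr1 y 1 hy one_ne_zero
    have hy0 := hy1.ne_zero h1 hk hy
    have hb0 := hb.ne_zero h1 hk hy
    have hm := mul_ne_zero hb0 hy0
    have h2 := hr1 x _ hx hm
    have h3 := hr2 x _ hx hm
    rw [inv x _ _ _ hx (hr1 x _ hx hy0) h2 hy0 (hr2 x _ hx hy0) h3.of_mul_right_right,
      inv x _ _ _ hx ha h2 hb0 hab h3.of_mul_right_left, anti, anti b,
      inv y _ _ _ hy hy1 hb (h2.ne_zero h1 hk hx) h3.of_mul_right_right.symm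
        h3.of_mul_right_left.symm]
  have hmul : ∀ x x' y : F, x ≠ 0 → x' ≠ 0 → y ≠ 0 → c (r (x * x') (r y 1)) (r y 1) =
      c (r x (r y 1)) (r y 1) + c (r x' (r y 1)) (r y 1) := by
    intro x x' y hx hx' hy
    have hy1 := hr1 y 1 hy one_ne_zero
    have hy0 := hy1.ne_zero h1 hk hy
    rw [spec _ y _ _ (mul_ne_zero hx hx') hy ((hr1 x _ hx hy0).mul (hr1 x' _ hx' hy0)) hy1
      ((hr2 x _ hx hy0).mul_left (hr2 x' _ hx' hy0))]
    exact add _ _ _ ((hr1 x _ hx hy0).ne_zero h1 hk hx) ((hr1 x' _ hx' hy0).ne_zero h1 hk hx') hy0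
      (hr2 x _ hx hy0) (hr2 x' _ hx' hy0)
  refine ⟨fun x y => c (r x (r y 1)) (r y 1), hmul, fun x y hx hy => ?_, fun t y ht hy => ?_,
    fun a b ha hb hab => spec _ _ a b (hne ha) (hne hb) (Rp.self _ a) (Rp.self _ b) hab⟩
  · have hy1 := hr1 y 1 hy one_ne_zero
    have hy0 := hy1.ne_zero h1 hk hy
    beta_reduce
    rw [spec y x _ _ hy hx hy1 (hr1 x _ hx hy0) (hr2 x _ hx hy0).symm, anti]
  · have htL : t ∈ LS F M := mem_LocS_of_isIntegral ht
    obtain ⟨s, hs, l, hl, e⟩ := newton h6 h1 htL k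
    have hy1 := hr1 y 1 hy one_ne_zero
    have hy0 := hy1.ne_zero h1 hk hy
    have hx := one_add_ne h1 (j := 3) (by norm_num) htL
    have hp := one_add_ne h1 hk hl
    have e1 : c (r (1 + (M : F) ^ K * l) (r y 1)) (r y 1) = 0 := by
      refine deep _ _ ?_ hy0 (hr2 _ _ hp hy0)
      obtain ⟨l', hl', e'⟩ := hr1 _ _ hp hy0
      refine ⟨l + l' + (M : F) ^ K * l * l', add_mem (add_mem hl hl')
        (mul_mem (mul_mem (pow_mem (natCast_mem _ M) _) hl) hl'), ?_⟩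
      rw [e']
      ring
    have e2 : ∀ n : ℕ, c (r (s ^ (n + 1)) (r y 1)) (r y 1) =
        ((n + 1 : ℕ) : ZMod 6) * c (r s (r y 1)) (r y 1) := by
      intro n
      induction n with
      | zero => simp
      | succ n ih =>
        rw [pow_succ, hmul _ _ _ (pow_ne_zero _ hs) hs hy, ih]
        push_cast
        ring
    rw [← e, hmul _ _ _ hx (pow_ne_zero _ hs) hy, e2 5] at e1
    simpa [show (6 : ZMod 6) = 0 from rfl] using e1

end Crest.Agent.T27.Rc
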