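import Crest.Agent.T27.Mn4_85
import Crest.Agent.T27.RecAd_55

/-!
# Row 27, sextic reciprocity by a Euclidean algorithm on polynomials, part 5

Construction of a good element `z = x + (1 - x) y (u v)⁶` and the reciprocity law.
-/

set_option autoImplicit false

noncomputable section

namespace Crest.Agent.T27.Mn

open Rc Polynomial NumberField Filter

section field
variable {F : Type} [Field F] [NumberField F]

/-- primitive elements -/
def Prim (α : F) : Prop := Function.Injective fun φ : F →ₐ[ℚ] ℂ => φ α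

theorem prim_iff (α : F) : IntermediateField.adjoin ℚ {α} = ⊤ ↔ Prim α :=
  Field.primitive_element_iff_algHom_eq_of_eval' ℚ ℂ (fun _ => IsAlgClosed.splits _) α

theorem Prim.mul {α : F} (h : Prim α) {c : ℤ} (hc : c ≠ 0) : Prim (c * α) := fun φ ψ hφ => h (by
  simp only [map_mul, map_intCast] at hφ
  exact mul_left_cancel₀ (Int.cast_ne_zero.2 hc) hφ)

theorem exists_prim_int (F : Type) [Field F] [NumberField F] : ∃ γ : 𝓞 F, Prim (γ : F) := by
  obtain ⟨α, hα⟩ := Field.exists_primitive_element ℚ F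
  have h1 : IsAlgebraic ℤ α :=
    (IsFractionRing.isAlgebraic_iff ℤ ℚ F).2 (Algebra.IsAlgebraic.isAlgebraic α)
  obtain ⟨c, hc, h⟩ := h1.exists_integral_multiple
  rw [zsmul_eq_mul] at h
  exact ⟨⟨_, h⟩, ((prim_iff α).1 hα).mul hc⟩

theorem exists_prim {a γ : F} (ha : a ≠ 0) (hγ : Prim γ) : ∃ n : ℕ, Prim (a * (1 + n * γ) ^ 6) := by
  have h1 : ∀ φ ψ : F →ₐ[ℚ] ℂ, φ ≠ ψ → ∀ᶠ n : ℕ in cofinite,
      φ (a * (1 + n * γ) ^ 6) ≠ ψ (a * (1 + n * γ) ^ 6) := fun φ ψ hne => by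
    let p : ℂ[X] := C (φ a) * (1 + X * C (φ γ)) ^ 6 - C (ψ a) * (1 + X * C (ψ γ)) ^ 6
    have hp : p ≠ 0 := fun h => by
      have e0 := congrArg (eval 0) h
      have e1 := congrArg (fun q => eval 0 (derivative q)) h
      simp [p, derivative_pow] at e0 e1
      rw [sub_eq_zero] at e0 e1
      rw [← e0] at e1
      have h2 : φ a ≠ 0 := (map_ne_zero φ).2 ha
      exact hne (hγ (by simpa [h2] using e1))
    rw [eventually_cofinite]
    refine ((finite_setOfPred_isRoot hp).preimage (f := fun n : ℕ => (n : ℂ))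
      Nat.cast_injective.injOn).subset fun n hn => ?_
    simp only [ne_eq, not_not, Set.mem_ofPred_eq, map_mul, map_pow, map_add, map_one,
      map_natCast] at hn
    simp only [p, Set.mem_preimage, Set.mem_ofPred_eq, IsRoot.def, eval_sub, eval_mul, eval_C,
      eval_pow, eval_add, eval_one, eval_X, hn, sub_self]
  have h2 : ∀ᶠ n : ℕ in cofinite, ∀ q : (F →ₐ[ℚ] ℂ) × (F →ₐ[ℚ] ℂ), q.1 ≠ q.2 →
      q.1 (a * (1 + n * γ) ^ 6) ≠ q.2 (a * (1 + n * γ) ^ 6) :=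
    eventually_all.2 fun q => by
      by_cases h : q.1 = q.2
      · simp [h]
      · exact (h1 _ _ h).mono fun n hn _ => hn
  obtain ⟨n, hn⟩ := h2.exists
  exact ⟨n, fun φ ψ h => by_contra fun hne => hn (φ, ψ) hne h⟩

theorem exists_den {θ : F} (h : Prim θ) :
    ∃ Δ : ℤ, Δ ≠ 0 ∧ ∀ o : 𝓞 F, ∃ p : ℤ[X], (Δ : F) * o = aeval θ p := by
  have h1 : ∀ f : F, ∃ d : ℤ, d ≠ 0 ∧ ∃ p : ℤ[X], (d : F) * f = aeval θ p := fun f => by
    have h2 : f ∈ Algebra.adjoin ℚ {θ} := by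
      rw [← IntermediateField.adjoin_simple_toSubalgebra_of_isAlgebraic
        (IsAlgebraic.of_finite ℚ θ), (prim_iff θ).2 h]
      trivial
    rw [Algebra.adjoin_singleton_eq_range_aeval] at h2
    obtain ⟨q, rfl⟩ := h2
    obtain ⟨d, hd, hq⟩ := IsLocalization.integerNormalization_spec (nonZeroDivisors ℤ) q
    refine ⟨d, nonZeroDivisors.ne_zero hd, IsLocalization.integerNormalization (nonZeroDivisors ℤ) q, ?_⟩
    rw [← aeval_map_algebraMap ℚ, hq, map_zsmul, zsmul_eq_mul]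
    rfl
  choose d hd p hp using h1
  classical
  obtain ⟨G, hG⟩ := Module.Finite.fg_top (R := ℤ) (M := 𝓞 F)
  refine ⟨∏ g ∈ G, d g, Finset.prod_ne_zero_iff.2 fun g _ => hd g, fun o => ?_⟩
  have ho : o ∈ Submodule.span ℤ (G : Set (𝓞 F)) := hG ▸ trivial
  induction ho using Submodule.span_induction with
  | mem g hg =>
    refine ⟨C (∏ g' ∈ G.erase g, d g') * p g, ?_⟩
    rw [← Finset.prod_erase_mul _ _ hg, map_mul, ← hp, aeval_C, Int.cast_mul, mul_assoc]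
    rfl
  | zero => exact ⟨0, by simp⟩
  | add a b _ _ ha hb =>
    obtain ⟨p, hp⟩ := ha
    obtain ⟨q, hq⟩ := hb
    exact ⟨p + q, by rw [map_add, ← hp, ← hq]; push_cast; ring⟩
  | smul c a _ ha =>
    obtain ⟨p, hp⟩ := ha
    exact ⟨C c * p, by rw [map_mul, ← hp, aeval_C, zsmul_eq_mul]; simp; ring⟩

theorem exists_nonunit (x : 𝓞 F) {ρ : 𝓞 F} (hρ : ρ ≠ 0) (v : ℤ) {D : ℤ} (hD : D ≠ 0) :
    ∃ n : ℕ, ¬ IsUnit (x + ρ * ((v + n * D : ℤ) : 𝓞 F) ^ 6) := by
  have h1 : ∀ φ : F →+* ℂ, ∀ᶠ n : ℕ in atTop,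
      1 < ‖φ ((x + ρ * ((v + n * D : ℤ) : 𝓞 F) ^ 6 : 𝓞 F) : F)‖ := fun φ => by
    have h2 : 0 < ‖φ (ρ : F)‖ := norm_pos_iff.2 ((map_ne_zero φ).2 (by exact_mod_cast hρ))
    obtain ⟨N, hN⟩ := exists_nat_gt ((1 + ‖φ (x : F)‖) / ‖φ (ρ : F)‖ + |(v : ℝ)| + 1)
    filter_upwards [eventually_ge_atTop N] with n hn
    have h3 : (1 : ℝ) ≤ |(D : ℝ)| := by exact_mod_cast Int.one_le_abs hD
    have h4 : (N : ℝ) ≤ n := by exact_mod_cast hn
    have h5 : (n : ℝ) - |(v : ℝ)| ≤ |((v + n * D : ℤ) : ℝ)| := by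
      have := abs_sub_abs_le_abs_sub ((n : ℝ) * D) (-v)
      rw [abs_mul, abs_neg, Nat.abs_cast, sub_neg_eq_add, add_comm] at this
      push_cast
      nlinarith [Nat.cast_nonneg (α := ℝ) n]
    set t := |((v + n * D : ℤ) : ℝ)| with ht
    have h0 : 0 ≤ (1 + ‖φ (x : F)‖) / ‖φ (ρ : F)‖ := by positivity
    have h6 : t ≤ t ^ 6 := le_self_pow₀ (by linarith) (by norm_num)
    have h7 : 1 + ‖φ (x : F)‖ < ‖φ (ρ : F)‖ * t ^ 6 := by
      rw [← div_lt_iff₀' h2]; linarith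
    have h8 : φ ((x + ρ * ((v + n * D : ℤ) : 𝓞 F) ^ 6 : 𝓞 F) : F) =
        φ (ρ : F) * ((v + n * D : ℤ) : ℂ) ^ 6 - -φ (x : F) := by
      simp; ring
    have h9 := norm_sub_norm_le (φ (ρ : F) * ((v + n * D : ℤ) : ℂ) ^ 6) (-φ (x : F))
    rw [norm_neg, norm_mul, norm_pow, Complex.norm_intCast, ← h8] at h9
    linarith
  obtain ⟨n, hn⟩ := (eventually_all.2 h1).exists
  refine ⟨n, fun hu => ?_⟩
  obtain ⟨w, hw⟩ := hu.exists_right_inv
  obtain ⟨φ, hφ⟩ := exists_conjugate_one_le_norm (α := w) (right_ne_zero_of_mul_eq_one hw)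
  have h2 := congrArg (fun a : 𝓞 F => ‖φ (a : F)‖) hw
  simp only [map_mul, norm_mul, map_one, norm_one] at h2
  nlinarith [hn φ]

end field

theorem hom_eval {S F : Type*} [CommRing S] [Field F] [Algebra S F] {x ρ z : S} {θ : F} {a : ℤ}
    (h1 : algebraMap S F ρ = algebraMap S F x * θ) (h2 : z ∣ ρ - x * a) (p : ℤ[X]) :
    ∃ (k : ℕ) (s : S) (c : ℤ), algebraMap S F s = algebraMap S F x ^ k * aeval θ p ∧
      z ∣ s - x ^ k * c := by
  induction p using Polynomial.induction_on' with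
  | add p q hp hq =>
    obtain ⟨k, s, c, h, hc⟩ := hp
    obtain ⟨l, s', c', h', hc'⟩ := hq
    refine ⟨k + l, x ^ l * s + x ^ k * s', c + c', ?_, ?_⟩
    · rw [map_add, map_mul, map_mul, map_pow, map_pow, h, h', map_add]; ring
    · convert dvd_add (hc.mul_left (x ^ l)) (hc'.mul_left (x ^ k)) using 1
      push_cast; ring
  | monomial n c =>
    refine ⟨n, c * ρ ^ n, c * a ^ n, ?_, ?_⟩
    · rw [map_mul, map_pow, h1, aeval_monomial]; simp; ring
    · convert (h2.trans (sub_dvd_pow_sub_pow _ _ n)).mul_left (c : S) using 1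
      push_cast; ring

theorem inv_int {S : Type*} [CommRing S] {z : S} [Finite (S ⧸ Ideal.span {z})] {c : ℤ}
    (h : IsCoprime (c : S) z) : ∃ c' : ℤ, z ∣ (c : S) * c' - 1 := by
  obtain ⟨n, hn, hi⟩ := exists_idem (Ideal.Quotient.mk (Ideal.span {z}) c)
  rw [← map_pow, ← map_mul, Ideal.Quotient.eq, Ideal.mem_span_singleton,
    show (c : S) ^ n * c ^ n - c ^ n = c ^ n * (c ^ n - 1) by ring] at hi
  refine ⟨c ^ (n - 1), ?_⟩
  rw [Int.cast_pow, ← pow_succ', Nat.sub_add_cancel hn]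
  exact h.symm.pow_right.dvd_of_dvd_mul_left hi

theorem coprime_of_max {S : Type*} [CommRing S] {a b : S}
    (h : ∀ m : Ideal S, m.IsPrime → a ∈ m → b ∈ m → False) : IsCoprime a b := by
  rw [← Ideal.isCoprime_span_singleton_iff, Ideal.isCoprime_iff_sup_eq]
  by_contra hne
  obtain ⟨m, hm, hle⟩ := Ideal.exists_le_maximal _ hne
  exact h m hm.isPrime (hle (Ideal.mem_sup_left (Ideal.mem_span_singleton_self _)))
    (hle (Ideal.mem_sup_right (Ideal.mem_span_singleton_self _)))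

theorem not_mem_both {S : Type*} [CommRing S] {a b : S} (h : IsCoprime a b) {m : Ideal S}
    (hm : m.IsPrime) (ha : a ∈ m) (hb : b ∈ m) : False := by
  obtain ⟨u, v, huv⟩ := h
  exact hm.ne_top ((Ideal.eq_top_iff_one _).2
    (huv ▸ m.add_mem (m.mul_mem_left _ ha) (m.mul_mem_left _ hb)))

/-- the homomorphism `ℤ[ω] → S` -/
def homO {S : Type*} [CommRing S] {ζ : S} (hζ : ζ ^ 2 - ζ + 1 = 0) : R17.O →+* S where
  toFun z := (z.re : S) + (z.im : S) * (ζ - 1)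
  map_one' := by simp [QuadraticAlgebra.re_one, QuadraticAlgebra.im_one]
  map_mul' z w := by
    simp only [QuadraticAlgebra.re_mul, QuadraticAlgebra.im_mul]
    push_cast
    linear_combination (-(z.im : S) * w.im) * hζ
  map_zero' := by simp
  map_add' z w := by
    simp only [QuadraticAlgebra.re_add, QuadraticAlgebra.im_add]; push_cast; ring

theorem homO_inj {S : Type*} [CommRing S] [CharZero S] {ζ : S} (hζ : ζ ^ 2 - ζ + 1 = 0) :
    Function.Injective (homO hζ) := (injective_iff_map_eq_zero _).2 fun z hz => by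
  have h := congrArg (homO hζ) (R17.mul_cj z)
  rw [map_mul, hz, zero_mul, map_natCast, eq_comm, Nat.cast_eq_zero] at h
  exact R17.nm_eq_zero.1 h

section main
variable {F : Type} [Field F] [NumberField F] {M : ℕ} {S : Type} [CommRing S] [IsDomain S]
  [Algebra S F] (j : 𝓞 F →+* S)

theorem exists_good (hM : M ≠ 0) (hMu : ¬ IsUnit ((M : 𝓞 F) ^ 6))
    (hi : Function.Injective (algebraMap S F))
    (hj : ∀ o, algebraMap S F (j o) = o) (hT : IsUnit (j ((M : 𝓞 F) ^ 6)))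
    (den : ∀ s, ∃ (k : ℕ) (o : 𝓞 F), j ((M : 𝓞 F) ^ 6) ^ k * s = j o)
    (hfin : ∀ b : S, b ≠ 0 → Finite (S ⧸ Ideal.span {b})) {x ρ : 𝓞 F} (hx : x ≠ 0) (hρ : ρ ≠ 0)
    (hc : IsCoprime (j x) (j ρ)) (h1 : (M : 𝓞 F) ^ 6 ∣ x + ρ - 1) :
    ∃ s : 𝓞 F, s ≠ 0 ∧ IsCoprime (j s) (j x) ∧ (M : 𝓞 F) ^ 6 ∣ x + ρ * s ^ 6 - 1 ∧
      ¬ IsUnit (j (x + ρ * s ^ 6)) ∧ ∀ o, ∃ c : ℤ, j (x + ρ * s ^ 6) ∣ j o - c := by
  have hji : Function.Injective j := fun a b h => RingOfIntegers.ext (by rw [← hj, ← hj, h])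
  have hT1 : ∀ a : 𝓞 F, (M : 𝓞 F) ^ 6 ∣ a - 1 → IsCoprime a ((M : 𝓞 F) ^ 6) :=
    fun a ⟨c, hc⟩ => ⟨1, -c, by linear_combination hc⟩
  obtain ⟨N, hN, hxN⟩ := (Algebra.IsIntegral.isIntegral (R := ℤ) x).isAlgebraic.exists_nonzero_dvd
    (mem_nonZeroDivisors_of_ne_zero hx)
  rw [eq_intCast] at hxN
  have hN' : (N : 𝓞 F) ≠ 0 := Int.cast_ne_zero.2 hN
  have hxN' : j x ∣ (N : S) := by simpa using map_dvd j hxN
  have hNS : (N : S) ≠ 0 := by simpa using (map_ne_zero_iff _ hji).2 hN'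
  have := hfin _ hNS
  have := Ideal.finiteQuotientOfFreeOfNeBot (Ideal.span {(N : 𝓞 F)}) (by simpa using hN)
  obtain ⟨e, he, he'⟩ := exists_coprime (y := (N : S)) hc
  obtain ⟨t, ht⟩ := hT.exists_right_inv
  obtain ⟨o, ho⟩ := sur_of_den j hT den (y := (N : S)) (μ := (N : 𝓞 F)) (by simp) (t * (e - 1))
  set D : ℤ := M ^ 6 * N with hD
  have hD0 : D ≠ 0 := mul_ne_zero (pow_ne_zero _ (Nat.cast_ne_zero.2 hM)) hN
  have hne : ∀ a : 𝓞 F, (M : 𝓞 F) ^ 6 ∣ a - 1 → a ≠ 0 := fun a h1 h => by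
    rw [h, zero_sub, dvd_neg] at h1
    exact hMu (isUnit_of_dvd_one h1)
  have hTD : (M : 𝓞 F) ^ 6 ∣ (D : 𝓞 F) := ⟨N, by simp [hD]⟩
  have hND : (N : S) ∣ (D : S) := Int.cast_dvd_cast _ _ (Dvd.intro_left _ rfl)
  obtain ⟨γ, hγ⟩ := exists_prim_int F
  have hxF : (x : F) ≠ 0 := by exact_mod_cast hx
  have hu0 : (1 + (M : 𝓞 F) ^ 6 * o) ≠ 0 := hne _ ⟨o, by ring⟩
  obtain ⟨n, hn⟩ := exists_prim (a := (ρ : F) * ((1 + (M : 𝓞 F) ^ 6 * o : 𝓞 F) : F) ^ 6 / x)
    (div_ne_zero (mul_ne_zero (by exact_mod_cast hρ) (pow_ne_zero _ (by exact_mod_cast hu0))) hxF)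
    (hγ.mul hD0)
  obtain ⟨Δ, hΔ, hΔ'⟩ := exists_den hn
  set u : 𝓞 F := (1 + (M : 𝓞 F) ^ 6 * o) * (1 + n * (D * γ)) with hu
  have hu1 : (M : 𝓞 F) ^ 6 ∣ u - 1 := by
    rw [show u - 1 = (M : 𝓞 F) ^ 6 * o + D * ((1 + (M : 𝓞 F) ^ 6 * o) * n * γ) by rw [hu]; ring]
    exact dvd_add (dvd_mul_right _ _) (hTD.mul_right _)
  have hu2 : (N : S) ∣ j u - e := by
    rw [show j u - e = -j ((M : 𝓞 F) ^ 6) * (t * (e - 1) - j o) +
        D * j ((1 + (M : 𝓞 F) ^ 6 * o) * n * γ) by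
      simp only [hu, map_mul, map_add, map_one, map_intCast, map_natCast]
      linear_combination (e - 1) * ht]
    exact dvd_add (ho.mul_left _) (hND.mul_right _)
  have := Ideal.finiteQuotientOfFreeOfNeBot (Ideal.span {Δ}) (by simpa using hΔ)
  obtain ⟨k, hk, hid⟩ := exists_idem (Ideal.Quotient.mk (Ideal.span {Δ}) D)
  rw [← map_pow, ← map_mul, Ideal.Quotient.eq, Ideal.mem_span_singleton] at hid
  obtain ⟨n', hn'⟩ := exists_nonunit x (mul_ne_zero hρ (pow_ne_zero 6 (hne u hu1))) (1 - D ^ k)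
    (mul_ne_zero hD0 hΔ)
  set v : ℤ := 1 - D ^ k + n' * (D * Δ) with hv
  have hv1 : D ∣ v - 1 := by
    rw [show v - 1 = D * (n' * Δ) - D ^ k by rw [hv]; ring]
    exact dvd_sub (dvd_mul_right _ _) (dvd_pow_self D hk.ne')
  have hv2 : (N : S) ∣ (v : S) - 1 := hND.trans (by exact_mod_cast Int.cast_dvd_cast (α := S) _ _ hv1)
  have hs1 : (M : 𝓞 F) ^ 6 ∣ u * v - 1 := by
    rw [show u * v - 1 = u * ((v - 1 : ℤ) : 𝓞 F) + (u - 1) by push_cast; ring]
    exact dvd_add ((hTD.trans (Int.cast_dvd_cast _ _ hv1)).mul_left _) hu1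
  have hs2 : (N : S) ∣ j (u * v) - e := by
    rw [show j (u * v) - e = j u * ((v : S) - 1) + (j u - e) by simp; ring]
    exact dvd_add (hv2.mul_left _) hu2
  have hs3 : IsCoprime (j (u * v)) (j x) := by
    obtain ⟨c, hc⟩ := hxN'.trans hs2
    rw [show j (u * v) = e + j x * c by linear_combination hc]
    exact he.add_mul_left_left c
  have hz1 : (M : 𝓞 F) ^ 6 ∣ x + ρ * (u * v) ^ 6 - 1 := by
    rw [show x + ρ * (u * v) ^ 6 - 1 = (x + ρ - 1) + ρ * ((u * v) ^ 6 - 1 ^ 6) by ring]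
    exact dvd_add h1 ((hs1.trans (sub_dvd_pow_sub_pow _ _ 6)).mul_left _)
  refine ⟨u * v, hne _ hs1, hs3, hz1, fun h => hn' ?_, fun o' => ?_⟩
  · rw [mul_assoc, ← mul_pow]
    exact isUnit_of_dvd_one (dvd_of_den j den hji (hT1 _ hz1) (by simpa using h.dvd))
  set z := j (x + ρ * (u * v) ^ 6) with hz
  have hz2 : z = j x + j ρ * j (u * v) ^ 6 := by simp only [hz, map_add, map_mul, map_pow]
  have := hfin z ((map_ne_zero_iff _ hji).2 (hne _ hz1))
  have hΔz : IsCoprime (Δ : S) z := coprime_of_max fun m hm h2 h3 => by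
    have hNm : (N : S) ∉ m := fun h4 => by
      refine not_mem_both (he' 6 (by norm_num)) hm h4 ?_
      obtain ⟨c, hc⟩ := hs2.trans (sub_dvd_pow_sub_pow _ _ 6)
      rw [show j x + j ρ * e ^ 6 = z - N * (j ρ * c) by rw [hz2]; linear_combination (-j ρ) * hc]
      exact m.sub_mem h3 (m.mul_mem_right _ h4)
    have hDm : (D : S) ∉ m := fun h4 => by
      rw [show (D : S) = j ((M : 𝓞 F) ^ 6) * N by simp [hD]] at h4
      exact hNm ((hm.mem_or_mem h4).resolve_left fun h => hm.ne_top (m.eq_top_of_isUnit_mem h hT))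
    obtain ⟨c, hc⟩ := hid
    have h5 : (D : S) ^ k * (D ^ k - 1) ∈ m := by
      rw [show (D : S) ^ k * (D ^ k - 1) = Δ * c by
        have := congrArg (Int.cast : ℤ → S) hc
        push_cast at this
        linear_combination this]
      exact m.mul_mem_right _ h2
    have h6 := (hm.mem_or_mem h5).resolve_left fun h => hDm (hm.mem_of_pow_mem _ h)
    have h7 : (v : S) ∈ m := by
      rw [show (v : S) = Δ * (n' * D) - (D ^ k - 1) by rw [hv]; push_cast; ring]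
      exact m.sub_mem (m.mul_mem_right _ h2) h6
    obtain ⟨c', hc'⟩ := hxN'
    refine hNm (hc' ▸ m.mul_mem_right _ ?_)
    rw [show j x = z - v * (j ρ * j u ^ 6 * v ^ 5) by rw [hz2]; simp; ring]
    exact m.sub_mem h3 (m.mul_mem_right _ h7)
  have hxz : IsCoprime (j x) z := by
    rw [hz2, add_comm, ← mul_one (j x)]
    simpa using (hc.mul_right hs3.symm.pow_right).add_mul_left_right 1
  have hvz : IsCoprime (v : S) z := by
    have h2 : IsCoprime (v : S) (j x) := by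
      rw [map_mul, map_intCast] at hs3
      exact hs3.of_mul_left_right
    rw [show z = j x + v * (j ρ * j u ^ 6 * v ^ 5) by rw [hz2]; simp; ring]
    exact h2.add_mul_left_right _
  obtain ⟨v', hv'⟩ := inv_int hvz
  obtain ⟨Δ', hΔ''⟩ := inv_int hΔz
  obtain ⟨p, hp⟩ := hΔ' o'
  obtain ⟨l, s', c, hs', hc'⟩ := hom_eval (x := j x) (ρ := j (ρ * u ^ 6)) (z := z) (a := -v' ^ 6)
    (θ := (ρ : F) * ((1 + (M : 𝓞 F) ^ 6 * o : 𝓞 F) : F) ^ 6 / x * (1 + n * ((D : F) * γ)) ^ 6)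
    (by
      rw [hj, hj, hu]
      simp only [RingOfIntegers.coe_eq_algebraMap, map_mul, map_pow, map_add, map_one, map_natCast,
        map_intCast] at hxF ⊢
      field_simp)
    (by
      rw [show j (ρ * u ^ 6) - j x * ((-v' ^ 6 : ℤ) : S) =
        z * v' ^ 6 - j ρ * j u ^ 6 * (((v : S) * v') ^ 6 - 1 ^ 6) by rw [hz2]; simp; ring]
      exact dvd_sub (dvd_mul_right _ _) ((hv'.trans (sub_dvd_pow_sub_pow _ _ 6)).mul_left _)) p
  have h2 : s' = j x ^ l * (Δ * j o') := hi (by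
    rw [hs', ← hp, map_mul, map_mul, map_pow, map_intCast, hj, hj])
  rw [h2, ← mul_sub] at hc'
  have h3 := hxz.symm.pow_right.dvd_of_dvd_mul_left hc'
  refine ⟨c * Δ', ?_⟩
  rw [show j o' - ((c * Δ' : ℤ) : S) = Δ' * (Δ * j o' - c) - j o' * ((Δ : S) * Δ' - 1) by
    push_cast; ring]
  exact dvd_sub (h3.mul_left _) (hΔ''.mul_left _)

end main

theorem recCop_85 : RecCop 6 := by
  intro F _ _ M h6 hM S _ _ hi hr ζ hζ x y t hx ht hy hc
  have : IsDomain S := hi.isDomain _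
  have : CharZero S := (algebraMap S F).charZero
  have hMF : (M : F) ≠ 0 := Nat.cast_ne_zero.2 hM
  have h0 : ∀ o : 𝓞 F, ∃ s, algebraMap S F s = o := fun o => (hr o).2 ⟨0, by rw [pow_zero, one_mul]; exact o.2⟩
  choose j₀ hj₀ using h0
  let j : 𝓞 F →+* S :=
    { toFun := j₀
      map_one' := hi (by simp [hj₀])
      map_mul' := fun a b => hi (by simp [hj₀])
      map_zero' := hi (by simp [hj₀])
      map_add' := fun a b => hi (by simp [hj₀]) }
  have hj : ∀ o, algebraMap S F (j o) = o := hj₀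
  have hji : Function.Injective j := fun a b h => RingOfIntegers.ext (by rw [← hj, ← hj, h])
  have hMS : IsUnit (M : S) := by
    obtain ⟨w, hw⟩ := (hr (M : F)⁻¹).2 ⟨1, by simpa [hMF] using isIntegral_one⟩
    exact IsUnit.of_mul_eq_one w (hi (by simp [hw, hMF]))
  have hT : IsUnit (j ((M : 𝓞 F) ^ 6)) := by simpa using hMS.pow 6
  have den : ∀ s, ∃ (k : ℕ) (o : 𝓞 F), j ((M : 𝓞 F) ^ 6) ^ k * s = j o := fun s => by
    obtain ⟨k, hk⟩ := (hr _).1 ⟨s, rfl⟩
    refine ⟨k, (M : 𝓞 F) ^ (5 * k) * ⟨_, hk⟩, hi ?_⟩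
    rw [hj, map_mul, map_pow, hj]
    push_cast
    show _ = _ * ((M : F) ^ k * algebraMap S F s)
    ring
  have hfin : ∀ b : S, b ≠ 0 → Finite (S ⧸ Ideal.span {b}) := fun b hb => by
    obtain ⟨k, μ, h⟩ := den b
    have := Ideal.finiteQuotientOfFreeOfNeBot (Ideal.span {μ}) (by
      rw [Ne, Ideal.span_singleton_eq_bot]
      rintro rfl
      rw [map_zero] at h
      exact hb ((hT.pow k).mul_right_eq_zero.1 h))
    exact finite_of_den j hT den (μ := μ) ⟨j (M ^ 6) ^ k, by rw [← h, mul_comm]⟩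
  have hMu : ¬ IsUnit ((M : 𝓞 F) ^ 6) := fun h => by
    have h1 := (isUnit_pow_iff (by norm_num)).1 h
    have h2 : IsUnit (algebraMap ℤ (𝓞 F) M) := by simpa using h1
    have h3 := Int.isUnit_iff.1 (isUnit_of_map_unit _ _ h2)
    omega
  have h6S : IsUnit (6 : S) := by
    obtain ⟨m, rfl⟩ := h6
    push_cast at hMS
    exact isUnit_of_mul_isUnit_left hMS
  let A := Localization.Away (M : R17.O)
  obtain ⟨hdom, B, hBζ, hBT⟩ := exists_bs M h6 hM A
  let _ : Algebra R17.O S := (homO hζ).toAlgebra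
  have hMO : IsUnit (homO hζ M) := by simpa using hMS
  let _ : Algebra A S := (IsLocalization.Away.lift (M : R17.O) hMO).toAlgebra
  have : IsScalarTower R17.O A S := IsScalarTower.of_algebraMap_eq fun o =>
    (IsLocalization.Away.lift_eq (M : R17.O) hMO o).symm
  have hζ' : algebraMap A S B.ζ = ζ := by
    rw [hBζ, ← IsScalarTower.algebraMap_apply]
    show homO hζ _ = ζ
    simp [homO, R17.om, QuadraticAlgebra.re_one, QuadraticAlgebra.im_one]
  have hτ : j ((M : 𝓞 F) ^ 6) * algebraMap A S (-B.τ) = 1 := by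
    have := congrArg (algebraMap A S) B.hτ
    rw [map_mul, ← IsScalarTower.algebraMap_apply, hBT] at this
    rw [map_neg (algebraMap A S)]
    simp only [map_pow, map_natCast, map_neg, map_one] at this ⊢
    linear_combination -this
  have den' : ∀ s, ∃ (a : A) (o : 𝓞 F), s = algebraMap A S a * j o := fun s => by
    obtain ⟨k, o, h⟩ := den s
    exact ⟨(-B.τ) ^ k, o, by
      rw [← h, map_pow, ← mul_assoc, ← mul_pow, mul_comm _ (j _), hτ, one_pow, one_mul]⟩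
  have : Module.Finite A S := by
    classical
    obtain ⟨G, hG⟩ := Module.Finite.fg_top (R := ℤ) (M := 𝓞 F)
    refine ⟨⟨G.image j, Submodule.eq_top_iff'.2 fun s => ?_⟩⟩
    obtain ⟨a, o, rfl⟩ := den' s
    rw [← Algebra.smul_def]
    refine Submodule.smul_mem _ _ ?_
    have ho : o ∈ Submodule.span ℤ (G : Set (𝓞 F)) := hG ▸ trivial
    induction ho using Submodule.span_induction with
    | mem g hg => exact Submodule.subset_span (by simpa using ⟨g, hg, rfl⟩)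
    | zero => simp
    | add a b _ _ ha hb => rw [map_add]; exact Submodule.add_mem _ ha hb
    | smul c a _ ha => rw [map_zsmul]; exact zsmul_mem ha c
  let y₀ : 𝓞 F := 1 + (M : 𝓞 F) ^ 6 * ⟨t, ht⟩
  obtain rfl : y = j y₀ := hi (by rw [hy, hj]; simp [y₀])
  have hy0 : j y₀ ≠ 0 := (map_ne_zero_iff _ hji).2 fun h =>
    hMu (IsUnit.of_mul_eq_one (-⟨t, ht⟩) (by simp only [y₀] at h; linear_combination -h))
  have := hfin _ hy0
  have := hfin _ hx
  obtain ⟨k, x₀, hx₀⟩ := den x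
  have hx1 : j x₀ ≠ 0 := hx₀ ▸ mul_ne_zero (hT.pow k).ne_zero hx
  have hc1 : IsCoprime (j x₀) (j y₀) := by
    rwa [← hx₀, isCoprime_mul_unit_left_left (hT.pow k)]
  suffices h : zs ζ (j x₀) (j y₀) = zs ζ (j y₀) (j x₀) by
    rwa [← hx₀, ← zs_assoc _ _ (associated_unit_mul_left x _ (hT.pow k)).symm,
      show j ((M : 𝓞 F) ^ 6) ^ k = ((M : S) ^ k) ^ 6 by simp; ring,
      zs_six hζ h6S hc (coprime_unit (hMS.pow k) _)] at h
  by_cases h1 : x₀ = 1
  · rw [h1, map_one, zs_one_left, zs_unit _ _ isUnit_one]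
  have hb0 : j (1 - x₀) ≠ 0 := (map_ne_zero_iff _ hji).2 (sub_ne_zero.2 (Ne.symm h1))
  have hc2 : IsCoprime (j x₀) (j (1 - x₀)) := ⟨1, 1, by simp⟩
  obtain ⟨s, hs0, hs, ⟨η, hη⟩, hu, hsur⟩ := exists_good j hM hMu hi hj hT den hfin (x := x₀)
    (ρ := (1 - x₀) * y₀) ((map_ne_zero_iff _ hji).1 hx1)
    ((map_ne_zero_iff _ hji).1 (by rw [map_mul]; exact mul_ne_zero hb0 hy0))
    (by rw [map_mul]; exact hc2.mul_right hc1) ⟨(1 - x₀) * ⟨t, ht⟩, by simp only [y₀]; ring⟩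
  set b := j s ^ 6 * (j (1 - x₀) * j y₀) with hb
  set z := j (x₀ + (1 - x₀) * y₀ * s ^ 6) with hz
  have hz1 : z = j x₀ + b := by simp only [hz, hb, map_add, map_mul, map_pow]; ring
  have hs1 : j s ≠ 0 := (map_ne_zero_iff _ hji).2 hs0
  have hb1 : b ≠ 0 := mul_ne_zero (pow_ne_zero _ hs1) (mul_ne_zero hb0 hy0)
  have hc3 : IsCoprime (j x₀) b := hs.symm.pow_right.mul_right (hc2.mul_right hc1)
  have hg : ∀ a : S, a ≠ 0 → IsCoprime a z → zs ζ a z = zs ζ z a := fun a ha hac => by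
    rw [← hζ']
    refine good B hBT (homO_inj hζ) hfin (η := j η) ?_ ?_ hu (fun s => ?_) ha hac
    · exact (map_isIntegral_int j (Algebra.IsIntegral.isIntegral η)).tower_top
    · rw [hz, show x₀ + (1 - x₀) * y₀ * s ^ 6 = 1 + (M : 𝓞 F) ^ 6 * η by linear_combination hη, hBT]
      simp
    · obtain ⟨a, o, rfl⟩ := den' s
      obtain ⟨c, hc⟩ := hsur o
      exact ⟨a * c, by rw [map_mul, map_intCast, ← mul_sub]; exact hc.mul_left _⟩
  have hxz : IsCoprime (j x₀) z := by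
    rw [hz1, add_comm]; simpa using hc3.add_mul_left_right 1
  have hbz : IsCoprime b z := by
    rw [hz1]; simpa using hc3.symm.add_mul_left_right 1
  have hz0 : z ≠ 0 := fun h => by
    rw [hz, map_eq_zero_iff _ hji] at h
    exact hMu (IsUnit.of_mul_eq_one (-η) (by linear_combination hη - h))
  have := hfin _ hz0
  have := hfin _ hx1
  have := hfin _ hb1
  have := hfin _ (mul_ne_zero hb0 hy0)
  have := hfin _ (pow_ne_zero 6 hs1)
  have e1 : zs ζ b (j x₀) = zs ζ (j x₀) b := by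
    rw [zs_congr ζ (a' := z) ⟨-1, by rw [hz1]; ring⟩, ← hg _ hx1 hxz,
      zs_congr ζ (a := j x₀) (a' := -1 * b) ⟨1, by rw [hz1]; ring⟩,
      zs_mul_left hζ h6S (coprime_unit isUnit_one.neg _) hbz,
      hg _ (by simp) (coprime_unit isUnit_one.neg _), zs_unit _ _ isUnit_one.neg, zero_add,
      hg _ hb1 hbz]
    exact zs_congr ζ ⟨1, by rw [hz1]; ring⟩
  have e2 : ∀ n : ℕ, zs ζ (j x₀) (j s ^ n) = n * zs ζ (j x₀) (j s) := fun n => by
    induction n with
    | zero => simp [zs_unit]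
    | succ n ih =>
      have := hfin _ (pow_ne_zero (n + 1) hs1)
      rw [pow_succ] at this ⊢
      rw [zs_mul_right hζ h6S (pow_ne_zero _ hs1) (hs.symm.pow_right.mul_right hs.symm), ih]
      push_cast; ring
  rw [hb, zs_six hζ h6S (hc2.mul_right hc1).symm hs, zs_mul_left hζ h6S hc2.symm hc1.symm,
    zs_mul_right hζ h6S (pow_ne_zero _ hs1) hc3, e2, zs_mul_right hζ h6S hb0 (hc2.mul_right hc1),
    zs_congr ζ (a := j (1 - x₀)) (a' := 1) ⟨-1, by simp⟩,
    zs_congr ζ (a := j x₀) (a' := 1) (b := j (1 - x₀)) ⟨-1, by simp⟩, zs_one_left, zs_one_left,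
    show ((6 : ℕ) : ZMod 6) = 0 from rfl] at e1
  simpa using e1.symm

/-- **Sextic reciprocity** over a number field. -/
theorem rec_85 : RecStmt := recStmt_of_cop_55 6 recCop_85

end Crest.Agent.T27.Mn
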