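import Crest.Agent.PVc.R27.Iface

/-! Row 27: a residue class in which `a` is a quadratic non-residue (`ClsStmt`). -/

set_option autoImplicit false

namespace Crest.Agent.T27

namespace Cls65

theorem jac_pred {c r : ℕ} (hc : 0 < c) (h : 4 * c ∣ r + 1) : jacobiSym (c : ℤ) r = 1 := by
  have hr : Odd r := by
    obtain ⟨t, ht⟩ := h
    have : r + 1 = 2 * (2 * c * t) := by rw [ht]; ring
    exact Nat.odd_iff.2 (by omega)
  have h1 : r % (4 * c) = 4 * c - 1 := by
    obtain ⟨t, ht⟩ := h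
    obtain ⟨t, rfl⟩ : ∃ s, t = s + 1 := ⟨t - 1, by
      rcases Nat.eq_zero_or_pos t with h0 | h0
      · subst h0; omega
      · omega⟩
    have : r = 4 * c - 1 + 4 * c * t := by
      have : 4 * c * (t + 1) = 4 * c * t + 4 * c := by ring
      omega
    rw [this, Nat.add_mul_mod_self_left, Nat.mod_eq_of_lt (by omega)]
  rw [jacobiSym.mod_right' c hr, h1]
  have ho : Odd (4 * c - 1) := Nat.odd_iff.2 (by omega)
  have h2 : jacobiSym (4 * (c : ℤ)) (4 * c - 1) = jacobiSym 1 (4 * c - 1) := by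
    apply jacobiSym.mod_left'
    have e : ((4 * c - 1 : ℕ) : ℤ) = 4 * c - 1 := by
      rw [Nat.cast_sub (by omega)]; push_cast; ring
    rw [e]
    exact (Int.modEq_iff_dvd.2 ⟨-1, by ring⟩ : (4 * (c : ℤ)) ≡ 1 [ZMOD (4 * c - 1)])
  rwa [jacobiSym.mul_left, jacobiSym.at_four ho, one_mul, jacobiSym.one_left] at h2

/-- the class `t` modulo a power `u` of `l`, the class `-1` modulo the rest of `n` -/
theorem glue {n l u : ℕ} (t : ℕ) (hn : n ≠ 0) (hl : l.Prime) (k : ℕ) (hu : u = l ^ k) :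
    ∃ r : ℕ, r ≡ t [MOD u] ∧ ∀ c : ℕ, c ∣ n → ¬ l ∣ c → c ∣ r + 1 := by
  have hv : 0 < ordCompl[l] n := Nat.ordCompl_pos l hn
  have hco : u.Coprime (ordCompl[l] n) := by
    rw [hu]
    exact (Nat.coprime_ordCompl hl hn).pow_left k
  obtain ⟨r, h1, h2⟩ := Nat.chineseRemainder hco t (ordCompl[l] n - 1)
  refine ⟨r, h1, fun c hc hlc => (Nat.dvd_ordCompl_of_dvd_not_dvd hc hlc).trans ?_⟩
  have h3 := h2.add_right 1
  rw [Nat.sub_add_cancel hv] at h3
  exact (Nat.modEq_zero_iff_dvd.1 (h3.trans (Nat.modEq_zero_iff_dvd.2 dvd_rfl)))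

theorem not_dvd_of_succ {p r : ℕ} (hp : p.Prime) (h : p ∣ r + 1) : ¬ p ∣ r := fun h1 =>
  hp.one_lt.ne' (Nat.dvd_one.1 ((Nat.dvd_add_right h1).1 h))

theorem not_one_of_succ {p r : ℕ} (hp : p.Prime) (h2 : p ≠ 2) (h : p ∣ r + 1) :
    ¬ r ≡ 1 [MOD p] := fun h1 => by
  have h3 := (h1.add_right 1).symm.trans (Nat.modEq_zero_iff_dvd.2 h)
  exact h2 ((Nat.prime_dvd_prime_iff_eq hp Nat.prime_two).1 (Nat.modEq_zero_iff_dvd.1 h3))

/-- the conclusion for a positive number -/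
def Good (n r : ℕ) : Prop :=
  r.Coprime (4 * n) ∧ ∀ l : ℕ, l.Prime → l ≠ 2 → l ∣ n → ¬ r ≡ 1 [MOD l]

theorem good_of {n l r : ℕ} (hl : l.Prime) (h : ∀ c : ℕ, c ∣ 4 * n → ¬ l ∣ c → c ∣ r + 1)
    (h0 : ¬ l ∣ r) (h1 : l ≠ 2 → ¬ r ≡ 1 [MOD l]) : Good n r := by
  have key : ∀ p : ℕ, p.Prime → p ≠ l → p ∣ 4 * n → p ∣ r + 1 := fun p hp hpl hpn =>
    h p hpn fun h2 => hpl ((Nat.prime_dvd_prime_iff_eq hl hp).1 h2).symm
  refine ⟨Nat.coprime_of_dvd fun p hp hpr hpn => ?_, fun p hp hp2 hpn => ?_⟩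
  · by_cases e : p = l
    · exact h0 (e ▸ hpr)
    · exact not_dvd_of_succ hp (key p hp e hpn) hpr
  · by_cases e : p = l
    · subst e
      exact h1 hp2
    · exact not_one_of_succ hp hp2 (key p hp e (hpn.mul_left 4))

theorem nonres {l : ℕ} (hl : l.Prime) (h2 : l ≠ 2) (h3 : l ≠ 3) :
    ∃ t : ℕ, jacobiSym (-(t : ℤ)) l = -1 ∧ ¬ t ≡ 1 [MOD l] := by
  have := Fact.mk hl
  obtain ⟨x, hx⟩ := FiniteField.exists_nonsquare (F := ZMod l) (by rwa [ZMod.ringChar_zmod_n])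
  have hodd : Odd l := hl.odd_of_ne_two h2
  have h4 : ∀ y : ZMod l, ¬ IsSquare y → jacobiSym (-(((-y).val : ℕ) : ℤ)) l = -1 := fun y hy => by
    rw [ZMod.nonsquare_iff_jacobiSym_eq_neg_one]
    simpa using hy
  have h5 : ∀ y : ZMod l, (-y).val ≡ 1 [MOD l] → y = -1 := fun y hy => by
    have := (ZMod.natCast_eq_natCast_iff _ _ _).2 hy
    simp only [ZMod.natCast_val, ZMod.cast_id', id_eq, Nat.cast_one] at this
    rw [← this, neg_neg]
  by_cases e : x = -1
  · have h2' : (2 : ZMod l) ≠ 0 := fun h => by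
      have : ((2 : ℕ) : ZMod l) = 0 := by exact_mod_cast h
      rw [ZMod.natCast_eq_zero_iff] at this
      exact h2 ((Nat.prime_dvd_prime_iff_eq hl Nat.prime_two).1 this)
    have hx4 : ¬ IsSquare (4 * x) := fun ⟨y, hy⟩ => hx ⟨y / 2, by
      field_simp
      linear_combination hy⟩
    refine ⟨(-(4 * x)).val, h4 _ hx4, fun h => ?_⟩
    have h6 := h5 _ h
    rw [e] at h6
    have : ((3 : ℕ) : ZMod l) = 0 := by
      push_cast
      linear_combination -h6
    rw [ZMod.natCast_eq_zero_iff] at this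
    exact h3 ((Nat.prime_dvd_prime_iff_eq hl Nat.prime_three).1 this)
  · exact ⟨(-x).val, h4 _ hx, fun h => e (h5 _ h)⟩

theorem sqfree_case {n s : ℕ} (hn : n ≠ 0) (hs : Squarefree s) (hs1 : s ≠ 1) (hsn : s ∣ n) :
    ∃ r : ℕ, Good n r ∧ jacobiSym (s : ℤ) r = -1 := by
  have hn4 : 4 * n ≠ 0 := by omega
  by_cases h3 : s = 3
  · subst h3
    obtain ⟨r, h1, h2⟩ := glue (n := 4 * n) (u := 4) 1 hn4 Nat.prime_two 2 (by norm_num)
    have hr : r % 4 = 1 := h1
    refine ⟨r, good_of Nat.prime_two h2 (by omega) (fun h => absurd rfl h), ?_⟩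
    rw [jacobiSym.quadratic_reciprocity_one_mod_four' (by decide) hr]
    have h4 : 3 ∣ r + 1 := h2 3 (hsn.mul_left 4) (by norm_num)
    rw [jacobiSym.mod_left' (a₂ := 2) (by push_cast; omega)]
    norm_num
  · obtain ⟨l, hl, hls, hl3⟩ : ∃ l : ℕ, l.Prime ∧ l ∣ s ∧ l ≠ 3 := by
      by_contra hcon
      push Not at hcon
      have h4 := Nat.eq_prime_pow_of_unique_prime_dvd hs.ne_zero (p := 3) fun {d} hd hds =>
        hcon d hd hds
      rcases hk : s.primeFactorsList.length with _ | _ | k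
      · rw [hk] at h4; exact hs1 h4
      · rw [hk] at h4; exact h3 h4
      · rw [hk] at h4
        have := hs 3 (by rw [h4]; exact ⟨3 ^ k, by ring⟩)
        norm_num at this
    obtain ⟨c, rfl⟩ := hls
    have hlc : ¬ l ∣ c := fun h => by
      have := hs l (Nat.mul_dvd_mul_left l h)
      rw [Nat.isUnit_iff] at this
      exact hl.one_lt.ne' this
    have hc0 : 0 < c := Nat.pos_of_ne_zero fun h => hlc (h ▸ dvd_zero l)
    have hcn : c ∣ n := (Dvd.intro_left l rfl).trans hsn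
    by_cases h2 : l = 2
    · subst h2
      obtain ⟨r, h1, h2⟩ := glue (n := 4 * n) (u := 8) 3 hn4 Nat.prime_two 3 (by norm_num)
      have hr : r % 8 = 3 := h1
      refine ⟨r, good_of Nat.prime_two h2 (by omega) (fun h => absurd rfl h), ?_⟩
      have h4 : 4 * c ∣ r + 1 := by
        refine Nat.Coprime.mul_dvd_of_dvd_of_dvd ?_ (by omega) (h2 c (hcn.mul_left 4) hlc)
        exact ((Nat.Prime.coprime_iff_not_dvd Nat.prime_two).2 hlc).pow_left 2
      push_cast
      rw [jacobiSym.mul_left, jac_pred hc0 h4, jacobiSym.at_two (Nat.odd_iff.2 (by omega)),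
        ZMod.χ₈_nat_eq_if_mod_eight]
      simp [hr, show r % 2 = 1 by omega]
    · obtain ⟨t, ht1, ht2⟩ := nonres hl h2 hl3
      obtain ⟨r, h1, h5⟩ := glue (n := 4 * n) (u := l) t hn4 hl 1 (by norm_num)
      have hl4 : ¬ l ∣ 4 := fun h =>
        h2 ((Nat.prime_dvd_prime_iff_eq hl Nat.prime_two).1 (hl.dvd_of_dvd_pow (n := 2) h))
      have h4 : 4 * c ∣ r + 1 := h5 _ (Nat.mul_dvd_mul_left 4 hcn) fun h =>
        ((Nat.Prime.dvd_mul hl).1 h).elim hl4 hlc
      have hr : r % 4 = 3 := by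
        have := (Dvd.intro c rfl).trans h4
        omega
      have h6 : jacobiSym (-(r : ℤ)) l = -1 := by
        rw [← ht1]
        apply jacobiSym.mod_left'
        exact (Int.natCast_modEq_iff.2 h1).neg
      have hodd : Odd l := hl.odd_of_ne_two h2
      refine ⟨r, good_of hl h5 (fun h => ?_) (fun _ h => ht2 (h1.symm.trans h)), ?_⟩
      · have : jacobiSym (-(r : ℤ)) l = jacobiSym 0 l := by
          apply jacobiSym.mod_left'
          rw [Int.zero_emod]
          exact Int.emod_eq_zero_of_dvd ((Int.natCast_dvd_natCast.2 h).neg_right)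
        rw [this, jacobiSym.zero_left hl.one_lt] at h6
        norm_num at h6
      · push_cast
        rw [jacobiSym.mul_left, jac_pred hc0 h4, mul_one]
        rw [jacobiSym.neg _ hodd] at h6
        rcases Nat.odd_mod_four_iff.1 (Nat.odd_iff.1 hodd) with e | e
        · rw [jacobiSym.quadratic_reciprocity_one_mod_four e (Nat.odd_iff.2 (by omega))]
          rwa [ZMod.χ₄_nat_one_mod_four e, one_mul] at h6
        · rw [jacobiSym.quadratic_reciprocity_three_mod_four e hr]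
          rwa [ZMod.χ₄_nat_three_mod_four e, neg_one_mul] at h6

end Cls65

open Cls65 in
theorem cls_65 : R27.ClsStmt := by
  intro a _ hsq
  have ha0 : a ≠ 0 := fun h => hsq (h ▸ IsSquare.zero)
  have hn : a.natAbs ≠ 0 := Int.natAbs_ne_zero.2 ha0
  rcases Int.natAbs_eq a with ha | ha
  · obtain ⟨s, b, hsb, hs⟩ := Nat.sq_mul_squarefree a.natAbs
    have hs1 : s ≠ 1 := fun h => hsq ⟨b, by
      rw [ha, ← hsb, h]
      push_cast
      ring⟩
    obtain ⟨r, ⟨h1, h2⟩, h3⟩ := sqfree_case hn hs hs1 (Dvd.intro_left _ hsb)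
    refine ⟨r, h1, ?_, h2⟩
    rw [ha, ← hsb]
    push_cast
    rw [jacobiSym.mul_left, h3, jacobiSym.sq_one', one_mul]
    rw [Int.gcd_natCast_natCast]
    refine Nat.Coprime.symm (h1.coprime_dvd_right ?_)
    rw [← hsb]
    exact Dvd.intro (4 * b * s) (by ring)
  · have h4 : 4 * a.natAbs ∣ 4 * a.natAbs - 1 + 1 := by rw [Nat.sub_add_cancel (by omega)]
    have hg := good_of (n := a.natAbs) (l := 2) (r := 4 * a.natAbs - 1) Nat.prime_two
      (fun c hc _ => hc.trans h4) (by omega) (fun h => absurd rfl h)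
    refine ⟨4 * a.natAbs - 1, hg.1, ?_, hg.2⟩
    nth_rw 1 [ha]
    rw [jacobiSym.neg _ (Nat.odd_iff.2 (by omega)), jac_pred (by omega) h4,
      ZMod.χ₄_nat_three_mod_four (by omega), mul_one]

end Crest.Agent.T27
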