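import Crest.Agent.PVc.R27.Iface

/-! Row 27: many classes in which `p - 1` has no small odd prime factor (`CrtStmt`). -/

set_option autoImplicit false

namespace Crest.Agent.T27

open Finset

namespace Crt65

/-- the statement with the invariant needed for the induction -/
def Inv (M₀ r₀ k M : ℕ) (S : Finset ℕ) : Prop :=
  1 ≤ M ∧ M₀ ∣ M ∧ (∀ q : ℕ, q.Prime → q ≠ 2 → q ≤ 2 * k + 1 → q ∣ M) ∧
    (∀ r ∈ S, r < M ∧ r.Coprime M ∧ r ≡ r₀ [MOD M₀] ∧
      ∀ q : ℕ, q.Prime → q ≠ 2 → q ≤ 2 * k + 1 → ¬ q ∣ M₀ → ¬ r ≡ 1 [MOD q]) ∧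
    M.totient ^ 2 ≤ (4 * k + 1) * (S.card * M₀.totient) ^ 2 ∧
    ∀ q : ℕ, q.Prime → q ∣ M → q ∣ M₀ ∨ q ≤ 2 * k + 1

theorem small {q k : ℕ} (hq : q.Prime) (h2 : q ≠ 2) (h : q ≤ 2 * (k + 1) + 1) :
    q ≤ 2 * k + 1 ∨ q = 2 * k + 3 := by
  have := Nat.odd_iff.1 (hq.odd_of_ne_two h2)
  omega

theorem step {M₀ r₀ k M : ℕ} {S : Finset ℕ} (h : Inv M₀ r₀ k M S) :
    ∃ (M' : ℕ) (S' : Finset ℕ), Inv M₀ r₀ (k + 1) M' S' := by
  obtain ⟨h1, h2, h3, h4, h5, h6⟩ := h
  by_cases hq : (2 * k + 3).Prime ∧ ¬ (2 * k + 3) ∣ M₀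
  · obtain ⟨hq, hqM⟩ := hq
    have hco : M.Coprime (2 * k + 3) := ((Nat.Prime.coprime_iff_not_dvd hq).2 fun h =>
      (h6 _ hq h).elim hqM (by omega)).symm
    let f : ℕ × ℕ → ℕ := fun x => Nat.chineseRemainder hco x.1 x.2
    have f1 : ∀ x, f x ≡ x.1 [MOD M] := fun x => (Nat.chineseRemainder hco x.1 x.2).2.1
    have f2 : ∀ x, f x ≡ x.2 [MOD 2 * k + 3] := fun x => (Nat.chineseRemainder hco x.1 x.2).2.2
    have f3 : ∀ x, f x < M * (2 * k + 3) := fun x =>
      Nat.chineseRemainder_lt_mul hco x.1 x.2 (by omega) (by omega)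
    have hcard : ((S ×ˢ Ico 2 (2 * k + 3)).image f).card = S.card * (2 * k + 1) := by
      rw [card_image_of_injOn, card_product, Nat.card_Ico]
      · rfl
      · intro x hx y hy hxy
        have hx' := mem_product.1 (mem_coe.1 hx)
        have hy' := mem_product.1 (mem_coe.1 hy)
        refine Prod.ext ?_ ?_
        · exact Nat.ModEq.eq_of_lt_of_lt ((f1 x).symm.trans (hxy ▸ f1 y)) (h4 _ hx'.1).1
            (h4 _ hy'.1).1
        · exact Nat.ModEq.eq_of_lt_of_lt ((f2 x).symm.trans (hxy ▸ f2 y)) (mem_Ico.1 hx'.2).2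
            (mem_Ico.1 hy'.2).2
    refine ⟨M * (2 * k + 3), (S ×ˢ Ico 2 (2 * k + 3)).image f, Nat.mul_pos h1 (by omega),
      h2.mul_right _, fun q a b c => ?_, fun r hr => ?_, ?_, fun q a b => ?_⟩
    · rcases small a b c with e | e
      · exact (h3 q a b e).mul_right _
      · exact e ▸ Dvd.intro_left _ rfl
    · obtain ⟨x, hx, rfl⟩ := mem_image.1 hr
      obtain ⟨hx1, hx2⟩ := mem_product.1 hx
      obtain ⟨g1, g2, g3, g4⟩ := h4 _ hx1
      obtain ⟨g5, g6⟩ := mem_Ico.1 hx2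
      refine ⟨f3 x, Nat.Coprime.mul_right ?_ ?_, ((f1 x).of_dvd h2).trans g3,
        fun q a b c d => ?_⟩
      · rw [Nat.Coprime, (f1 x).gcd_eq]
        exact g2
      · rw [Nat.Coprime, (f2 x).gcd_eq]
        exact ((Nat.Prime.coprime_iff_not_dvd hq).2 fun h =>
          absurd (Nat.le_of_dvd (by omega) h) (by omega)).symm
      · rcases small a b c with e | e
        · exact fun h => g4 q a b e d (((f1 x).of_dvd (h3 q a b e)).symm.trans h)
        · subst e
          intro h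
          have := Nat.ModEq.eq_of_lt_of_lt ((f2 x).symm.trans h) g6 (by omega)
          omega
    · rw [hcard, Nat.totient_mul hco, Nat.totient_prime hq,
        show 2 * k + 3 - 1 = 2 * k + 2 by omega]
      calc (M.totient * (2 * k + 2)) ^ 2 = M.totient ^ 2 * (2 * k + 2) ^ 2 := by ring
        _ ≤ (4 * k + 1) * (S.card * M₀.totient) ^ 2 * (2 * k + 2) ^ 2 := by gcongr
        _ = ((4 * k + 1) * (2 * k + 2) ^ 2) * (S.card * M₀.totient) ^ 2 := by ring
        _ ≤ ((4 * (k + 1) + 1) * (2 * k + 1) ^ 2) * (S.card * M₀.totient) ^ 2 :=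
          Nat.mul_le_mul_right _ (by nlinarith)
        _ = _ := by ring
    · rcases (Nat.Prime.dvd_mul a).1 b with e | e
      · exact (h6 q a e).imp_right fun h => by omega
      · exact Or.inr (by have := Nat.le_of_dvd (by omega) e; omega)
  · refine ⟨M, S, h1, h2, fun q a b c => ?_, fun r hr => ?_, h5.trans ?_, fun q a b => ?_⟩
    · rcases small a b c with e | e
      · exact h3 q a b e
      · subst e
        exact (not_not.1 fun h => hq ⟨a, h⟩ : _ ∣ M₀).trans h2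
    · obtain ⟨g1, g2, g3, g4⟩ := h4 r hr
      refine ⟨g1, g2, g3, fun q a b c d => ?_⟩
      rcases small a b c with e | e
      · exact g4 q a b e d
      · subst e
        exact absurd ⟨a, d⟩ hq
    · gcongr
      omega
    · exact (h6 q a b).imp_right fun h => by omega

theorem all (M₀ r₀ : ℕ) (hM : 1 ≤ M₀) (hr : r₀.Coprime M₀) (k : ℕ) :
    ∃ (M : ℕ) (S : Finset ℕ), Inv M₀ r₀ k M S := by
  induction k with
  | zero =>
    refine ⟨M₀, {r₀ % M₀}, hM, dvd_rfl, fun q a _ c => ?_, fun r h => ?_, by simp,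
      fun q _ b => Or.inl b⟩
    · have := a.two_le
      omega
    · rw [mem_singleton.1 h]
      refine ⟨Nat.mod_lt _ hM, ?_, Nat.mod_modEq _ _, fun q a _ c => ?_⟩
      · rw [Nat.Coprime, (Nat.mod_modEq r₀ M₀).gcd_eq]
        exact hr
      · have := a.two_le
        omega
  | succ k ih =>
    obtain ⟨M, S, h⟩ := ih
    exact step h

end Crt65

theorem crt_65 : R27.CrtStmt := by
  intro M₀ r₀ k hM hr
  obtain ⟨M, S, h1, h2, h3, h4, h5, -⟩ := Crt65.all M₀ r₀ hM hr k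
  exact ⟨M, S, h1, h2, h3, h4, h5⟩

end Crest.Agent.T27
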