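import Crest.Agent.T27.EndDefs_65
import Crest.Agent.T27.Cls_65
import Crest.Agent.T27.Crt_65

/-! Row 27: the final assembly `BigK → ChebG → OrdStmt → ArtinStmt`. -/

set_option autoImplicit false

namespace Crest.Agent.T27

open Finset Filter

namespace Asm65

theorem ev_small {y D β : ℝ} (hy : 0 < y) (hD : 0 < D) (hβ : 0 < β) :
    ∀ᶠ m : ℕ in atTop, D * (m : ℝ) ^ (1 - y) ≤ β * (m / Real.log m) := by
  have h := (isLittleO_log_rpow_atTop hy).def (c := β / D) (by positivity)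
  filter_upwards [tendsto_natCast_atTop_atTop.eventually h, eventually_ge_atTop 2] with m h1 hm
  have hm' : (2 : ℝ) ≤ m := by exact_mod_cast hm
  have hl : 0 < Real.log m := Real.log_pos (by linarith)
  rw [Real.norm_of_nonneg hl.le, Real.norm_of_nonneg (by positivity), div_mul_eq_mul_div,
    le_div_iff₀ hD] at h1
  have e : (m : ℝ) = (m : ℝ) ^ (1 - y) * (m : ℝ) ^ y := by
    rw [← Real.rpow_add (by linarith), sub_add_cancel, Real.rpow_one]
  rw [← mul_div_assoc, le_div_iff₀ hl]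
  nth_rw 3 [e]
  nlinarith [Real.rpow_pos_of_pos (by linarith : (0 : ℝ) < m) (1 - y)]

/-- a prime of a good class which is not a primitive root prime -/
theorem bad_prime {a : ℤ} {p r₀ : ℕ} (hp : p.Prime) (hr : r₀.Coprime (4 * a.natAbs))
    (hj : jacobiSym a r₀ = -1) (hpr : p ≡ r₀ [MOD 4 * a.natAbs]) :
    ¬ (p : ℤ) ∣ a ∧ (orderOf (a : ZMod p) ≠ p - 1 →
      ∃ q : ℕ, q.Prime ∧ q ≠ 2 ∧ q ∣ p - 1 ∧ (a : ZMod p) ^ ((p - 1) / q) = 1) := by
  have := Fact.mk hp
  have hr2 : Odd r₀ := (Nat.coprime_two_right).1 (hr.coprime_dvd_right ⟨2 * a.natAbs, by ring⟩)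
  have hp2 : Odd p := by
    have h1 : p % 2 = r₀ % 2 := hpr.of_dvd ⟨2 * a.natAbs, by ring⟩
    rw [Nat.odd_iff] at hr2 ⊢
    omega
  have hJ : jacobiSym a p = -1 := by
    rw [jacobiSym.mod_right a hp2, hpr, ← jacobiSym.mod_right a hr2, hj]
  have hns := ZMod.nonsquare_of_jacobiSym_eq_neg_one hJ
  have ha0 : (a : ZMod p) ≠ 0 := fun h => hns (h ▸ IsSquare.zero)
  refine ⟨fun h => ha0 ((ZMod.intCast_zmod_eq_zero_iff_dvd a p).2 h), fun ho => ?_⟩
  by_contra hc
  push Not at hc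
  refine ho (orderOf_eq_of_pow_and_pow_div_prime (by have := hp.two_le; omega)
    (ZMod.pow_card_sub_one_eq_one ha0) fun q hq hqp => ?_)
  by_cases h2 : q = 2
  · subst h2
    intro h
    rw [show (p - 1) / 2 = p / 2 by have := Nat.odd_iff.1 hp2; omega] at h
    exact hns ((ZMod.euler_criterion p ha0).2 h)
  · exact hc q hq h2 hqp

open Classical in
/-- the primes in `(2m, 3m]` modulo which `a` is a primitive root -/
noncomputable def good (a : ℤ) (m : ℕ) : Finset ℕ :=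
  (Ioc (2 * m) (3 * m)).filter fun p => p.Prime ∧ ¬ (p : ℤ) ∣ a ∧ orderOf (a : ZMod p) = p - 1

theorem main (hB : BigK) (hC : ChebG) (hO : R27.OrdStmt) {a : ℤ} (ha : a ≠ -1)
    (hsq : ¬ IsSquare a) :
    ∃ β : ℝ, 0 < β ∧ ∀ᶠ m : ℕ in atTop, β * (m / Real.log m) ≤ (good a m).card := by
  classical
  have ha2 : 2 ≤ |a| := by
    by_contra h
    have h1 := abs_lt.1 (not_le.1 h)
    obtain rfl | rfl | rfl : a = -1 ∨ a = 0 ∨ a = 1 := by omega
    · exact ha rfl
    · exact hsq IsSquare.zero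
    · exact hsq IsSquare.one
  have hn : 1 ≤ a.natAbs := by
    have := Int.natCast_natAbs a
    omega
  obtain ⟨d, C, A, q₀, hd, hC0, hC⟩ := hC a ha2
  obtain ⟨κ, hκ0, hκ1, hκ2⟩ : ∃ κ : ℝ, 0 < κ ∧ κ ≤ 1 / 4 ∧ κ * (A + 1) ≤ d / 2 := by
    refine ⟨min (1 / 4) (d / 2 / (A + 1)), by positivity, min_le_left _ _, ?_⟩
    rw [← le_div_iff₀ (by positivity)]
    exact min_le_right _ _
  obtain ⟨c, hc, hB⟩ := hB κ hκ0 (by linarith)
  obtain ⟨r₀, r1, r2, r3⟩ := cls_65 a ha hsq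
  obtain ⟨k, hk1, hk2⟩ : ∃ k : ℕ, q₀ ≤ k ∧
      (((4 * a.natAbs).totient : ℝ) * (10 * C / c)) ^ 2 ≤ k :=
    ⟨max q₀ ⌈(((4 * a.natAbs).totient : ℝ) * (10 * C / c)) ^ 2⌉₊, le_max_left _ _,
      (Nat.le_ceil _).trans (by exact_mod_cast le_max_right _ _)⟩
  obtain ⟨M, S, s1, s2, s3, s4, s5⟩ := crt_65 (4 * a.natAbs) r₀ k (by omega) r1
  have hφ : (0 : ℝ) < M.totient := by exact_mod_cast Nat.totient_pos.2 s1
  obtain ⟨β, hβ⟩ : ∃ β : ℝ, β = 2 * C / (2 * k + 1) := ⟨_, rfl⟩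
  have hβ0 : 0 < β := by rw [hβ]; positivity
  have hS : 5 * β ≤ S.card * (c / M.totient) := by
    have h1 : (M.totient : ℝ) ^ 2 ≤ (4 * k + 1) * (S.card * (4 * a.natAbs).totient) ^ 2 := by
      exact_mod_cast s5
    have h2 : (M.totient * (10 * C / c)) ^ 2 ≤ (S.card * (2 * k + 1) : ℝ) ^ 2 := by
      calc _ = (M.totient : ℝ) ^ 2 * (10 * C / c) ^ 2 := by ring
        _ ≤ (4 * k + 1) * (S.card * (4 * a.natAbs).totient) ^ 2 * (10 * C / c) ^ 2 := by gcongr
        _ = (4 * k + 1) * S.card ^ 2 * ((4 * a.natAbs).totient * (10 * C / c)) ^ 2 := by ring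
        _ ≤ (4 * k + 1) * S.card ^ 2 * k := by gcongr
        _ = S.card ^ 2 * ((4 * k + 1) * k) := by ring
        _ ≤ S.card ^ 2 * (2 * k + 1) ^ 2 := by
          gcongr
          nlinarith [Nat.cast_nonneg (α := ℝ) k]
        _ = _ := by ring
    have h5 : (M.totient * (10 * C / c)) ≤ (S.card * (2 * k + 1) : ℝ) :=
      (pow_le_pow_iff_left₀ (by positivity) (by positivity) two_ne_zero).1 h2
    rw [hβ, ← mul_div_assoc, ← mul_div_assoc, div_le_div_iff₀ (by positivity) hφ]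
    rw [← mul_div_assoc, div_le_iff₀ hc] at h5
    linarith
  refine ⟨β, hβ0, ?_⟩
  filter_upwards [(eventually_all_finset S).2 fun r hr => hB M r s1 (s4 r hr).2.1,
    ev_small (y := 1 / 2) (D := 9 * a.natAbs) (by norm_num) (by positivity) hβ0,
    ev_small (y := d / 2) (D := C * (2 * 3 ^ (A + 1))) (by positivity) (by positivity) hβ0,
    eventually_ge_atTop 2] with m e1 e2 e3 hm
  have hm' : (2 : ℝ) ≤ m := by exact_mod_cast hm
  have hm1 : (1 : ℝ) ≤ m := by linarith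
  have hl : 0 < Real.log m := Real.log_pos (by linarith)
  obtain ⟨K, hK⟩ : ∃ K : ℕ, K = ⌊3 * (m : ℝ) ^ κ⌋₊ := ⟨_, rfl⟩
  have hK1 : (K : ℝ) ≤ 3 * (m : ℝ) ^ κ := hK ▸ Nat.floor_le (by positivity)
  obtain ⟨B₁, hB₁⟩ : ∃ B₁ : Finset ℕ, B₁ = (Ioc (2 * m) (3 * m)).filter
    (fun p => p.Prime ∧ ∃ j : ℕ, 1 ≤ j ∧ j ≤ K ∧ (a : ZMod p) ^ j = 1) := ⟨_, rfl⟩
  obtain ⟨T, hT⟩ : ∃ T : Finset ℕ, T = (Ioo (2 * k + 1) (K + 1)).filter Nat.Prime := ⟨_, rfl⟩
  have hsub : S.biUnion (fun r => bigK κ M r m) ⊆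
      good a m ∪ (B₁ ∪ T.biUnion (fun q => R27.spl a q (2 * m))) := by
    intro p hp
    obtain ⟨r, hr, hp⟩ := mem_biUnion.1 hp
    simp only [bigK, mem_filter, mem_Ioc] at hp
    obtain ⟨⟨p1, p2⟩, hp, p3, Q, hQ, q1, q2⟩ := hp
    obtain ⟨-, -, t3, t4⟩ := s4 r hr
    have p4 : p ≡ r₀ [MOD 4 * a.natAbs] := (p3.of_dvd s2).trans t3
    obtain ⟨b1, b2⟩ := bad_prime hp r1 r2 p4
    by_cases ho : orderOf (a : ZMod p) = p - 1
    · exact mem_union_left _ (by
        simp only [good, mem_filter, mem_Ioc]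
        exact ⟨⟨p1, p2⟩, hp, b1, ho⟩)
    obtain ⟨q, hq, hq2, hqp, hqa⟩ := b2 ho
    have hle : ∀ j : ℕ, j * Q ≤ p - 1 → j ≤ K := fun j hj => by
      rw [hK]
      refine Nat.le_floor ?_
      have h1 : (j : ℝ) * Q ≤ 3 * m := by exact_mod_cast hj.trans (by omega)
      have h2 : (m : ℝ) = (m : ℝ) ^ κ * (m : ℝ) ^ (1 - κ) := by
        rw [← Real.rpow_add (by linarith), add_sub_cancel, Real.rpow_one]
      have h3 : 0 < (m : ℝ) ^ (1 - κ) := by positivity
      refine le_of_mul_le_mul_right ?_ h3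
      nlinarith [Nat.cast_nonneg (α := ℝ) j]
    refine mem_union_right _ ?_
    by_cases e : q = Q
    · subst e
      refine mem_union_left _ ?_
      rw [hB₁, mem_filter, mem_Ioc]
      exact ⟨⟨p1, p2⟩, hp, (p - 1) / q, Nat.div_pos (Nat.le_of_dvd (by omega) hqp) hq.pos,
        hle _ (Nat.div_mul_le_self _ _), hqa⟩
    · refine mem_union_right _ (mem_biUnion.2 ⟨q, ?_, ?_⟩)
      · rw [hT, mem_filter, mem_Ioo]
        refine ⟨⟨?_, Nat.lt_succ_of_le (hle q (Nat.le_of_dvd (by omega)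
          (((Nat.coprime_primes hq hQ).2 e).mul_dvd_of_dvd_of_dvd hqp q2)))⟩, hq⟩
        by_contra hlt
        have h1 : p ≡ 1 [MOD q] := ((Nat.modEq_iff_dvd' (by omega)).2 hqp).symm
        by_cases h2 : q ∣ 4 * a.natAbs
        · refine r3 q hq hq2 (((Nat.Prime.dvd_mul hq).1 h2).resolve_left fun h => hq2 ?_)
            ((p4.of_dvd h2).symm.trans h1)
          exact (Nat.prime_dvd_prime_iff_eq hq Nat.prime_two).1 (hq.dvd_of_dvd_pow (n := 2) h)
        · exact t4 q hq hq2 (by omega) h2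
            ((p3.of_dvd (s3 q hq hq2 (by omega))).symm.trans h1)
      · simp only [R27.spl, mem_filter, mem_Ioc]
        exact ⟨⟨p1, by omega⟩, hp, hqp, hqa⟩
  have c1 : 5 * β * (m / Real.log m) ≤ (S.biUnion (fun r => bigK κ M r m)).card := by
    rw [card_biUnion]
    · push_cast
      refine le_trans ?_ (card_nsmul_le_sum _ _ _ e1)
      rw [nsmul_eq_mul, ← mul_assoc]
      gcongr
    · intro r hr r' hr' hne
      refine disjoint_left.2 fun p h1 h2 => hne ?_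
      simp only [bigK, mem_filter] at h1 h2
      exact Nat.ModEq.eq_of_lt_of_lt (h1.2.2.1.symm.trans h2.2.2.1) (s4 r hr).1 (s4 r' hr').1
  have c2 : (B₁.card : ℝ) ≤ β * (m / Real.log m) := by
    have h1 := hO a K B₁ ha2 fun p hp => by
      rw [hB₁, mem_filter] at hp
      exact hp.2
    refine le_trans ?_ e2
    calc (B₁.card : ℝ) ≤ a.natAbs * (K : ℝ) ^ 2 := by exact_mod_cast h1
      _ ≤ a.natAbs * (3 * (m : ℝ) ^ κ) ^ 2 := by gcongr
      _ = 9 * a.natAbs * (m : ℝ) ^ (κ * 2) := by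
        rw [Real.rpow_mul (by linarith), Real.rpow_two]
        ring
      _ ≤ _ := by
        gcongr
        linarith
  have c3 : ((T.biUnion (fun q => R27.spl a q (2 * m))).card : ℝ) ≤ 3 * β * (m / Real.log m) := by
    have h1 : ∀ q ∈ T, ((R27.spl a q (2 * m)).card : ℝ) ≤
        2 * C * (m / Real.log m) * ((q : ℝ) ^ 2)⁻¹ + C * ((K : ℝ) ^ A * (2 * (m : ℝ) ^ (1 - d))) :=
      fun q hq => by
        rw [hT, mem_filter, mem_Ioo] at hq
        refine (hC q (2 * m) hq.2 (by omega) (by omega)).trans ?_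
        have g1 : (q : ℝ) ≤ K := by exact_mod_cast (by omega : q ≤ K)
        have g0 : (0 : ℝ) < q := by exact_mod_cast hq.2.pos
        have g2 : Real.log m ≤ Real.log ((2 * m : ℕ) : ℝ) :=
          Real.log_le_log (by linarith) (by push_cast; linarith)
        have g3 : ((2 * m : ℕ) : ℝ) ^ (1 - d) ≤ 2 * (m : ℝ) ^ (1 - d) := by
          push_cast
          rw [Real.mul_rpow (by norm_num) (by linarith)]
          gcongr
          calc (2 : ℝ) ^ (1 - d) ≤ 2 ^ (1 : ℝ) :=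
                Real.rpow_le_rpow_of_exponent_le (by norm_num) (by linarith)
            _ = 2 := Real.rpow_one 2
        calc _ ≤ C * (((2 * m : ℕ) : ℝ) / ((q : ℝ) ^ 2 * Real.log m) +
              (K : ℝ) ^ A * (2 * (m : ℝ) ^ (1 - d))) := by gcongr
          _ = _ := by
            push_cast
            field_simp
    have h2 : ∑ q ∈ T, ((q : ℝ) ^ 2)⁻¹ ≤ 2 / (2 * k + 1) := by
      calc _ ≤ ∑ q ∈ Ioo (2 * k + 1) (K + 1), ((q : ℝ) ^ 2)⁻¹ := by
            rw [hT]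
            exact sum_le_sum_of_subset_of_nonneg (filter_subset _ _) fun _ _ _ => by positivity
        _ ≤ 2 / (((2 * k + 1 : ℕ) : ℝ) + 1) := sum_Ioo_inv_sq_le _ _
        _ ≤ _ := by
            push_cast
            gcongr
            linarith
    have h3 : (T.card : ℝ) ≤ K := by
      have : T.card ≤ K := by
        rw [hT]
        refine (card_filter_le _ _).trans ?_
        rw [Nat.card_Ioo]
        omega
      exact_mod_cast this
    have h4 : (K : ℝ) * (C * ((K : ℝ) ^ A * (2 * (m : ℝ) ^ (1 - d)))) ≤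
        C * (2 * 3 ^ (A + 1)) * (m : ℝ) ^ (1 - d / 2) := by
      calc _ = C * 2 * (K : ℝ) ^ (A + 1) * (m : ℝ) ^ (1 - d) := by ring
        _ ≤ C * 2 * (3 * (m : ℝ) ^ κ) ^ (A + 1) * (m : ℝ) ^ (1 - d) := by gcongr
        _ = C * (2 * 3 ^ (A + 1)) * (m : ℝ) ^ (κ * (A + 1) + (1 - d)) := by
            rw [Real.rpow_add (by linarith), Real.rpow_mul (by linarith), mul_pow,
              ← Nat.cast_add_one, Real.rpow_natCast]
            ring
        _ ≤ _ := by
            gcongr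
            linarith
    calc _ ≤ ∑ q ∈ T, ((R27.spl a q (2 * m)).card : ℝ) := by exact_mod_cast card_biUnion_le
      _ ≤ _ := sum_le_sum h1
      _ = 2 * C * (m / Real.log m) * ∑ q ∈ T, ((q : ℝ) ^ 2)⁻¹ +
          T.card * (C * ((K : ℝ) ^ A * (2 * (m : ℝ) ^ (1 - d)))) := by
            rw [sum_add_distrib, ← mul_sum, sum_const, nsmul_eq_mul]
      _ ≤ 2 * C * (m / Real.log m) * (2 / (2 * k + 1)) +
          K * (C * ((K : ℝ) ^ A * (2 * (m : ℝ) ^ (1 - d)))) := by gcongr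
      _ ≤ 2 * β * (m / Real.log m) + β * (m / Real.log m) := by
            refine add_le_add (le_of_eq ?_) (h4.trans e3)
            rw [hβ]
            ring
      _ = _ := by ring
  have c4 : ((S.biUnion (fun r => bigK κ M r m)).card : ℝ) ≤ (good a m).card + (B₁.card +
      (T.biUnion (fun q => R27.spl a q (2 * m))).card) := by
    exact_mod_cast (card_le_card hsub).trans ((card_union_le _ _).trans
      (Nat.add_le_add_left (card_union_le _ _) _))
  linarith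

end Asm65

open Asm65 in
theorem asm_65 (hB : BigK) (hC : ChebG) (hO : R27.OrdStmt) : R27.ArtinStmt := by
  intro a ha hsq
  obtain ⟨β, hβ, h⟩ := main hB hC hO ha hsq
  obtain ⟨m₀, h⟩ := eventually_atTop.1 h
  refine ⟨β / 2, by positivity, 2 * m₀ + 6, by linarith [Nat.cast_nonneg (α := ℝ) m₀],
    fun x hx => ?_⟩
  have hm₀ := Nat.cast_nonneg (α := ℝ) m₀
  obtain ⟨m, hm⟩ : ∃ m : ℕ, m = ⌈x / 2⌉₊ := ⟨_, rfl⟩
  have h1 : x / 2 ≤ m := hm ▸ Nat.le_ceil _
  have h2 : (m : ℝ) < x / 2 + 1 := hm ▸ Nat.ceil_lt_add_one (by linarith)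
  have h3 := h m (by exact_mod_cast (by linarith : (m₀ : ℝ) ≤ m))
  have h4 : 0 < Real.log m := Real.log_pos (by linarith)
  have h5 : Real.log m ≤ Real.log x := Real.log_le_log (by linarith) (by linarith)
  have h6 : 1 ≤ Real.log x := by
    rw [Real.le_log_iff_exp_le (by linarith)]
    linarith [Real.exp_one_lt_d9]
  have h7 : β / 2 * x / Real.log x ^ 2 ≤ β * (m / Real.log m) := by
    calc _ = β * (x / 2 / Real.log x ^ 2) := by ring
      _ ≤ _ := by
        gcongr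
        nlinarith
  refine h7.trans (h3.trans ?_)
  rw [← Set.ncard_coe_finset, Nat.cast_le]
  refine Set.ncard_le_ncard (fun p hp => ?_) ((Set.finite_le_nat ⌈2 * x⌉₊).subset fun p hp => ?_)
  · simp only [good, coe_filter, mem_Ioc, Set.mem_ofPred_eq] at hp
    obtain ⟨⟨p1, p2⟩, p3, p4, p5⟩ := hp
    have g1 : (2 * m : ℝ) < p := by exact_mod_cast p1
    have g2 : (p : ℝ) ≤ 3 * m := by exact_mod_cast p2
    exact ⟨p3, by linarith, by linarith, p4, p5⟩
  · have := hp.2.2.1.le.trans (Nat.le_ceil _)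
    exact_mod_cast this

end Crest.Agent.T27
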