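import Crest.Agent.PVc.R27.Iface

/-!
# Row 27: `OrdStmt` (few primes have a small order)
-/

set_option autoImplicit false

namespace Crest.Agent.T27

open Finset

theorem card_primeFactors_le_79 {n m : ℕ} (hn : n ≤ 2 ^ m) : n.primeFactors.card ≤ m := by
  rcases Nat.eq_zero_or_pos n with rfl | h0
  · simp
  have h1 : 2 ^ n.primeFactors.card ≤ ∏ p ∈ n.primeFactors, p := by
    rw [← Finset.prod_const]
    exact Finset.prod_le_prod' fun p hp => (Nat.prime_of_mem_primeFactors hp).two_le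
  have h2 : ∏ p ∈ n.primeFactors, p ≤ n := Nat.le_of_dvd h0 (Nat.prod_primeFactors_dvd n)
  exact (Nat.pow_le_pow_iff_right (by norm_num)).1 (h1.trans (h2.trans hn))

theorem ord_79 : R27.OrdStmt := by
  intro a K S ha hS
  have h3 : 2 ≤ a.natAbs := by
    rw [← Int.natCast_natAbs] at ha
    exact_mod_cast ha
  have hsub : S ⊆ (Icc 1 K).biUnion fun k => (a ^ k - 1).natAbs.primeFactors := by
    intro p hp
    obtain ⟨hpp, k, hk1, hkK, hk⟩ := hS p hp
    refine mem_biUnion.2 ⟨k, mem_Icc.2 ⟨hk1, hkK⟩, Nat.mem_primeFactors.2 ⟨hpp, ?_, ?_⟩⟩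
    · rw [← Int.natCast_dvd, ← ZMod.intCast_zmod_eq_zero_iff_dvd]
      push_cast
      rw [hk, sub_self]
    · rw [Ne, Int.natAbs_eq_zero, sub_eq_zero]
      intro h
      have h1 : a.natAbs ^ k = 1 := by rw [← Int.natAbs_pow, h]; rfl
      have h2 : 1 < a.natAbs ^ k := Nat.one_lt_pow (by omega) (by omega)
      omega
  refine (card_le_card hsub).trans (card_biUnion_le.trans ?_)
  have h4 : ∀ k ∈ Icc 1 K, (a ^ k - 1).natAbs.primeFactors.card ≤ a.natAbs * K := by
    intro k hk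
    obtain ⟨hk1, hkK⟩ := mem_Icc.1 hk
    refine (card_primeFactors_le_79 (m := a.natAbs * k) ?_).trans (Nat.mul_le_mul_left _ hkK)
    have e1 : (a ^ k - 1).natAbs ≤ a.natAbs ^ k + 1 := by
      have := Int.natAbs_sub_le (a ^ k) 1
      rwa [Int.natAbs_pow] at this
    have e2 : a.natAbs ^ k < (2 ^ a.natAbs) ^ k :=
      Nat.pow_lt_pow_left Nat.lt_two_pow_self (by omega)
    rw [pow_mul]
    omega
  refine (sum_le_card_nsmul _ _ _ h4).trans (le_of_eq ?_)
  simp only [Nat.card_Icc, Nat.add_sub_cancel, smul_eq_mul]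
  ring

end Crest.Agent.T27
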