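import Crest.Agent.T27.Big_65
import Crest.Agent.T27.Asm_65
import Crest.Agent.T27.Ord_79
import Crest.Agent.PVc.R26.All
import Crest.Agent.PVc.S0022

/-! Row 27: `ChebG` implies the statement of `S0037`. -/

set_option autoImplicit false

namespace Crest.Agent.T27

open Finset Filter

theorem thetaAP_65 (h : R26.PsiStmt) : ThetaAP := by
  obtain ⟨δ, C, hδ, -, hC, h⟩ := R26.PrimeAP.theta_ap h
  intro M r ε hM hr hε
  have h1 : Tendsto (fun y : ℕ => C * Real.log (2 * M) * (y : ℝ) ^ (-δ)) atTop (nhds 0) := by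
    simpa using ((tendsto_rpow_neg_atTop hδ).comp tendsto_natCast_atTop_atTop).const_mul
      (C * Real.log (2 * M))
  filter_upwards [h1.eventually (eventually_le_nhds hε), eventually_ge_atTop 1] with N h2 hN
  have hN' : (0 : ℝ) < N := by exact_mod_cast hN
  have h3 := h M r N hM hr
  simp only [R26.PrimeAP.lp, ← sum_filter] at h3
  refine h3.trans ?_
  rw [sub_eq_add_neg, Real.rpow_add hN', Real.rpow_one]
  nlinarith

theorem zf_65 : R8.ZFStmt := fun _ _ χ s h₁ h₂ => Crest.Agent.S0022.result χ s h₁ h₂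

/-- the Chebotarev bound is the only input left -/
theorem artin_of_chebG_65 (hC : ChebG) : R27.ArtinStmt :=
  asm_65 (big_65 (R26.mainAPAll zf_65) (thetaAP_65 (R26.psi zf_65))) hC ord_79

end Crest.Agent.T27
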