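import Crest.Agent.T27.Kum_79
import Crest.Agent.R014.EulC_534

/-!
# Row 27, module Z: primes of degree one in `K(ζ_m)`; sign and periodicity of the norm
-/

set_option autoImplicit false
set_option linter.unusedSectionVars false

namespace Crest.Agent.T27

open NumberField Ideal
open Crest.Agent.R014.EulC_534 (rE)
open scoped Pointwise

/-- the norm from a totally complex field is non-negative -/
theorem norm_nonneg_52 {K : Type*} [Field K] [NumberField K] [IsTotallyComplex K] (x : K) :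
    0 ≤ Algebra.norm ℚ x := by
  classical
  rcases eq_or_ne x 0 with rfl | hx
  · simp
  have h1 : (algebraMap ℚ ℂ (Algebra.norm ℚ x)) = ∏ φ : K →+* ℂ, φ x := by
    rw [Algebra.norm_eq_prod_embeddings ℚ ℂ x]
    exact (Fintype.prod_equiv (RingHom.equivRatAlgHom K ℂ) (fun f => f x) (fun φ => φ x)
      fun _ => by simp [RingHom.equivRatAlgHom_apply]).symm
  have hne : ∀ φ : K →+* ℂ, (‖φ x‖ : ℂ) ≠ 0 := fun φ => by
    simpa using hx
  have h2 : ∏ φ : K →+* ℂ, φ x / (‖φ x‖ : ℂ) = 1 := by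
    refine Finset.prod_involution (fun φ _ => ComplexEmbedding.conjugate φ) (fun φ _ => ?_)
      (fun φ _ _ h => ?_) (fun φ _ => Finset.mem_univ _) fun φ _ => ?_
    · rw [ComplexEmbedding.conjugate_coe_eq, Complex.norm_conj, div_mul_div_comm, Complex.mul_conj,
        Complex.normSq_eq_norm_sq, div_eq_one_iff_eq (mul_ne_zero (hne φ) (hne φ))]
      push_cast; ring
    · exact IsTotallyComplex.complexEmbedding_not_isReal φ (ComplexEmbedding.isReal_iff.2 h)
    · exact star_star φ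
  rw [Finset.prod_div_distrib, div_eq_one_iff_eq (Finset.prod_ne_zero_iff.2 fun φ _ => hne φ),
    ← h1, ← Complex.ofReal_prod, eq_ratCast, ← Complex.ofReal_ratCast, Complex.ofReal_inj] at h2
  have h3 : (0 : ℝ) ≤ (Algebra.norm ℚ x : ℚ) := by
    rw [h2]; exact Finset.prod_nonneg fun φ _ => norm_nonneg _
  exact_mod_cast h3

theorem absNorm_span_eq_52 {K : Type*} [Field K] [NumberField K] [IsTotallyComplex K] (x : 𝓞 K) :
    (absNorm (span {x}) : ℤ) = Algebra.norm ℤ x := by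
  rw [absNorm_span_singleton, Int.natCast_natAbs, abs_of_nonneg]
  have := norm_nonneg_52 (x : K)
  rw [← Algebra.coe_norm_int] at this
  exact_mod_cast this

theorem norm_congr_52 {K : Type*} [Field K] [NumberField K] (m : ℕ) {x y : 𝓞 K}
    (h : x - y ∈ span {(m : 𝓞 K)}) :
    ((Algebra.norm ℤ x : ℤ) : ZMod m) = (Algebra.norm ℤ y : ℤ) := by
  classical
  obtain ⟨z, hz⟩ := mem_span_singleton'.1 h
  have e : x = y + m • z := by rw [nsmul_eq_mul, mul_comm, hz]; ring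
  let b := RingOfIntegers.basis K
  rw [Algebra.norm_eq_matrix_det b, Algebra.norm_eq_matrix_det b]
  have h1 := (Int.castRingHom (ZMod m)).map_det (Algebra.leftMulMatrix b x)
  have h2 := (Int.castRingHom (ZMod m)).map_det (Algebra.leftMulMatrix b y)
  simp only [eq_intCast] at h1 h2
  rw [h1, h2, e, map_add, map_nsmul, map_add, map_nsmul]
  congr 1
  ext i j
  simp

/-- the norm of a principal ideal is periodic -/
theorem absNorm_congr_52 {K : Type*} [Field K] [NumberField K] [IsTotallyComplex K] (m : ℕ)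
    {x y : 𝓞 K} (h : x - y ∈ span {(m : 𝓞 K)}) :
    absNorm (span {x}) ≡ absNorm (span {y}) [MOD m] := by
  rw [← ZMod.natCast_eq_natCast_iff]
  have := norm_congr_52 m h
  rw [← absNorm_span_eq_52, ← absNorm_span_eq_52] at this
  exact_mod_cast this

section split

variable {K F : Type*} [Field K] [NumberField K] [Field F] [NumberField F] [Algebra K F]

theorem int_mem_52 {Q : Ideal (𝓞 F)} [hQ : Q.IsPrime] {p : ℕ} (hp : p.Prime) (hpQ : (p : 𝓞 F) ∈ Q)
    {m : ℕ} (hm : ¬ p ∣ m) : (m : 𝓞 F) ∉ Q := by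
  intro h
  obtain ⟨u, v, huv⟩ := Nat.isCoprime_iff_coprime.2 ((Nat.Prime.coprime_iff_not_dvd hp).2 hm)
  apply hQ.ne_top
  rw [eq_top_iff_one]
  have : (1 : 𝓞 F) = u * p + v * m := by exact_mod_cast congrArg (Int.cast : ℤ → 𝓞 F) huv.symm
  rw [this]
  exact Q.add_mem (Q.mul_mem_left _ hpQ) (Q.mul_mem_left _ h)

theorem prime_of_norm_52 {Q : Ideal (𝓞 F)} {p : ℕ} (hp : p.Prime) (hQ : absNorm Q = p) :
    Q.IsPrime ∧ Q ≠ ⊥ ∧ (p : 𝓞 F) ∈ Q := by
  refine ⟨isPrime_of_irreducible_absNorm (by rw [hQ]; exact hp), fun h => ?_, hQ ▸ absNorm_mem Q⟩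
  rw [h, absNorm_bot] at hQ
  exact hp.ne_zero hQ.symm

/-- no ideal of norm `p` unless `p ≡ 1 (m)` -/
theorem dvd_of_norm_52 {m : ℕ} (hm0 : 0 < m) {ζ : F} (hζ : IsPrimitiveRoot ζ m) {p : ℕ}
    (hp : p.Prime) (hm : ¬ p ∣ m) {Q : Ideal (𝓞 F)} (hQ : absNorm Q = p) : m ∣ p - 1 := by
  obtain ⟨h1, h2, h3⟩ := prime_of_norm_52 hp hQ
  have := h1.isMaximal h2
  let z : 𝓞 F := ⟨ζ, hζ.isIntegral hm0⟩
  have hz : z ^ m = 1 := by
    apply RingOfIntegers.ext; push_cast; exact hζ.pow_eq_one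
  let _ := Ideal.Quotient.field Q
  have : Finite (𝓞 F ⧸ Q) := finiteQuotientOfFreeOfNeBot Q h2
  let _ := Fintype.ofFinite (𝓞 F ⧸ Q)
  have hc : Fintype.card (𝓞 F ⧸ Q) = p := by
    rw [← hQ, absNorm_apply, Submodule.cardQuot_apply, Nat.card_eq_fintype_card]
  have hz0 : Ideal.Quotient.mk Q z ≠ 0 := fun h => by
    have h4 := congrArg (Ideal.Quotient.mk Q) hz
    rw [map_pow, h, zero_pow hm0.ne', map_one] at h4
    exact zero_ne_one h4
  have h4 := FiniteField.pow_card_sub_one_eq_one _ hz0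
  rw [hc, ← map_pow, ← map_one (Ideal.Quotient.mk Q), Ideal.Quotient.eq] at h4
  have h5 : z ^ (p - 1) = 1 := root_eq_of_sub_mem_79 Q (q := m) (a := 1)
    (by rw [← pow_mul, mul_comm, pow_mul, hz, one_pow]) (one_pow _) (int_mem_52 hp h3 hm)
    ((ne_top_iff_one Q).1 h1.ne_top) h4
  have h6 := congrArg (fun w : 𝓞 F => (w : F)) h5
  push_cast at h6
  exact hζ.dvd_of_pow_eq_one _ h6

theorem stab_52 {m : ℕ} (hm0 : 0 < m) {ζ : F} (hζ : IsPrimitiveRoot ζ m)
    (hgen : Algebra.adjoin K {ζ} = ⊤) {p : ℕ} (hp : p.Prime) (hm : m ∣ p - 1)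
    {Q : Ideal (𝓞 F)} [hQ : Q.IsMaximal] (hpQ : (p : 𝓞 F) ∈ Q) :
    Nat.card (MulAction.stabilizer Gal(F/K) Q) = 1 := by
  have := Fact.mk hp
  have hp2 := hp.two_le
  have hpm : ¬ p ∣ m := fun h => by
    have := Nat.le_of_dvd (by omega) (h.trans hm)
    omega
  let z : 𝓞 F := ⟨ζ, hζ.isIntegral hm0⟩
  have hz : z ^ m = 1 := by
    apply RingOfIntegers.ext; push_cast; exact hζ.pow_eq_one
  obtain ⟨y, hy⟩ : ∃ y : ℤ, z - y ∈ Q := by
    let := Ideal.Quotient.field Q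
    have : CharP (𝓞 F ⧸ Q) p := by
      refine (CharP.charP_iff_prime_eq_zero hp).2 ?_
      rw [← map_natCast (Ideal.Quotient.mk Q), Ideal.Quotient.eq_zero_iff_mem]; exact hpQ
    obtain ⟨k, hk⟩ := hm
    have h2 : (Ideal.Quotient.mk Q z) ^ p = Ideal.Quotient.mk Q z := by
      rw [← map_pow, show p = m * k + 1 by omega, pow_succ, pow_mul, hz, one_pow, one_mul]
    obtain ⟨y, hy⟩ := (mem_bot_iff_intCast p (𝓞 F ⧸ Q)).1
      ((Subfield.mem_bot_iff_pow_eq_self _ p).2 h2)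
    refine ⟨y, Ideal.Quotient.eq.1 ?_⟩
    rw [map_intCast, hy]
  rw [Subgroup.card_eq_one, eq_bot_iff]
  intro σ hσ
  have h1 : σ • (z - y) ∈ Q := by
    have := Ideal.smul_mem_pointwise_smul σ _ _ hy
    rwa [MulAction.mem_stabilizer_iff.1 hσ] at this
  have h2 : σ • (z - y) = σ • z - y := by
    rw [smul_sub]
    congr 1
    exact map_intCast (MulSemiringAction.toRingHom _ (𝓞 F) σ) y
  have h3 : σ • z - z ∈ Q := by
    have := Q.sub_mem h1 hy
    rwa [h2, sub_sub_sub_cancel_right] at this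
  have h4 : σ • z = z := root_eq_of_sub_mem_79 Q (q := m) (a := 1)
    (by rw [← smul_pow', hz, smul_one]) hz (int_mem_52 hp hpQ hpm)
    ((ne_top_iff_one Q).1 hQ.ne_top) h3
  have h5 : σ ζ = ζ := congrArg (fun w : 𝓞 F => (w : F)) h4
  rw [Subgroup.mem_bot]
  apply AlgEquiv.coe_toAlgHom_injective
  exact AlgHom.ext_of_adjoin_eq_top hgen fun x hx => by
    rw [Set.mem_singleton_iff.1 hx]; exact h5

/-- **Splitting law**: `r_F(p) = [F : K] r_K(p)` for `p ≡ 1 (m)`. -/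
theorem rE_split_52 [IsGalois K F] {m : ℕ} (hm0 : 0 < m) {ζ : F} (hζ : IsPrimitiveRoot ζ m)
    (hgen : Algebra.adjoin K {ζ} = ⊤) {p : ℕ} (hp : p.Prime) (hm : m ∣ p - 1) :
    rE F p = Module.finrank K F * rE K p := by
  classical
  have hu : ∀ Q : {Q : Ideal (𝓞 F) // absNorm Q = p}, absNorm (Q.1.under (𝓞 K)) = p := by
    intro Q
    obtain ⟨h1, -, -⟩ := prime_of_norm_52 hp Q.2
    have h2 := absNorm_pow_inertiaDeg (Q.1.under (𝓞 K)) Q.1
    rw [Q.2] at h2
    exact (hp.pow_eq_iff.1 h2).1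
  let u : {Q : Ideal (𝓞 F) // absNorm Q = p} → {P : Ideal (𝓞 K) // absNorm P = p} :=
    fun Q => ⟨Q.1.under (𝓞 K), hu Q⟩
  have hfib : ∀ P : {P : Ideal (𝓞 K) // absNorm P = p},
      Nat.card {Q // u Q = P} = Module.finrank K F := by
    intro P
    obtain ⟨h1, h2, h3⟩ := prime_of_norm_52 hp P.2
    have hmax := h1.isMaximal h2
    have : Finite (𝓞 K ⧸ P.1) := finiteQuotientOfFreeOfNeBot P.1 h2
    have key : ∀ Q ∈ P.1.primesOver (𝓞 F), absNorm Q = p ∧
        (P.1.primesOver (𝓞 F)).ncard = Module.finrank K F := by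
      intro Q hQ
      have := hQ.1
      have := hQ.2
      have hQm : Q.IsMaximal := IsMaximal.of_liesOver_isMaximal Q P.1
      have hpQ : (p : 𝓞 F) ∈ Q := by
        have := (mem_of_liesOver Q P.1 _).1 h3
        rwa [map_natCast] at this
      have h4 := stab_52 (K := K) hm0 hζ hgen hp hm hpQ
      rw [card_stabilizer_eq_card_inertia_mul_finrank P.1 Q] at h4
      have h5 := ncard_primesOver_mul_card_inertia_mul_finrank (G := Gal(F/K)) P.1 Q
      rw [mul_assoc, h4, mul_one, IsGaloisGroup.card_eq_finrank Gal(F/K) K F] at h5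
      refine ⟨?_, h5⟩
      rw [← absNorm_pow_inertiaDeg P.1 Q, (Nat.eq_one_of_mul_eq_one_left h4), pow_one, P.2]
    obtain ⟨⟨Q₀, hQ₀⟩⟩ := (inferInstance : Nonempty (P.1.primesOver (𝓞 F)))
    rw [← (key Q₀ hQ₀).2, ← Nat.card_coe_set_eq]
    refine Nat.card_congr ⟨fun Q => ⟨Q.1.1, (prime_of_norm_52 hp Q.1.2).1,
      ⟨(congrArg Subtype.val Q.2).symm⟩⟩, fun Q => ⟨⟨Q.1, (key Q.1 Q.2).1⟩,
      Subtype.ext Q.2.2.over.symm⟩, fun Q => rfl, fun Q => rfl⟩
  have f1 : Finite {P : Ideal (𝓞 K) // absNorm P = p} := finite_setOfPred_absNorm_eq (S := 𝓞 K) p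
  have f2 : Finite {Q : Ideal (𝓞 F) // absNorm Q = p} := finite_setOfPred_absNorm_eq (S := 𝓞 F) p
  let _ := Fintype.ofFinite {P : Ideal (𝓞 K) // absNorm P = p}
  unfold rE
  rw [← Nat.card_congr (Equiv.sigmaFiberEquiv u), Nat.card_sigma]
  simp only [hfib, Finset.sum_const, Finset.card_univ, smul_eq_mul]
  rw [Nat.card_eq_fintype_card, mul_comm]

theorem rE_zero_52 {m : ℕ} (hm0 : 0 < m) {ζ : F} (hζ : IsPrimitiveRoot ζ m) {p : ℕ}
    (hp : p.Prime) (hm : ¬ p ∣ m) (h : ¬ m ∣ p - 1) : rE F p = 0 := by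
  have : IsEmpty {Q : Ideal (𝓞 F) // absNorm Q = p} :=
    ⟨fun Q => h (dvd_of_norm_52 hm0 hζ hp hm Q.2)⟩
  exact Nat.card_of_isEmpty

end split

end Crest.Agent.T27
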