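import Crest.Agent.R014.EulC_534

/-!
# Row 27, module Z: the Euler product in exponential form, with a holomorphic remainder

`∑_I c(N I) N I^{-s} = exp (∑_p c(p) r_K(p) p^{-s} + R s)`, `R` holomorphic and `O([K:ℚ])` on
`Re s > 3/4`.
-/

set_option autoImplicit false
set_option linter.unusedSectionVars false

namespace Crest.Agent.T27

open NumberField IsDedekindDomain Ideal Crest.Agent.R014 EulA_534 EulB_534
open Crest.Agent.R014.EulC_534 (rE)

variable (K : Type*) [Field K] [NumberField K]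

/-- coefficients of the prime series -/
noncomputable def pc (c : ℕ →* ℂ) (n : ℕ) : ℂ := if n.Prime then c n * rE K n else 0

variable {K}

namespace Eul52

/-- `c(n) n^{-s}` -/
noncomputable def g (c : ℕ →* ℂ) (s : ℂ) : ℕ →* ℂ where
  toFun n := c n * (n : ℂ) ^ (-s)
  map_one' := by simp
  map_mul' m n := by
    rw [map_mul, Nat.cast_mul, Complex.natCast_mul_natCast_cpow]
    ring

theorem g_apply (c : ℕ →* ℂ) (s : ℂ) (n : ℕ) : g c s n = c n * (n : ℂ) ^ (-s) := rfl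

theorem norm_g_le {c : ℕ →* ℂ} (hc : ∀ n, ‖c n‖ ≤ 1) (s : ℂ) {n : ℕ} (hn : 0 < n) :
    ‖g c s n‖ ≤ (n : ℝ) ^ (-s.re) := by
  rw [g_apply, norm_mul, Complex.norm_natCast_cpow_of_pos hn, Complex.neg_re]
  exact mul_le_of_le_one_left (by positivity) (hc n)

theorem g_zero (c : ℕ →* ℂ) {s : ℂ} (hs : 0 < s.re) : g c s 0 = 0 := by
  have : -s ≠ 0 := fun h => by
    have := congrArg Complex.re h
    simp at this
    linarith
  rw [g_apply, Nat.cast_zero, Complex.zero_cpow this, mul_zero]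

/-- the local parameter -/
noncomputable def x (c : ℕ →* ℂ) (s : ℂ) (P : HeightOneSpectrum (𝓞 K)) : ℂ :=
  g c s (absNorm P.asIdeal)

theorem mon_x (c : ℕ →* ℂ) (s : ℂ) (v : HeightOneSpectrum (𝓞 K) →₀ ℕ) :
    mon (x c s) v = g c s (absNorm (idl v)) :=
  (map_idl (E := K) ((g c s).comp (absNorm : Ideal (𝓞 K) →*₀ ℕ).toMonoidHom) v).symm

theorem norm_x_le {c : ℕ →* ℂ} (hc : ∀ n, ‖c n‖ ≤ 1) {s : ℂ} {σ : ℝ} (hσ : σ ≤ s.re)
    (P : HeightOneSpectrum (𝓞 K)) : ‖x c s P‖ ≤ (absNorm P.asIdeal : ℝ) ^ (-σ) := by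
  have h2 := two_le P
  refine (norm_g_le hc s (by omega)).trans ?_
  refine Real.rpow_le_rpow_of_exponent_le ?_ (by linarith)
  exact_mod_cast (by omega : 1 ≤ absNorm P.asIdeal)

theorem norm_x_below {c : ℕ →* ℂ} (hc : ∀ n, ‖c n‖ ≤ 1) {s : ℂ} {σ : ℝ} (h0 : 0 ≤ σ)
    (hσ : σ ≤ s.re) (P : HeightOneSpectrum (𝓞 K)) : ‖x c s P‖ ≤ (below P : ℝ) ^ (-σ) := by
  refine (norm_x_le hc hσ P).trans (EulC_534.rpow_anti ?_ ?_ h0)
  · exact_mod_cast (below_spec P).1.pos
  · exact_mod_cast (below_spec P).2.2.1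

theorem norm_x_two {c : ℕ →* ℂ} (hc : ∀ n, ‖c n‖ ≤ 1) {s : ℂ} {σ : ℝ} (h0 : 0 ≤ σ)
    (hσ : σ ≤ s.re) (P : HeightOneSpectrum (𝓞 K)) : ‖x c s P‖ ≤ (2 : ℝ) ^ (-σ) :=
  (norm_x_le hc hσ P).trans (EulC_534.rpow_anti (by norm_num) (by exact_mod_cast two_le P) h0)

theorem two_rpow_le : (2 : ℝ) ^ (-(1 / 2 : ℝ)) ≤ 3 / 4 := by
  rw [Real.rpow_neg (by norm_num), ← Real.sqrt_eq_rpow, inv_le_comm₀ (by positivity) (by norm_num)]
  exact Real.le_sqrt_of_sq_le (by norm_num)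

theorem summable_x {c : ℕ →* ℂ} (hc : ∀ n, ‖c n‖ ≤ 1) {s : ℂ} (hs : 1 < s.re) :
    Summable fun P : HeightOneSpectrum (𝓞 K) => ‖x c s P‖ :=
  (summable_of_fibre (below (E := K)) (Module.finrank ℚ K) card_below _
    (fun n : ℕ => (n : ℝ) ^ (-s.re)) (fun _ => norm_nonneg _)
    (fun P => norm_x_below hc (by linarith) le_rfl P)
    (fun n => Real.rpow_nonneg (Nat.cast_nonneg n) _)
    (Real.summable_nat_rpow.2 (by linarith))).1

theorem x_half {c : ℕ →* ℂ} (hc : ∀ n, ‖c n‖ ≤ 1) {s : ℂ} (hs : 1 < s.re)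
    (P : HeightOneSpectrum (𝓞 K)) : ‖x c s P‖ ≤ 1 / 2 := by
  refine (norm_x_two hc zero_le_one hs.le P).trans_eq ?_
  rw [Real.rpow_neg_one]; norm_num

/-- sum over the nonzero ideals -/
theorem hasSum_ne {c : ℕ →* ℂ} (hc : ∀ n, ‖c n‖ ≤ 1) {s : ℂ} (hs : 1 < s.re) :
    HasSum (fun I : {I : Ideal (𝓞 K) // I ≠ ⊥} => g c s (absNorm I.1))
      (∑' v : HeightOneSpectrum (𝓞 K) →₀ ℕ, mon (x c s) v) := by
  have h1 := (summable_norm_mon (x (K := K) c s) (x_half hc hs) (summable_x hc hs)).of_norm.hasSum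
  rw [← (idE (E := K)).hasSum_iff]
  have e : ((fun I : {I : Ideal (𝓞 K) // I ≠ ⊥} => g c s (absNorm I.1)) ∘ idE) = mon (x c s) :=
    funext fun v => (mon_x c s v).symm
  rw [e]
  exact h1

/-- sum over all ideals -/
theorem hasSum_all {c : ℕ →* ℂ} (hc : ∀ n, ‖c n‖ ≤ 1) {s : ℂ} (hs : 1 < s.re) :
    HasSum (fun I : Ideal (𝓞 K) => g c s (absNorm I))
      (∑' v : HeightOneSpectrum (𝓞 K) →₀ ℕ, mon (x c s) v) := by
  refine (Function.Injective.hasSum_iff (g := (Subtype.val : {I : Ideal (𝓞 K) // I ≠ ⊥} → _))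
    Subtype.val_injective ?_).1 (hasSum_ne hc hs)
  intro I hI
  have : I = ⊥ := by
    by_contra h
    exact hI ⟨⟨I, h⟩, rfl⟩
  rw [this, absNorm_bot, g_zero c (by linarith)]

theorem exp_log {c : ℕ →* ℂ} (hc : ∀ n, ‖c n‖ ≤ 1) {s : ℂ} (hs : 1 < s.re) :
    Summable (fun P : HeightOneSpectrum (𝓞 K) => Complex.log (1 - x c s P)) ∧
      ∑' I : Ideal (𝓞 K), g c s (absNorm I) =
        Complex.exp (-∑' P : HeightOneSpectrum (𝓞 K), Complex.log (1 - x c s P)) := by
  have hs1 := summable_x (K := K) hc hs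
  have h1 := x_half (K := K) hc hs
  have hlog : Summable fun P : HeightOneSpectrum (𝓞 K) => Complex.log (1 - x c s P) := by
    have := Complex.summable_log_one_add_of_summable (f := fun P => -x c s P) hs1.of_norm.neg
    simpa [sub_eq_add_neg] using this
  have hne : ∀ P : HeightOneSpectrum (𝓞 K), (1 : ℂ) - x c s P ≠ 0 := by
    intro P h
    have h3 : x c s P = 1 := (sub_eq_zero.1 h).symm
    have h4 := h1 P
    rw [h3, norm_one] at h4
    norm_num at h4
  have hp := (Complex.hasProd_of_hasSum_log hne hlog.hasSum).inv₀ (Complex.exp_ne_zero _)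
  refine ⟨hlog, ?_⟩
  rw [(hasSum_all hc hs).tsum_eq, Complex.exp_neg]
  exact (hp.unique (hasProd_mon _ h1 hs1)).symm

theorem card_prime {p : ℕ} (hp : p.Prime) :
    Nat.card {P : HeightOneSpectrum (𝓞 K) // absNorm P.asIdeal = p} = rE K p := by
  unfold rE
  refine Nat.card_congr ⟨fun P => ⟨P.1.asIdeal, P.2⟩, fun I => ⟨⟨I.1, ?_, ?_⟩, I.2⟩,
    fun P => rfl, fun I => rfl⟩
  · exact isPrime_of_irreducible_absNorm (by rw [I.2]; exact hp)
  · intro h
    have h2 := I.2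
    rw [h, absNorm_bot] at h2
    exact hp.ne_zero h2.symm

theorem finite_P (n : ℕ) : Finite {P : HeightOneSpectrum (𝓞 K) // absNorm P.asIdeal = n} := by
  have : Finite {I : Ideal (𝓞 K) | absNorm I = n} := Ideal.finite_setOfPred_absNorm_eq (S := 𝓞 K) n
  exact Finite.of_injective
    (fun P : {P : HeightOneSpectrum (𝓞 K) // absNorm P.asIdeal = n} =>
      (⟨P.1.asIdeal, P.2⟩ : {I : Ideal (𝓞 K) | absNorm I = n}))
    fun a b h => Subtype.ext (HeightOneSpectrum.ext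
      (congrArg (fun z : {I : Ideal (𝓞 K) | absNorm I = n} => z.1) h))

/-- the degree one part -/
noncomputable def y (c : ℕ →* ℂ) (s : ℂ) (P : HeightOneSpectrum (𝓞 K)) : ℂ :=
  if (absNorm P.asIdeal).Prime then x c s P else 0

theorem summable_y {c : ℕ →* ℂ} (hc : ∀ n, ‖c n‖ ≤ 1) {s : ℂ} (hs : 1 < s.re) :
    Summable (y (K := K) c s) := by
  refine Summable.of_norm_bounded (summable_x hc hs) fun P => ?_
  unfold y
  split_ifs
  · exact le_rfl
  · simp

theorem tsum_y {c : ℕ →* ℂ} (hc : ∀ n, ‖c n‖ ≤ 1) {s : ℂ} (hs : 1 < s.re) :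
    ∑' P, y (K := K) c s P = LSeries (pc K c) s := by
  have h1 := hasSum_fibre (fun P : HeightOneSpectrum (𝓞 K) => absNorm P.asIdeal) finite_P
    (fun n => if n.Prime then g c s n else 0) (summable_y hc hs)
  refine h1.tsum_eq.symm.trans ?_
  unfold LSeries
  refine tsum_congr fun n => ?_
  rw [LSeries.term_def₀ (by simp [pc, Nat.not_prime_zero])]
  unfold pc
  split_ifs with h
  · rw [card_prime h, g_apply]; ring
  · simp

/-- the remainder at one prime -/
noncomputable def T (c : ℕ →* ℂ) (P : HeightOneSpectrum (𝓞 K)) (s : ℂ) : ℂ :=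
  -Complex.log (1 - x c s P) - y c s P

theorem norm_T_le {c : ℕ →* ℂ} (hc : ∀ n, ‖c n‖ ≤ 1) (P : HeightOneSpectrum (𝓞 K)) {s : ℂ}
    (hs : 3 / 4 < s.re) : ‖T c P s‖ ≤ 3 * (below P : ℝ) ^ (-(3 / 2 : ℝ)) := by
  have hb : (0 : ℝ) < below P := by exact_mod_cast (below_spec P).1.pos
  have h1 : ‖x c s P‖ ≤ 3 / 4 := (norm_x_two hc (by norm_num) (by linarith) P).trans two_rpow_le
  have h2 : ‖x c s P‖ ^ 2 ≤ (below P : ℝ) ^ (-(3 / 2 : ℝ)) := by
    have := norm_x_below hc (σ := 3 / 4) (by norm_num) hs.le P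
    calc ‖x c s P‖ ^ 2 ≤ ((below P : ℝ) ^ (-(3 / 4 : ℝ))) ^ 2 := by gcongr
      _ = _ := by rw [← Real.rpow_natCast, ← Real.rpow_mul hb.le]; norm_num
  have h3 : ‖Complex.log (1 - x c s P) + x c s P‖ ≤ 2 * ‖x c s P‖ ^ 2 := by
    have h7 := Complex.norm_log_one_add_sub_self_le (z := -x c s P) (by rw [norm_neg]; linarith)
    rw [sub_neg_eq_add, ← sub_eq_add_neg, norm_neg] at h7
    refine h7.trans ?_
    have h9 : (1 - ‖x c s P‖)⁻¹ ≤ 4 := by
      rw [inv_le_comm₀ (by linarith) (by norm_num)]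
      linarith
    nlinarith [sq_nonneg ‖x c s P‖]
  have h0 : 0 ≤ (below P : ℝ) ^ (-(3 / 2 : ℝ)) := by positivity
  unfold T y
  split_ifs with h
  · rw [show -Complex.log (1 - x c s P) - x c s P = -(Complex.log (1 - x c s P) + x c s P) by ring,
      norm_neg]
    linarith
  · have h4 : ‖x c s P‖ ≤ (below P : ℝ) ^ (-(3 / 2 : ℝ)) := by
      refine (norm_x_le hc (σ := 3 / 4) hs.le P).trans ?_
      have h5 : ((below P : ℝ)) ^ 2 ≤ (absNorm P.asIdeal : ℝ) := by
        exact_mod_cast (below_spec P).2.2.2 h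
      refine (EulC_534.rpow_anti (by positivity) h5 (by norm_num)).trans_eq ?_
      rw [← Real.rpow_natCast, ← Real.rpow_mul hb.le]; norm_num
    rw [show -Complex.log (1 - x c s P) - 0 = x c s P - (Complex.log (1 - x c s P) + x c s P) by
      ring]
    refine (norm_sub_le _ _).trans ?_
    linarith

theorem diff_x (c : ℕ →* ℂ) (P : HeightOneSpectrum (𝓞 K)) :
    Differentiable ℂ fun s => x c s P := by
  have h : ((absNorm P.asIdeal : ℕ) : ℂ) ≠ 0 := by
    have := two_le P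
    exact_mod_cast (by omega : absNorm P.asIdeal ≠ 0)
  exact (differentiable_id.neg.const_cpow (Or.inl h)).const_mul _

theorem diff_T {c : ℕ →* ℂ} (hc : ∀ n, ‖c n‖ ≤ 1) (P : HeightOneSpectrum (𝓞 K)) :
    DifferentiableOn ℂ (T c P) {s | 3 / 4 < s.re} := by
  intro s hs
  have hs' : 3 / 4 < s.re := hs
  have h1 : ‖x c s P‖ ≤ 3 / 4 := (norm_x_two hc (by norm_num) (by linarith) P).trans two_rpow_le
  have h2 : 1 - x c s P ∈ Complex.slitPlane := by
    left
    have := Complex.re_le_norm (x c s P)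
    simp only [Complex.sub_re, Complex.one_re]
    linarith
  have h3 : DifferentiableAt ℂ (fun s => y c s P) s := by
    unfold y
    split_ifs
    · exact diff_x c P s
    · exact differentiableAt_const _
  exact ((((diff_x c P s).const_sub 1).clog h2).neg.sub h3).differentiableWithinAt

end Eul52

open Eul52

/-- **Euler product**, exponential form. -/
theorem euler_52 : ∃ C : ℝ, 0 < C ∧ ∀ (K : Type) [Field K] [NumberField K] (c : ℕ →* ℂ),
    (∀ n, ‖c n‖ ≤ 1) → ∃ R : ℂ → ℂ, DifferentiableOn ℂ R {s | 3 / 4 < s.re} ∧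
      (∀ s : ℂ, 3 / 4 < s.re → ‖R s‖ ≤ C * Module.finrank ℚ K) ∧
      ∀ s : ℂ, 1 < s.re → ∑' I : Ideal (𝓞 K), c (absNorm I) * ((absNorm I : ℕ) : ℂ) ^ (-s) =
        Complex.exp (LSeries (pc K c) s + R s) := by
  have hsum : Summable fun n : ℕ => 3 * (n : ℝ) ^ (-(3 / 2 : ℝ)) :=
    (Real.summable_nat_rpow.2 (by norm_num)).mul_left 3
  have h0 : ∀ n : ℕ, 0 ≤ 3 * (n : ℝ) ^ (-(3 / 2 : ℝ)) := fun n => by positivity
  refine ⟨(∑' n : ℕ, 3 * (n : ℝ) ^ (-(3 / 2 : ℝ))) + 1, 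
    add_pos_of_nonneg_of_pos (tsum_nonneg h0) one_pos,
    fun K _ _ c hc => ?_⟩
  obtain ⟨hu, hu'⟩ := summable_of_fibre (below (E := K)) (Module.finrank ℚ K) card_below
    (fun P => 3 * (below P : ℝ) ^ (-(3 / 2 : ℝ))) _ (fun P => h0 _) (fun _ => le_rfl) h0 hsum
  refine ⟨fun s => ∑' P : HeightOneSpectrum (𝓞 K), T c P s, ?_, fun s hs => ?_, fun s hs => ?_⟩
  · exact Complex.differentiableOn_tsum_of_summable_norm hu (diff_T hc)
      (isOpen_lt continuous_const Complex.continuous_re) fun P s hs => norm_T_le hc P hs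
  · refine (tsum_of_norm_bounded hu.hasSum fun P => norm_T_le hc P hs).trans (hu'.trans ?_)
    have : (0 : ℝ) ≤ Module.finrank ℚ K := Nat.cast_nonneg _
    nlinarith
  · obtain ⟨h1, h2⟩ := exp_log (K := K) hc hs
    refine h2.trans ?_
    congr 1
    rw [← tsum_y hc hs]
    simp only [T]
    rw [h1.neg.tsum_sub (summable_y hc hs), tsum_neg]
    ring

/-- the zeta function as a sum over ideals -/
theorem zeta_eq_tsum_52 (K : Type*) [Field K] [NumberField K] {s : ℂ} (hs : 1 < s.re) :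
    dedekindZeta K s = ∑' I : Ideal (𝓞 K), ((absNorm I : ℕ) : ℂ) ^ (-s) := by
  have hc : ∀ n, ‖(1 : ℕ →* ℂ) n‖ ≤ 1 := fun n => by simp
  have h1 := hasSum_fibre (fun I : {I : Ideal (𝓞 K) // I ≠ ⊥} => absNorm I.1) finite_fibre
    (g 1 s) (hasSum_ne hc hs).summable
  rw [(hasSum_ne hc hs).tsum_eq, ← (hasSum_all hc hs).tsum_eq] at h1
  simp only [g_apply, MonoidHom.one_apply, one_mul] at h1
  rw [← h1.tsum_eq]
  unfold dedekindZeta LSeries
  refine tsum_congr fun n => ?_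
  rcases eq_or_ne n 0 with rfl | hn
  · have := g_zero 1 (s := s) (by linarith)
    rw [g_apply, MonoidHom.one_apply, one_mul] at this
    rw [LSeries.term_zero, this, mul_zero]
  · rw [LSeries.term_of_ne_zero hn, EulC_534.card_fibre n hn, Complex.cpow_neg, div_eq_mul_inv]
    rfl

/-- at most `[K : ℚ]` ideals have norm `p` -/
theorem rE_le_52 (K : Type*) [Field K] [NumberField K] {p : ℕ} (hp : p.Prime) :
    rE K p ≤ Module.finrank ℚ K := by
  classical
  rw [← card_prime hp]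
  have := finite_P (K := K) p
  let _ := Fintype.ofFinite {P : HeightOneSpectrum (𝓞 K) // absNorm P.asIdeal = p}
  have h1 := card_below (Finset.univ.image
    (Subtype.val : {P : HeightOneSpectrum (𝓞 K) // absNorm P.asIdeal = p} → _)) p fun P hP => by
      obtain ⟨Q, -, rfl⟩ := Finset.mem_image.1 hP
      rw [below, Q.2, hp.minFac_eq]
  rwa [Finset.card_image_of_injective _ Subtype.val_injective, Finset.card_univ,
    ← Nat.card_eq_fintype_card] at h1

end Crest.Agent.T27
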