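import Crest.Agent.PVc.R17.Contour
import Crest.Agent.PVc.R17.LZeroAuxA

/-!
# Row 27, module Z: Borel–Carathéodory and one contour shift

If `g(s) = (s - 1) exp (∑ b(n) n^{-s})` continues to a zero-free function on `Re s > 1 - δ` with
`|g(s)| ≤ exp (E (1 + |t|))`, then `log N ∑_{N < n ≤ 2N} b(n) ≤ C (N + E N^{1 - δ/2})`.
-/

set_option autoImplicit false

noncomputable section

namespace Crest.Agent.T27

open Complex MeasureTheory Filter Topology Crest.Agent.R17 Finset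

namespace Expl52

/-- Mellin representation of a smooth sum, with summability. -/
theorem hasSum_Wc {a : ℕ → ℂ} (ha0 : a 0 = 0) {X σ : ℝ} (hX : 0 < X)
    (hs : LSeriesSummable a σ) :
    HasSum (fun n : ℕ => a n * Wc (n / X) 0) ((1 / (2 * Real.pi) : ℂ) * ∫ u : ℝ,
      Wm (σ + u * I + 0) * (X : ℂ) ^ ((σ : ℂ) + u * I) * LSeries a (σ + u * I)) := by
  have hX' : (X : ℂ) ≠ 0 := ofReal_ne_zero.2 hX.ne'
  have hW : Integrable fun u : ℝ => ‖Wm (σ + u * I + 0)‖ := by
    simpa using integrable_Wm_mul_pow σ 0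
  have hn : ∀ (n : ℕ) (u : ℝ), ‖Wm (σ + u * I + 0) * (X : ℂ) ^ ((σ : ℂ) + u * I) *
      (a n * (n : ℂ) ^ (-((σ : ℂ) + u * I)))‖ =
      X ^ σ * ‖LSeries.term a σ n‖ * ‖Wm (σ + u * I + 0)‖ := by
    intro n u
    rcases Nat.eq_zero_or_pos n with rfl | h0
    · simp [ha0]
    · rw [LSeries.term_def₀ ha0, norm_mul, norm_mul, norm_mul, norm_mul,
        norm_cpow_eq_rpow_re_of_pos hX, norm_natCast_cpow_of_pos h0, norm_natCast_cpow_of_pos h0]
      simp only [add_re, neg_re, ofReal_re, mul_re, I_re, ofReal_im, I_im, mul_zero, zero_mul,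
        sub_self, add_zero]
      ring
  have hi : ∀ n : ℕ, Integrable fun u : ℝ => Wm (σ + u * I + 0) *
      (X : ℂ) ^ ((σ : ℂ) + u * I) * (a n * (n : ℂ) ^ (-((σ : ℂ) + u * I))) := by
    intro n
    rcases Nat.eq_zero_or_pos n with rfl | h0
    · simp [ha0]
    refine (hW.const_mul _).mono' (Continuous.aestronglyMeasurable ?_)
      (Eventually.of_forall fun u => (hn n u).le)
    refine ((differentiable_Wm.continuous.comp (by fun_prop)).mul
      (Continuous.const_cpow (by fun_prop) (Or.inl hX'))).mul (continuous_const.mul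
      (Continuous.const_cpow (by fun_prop) (Or.inl ?_)))
    exact_mod_cast h0.ne'
  have h1 := (hasSum_integral_of_summable_integral_norm hi (by
    simp only [hn, integral_const_mul]
    exact (hs.norm.mul_left _).mul_right _)).mul_left (1 / (2 * Real.pi) : ℂ)
  have e1 : ∀ n : ℕ, (1 / (2 * Real.pi) : ℂ) * ∫ u : ℝ, Wm (σ + u * I + 0) *
      (X : ℂ) ^ ((σ : ℂ) + u * I) * (a n * (n : ℂ) ^ (-((σ : ℂ) + u * I))) =
      a n * Wc (n / X) 0 := by
    intro n
    rcases Nat.eq_zero_or_pos n with rfl | h0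
    · simp [ha0]
    have h0' : (0 : ℝ) < n := by exact_mod_cast h0
    rw [Wc_eq_integral (div_pos h0' hX) σ 0, mul_left_comm (a n), ← integral_const_mul (a n)]
    congr 2
    funext u
    rw [ofReal_div, div_cpow_ofReal_nonneg h0'.le hX.le, cpow_neg (X : ℂ), div_inv_eq_mul,
      ofReal_natCast]
    ring
  simp only [e1] at h1
  have e2 : ∀ u : ℝ, ∑' n : ℕ, Wm (σ + u * I + 0) * (X : ℂ) ^ ((σ : ℂ) + u * I) *
      (a n * (n : ℂ) ^ (-((σ : ℂ) + u * I))) =
      Wm (σ + u * I + 0) * (X : ℂ) ^ ((σ : ℂ) + u * I) * LSeries a (σ + u * I) := fun u => by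
    rw [tsum_mul_left]
    unfold LSeries
    simp only [LSeries.term_def₀ ha0]
  simp only [e2] at h1
  exact h1

theorem norm_log_le (t : ℝ) : ‖log ((2 : ℂ) + t * I - 1)‖ ≤ |t| + 4 := by
  set z : ℂ := (2 : ℂ) + t * I - 1 with hz
  have h1 : z.re = 1 := by simp [hz]; norm_num
  have h2 : z.im = t := by simp [hz]
  have h3 : 1 ≤ ‖z‖ := by
    have := re_le_norm z
    linarith
  have h4 : ‖z‖ ≤ 1 + |t| := by
    have := norm_le_abs_re_add_abs_im z
    rw [h1, h2, abs_one] at this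
    exact this
  have h5 := norm_le_abs_re_add_abs_im (log z)
  rw [log_re, log_im, abs_of_nonneg (Real.log_nonneg h3)] at h5
  have h6 := Real.log_le_sub_one_of_pos (show 0 < ‖z‖ by linarith)
  have h7 := abs_arg_le_pi z
  linarith [Real.pi_lt_four]

theorem norm_LSeries_two {f : ℕ → ℂ} {E : ℝ} (hE : 0 ≤ E) (hf : ∀ n, ‖f n‖ ≤ E) {s : ℂ}
    (hs : s.re = 2) : ‖LSeries f s‖ ≤ 2 * E := by
  have h1 : HasSum (fun n : ℕ => E * (1 / (n : ℝ) ^ 2)) (E * (Real.pi ^ 2 / 6)) :=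
    hasSum_zeta_two.mul_left E
  refine (tsum_of_norm_bounded h1 fun n => ?_).trans ?_
  · rw [LSeries.norm_term_eq, hs]
    split_ifs
    · positivity
    · rw [Real.rpow_two, mul_one_div]
      gcongr
      exact hf n
  · have : Real.pi ^ 2 / 6 ≤ 2 := by nlinarith [Real.pi_lt_d2, Real.pi_pos]
    nlinarith

/-- the logarithmic derivative -/
theorem deriv_bound {δ E : ℝ} (hδ : 0 < δ) (hδ1 : δ ≤ 1 / 4) (hE : 1 ≤ E) {l : ℂ → ℂ}
    (hl : DifferentiableOn ℂ l {s | 1 - δ < s.re})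
    (hre : ∀ s : ℂ, 1 - δ < s.re → s.re ≤ 4 → (l s).re ≤ E * (1 + |s.im|))
    (h2 : ∀ t : ℝ, ‖l (2 + t * I)‖ ≤ 6 * (E * (1 + |t|))) {s : ℂ} (hs : 1 - δ / 2 ≤ s.re)
    (hs2 : s.re ≤ 2) : ‖deriv l s‖ ≤ 576 / δ ^ 2 * (E * (1 + |s.im|)) := by
  set t := s.im with ht
  set A := E * (1 + |t|) with hA
  have hA0 : 0 < A := by positivity
  set s₀ : ℂ := 2 + t * I with hs₀
  have hball : ∀ z ∈ Metric.ball (0 : ℂ) (1 + δ), |z.re| < 1 + δ ∧ |z.im| < 1 + δ := fun z hz =>
    ⟨(abs_re_le_norm z).trans_lt (mem_ball_zero_iff.1 hz),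
      (abs_im_le_norm z).trans_lt (mem_ball_zero_iff.1 hz)⟩
  have hre0 : ∀ z : ℂ, (s₀ + z).re = 2 + z.re := fun z => by simp [hs₀]
  have him0 : ∀ z : ℂ, (s₀ + z).im = t + z.im := fun z => by simp [hs₀]
  have hf : DifferentiableOn ℂ (fun z => l (s₀ + z)) (Metric.ball 0 (1 + δ)) := by
    refine hl.comp (differentiableOn_id.const_add _) fun z hz => ?_
    have := abs_lt.1 (hball z hz).1
    show 1 - δ < (s₀ + z).re
    rw [hre0]; linarith
  have hM : Set.MapsTo (fun z => l (s₀ + z)) (Metric.ball 0 (1 + δ)) {z | z.re ≤ 3 * A} := by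
    intro z hz
    have h1 := abs_lt.1 (hball z hz).1
    have h3 := (hball z hz).2
    refine (hre _ (by rw [hre0]; linarith) (by rw [hre0]; linarith)).trans ?_
    rw [him0, hA]
    have h4 : |t + z.im| ≤ |t| + 2 := (abs_add_le _ _).trans (by linarith)
    nlinarith [abs_nonneg t]
  have hbc : ∀ z : ℂ, ‖z‖ ≤ 1 + 3 * δ / 4 → ‖l (s₀ + z)‖ ≤ 144 / δ * A := by
    intro z hz
    have h1 := borelCaratheodory (M := 3 * A) (by positivity) hf hM (by positivity)
      (z := z) (mem_ball_zero_iff.2 (by linarith))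
    simp only [add_zero] at h1
    refine h1.trans ?_
    have h3 : δ / 4 ≤ 1 + δ - ‖z‖ := by linarith
    have h4 : 0 < δ / 4 := by positivity
    have h5 := h2 t
    rw [← add_div]
    calc (2 * (3 * A) * ‖z‖ + ‖l s₀‖ * (1 + δ + ‖z‖)) / (1 + δ - ‖z‖)
        ≤ (2 * (3 * A) * 2 + 6 * A * 4) / (δ / 4) := by
          gcongr
          · linarith
          · linarith
      _ = _ := by field_simp; ring
  have hd : DiffContOnCl ℂ l (Metric.ball s (δ / 4)) := by
    refine DifferentiableOn.diffContOnCl (hl.mono fun w hw => ?_)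
    rw [closure_ball _ (by positivity), mem_closedBall_iff_norm] at hw
    have := abs_le.1 ((abs_re_le_norm (w - s)).trans hw)
    rw [sub_re] at this
    show 1 - δ < w.re
    linarith
  refine (norm_deriv_le_of_forall_mem_sphere_norm_le (C := 144 / δ * A) (by positivity) hd
    fun w hw => ?_).trans_eq (by field_simp; ring)
  rw [mem_sphere_iff_norm] at hw
  have h1 : ‖s - s₀‖ ≤ 1 + δ / 2 := by
    have e : s - s₀ = ((s.re - 2 : ℝ) : ℂ) := by
      apply Complex.ext <;> simp [hs₀, ht]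
    rw [e, norm_real, Real.norm_eq_abs, abs_le]
    constructor <;> linarith
  have h3 := hbc (w - s₀) (by
    calc ‖w - s₀‖ = ‖(w - s) + (s - s₀)‖ := by ring_nf
      _ ≤ ‖w - s‖ + ‖s - s₀‖ := norm_add_le _ _
      _ ≤ _ := by linarith)
  rwa [add_sub_cancel] at h3

theorem Wc_zero (y : ℝ) : Wc y 0 = (Real.exp (-(Real.log y) ^ 2) : ℝ) := by
  simp [Wc]

theorem Wc_ge {N n : ℕ} (hN : 2 ≤ N) (hn : n ∈ Ioc N (2 * N)) :
    1 / 2 ≤ Real.exp (-(Real.log (n / N : ℝ)) ^ 2) := by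
  obtain ⟨h1, h2⟩ := mem_Ioc.1 hn
  have hN0 : (0 : ℝ) < N := by exact_mod_cast (by omega : 0 < N)
  have h3 : (1 : ℝ) ≤ n / N := by
    rw [one_le_div hN0]; exact_mod_cast h1.le
  have h4 : (n : ℝ) / N ≤ 2 := by
    rw [div_le_iff₀ hN0]; exact_mod_cast h2
  have h5 := Real.log_nonneg h3
  have h6 : Real.log (n / N : ℝ) ≤ Real.log 2 := Real.log_le_log (by linarith) h4
  have h7 := Real.log_two_lt_d9
  have h8 := Real.add_one_le_exp (-(Real.log (n / N : ℝ)) ^ 2)
  nlinarith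

end Expl52

open Expl52

/-- **Explicit bound.** -/
theorem explicit_52 {δ : ℝ} (hδ : 0 < δ) (hδ1 : δ ≤ 1 / 4) : ∃ C : ℝ, 0 < C ∧
    ∀ (b : ℕ → ℝ) (E : ℝ) (g : ℂ → ℂ), 1 ≤ E → (∀ n, 0 ≤ b n) → (∀ n, b n ≤ E) →
      DifferentiableOn ℂ g {s | 1 - δ < s.re} → (∀ s : ℂ, 1 - δ < s.re → g s ≠ 0) →
      (∀ s : ℂ, 1 < s.re → g s = (s - 1) * exp (LSeries (fun n => (b n : ℂ)) s)) →
      (∀ s : ℂ, 1 - δ < s.re → s.re ≤ 4 → ‖g s‖ ≤ Real.exp (E * (1 + |s.im|))) →
      ∀ N : ℕ, 2 ≤ N →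
        (∑ n ∈ Ioc N (2 * N), b n) * Real.log N ≤ C * (N + E * (N : ℝ) ^ (1 - δ / 2)) := by
  obtain ⟨A, hA, hAb⟩ := norm_integral_Wm_le 2 2
  set K : ℝ := 1 + 576 / δ ^ 2 with hK
  have hK0 : 0 < K := by positivity
  refine ⟨2 * (A * (2 / δ * K) + ‖Wm (1 + 0)‖), by positivity,
    fun b E g hE hb0 hbE hg hg0 hgL hgb N hN => ?_⟩
  set f : ℕ → ℂ := fun n => (b n : ℂ) with hf
  have hfn : ∀ n, ‖f n‖ ≤ E := fun n => by
    rw [hf, norm_real, Real.norm_of_nonneg (hb0 n)]; exact hbE n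
  have habs : ∀ s : ℂ, 1 < s.re → LSeries.abscissaOfAbsConv f < s.re := fun s hs =>
    (LSeries.abscissaOfAbsConv_le_of_le_const ⟨E, fun n _ => hfn n⟩).trans_lt (by exact_mod_cast hs)
  have hU : IsOpen {s : ℂ | 1 - δ < s.re} := isOpen_lt continuous_const continuous_re
  have hV : IsOpen {s : ℂ | 1 < s.re} := isOpen_lt continuous_const continuous_re
  have hslit : ∀ s : ℂ, 1 < s.re → s - 1 ∈ slitPlane := fun s hs => by
    left; simp only [sub_re, one_re]; linarith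
  have hE0 : ∀ s : ℂ, 1 < s.re → HasDerivAt (fun s => log (s - 1) + LSeries f s)
      (1 / (s - 1) + -LSeries (LSeries.logMul f) s) s := fun s hs =>
    (((hasDerivAt_id s).sub_const 1).clog (hslit s hs)).add (LSeries_hasDerivAt (habs s hs))
  obtain ⟨l, hl, hle, hlE⟩ := LZA.exists_log (U := {s | 1 - δ < s.re}) (V := {s | 1 < s.re})
    (E := fun s => log (s - 1) + LSeries f s) hU (convex_halfSpace_re_gt _)
    (fun s (hs : 1 < s.re) => show 1 - δ < s.re by linarith)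
    (convex_halfSpace_re_gt _).isPreconnected hg hg0
    (fun s hs => (hE0 s hs).continuousAt.continuousWithinAt)
    (fun s hs => by rw [exp_add, exp_log (slitPlane_ne_zero (hslit s hs)), hgL s hs])
  have hder : ∀ s : ℂ, 1 - δ / 2 ≤ s.re → s.re ≤ 2 →
      ‖deriv l s‖ ≤ 576 / δ ^ 2 * (E * (1 + |s.im|)) := fun s h1 h2 => by
    refine deriv_bound hδ hδ1 hE hl (fun s h1 h2 => ?_) (fun t => ?_) h1 h2
    · have := hgb s h1 h2
      rwa [← hle s h1, norm_exp, Real.exp_le_exp] at this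
    · rw [hlE _ (show 1 < ((2 : ℂ) + t * I).re by simp)]
      refine (norm_add_le _ _).trans ?_
      have h3 := norm_log_le t
      have h4 := norm_LSeries_two (by linarith) hfn (s := 2 + t * I) (by simp)
      nlinarith [abs_nonneg t]
  set G : ℂ → ℂ := fun s => 1 - (s - 1) * deriv l s with hG
  have hGd : DifferentiableOn ℂ G (strip (1 - δ / 2) 2) := by
    refine (((differentiableOn_id.sub_const 1).mul (hl.deriv hU)).const_sub 1).mono fun s hs => ?_
    have := hs.1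
    show 1 - δ < s.re
    linarith
  have hGb : ∀ s ∈ strip (1 - δ / 2) 2, ‖G s‖ ≤ K * E * (1 + |s.im|) ^ 2 := fun s hs => by
    have h1 := hder s hs.1 hs.2
    have h2 : ‖s - 1‖ ≤ 1 + |s.im| := by
      refine (norm_le_abs_re_add_abs_im _).trans ?_
      have h3 : |(s - 1).re| ≤ 1 := by
        rw [sub_re, one_re, abs_le]
        constructor <;> linarith [hs.1, hs.2]
      rw [sub_im, one_im, sub_zero]
      linarith
    have h3 : 1 ≤ E * (1 + |s.im|) ^ 2 := by nlinarith [abs_nonneg s.im, sq_nonneg |s.im|]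
    calc ‖G s‖ ≤ ‖(1 : ℂ)‖ + ‖(s - 1) * deriv l s‖ := norm_sub_le _ _
      _ ≤ E * (1 + |s.im|) ^ 2 + (1 + |s.im|) * (576 / δ ^ 2 * (E * (1 + |s.im|))) := by
          rw [norm_one, norm_mul]
          gcongr
      _ = _ := by rw [hK]; ring
  have hN0 : (0 : ℝ) < N := by exact_mod_cast (by omega : 0 < N)
  have hshift := Wm_shift_pole (G := G) (σ₀ := 1 - δ / 2) (σ₁ := 2) (C := K * E) (T := 0) (J := 2)
    (ρ := 1) (by simp; linarith) (by simp) hN0 0 hGd fun w hw _ => hGb w hw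
  have hsum := hasSum_Wc (a := LSeries.logMul f) (by simp) (σ := 2) hN0
    (LSeriesSummable_logMul_of_lt_re (habs _ (by simp)))
  have e1 : ∀ u : ℝ, Wm ((2 : ℝ) + u * I + 0) * ((N : ℝ) : ℂ) ^ (((2 : ℝ) : ℂ) + u * I) *
      LSeries (LSeries.logMul f) ((2 : ℝ) + u * I) =
      Wm ((2 : ℝ) + u * I + 0) * ((N : ℝ) : ℂ) ^ (((2 : ℝ) : ℂ) + u * I) * G ((2 : ℝ) + u * I) /
        ((2 : ℝ) + u * I - 1) := fun u => by
    have h1 : 1 < (((2 : ℝ) : ℂ) + u * I).re := by simp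
    have h2 : deriv l ((2 : ℝ) + u * I) = _ :=
      ((hE0 _ h1).congr_of_eventuallyEq (by
        filter_upwards [hV.mem_nhds h1] with w hw using hlE w hw)).deriv
    have h3 := slitPlane_ne_zero (hslit _ h1)
    simp only [hG, h2]
    field_simp
    ring
  simp only [e1] at hsum
  rw [hshift] at hsum
  have hint := hAb (fun u => G ((1 - δ / 2 : ℝ) + u * I) / ((1 - δ / 2 : ℝ) + u * I - 1))
    (1 - δ / 2) (2 / δ * K * E) N 0 hN0 (by
      rw [zero_re, add_zero, abs_le]; constructor <;> linarith) fun u => by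
      have h1 := hGb ((1 - δ / 2 : ℝ) + u * I) (Contour.line_mem le_rfl (by linarith) u)
      have h2 : δ / 2 ≤ ‖((1 - δ / 2 : ℝ) : ℂ) + u * I - 1‖ := by
        refine le_trans ?_ (abs_re_le_norm _)
        have : (((1 - δ / 2 : ℝ) : ℂ) + u * I - 1).re = -(δ / 2) := by simp
        rw [this, abs_neg, abs_of_pos (by positivity)]
      have h3 : (((1 - δ / 2 : ℝ) : ℂ) + u * I).im = u := by simp
      rw [h3] at h1
      rw [norm_div]
      calc _ ≤ K * E * (1 + |u|) ^ 2 / (δ / 2) := by gcongr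
        _ = _ := by field_simp
  simp only [← mul_div_assoc] at hint
  have hG1 : G 1 = 1 := by simp [hG]
  rw [hG1, cpow_one, mul_one] at hsum
  -- the real form
  set r : ℕ → ℝ := fun n => Real.log n * b n * Real.exp (-(Real.log (n / N : ℝ)) ^ 2) with hr
  have e2 : ∀ n : ℕ, LSeries.logMul f n * Wc (n / N) 0 = (r n : ℂ) := fun n => by
    rw [Wc_zero, hr, LSeries.logMul, ← natCast_log]
    simp only [hf, ofReal_mul]
  simp only [e2] at hsum
  have hr0 : ∀ n, 0 ≤ r n := fun n =>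
    mul_nonneg (mul_nonneg (Real.log_natCast_nonneg n) (hb0 n)) (Real.exp_pos _).le
  have h1 := sum_le_hasSum (Ioc N (2 * N)) (fun n _ => hr0 n) (hasSum_re hsum)
  have h2 : (∑ n ∈ Ioc N (2 * N), b n) * Real.log N ≤ 2 * ∑ n ∈ Ioc N (2 * N), r n := by
    rw [sum_mul, mul_sum]
    refine sum_le_sum fun n hn => ?_
    have h3 := Wc_ge hN hn
    have h4 : Real.log N ≤ Real.log n :=
      Real.log_le_log hN0 (by exact_mod_cast (mem_Ioc.1 hn).1.le)
    have h5 := hb0 n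
    have h6 := Real.log_natCast_nonneg N
    calc b n * Real.log N ≤ 2 * (Real.log n * b n * (1 / 2)) := by nlinarith
      _ ≤ 2 * r n := mul_le_mul_of_nonneg_left (mul_le_mul_of_nonneg_left h3
          (mul_nonneg (Real.log_natCast_nonneg n) h5)) (by norm_num)
  refine h2.trans ?_
  rw [mul_assoc]
  refine mul_le_mul_of_nonneg_left (h1.trans ((re_le_norm _).trans ?_)) (by norm_num)
  have hpi : (0 : ℝ) < Real.pi := Real.pi_pos
  have e3 : ‖(1 / (2 * Real.pi) : ℂ)‖ = 1 / (2 * Real.pi) := by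
    rw [norm_div, norm_one, norm_mul, norm_real, Real.norm_of_nonneg hpi.le]
    simp
  have e4 : ‖2 * (Real.pi : ℂ) * (Wm (1 + 0) * ((N : ℝ) : ℂ))‖ = 2 * Real.pi * (‖Wm (1 + 0)‖ * N) := by
    rw [norm_mul, norm_mul, norm_mul, norm_real, norm_real, Real.norm_of_nonneg hpi.le,
      Real.norm_of_nonneg hN0.le]
    simp
  rw [norm_mul, e3]
  have h7 := (norm_add_le _ _).trans (add_le_add hint e4.le)
  refine (mul_le_mul_of_nonneg_left h7 (by positivity)).trans ?_
  simp only [zero_im, abs_zero, add_zero, one_pow, mul_one]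
  have h8 : 1 / (2 * Real.pi) ≤ 1 := by
    rw [div_le_one (by positivity)]; linarith [Real.pi_gt_three]
  set Y := E * (N : ℝ) ^ (1 - δ / 2) with hY
  have hY0 : 0 ≤ Y := by positivity
  set B := A * (2 / δ * K) with hB
  have hB0 : 0 ≤ B := by positivity
  have e5 : 1 / (2 * Real.pi) * (A * (2 / δ * K * E) * (N : ℝ) ^ (1 - δ / 2) +
      2 * Real.pi * (‖Wm 1‖ * N)) = 1 / (2 * Real.pi) * (B * Y) + ‖Wm 1‖ * N := by
    rw [hB, hY]; field_simp
  rw [e5]
  have h9 : 1 / (2 * Real.pi) * (B * Y) ≤ B * Y := mul_le_of_le_one_left (by positivity) h8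
  nlinarith [norm_nonneg (Wm 1), mul_nonneg hB0 hN0.le, mul_nonneg (norm_nonneg (Wm 1)) hY0]

end Crest.Agent.T27
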