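import Crest.Agent.T27.IfaceZ_52
import Crest.Agent.T27.EulZ_52
import Crest.Agent.T27.Expl_52
import Crest.Agent.T27.Split_52

/-!
# Row 27, module Z: descent from `K(ω)` to `K` and the Chebotarev bound

`chebG_52 : 0 < d → InvZeta d → ZetaCont → LCont → ChebG`.
-/

set_option autoImplicit false

noncomputable section

namespace Crest.Agent.T27

open NumberField Ideal Complex Filter Topology
open Crest.Agent.R014.EulC_534 (rE)

namespace Desc52

/-- the character modulo `3` -/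
def c3 : ℕ →* ℂ where
  toFun n := (jacobiSym n 3 : ℤ)
  map_one' := by simp
  map_mul' m n := by rw [Nat.cast_mul, jacobiSym.mul_left]; push_cast; rfl

theorem c3_apply (n : ℕ) : c3 n = (jacobiSym n 3 : ℤ) := rfl

theorem c3_congr {m n : ℕ} (h : m ≡ n [MOD 3]) : c3 m = c3 n := by
  rw [c3_apply, c3_apply, jacobiSym.mod_left' (a₂ := n)]
  exact_mod_cast h

theorem norm_c3 (n : ℕ) : ‖c3 n‖ ≤ 1 := by
  rw [c3_apply]
  rcases jacobiSym.trichotomy n 3 with h | h | h <;> simp [h]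

theorem c3_one {n : ℕ} (h : n % 3 = 1) : c3 n = 1 := by
  rw [c3_congr (n := 1) h, map_one]

theorem c3_two {n : ℕ} (h : n % 3 = 2) : c3 n = -1 := by
  rw [c3_congr (n := 2) h, c3_apply]
  have : jacobiSym ((2 : ℕ) : ℤ) 3 = -1 := by norm_num
  rw [this]; simp

theorem norm_pc_le (K : Type*) [Field K] [NumberField K] {c : ℕ →* ℂ} (hc : ∀ n, ‖c n‖ ≤ 1)
    (n : ℕ) : ‖pc K c n‖ ≤ Module.finrank ℚ K := by
  unfold pc
  split_ifs with h
  · rw [norm_mul, norm_natCast]
    refine (mul_le_of_le_one_left (Nat.cast_nonneg _) (hc n)).trans ?_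
    exact_mod_cast rE_le_52 K h
  · simp

theorem summable_pc (K : Type*) [Field K] [NumberField K] {c : ℕ →* ℂ} (hc : ∀ n, ‖c n‖ ≤ 1)
    {s : ℂ} (hs : 1 < s.re) : LSeriesSummable (pc K c) s :=
  LSeriesSummable_of_bounded_of_one_lt_re (fun n _ => norm_pc_le K hc n) hs

theorem norm_one_le (n : ℕ) : ‖(1 : ℕ →* ℂ) n‖ ≤ 1 := by simp

/-- the prime series of `K(ω)` -/
theorem prime_series {K F : Type*} [Field K] [NumberField K] [Field F] [NumberField F]
    [Algebra K F] [IsGalois K F] {ζ : F} (hζ : IsPrimitiveRoot ζ 3)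
    (hgen : Algebra.adjoin K {ζ} = ⊤) : ∃ κ : ℂ, ∀ s : ℂ, 1 < s.re →
      2 * LSeries (pc F 1) s = Module.finrank K F * (LSeries (pc K 1) s + LSeries (pc K c3) s) +
        κ * (3 : ℂ) ^ (-s) := by
  set D : ℕ := Module.finrank K F
  refine ⟨2 * rE F 3 - D * rE K 3, fun s hs => ?_⟩
  have h1 := (summable_pc F norm_one_le hs).hasSum.mul_left 2
  have h2 := (((summable_pc K norm_one_le hs).hasSum.add
    (summable_pc K norm_c3 hs).hasSum).mul_left (D : ℂ)).add
    (hasSum_ite_eq 3 ((2 * rE F 3 - D * rE K 3 : ℂ) * (3 : ℂ) ^ (-s)))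
  refine h1.unique (h2.congr_fun fun n => ?_)
  have h0 : ∀ (L : Type _) [Field L] [NumberField L] (c : ℕ →* ℂ), pc L c 0 = 0 := fun L _ _ c => by
    simp [pc, Nat.not_prime_zero]
  have h0' : ∀ c : ℕ →* ℂ, pc K c 0 = 0 := fun c => by simp [pc, Nat.not_prime_zero]
  rw [LSeries.term_def₀ (h0 F 1), LSeries.term_def₀ (h0' 1), LSeries.term_def₀ (h0' c3)]
  unfold pc
  by_cases hn : n.Prime
  · simp only [if_pos hn, MonoidHom.one_apply, one_mul]
    have h2 := hn.two_le
    by_cases h3 : n = 3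
    · subst h3
      have : c3 3 = 0 := by
        rw [c3_congr (m := 3) (n := 0) rfl, c3_apply]; norm_num
      rw [this, if_pos rfl]
      push_cast
      ring
    · rw [if_neg h3]
      have h4 : ¬ 3 ∣ n := fun h => h3 ((Nat.prime_dvd_prime_iff_eq Nat.prime_three hn).1 h).symm
      have h5 : ¬ n ∣ 3 := fun h => h3 ((Nat.prime_dvd_prime_iff_eq hn Nat.prime_three).1 h)
      rcases (by omega : n % 3 = 1 ∨ n % 3 = 2) with h | h
      · rw [rE_split_52 (K := K) (by norm_num) hζ hgen hn (by omega), c3_one h]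
        push_cast
        ring
      · rw [rE_zero_52 (by norm_num) hζ hn h5 (by omega), c3_two h]
        push_cast
        ring
  · have h3 : n ≠ 3 := fun h => hn (h ▸ Nat.prime_three)
    simp [hn, h3]

theorem at_one {K : Type*} [Field K] [NumberField K] {f : ℂ → ℂ}
    (hf : DifferentiableOn ℂ f {s | 0 < s.re})
    (hfz : ∀ s : ℂ, 1 < s.re → f s = (s - 1) * dedekindZeta K s) : f 1 ≠ 0 := by
  have h1 : ContinuousAt f 1 := hf.continuousOn.continuousAt
    ((isOpen_lt continuous_const continuous_re).mem_nhds (by simp))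
  have h2 : Tendsto (fun s : ℝ => f s) (𝓝[>] 1) (𝓝 (f 1)) :=
    (h1.tendsto.comp (continuous_ofReal.tendsto' 1 1 ofReal_one)).mono_left nhdsWithin_le_nhds
  have h3 := tendsto_sub_one_mul_dedekindZeta_nhdsGT K
  have h4 : Tendsto (fun s : ℝ => f s) (𝓝[>] 1) (𝓝 (dedekindZeta_residue K)) := by
    refine h3.congr' ?_
    filter_upwards [self_mem_nhdsWithin] with s hs
    exact (hfz s (by simpa using hs)).symm
  rw [tendsto_nhds_unique h2 h4]
  exact_mod_cast dedekindZeta_residue_ne_zero K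

end Desc52

open Desc52

theorem InvZeta.mono {d d' : ℝ} (h : InvZeta d) (hd : d' ≤ d) : InvZeta d' := by
  intro F _ _ hw
  obtain ⟨G, h1, h2⟩ := h F hw
  exact ⟨G, h1.mono fun s (hs : 1 - d' < s.re) => show 1 - d < s.re by linarith, h2⟩

/-- **Descent**: `ζ_K` has no zero in the half plane. -/
theorem descent_52 {d : ℝ} (hd : 0 < d) (hd1 : d ≤ 1 / 4) (hI : InvZeta d) (hL : LCont)
    (K : Type) [Field K] [NumberField K] (hK : IsTotallyComplex K) {f : ℂ → ℂ}
    (hf : DifferentiableOn ℂ f {s | 0 < s.re})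
    (hfz : ∀ s : ℂ, 1 < s.re → f s = (s - 1) * dedekindZeta K s) {s : ℂ} (hs : 1 - d < s.re) :
    f s ≠ 0 := by
  rcases eq_or_ne s 1 with rfl | hs1
  · exact at_one hf hfz
  let F := CyclotomicField 3 K
  have hG : IsGalois K F := IsCyclotomicExtension.isGalois {3} K F
  have hζ := IsCyclotomicExtension.zeta_spec 3 K F
  have hgen := IsCyclotomicExtension.adjoin_primitive_root_eq_top (A := K) hζ
  obtain ⟨κ, hκ⟩ := prime_series hζ hgen
  set D : ℕ := Module.finrank K F with hD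
  have hD0 : D ≠ 0 := Module.finrank_pos.ne'
  obtain ⟨G, hG1, hG2⟩ := hI F ⟨_, by
    have := hζ.geom_sum_eq_zero (by norm_num)
    simp only [Finset.sum_range_succ, Finset.sum_range_zero] at this
    linear_combination this⟩
  obtain ⟨g, hg1, hg2⟩ := hL K hK (span {((3 : ℕ) : 𝓞 K)}) (by simp) (fun I => c3 (absNorm I))
    (fun I J => by rw [map_mul, map_mul]) (fun I => norm_c3 _)
    (fun x y h => c3_congr (absNorm_congr_52 3 h))
  obtain ⟨C, -, hC⟩ := euler_52
  obtain ⟨R₁, h11, -, h12⟩ := hC F 1 norm_one_le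
  obtain ⟨R₂, h21, -, h22⟩ := hC K 1 norm_one_le
  obtain ⟨R₃, h31, -, h32⟩ := hC K c3 norm_c3
  simp only [MonoidHom.one_apply, one_mul] at h12 h22
  have hU : IsOpen {s : ℂ | 1 - d < s.re} := isOpen_lt continuous_const continuous_re
  have m0 : {s : ℂ | 1 - d < s.re} ⊆ {s | 0 < s.re} := fun s (hs : 1 - d < s.re) =>
    show 0 < s.re by linarith
  have m1 : {s : ℂ | 1 - d < s.re} ⊆ {s | 3 / 4 < s.re} := fun s (hs : 1 - d < s.re) =>
    show 3 / 4 < s.re by linarith
  have h3 : Differentiable ℂ fun s : ℂ => κ * (3 : ℂ) ^ (-s) :=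
    (differentiable_id.neg.const_cpow (Or.inl (by norm_num))).const_mul κ
  have hΦ : DifferentiableOn ℂ (fun s => G s ^ 2 * (f s * g s) ^ D *
      exp (κ * (3 : ℂ) ^ (-s) + 2 * R₁ s - D * (R₂ s + R₃ s))) {s | 1 - d < s.re} :=
    ((hG1.pow 2).mul (((hf.mono m0).mul (hg1.mono m0)).pow D)).mul
      (((h3.differentiableOn.add ((h11.mono m1).const_mul 2)).sub
        (((h21.mono m1).add (h31.mono m1)).const_mul _)).cexp)
  have hΨ : DifferentiableOn ℂ (fun s : ℂ => ((s - 1) * (s - 1)) ^ D) {s | 1 - d < s.re} := by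
    fun_prop
  have heq := (hΦ.analyticOnNhd hU).eqOn_of_preconnected_of_eventuallyEq (hΨ.analyticOnNhd hU)
    (convex_halfSpace_re_gt _).isPreconnected (z₀ := 2) (show 1 - d < (2 : ℂ).re by simp; linarith)
    (by
      filter_upwards [(isOpen_lt continuous_const continuous_re).mem_nhds
        (show (2 : ℂ) ∈ {s : ℂ | 1 < s.re} by simp)] with s hs
      have e1 := hG2 s hs
      rw [zeta_eq_tsum_52 F hs, h12 s hs] at e1
      rw [hfz s hs, hg2 s hs, zeta_eq_tsum_52 K hs, h22 s hs, h32 s hs]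
      have e2 : exp (LSeries (pc F 1) s + R₁ s) ^ 2 =
          (exp (LSeries (pc K 1) s + R₂ s) * exp (LSeries (pc K c3) s + R₃ s)) ^ D *
            exp (κ * (3 : ℂ) ^ (-s) + 2 * R₁ s - D * (R₂ s + R₃ s)) := by
        rw [← exp_add, ← exp_nat_mul, ← exp_nat_mul, ← exp_add]
        congr 1
        push_cast
        linear_combination hκ s hs
      calc _ = ((s - 1) * (s - 1)) ^ D * (G s ^ 2 *
            ((exp (LSeries (pc K 1) s + R₂ s) * exp (LSeries (pc K c3) s + R₃ s)) ^ D *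
            exp (κ * (3 : ℂ) ^ (-s) + 2 * R₁ s - D * (R₂ s + R₃ s)))) := by
            simp only [mul_pow]; ring
        _ = _ := by rw [← e2, ← mul_pow (G s), e1, one_pow, mul_one])
  intro h0
  have h4 := heq hs
  simp only [h0, zero_mul, zero_pow hD0, mul_zero] at h4
  exact pow_ne_zero D (mul_ne_zero (sub_ne_zero.2 hs1) (sub_ne_zero.2 hs1)) h4.symm

/-- **Primes of degree one**, uniformly in the field. -/
theorem degOne_52 {d : ℝ} (hd : 0 < d) (hd1 : d ≤ 1 / 4) (hI : InvZeta d) (hZ : ZetaCont)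
    (hL : LCont) : ∃ C : ℝ, 0 < C ∧ ∀ (K : Type) [Field K] [NumberField K], IsTotallyComplex K →
      ∀ N : ℕ, 2 ≤ N → (∑ n ∈ Finset.Ioc N (2 * N), if n.Prime then (rE K n : ℝ) else 0) *
        Real.log N ≤ C * (N + (Module.finrank ℚ K + Real.log |(discr K : ℝ)|) *
          (N : ℝ) ^ (1 - d / 2)) := by
  obtain ⟨C₂, hC₂, hZ⟩ := hZ
  obtain ⟨C₃, hC₃, hE⟩ := euler_52
  obtain ⟨C₄, hC₄, hX⟩ := explicit_52 hd hd1
  refine ⟨C₄ * (1 + C₂ + C₃), by positivity, fun K _ _ hK N hN => ?_⟩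
  obtain ⟨f, hf1, hf2, hf3⟩ := hZ K hK
  obtain ⟨R, hR1, hR2, hR3⟩ := hE K 1 norm_one_le
  simp only [MonoidHom.one_apply, one_mul] at hR3
  set n : ℝ := (Module.finrank ℚ K : ℝ) with hn
  set L : ℝ := Real.log |(discr K : ℝ)| with hLd
  have hn1 : 1 ≤ n := by
    have : 0 < Module.finrank ℚ K := Module.finrank_pos
    rw [hn]; exact_mod_cast this
  have hL0 : 0 ≤ L := Real.log_nonneg (by
    have := Int.one_le_abs (discr_ne_zero K)
    exact_mod_cast this)
  have hE1 : n ≤ (1 + C₂ + C₃) * (n + L) := by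
    nlinarith [mul_nonneg (add_pos hC₂ hC₃).le (show 0 ≤ n + L by linarith)]
  have h := hX (fun m => if m.Prime then (rE K m : ℝ) else 0) ((1 + C₂ + C₃) * (n + L))
    (fun s => f s * exp (-R s)) (hn1.trans hE1) (fun m => by positivity) (fun m => by
      split_ifs with hm
      · exact le_trans (by rw [hn]; exact_mod_cast rE_le_52 K hm) hE1
      · linarith)
    ((hf1.mono fun s (hs : 1 - d < s.re) => show 0 < s.re by linarith).mul
      (hR1.mono fun s (hs : 1 - d < s.re) => show 3 / 4 < s.re by linarith).neg.cexp)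
    (fun s hs => mul_ne_zero (descent_52 hd hd1 hI hL K hK hf1 hf2 hs) (exp_ne_zero _))
    (fun s hs => by
      have e : (fun m : ℕ => ((if m.Prime then (rE K m : ℝ) else 0 : ℝ) : ℂ)) = pc K 1 := by
        funext m
        unfold pc
        split_ifs <;> simp
      rw [e, hf2 s hs, zeta_eq_tsum_52 K hs, hR3 s hs, mul_assoc, ← exp_add, add_neg_cancel_right])
    (fun s hs hs4 => by
      have h1 := hf3 s (by linarith) hs4
      have h2 : ‖exp (-R s)‖ ≤ Real.exp (C₃ * n) := by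
        rw [norm_exp]
        exact Real.exp_le_exp.2 ((re_le_norm _).trans (by rw [norm_neg]; exact hR2 s (by linarith)))
      rw [norm_mul]
      refine (mul_le_mul h1 h2 (norm_nonneg _) (Real.exp_pos _).le).trans ?_
      rw [← Real.exp_add, Real.exp_le_exp]
      have h3 := abs_nonneg s.im
      have h4 : 0 ≤ n := by linarith
      nlinarith [mul_nonneg hC₂.le (mul_nonneg hL0 h3), mul_nonneg hC₃.le hL0,
        mul_nonneg hC₃.le (mul_nonneg (add_nonneg h4 hL0) h3),
        mul_nonneg (add_nonneg h4 hL0) h3]) N hN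
  refine h.trans ?_
  rw [mul_assoc C₄]
  refine mul_le_mul_of_nonneg_left ?_ hC₄.le
  have : (0 : ℝ) ≤ N := Nat.cast_nonneg N
  nlinarith [mul_nonneg (add_pos hC₂ hC₃).le this]

/-- **Module Z.** -/
theorem chebG_52 {d : ℝ} (hd : 0 < d) (hI : InvZeta d) (hZ : ZetaCont) (hL : LCont) : ChebG := by
  classical
  intro a ha
  obtain ⟨δ, hδ, hδ1, hδd⟩ : ∃ δ : ℝ, 0 < δ ∧ δ ≤ 1 / 4 ∧ δ ≤ d :=
    ⟨min d (1 / 4), lt_min hd (by norm_num), min_le_right _ _, min_le_left _ _⟩
  obtain ⟨C, hC, h⟩ := degOne_52 hδ hδ1 (hI.mono hδd) hZ hL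
  obtain ⟨C₁, q₀, hC₁, hK⟩ := kum_79 a ha
  refine ⟨δ / 2, 2 * C * (1 + C₁), 1, q₀, by positivity, by positivity, fun q N hq hq₀ hN => ?_⟩
  obtain ⟨K, _, _, h1, h2, h3, h4⟩ := hK q hq hq₀
  have h5 := h K h1 N hN
  set n : ℝ := (Module.finrank ℚ K : ℝ) with hn
  have hn0 : 0 < n := by
    have : 0 < Module.finrank ℚ K := Module.finrank_pos
    rw [hn]; exact_mod_cast this
  have h6 : n * (R27.spl a q N).card ≤
      ∑ m ∈ Finset.Ioc N (2 * N), if m.Prime then (rE K m : ℝ) else 0 := by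
    rw [mul_comm, ← nsmul_eq_mul, ← Finset.sum_const]
    refine le_trans (Finset.sum_le_sum fun p hp => ?_)
      (Finset.sum_le_sum_of_subset_of_nonneg (Finset.filter_subset _ _) fun m _ _ => by positivity)
    obtain ⟨-, hp1, hp2, hp3⟩ := Finset.mem_filter.1 hp
    obtain ⟨S, hS1, hS2⟩ := h4 p hp1 hp2 hp3
    rw [if_pos hp1, hn, ← hS1]
    have f1 : Finite {P : Ideal (𝓞 K) // absNorm P = p} := finite_setOfPred_absNorm_eq (S := 𝓞 K) p
    have := Nat.card_le_card_of_injective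
      (fun P : S => (⟨P.1, hS2 P.1 P.2⟩ : {P : Ideal (𝓞 K) // absNorm P = p}))
      fun P Q h => Subtype.ext (congrArg (fun z : {P : Ideal (𝓞 K) // absNorm P = p} => z.1) h)
    rw [Nat.card_eq_fintype_card, Fintype.card_coe] at this
    exact_mod_cast this
  have hN0 : (0 : ℝ) < N := by exact_mod_cast (by omega : 0 < N)
  have hlog : 1 / 2 ≤ Real.log N := by
    have : Real.log 2 ≤ Real.log N := Real.log_le_log (by norm_num) (by exact_mod_cast hN)
    linarith [Real.log_two_gt_d9]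
  have hq0 : (0 : ℝ) < q := by exact_mod_cast hq.pos
  set Y := (N : ℝ) ^ (1 - δ / 2) with hY
  have hY0 : 0 ≤ Y := by positivity
  set l := Real.log N with hl
  have hl0 : 0 < l := by linarith
  have h7 : n * (R27.spl a q N).card * l ≤ C * (N + C₁ * q * n * Y) :=
    ((mul_le_mul_of_nonneg_right h6 hl0.le).trans h5).trans (by gcongr)
  have h8 : ((R27.spl a q N).card : ℝ) ≤ C * (N / (n * l) + C₁ * q * Y / l) := by
    rw [← mul_le_mul_iff_left₀ (mul_pos hn0 hl0)]
    calc _ = n * (R27.spl a q N).card * l := by ring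
      _ ≤ _ := h7
      _ = _ := by field_simp
  have h9 : N / (n * l) ≤ 2 * (N / ((q : ℝ) ^ 2 * l)) := by
    rw [← mul_div_assoc, div_le_div_iff₀ (by positivity) (by positivity)]
    nlinarith [mul_le_mul_of_nonneg_left h2 (mul_pos hN0 hl0).le]
  have h10 : C₁ * q * Y / l ≤ 2 * (C₁ * (q * Y)) := by
    rw [div_le_iff₀ hl0]
    nlinarith [mul_nonneg hC₁.le (mul_nonneg hq0.le hY0)]
  refine h8.trans ?_
  rw [pow_one]
  have h11 : 0 ≤ N / ((q : ℝ) ^ 2 * l) := by positivity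
  have h12 : 0 ≤ (q : ℝ) * Y := by positivity
  calc C * (N / (n * l) + C₁ * q * Y / l)
      ≤ C * (2 * (N / ((q : ℝ) ^ 2 * l)) + 2 * (C₁ * (q * Y))) := by gcongr
    _ ≤ _ := by
      nlinarith [mul_nonneg hC.le h12, mul_nonneg hC.le (mul_nonneg hC₁.le h11)]

end Crest.Agent.T27
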