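import Crest.Agent.T27.Fr_55

/-!
# Row 27: the lower bound for the number of primary elements follows from Poisson summation
-/

set_option autoImplicit false

noncomputable section

namespace Crest.Agent.T27

namespace C21

variable [Fr0]

theorem mem_pball {X : ℕ} {n : O} : n ∈ pball X ↔ Primary n ∧ nm n ≤ X := by
  unfold pball
  rw [Set.Finite.mem_toFinset]
  rfl

theorem card_pball_le (X : ℕ) : (pball X).card ≤ Fr0.kp * X := by
  have h := Fr0.card_prim X
  rwa [Set.ncard_eq_toFinset_card _ (Fr0.fin_prim X)] at h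

theorem pball_mono {X Y : ℕ} (h : X ≤ Y) : pball X ⊆ pball Y := fun _ hn =>
  mem_pball.2 ⟨(mem_pball.1 hn).1, (mem_pball.1 hn).2.trans h⟩

theorem nm_unit_mul {u : O} (hu : IsUnit u) (n : O) : nm (u * n) = nm n := by
  unfold nm
  rw [Ideal.span_singleton_mul_left_unit hu]

theorem nm_one : nm (1 : O) = 1 := by
  unfold nm
  rw [Ideal.span_singleton_one]
  exact Nat.card_unique

theorem nm_zero : nm (0 : O) = 0 := by
  unfold nm
  rw [show Ideal.span {(0 : O)} = ⊥ by simp]
  have : Infinite (O ⧸ (⊥ : Ideal O)) :=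
    Infinite.of_injective _ (RingEquiv.quotientBot O).symm.injective
  exact Nat.card_eq_zero_of_infinite

/-- Majorisation: a sum over the primary elements is bounded by a sum over the integers. -/
theorem sum_pball_le (φ : ℕ → ℝ) (h0 : ∀ m, 0 ≤ φ m) (ha : ∀ m, 1 ≤ m → φ (m + 1) ≤ φ m)
    (M : ℕ) : ∑ n ∈ pball M, φ (nm n) ≤ Fr0.kp * ∑ m ∈ Finset.Ioc 0 M, φ m := by
  have key : ∀ M : ℕ, ((Fr0.kp : ℝ) * M - (pball M).card) * φ M ≤
      Fr0.kp * ∑ m ∈ Finset.Ioc 0 M, φ m - ∑ n ∈ pball M, φ (nm n) := by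
    intro M
    induction M with
    | zero =>
      have : pball 0 = ∅ := by
        have := card_pball_le 0
        rw [mul_zero] at this
        exact Finset.card_eq_zero.1 (Nat.le_zero.1 this)
      simp [this]
    | succ M ih =>
      have hsub : pball M ⊆ pball (M + 1) := pball_mono (Nat.le_succ M)
      have h1 : ∑ n ∈ pball (M + 1), φ (nm n) =
          ∑ n ∈ pball M, φ (nm n) + ((pball (M + 1)).card - (pball M).card : ℝ) * φ (M + 1) := by
        rw [← Finset.sum_sdiff hsub, add_comm]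
        congr 1
        rw [Finset.sum_congr rfl (g := fun _ => φ (M + 1)), Finset.sum_const, nsmul_eq_mul,
          Finset.card_sdiff_of_subset hsub, Nat.cast_sub (Finset.card_le_card hsub)]
        intro n hn
        rw [Finset.mem_sdiff, mem_pball, mem_pball] at hn
        have : nm n = M + 1 := by
          by_contra hne
          exact hn.2 ⟨hn.1.1, by omega⟩
        rw [this]
      rw [h1, Finset.sum_Ioc_succ_top (Nat.zero_le M)]
      have h2 : (0 : ℝ) ≤ (Fr0.kp : ℝ) * M - (pball M).card := by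
        have := card_pball_le M
        have : ((pball M).card : ℝ) ≤ (Fr0.kp : ℝ) * M := by exact_mod_cast this
        linarith
      have h3 : ((Fr0.kp : ℝ) * M - (pball M).card) * φ (M + 1) ≤
          ((Fr0.kp : ℝ) * M - (pball M).card) * φ M := by
        rcases Nat.eq_zero_or_pos M with rfl | hM
        · have : pball 0 = ∅ := by
            have := card_pball_le 0
            rw [mul_zero] at this
            exact Finset.card_eq_zero.1 (Nat.le_zero.1 this)
          simp [this]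
        · exact mul_le_mul_of_nonneg_left (ha M hM) h2
      push_cast
      nlinarith
  have h2 : (0 : ℝ) ≤ (Fr0.kp : ℝ) * M - (pball M).card := by
    have := card_pball_le M
    have : ((pball M).card : ℝ) ≤ (Fr0.kp : ℝ) * M := by exact_mod_cast this
    linarith
  have := key M
  have := mul_nonneg h2 (h0 M)
  linarith

open Classical in
/-- A finite sum over rows. -/
theorem sum_rows_le (φ : ℕ → ℝ) (h0 : ∀ m, 0 ≤ φ m) (S : Finset O) :
    ∃ M : ℕ, ∑ k ∈ S, (if Rep k then φ (nm k) else 0) ≤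
      φ 0 + U0.card * ∑ n ∈ pball M, φ (nm n) := by
  refine ⟨S.sup nm, ?_⟩
  set M := S.sup nm
  rw [← Finset.sum_filter]
  have hsub : S.filter Rep ⊆ ball M := by
    intro k hk
    rw [Finset.mem_filter] at hk
    unfold ball
    rcases hk.2 with rfl | ⟨u, hu, n, hn, rfl⟩
    · exact Finset.mem_insert_self _ _
    · refine Finset.mem_insert_of_mem (Finset.mem_image₂_of_mem hu (mem_pball.2 ⟨hn, ?_⟩))
      rw [← nm_unit_mul (Fr0.unit_U0F u hu) n]
      exact Finset.le_sup (f := nm) hk.1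
  refine (Finset.sum_le_sum_of_subset_of_nonneg hsub fun _ _ _ => h0 _).trans ?_
  unfold ball
  have h1 : ∑ k ∈ insert 0 (Finset.image₂ (· * ·) U0 (pball M)), φ (nm k) ≤
      φ (nm (0 : O)) + ∑ k ∈ Finset.image₂ (· * ·) U0 (pball M), φ (nm k) := by
    by_cases h : (0 : O) ∈ Finset.image₂ (· * ·) U0 (pball M)
    · rw [Finset.insert_eq_of_mem h]
      linarith [h0 (nm (0 : O))]
    · rw [Finset.sum_insert h]
  refine h1.trans ?_
  rw [nm_zero]
  refine add_le_add le_rfl ?_
  unfold Finset.image₂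
  refine (Finset.sum_image_le_of_nonneg fun _ _ => h0 _).trans ?_
  rw [Finset.sum_product, Finset.sum_congr rfl (g := fun _ => ∑ n ∈ pball M, φ (nm n)),
    Finset.sum_const, nsmul_eq_mul]
  intro u hu
  refine Finset.sum_congr rfl fun n _ => ?_
  simp only [Function.uncurry]
  rw [nm_unit_mul (Fr0.unit_U0F u hu) n]

theorem ft_one (h : O) : ft 1 (fun _ => 1) h = 1 := by
  have h1 : ∀ x : O, eq x 1 = 1 := fun x => by
    have := Fr0.eqF_self x 1
    rwa [one_mul] at this
  unfold ft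
  simp only [h1, mul_one, Finset.sum_const, nsmul_eq_mul]
  unfold res
  rw [dif_pos one_ne_zero]
  have : Subsingleton (O ⧸ Ideal.span {(1 : O)}) := by
    rw [Ideal.span_singleton_one]
    infer_instance
  rw [Finset.card_image_of_injective _ Quotient.out_injective]
  norm_cast
  rw [Finset.card_eq_one]
  refine ⟨(0 : O ⧸ Ideal.span {(1 : O)}), ?_⟩
  ext x
  simp only [Set.Finite.mem_toFinset, Set.mem_univ, Finset.mem_singleton, true_iff]
  exact this.elim _ _

omit [Fr0] in
theorem sum_inv_sqrt (T : ℕ) :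
    ∑ m ∈ Finset.Ioc 0 T, (Real.sqrt m)⁻¹ ≤ 2 * Real.sqrt T := by
  induction T with
  | zero => simp
  | succ T ih =>
    rw [Finset.sum_Ioc_succ_top (Nat.zero_le T)]
    have h1 : 0 < Real.sqrt ((T + 1 : ℕ) : ℝ) := Real.sqrt_pos.2 (by positivity)
    have h2 : Real.sqrt ((T + 1 : ℕ) : ℝ) ^ 2 = T + 1 := by
      rw [Real.sq_sqrt (by positivity)]; push_cast; ring
    have h3 : Real.sqrt (T : ℝ) ^ 2 = T := Real.sq_sqrt (by positivity)
    have h4 : (Real.sqrt ((T + 1 : ℕ) : ℝ))⁻¹ ≤
        2 * Real.sqrt ((T + 1 : ℕ) : ℝ) - 2 * Real.sqrt T := by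
      rw [inv_eq_one_div, div_le_iff₀ h1]
      nlinarith [sq_nonneg (Real.sqrt ((T + 1 : ℕ) : ℝ) - Real.sqrt T)]
    linarith

omit [Fr0] in
theorem sum_inv_sq (W M : ℕ) (hW : 0 < W) :
    ∑ m ∈ Finset.Ioc 0 M, (((max m W : ℕ) : ℝ) ^ 2)⁻¹ ≤ 2 / W := by
  have hW' : (0 : ℝ) < W := by exact_mod_cast hW
  have h1 : ∑ m ∈ Finset.Ioc 0 M, (((max m W : ℕ) : ℝ) ^ 2)⁻¹ ≤
      ∑ m ∈ Finset.Ioc 0 (max M W), (((max m W : ℕ) : ℝ) ^ 2)⁻¹ :=
    Finset.sum_le_sum_of_subset_of_nonneg (Finset.Ioc_subset_Ioc_right (le_max_left _ _))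
      fun _ _ _ => by positivity
  refine h1.trans ?_
  rw [← Finset.sum_Ioc_consecutive _ (Nat.zero_le W) (le_max_right M W)]
  have h2 : ∑ m ∈ Finset.Ioc 0 W, (((max m W : ℕ) : ℝ) ^ 2)⁻¹ = 1 / W := by
    rw [Finset.sum_congr rfl (g := fun _ => ((W : ℝ) ^ 2)⁻¹), Finset.sum_const, nsmul_eq_mul]
    · simp only [Nat.card_Ioc, Nat.sub_zero]
      field_simp
    · intro m hm
      rw [max_eq_right (Finset.mem_Ioc.1 hm).2]
  have h3 : ∑ m ∈ Finset.Ioc W (max M W), (((max m W : ℕ) : ℝ) ^ 2)⁻¹ ≤ 1 / W := by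
    rw [Finset.sum_congr rfl (g := fun m : ℕ => ((m : ℝ) ^ 2)⁻¹)]
    · refine (sum_Ioc_inv_sq_le_sub hW.ne' (le_max_right M W)).trans ?_
      have : (0 : ℝ) ≤ ((max M W : ℕ) : ℝ)⁻¹ := by positivity
      rw [one_div]; linarith
    · intro m hm
      rw [max_eq_left (Finset.mem_Ioc.1 hm).1.le]
  rw [h2]
  have : (2 : ℝ) / W = 1 / W + 1 / W := by ring
  linarith

open Classical in
/-- Poisson summation for the constant function. -/
theorem le_tsum {g : ℝ → ℝ} {m : ℂ → ℂ} (h : KerAx g m) (X : ℝ) (hX : 0 < X) :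
    X ≤ ∑' k : O, (if Rep k then g (nm k / X) else 0) := by
  have hp := h.poisson 1 (fun _ => 1) X one_ne_zero (fun _ _ _ => rfl) (fun _ _ _ _ => rfl) hX
  simp only [ft_one, one_mul, nr, nm_one, Nat.cast_one, div_one] at hp
  rw [← Complex.ofReal_tsum, ← Complex.ofReal_tsum, ← Complex.ofReal_mul, Complex.ofReal_inj] at hp
  unfold grp at hp
  rw [hp]
  obtain ⟨C, hC, hg⟩ := h.le_rpow 2 (by norm_num)
  have hs : Summable fun k : O => if Rep k then g (X * nm k) else 0 := by
    refine summable_of_sum_le (c := 1 + U0.card * (Fr0.kp * (C * (X ^ 2)⁻¹ * 2)))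
      (fun k => by by_cases hk : Rep k <;> simp [hk, (h.pos _).le]) fun S => ?_
    obtain ⟨M, hM⟩ := sum_rows_le (fun m : ℕ => g (X * m)) (fun _ => (h.pos _).le) S
    refine hM.trans ?_
    simp only [Nat.cast_zero, mul_zero, h.zero]
    gcongr
    have h1 := sum_pball_le (fun m : ℕ => g (X * m)) (fun _ => (h.pos _).le) (fun m hm => by
      have : (0 : ℝ) < m := by exact_mod_cast hm
      refine h.anti (Set.mem_Ioi.2 (by positivity)) (Set.mem_Ioi.2 (by positivity)) ?_
      push_cast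
      nlinarith) M
    refine h1.trans ?_
    gcongr
    have h2 := sum_inv_sq 1 M one_pos
    calc ∑ m ∈ Finset.Ioc 0 M, g (X * m)
        ≤ ∑ m ∈ Finset.Ioc 0 M, C * (X ^ 2)⁻¹ * (((max m 1 : ℕ) : ℝ) ^ 2)⁻¹ := by
          refine Finset.sum_le_sum fun m hm => ?_
          have hm1 : 1 ≤ m := (Finset.mem_Ioc.1 hm).1
          have : (0 : ℝ) < m := by exact_mod_cast hm1
          refine (hg _ (by positivity)).trans (le_of_eq ?_)
          rw [max_eq_left hm1, Real.rpow_neg (by positivity), Real.rpow_two]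
          field_simp
      _ ≤ C * (X ^ 2)⁻¹ * 2 := by
          rw [← Finset.mul_sum]
          gcongr
          simpa using h2
  have h0 := hs.le_tsum (0 : O) fun k _ => by by_cases hk : Rep k <;> simp [hk, (h.pos _).le]
  have hr : Rep (0 : O) := Or.inl rfl
  rw [if_pos hr, nm_zero, Nat.cast_zero, mul_zero, h.zero] at h0
  nlinarith

open Classical in
theorem main_ineq {g : ℝ → ℝ} {m : ℂ → ℂ} (h : KerAx g m) :
    ∃ A B : ℝ, 0 < A ∧ 0 < B ∧ ∀ K T : ℕ, 0 < K → 0 < T →
      ((K : ℝ) ^ 2 * T) ≤ 1 + A * (K * T) + B * K * (pball (K ^ 4 * T)).card := by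
  obtain ⟨C, hC, hg⟩ := h.le_rpow (1 / 2) (by norm_num)
  obtain ⟨C', hC', hg'⟩ := h.le_rpow 2 (by norm_num)
  have hU : (0 : ℝ) < U0.card := by
    exact_mod_cast Finset.card_pos.2 ⟨1, Fr0.one_mem_U0F⟩
  refine ⟨U0.card * (Fr0.kp * (2 * C + 2 * C')) + 1, U0.card * C, by positivity, by positivity,
    fun K T hK hT => ?_⟩
  have hK' : (1 : ℝ) ≤ K := by exact_mod_cast hK
  have hT' : (1 : ℝ) ≤ T := by exact_mod_cast hT
  set X : ℝ := (K : ℝ) ^ 2 * T with hXd
  have hX : 0 < X := by positivity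
  refine (le_tsum h X hX).trans ?_
  refine Real.tsum_le_of_sum_le (fun k => by by_cases hk : Rep k <;> simp [hk, (h.pos _).le])
    fun S => ?_
  obtain ⟨M, hM⟩ := sum_rows_le (fun m : ℕ => g (m / X)) (fun _ => (h.pos _).le) S
  refine hM.trans ?_
  simp only [Nat.cast_zero, zero_div, h.zero]
  set W : ℕ := K ^ 4 * T with hW
  have hW0 : 0 < W := by positivity
  have hsT : Real.sqrt T ^ 2 = T := Real.sq_sqrt (by positivity)
  have hsT0 : 0 < Real.sqrt T := Real.sqrt_pos.2 (by positivity)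
  -- the three pieces
  let φ1 : ℕ → ℝ := fun m => if m ≤ T then C * (K * Real.sqrt T) * (Real.sqrt m)⁻¹ else 0
  let φ3 : ℕ → ℝ := fun m => C' * X ^ 2 * (((max m W : ℕ) : ℝ) ^ 2)⁻¹
  have hφ1 : ∀ m, 0 ≤ φ1 m := fun m => by
    simp only [φ1]; split_ifs <;> positivity
  have hφ3 : ∀ m, 0 ≤ φ3 m := fun m => by simp only [φ3]; positivity
  have hhalf : ∀ m : ℕ, 1 ≤ m → g (m / X) ≤ C * (K * Real.sqrt T) * (Real.sqrt m)⁻¹ := by
    intro m hm
    have hm' : (0 : ℝ) < m := by exact_mod_cast hm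
    refine (hg _ (by positivity)).trans (le_of_eq ?_)
    rw [Real.rpow_neg (by positivity), ← Real.sqrt_eq_rpow, Real.sqrt_div hm'.le, hXd,
      Real.sqrt_mul (by positivity), Real.sqrt_sq (by positivity)]
    have : 0 < Real.sqrt m := Real.sqrt_pos.2 hm'
    field_simp
  have hpt : ∀ n ∈ pball M, g (nm n / X) ≤
      φ1 (nm n) + (if n ∈ pball W then C * K else 0) + φ3 (nm n) := by
    intro n hn
    have hn0 : n ≠ 0 := Fr0.prim_ne n (mem_pball.1 hn).1
    have hn1 : 1 ≤ nm n := by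
      have := Fr0.fin_quot n hn0
      exact Nat.card_pos
    have hn' : (0 : ℝ) < nm n := by exact_mod_cast hn1
    have hi : (0 : ℝ) ≤ if n ∈ pball W then C * K else 0 := by split_ifs <;> positivity
    by_cases h1 : nm n ≤ T
    · have : g (nm n / X) ≤ φ1 (nm n) := by
        simp only [φ1, if_pos h1]; exact hhalf _ hn1
      linarith [hφ3 (nm n)]
    · by_cases h2 : nm n ≤ W
      · rw [if_pos (mem_pball.2 ⟨(mem_pball.1 hn).1, h2⟩)]
        have h3 : Real.sqrt T ≤ Real.sqrt (nm n) :=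
          Real.sqrt_le_sqrt (by exact_mod_cast (not_le.1 h1).le)
        have h4 : C * (K * Real.sqrt T) * (Real.sqrt (nm n))⁻¹ ≤ C * K := by
          rw [← div_eq_mul_inv, div_le_iff₀ (Real.sqrt_pos.2 hn')]
          have : 0 ≤ C * K := by positivity
          nlinarith
        linarith [hφ3 (nm n), hφ1 (nm n), hhalf _ hn1]
      · have : g (nm n / X) ≤ φ3 (nm n) := by
          refine (hg' _ (by positivity)).trans (le_of_eq ?_)
          simp only [φ3]
          rw [max_eq_left (not_le.1 h2).le, Real.rpow_neg (by positivity), Real.rpow_two]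
          field_simp
        linarith [hφ1 (nm n)]
  have hs1 : ∑ n ∈ pball M, φ1 (nm n) ≤ Fr0.kp * (2 * C * (K * T)) := by
    refine (sum_pball_le φ1 hφ1 (fun m hm => ?_) M).trans ?_
    · have hm' : (0 : ℝ) < m := by exact_mod_cast hm
      simp only [φ1]
      split_ifs with h1 h2 h2
      · gcongr
        · linarith
      · omega
      · positivity
      · exact le_rfl
    · gcongr
      simp only [φ1]
      rw [← Finset.sum_filter, ← Finset.mul_sum]
      have h1 : ∑ m ∈ (Finset.Ioc 0 M).filter (· ≤ T), (Real.sqrt m)⁻¹ ≤ 2 * Real.sqrt T := by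
        refine le_trans (Finset.sum_le_sum_of_subset_of_nonneg ?_ fun _ _ _ => by positivity)
          (sum_inv_sqrt T)
        intro m hm
        rw [Finset.mem_filter, Finset.mem_Ioc] at hm
        exact Finset.mem_Ioc.2 ⟨hm.1.1, hm.2⟩
      calc C * (K * Real.sqrt T) * ∑ m ∈ (Finset.Ioc 0 M).filter (· ≤ T), (Real.sqrt m)⁻¹
          ≤ C * (K * Real.sqrt T) * (2 * Real.sqrt T) := by gcongr
        _ = 2 * C * (K * Real.sqrt T ^ 2) := by ring
        _ = 2 * C * (K * T) := by rw [hsT]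
  have hs3 : ∑ n ∈ pball M, φ3 (nm n) ≤ Fr0.kp * (2 * C' * (K * T)) := by
    refine (sum_pball_le φ3 hφ3 (fun m hm => ?_) M).trans ?_
    · simp only [φ3]
      have : (0 : ℝ) < ((max m W : ℕ) : ℝ) := by
        exact_mod_cast lt_of_lt_of_le hW0 (le_max_right m W)
      gcongr
      omega
    · gcongr
      simp only [φ3]
      rw [← Finset.mul_sum]
      have hWr : (W : ℝ) = K ^ 4 * T := by rw [hW]; push_cast; ring
      calc C' * X ^ 2 * ∑ m ∈ Finset.Ioc 0 M, (((max m W : ℕ) : ℝ) ^ 2)⁻¹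
          ≤ C' * X ^ 2 * (2 / W) := by gcongr; exact sum_inv_sq W M hW0
        _ = 2 * C' * (1 * T) := by rw [hWr, hXd]; field_simp
        _ ≤ 2 * C' * (K * T) := by gcongr
  have hs2 : ∑ n ∈ pball M, (if n ∈ pball W then C * K else 0) ≤ C * K * (pball W).card := by
    rw [← Finset.sum_filter, Finset.sum_const, nsmul_eq_mul, mul_comm]
    gcongr
    intro n hn
    exact (Finset.mem_filter.1 hn).2
  have hsum := Finset.sum_le_sum hpt
  rw [Finset.sum_add_distrib, Finset.sum_add_distrib] at hsum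
  have h5 : ∑ n ∈ pball M, g (nm n / X) ≤
      Fr0.kp * (2 * C + 2 * C') * (K * T) + C * K * (pball W).card := by nlinarith
  have h6 := mul_le_mul_of_nonneg_left h5 hU.le
  have h7 : (0 : ℝ) ≤ K * T := by positivity
  nlinarith

end C21

open C21 in
/-- The lower bound for the number of primary elements. -/
theorem cntAx_21 [Fr0] {g : ℝ → ℝ} {m : ℂ → ℂ} (h : KerAx g m) : CntAx := by
  obtain ⟨A, B, hA, hB, hm⟩ := main_ineq h
  obtain ⟨K, hK⟩ := exists_nat_ge (2 * A + 2)
  have hK2 : (2 : ℝ) ≤ K := by linarith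
  have hK0 : 0 < K := by exact_mod_cast (show (0 : ℝ) < K by linarith)
  set L : ℕ := K ^ 4 with hL
  have hL0 : 0 < L := by positivity
  have hLr : (0 : ℝ) < L := by exact_mod_cast hL0
  refine ⟨min (1 / L) (1 / (8 * B * L)), by positivity, fun X => ?_⟩
  rcases Nat.eq_zero_or_pos X with rfl | hX
  · simp
  by_cases hXL : X < L
  · have h1 : 1 ≤ (pball X).card :=
      Finset.card_pos.2 ⟨1, mem_pball.2 ⟨Fr0.prim_one, by rw [nm_one]; exact hX⟩⟩
    have h2 : (1 : ℝ) ≤ (pball X).card := by exact_mod_cast h1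
    have h3 : (X : ℝ) ≤ L := by exact_mod_cast hXL.le
    calc min (1 / (L : ℝ)) (1 / (8 * B * L)) * X ≤ 1 / L * L := by
          gcongr; exact min_le_left _ _
      _ = 1 := by field_simp
      _ ≤ _ := h2
  · have hT : 0 < X / L := Nat.div_pos (not_lt.1 hXL) hL0
    set T := X / L with hTd
    have h1 := hm K T hK0 hT
    have hT' : (1 : ℝ) ≤ T := by exact_mod_cast hT
    have h2 : ((pball (K ^ 4 * T)).card : ℝ) ≤ (pball X).card := by
      exact_mod_cast Finset.card_le_card (pball_mono (Nat.mul_div_le X L))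
    have h3 : (X : ℝ) ≤ 2 * L * T := by
      have : X < L * (T + 1) := Nat.lt_mul_div_succ X hL0
      have : (X : ℝ) < L * (T + 1) := by exact_mod_cast this
      nlinarith
    have h4 : (T : ℝ) ≤ 4 * B * (pball X).card := by
      have h5 : B * K * ((pball (K ^ 4 * T)).card : ℝ) ≤ B * K * (pball X).card := by gcongr
      have h6 : A * (K * T) ≤ (K : ℝ) ^ 2 * T / 2 := by
        have : A ≤ K / 2 := by linarith
        have h7 : (0 : ℝ) ≤ K * T := by positivity
        nlinarith
      have h7 : (1 : ℝ) ≤ (K : ℝ) ^ 2 * T / 4 := by nlinarith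
      have h8 : (K : ℝ) * (K * T) ≤ K * (4 * B * (pball X).card) := by nlinarith
      have h9 := le_of_mul_le_mul_left h8 (by linarith)
      nlinarith
    calc min (1 / (L : ℝ)) (1 / (8 * B * L)) * X ≤ 1 / (8 * B * L) * (2 * L * T) := by
          gcongr; exact min_le_right _ _
      _ = T / (4 * B) := by field_simp; ring
      _ ≤ _ := by rw [div_le_iff₀ (by positivity)]; linarith

end Crest.Agent.T27
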