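import Crest.Agent.T27.Fr_55

/-!
# Row 27: the statements of the PSD core on the frame `Fr` (definitions only, helper51)

`DomStmt` (pointwise PSD domination, P1 + P2) `→ PsdStmt` (Poisson, P3) `→ SStmt → MobFr` (P4).
DO NOT change a definition of this file.
-/

set_option autoImplicit false

noncomputable section

namespace Crest.Agent.T27

open scoped ComplexConjugate

variable [Fr]

/-- The kernel `M(k₁, k₂; a)`. -/
def MK (k₁ k₂ a : O) : ℂ :=
  ft (k₁ * k₂) (fun x => sym k₁ x * conj (sym k₂ x)) a /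
    ((Real.sqrt (nr k₁) : ℂ) * (Real.sqrt (nr k₂) : ℂ))

/-- `G / rad G`. -/
def eG (G : O) : O := ∏ p ∈ pf G, p ^ (vp p G - 1)

/-- The cost of `G`. -/
def cG (G : O) : ℝ := ∏ p ∈ pf G, 5 * (vp p G : ℝ) ^ 3 * (if 6 ≤ vp p G then nr p else 1)

open Classical in
/-- The unitary cofactors of `G` in the elements of norm at most `Y` and class `κ`. -/
def cofS (κ : WithZero Cl) (Y : ℕ) (G : O) : Finset O :=
  (pball Y).filter (fun k => IsCoprime k G ∧ nm (G * k) ≤ Y ∧ cls (G * k) = κ)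

open Classical in
/-- **Pointwise domination** (helper54's note 98 with one `e` for every `G`), for every `a : O`. -/
def DomStmt : Prop :=
  ∀ (κ : WithZero Cl) (Y : ℕ) (Φ : O → ℂ) (a : O),
    (if a = 0 then 0 else (1 / 2 : ℝ) ^ (pf a).card) *
        ‖∑ n ∈ (pball Y).filter (fun n => cls n = κ), mu n * conj (sym n a) * Φ n‖ ^ 2 ≤
      ∑ G ∈ pball Y, (if eG G ∣ a then nr (eG G) * cG G else 0) * ‖th G‖ ^ 2 *
        (∑ k₁ ∈ cofS κ Y G, ∑ k₂ ∈ cofS κ Y G,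
          (th k₁ * Rq G k₁ * Φ (G * k₁)) * conj (th k₂ * Rq G k₂ * Φ (G * k₂)) * MK k₁ k₂ a).re

open Classical in
/-- Truncated Möbius sum of the row `a` over the class `κ`. -/
def MobY (κ : WithZero Cl) (Y : ℕ) (B : ℝ) (a : O) : ℂ :=
  ∑ n ∈ (pball Y).filter (fun n => cls n = κ), mu n * conj (sym n a) * Wc (nr n / B) 0

/-- The coefficients of the dual form. -/
def cfG (φ : O → ℂ) (G : O) (B : ℝ) (h n : O) : ℂ :=
  th n * φ n * sym n (h * eG G ^ 5 * rad G ^ 6) * Wc (nr G * nr n / B) 0 / (Real.sqrt (nr n) : ℂ)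

/-- **After Poisson summation.** -/
def PsdStmt : Prop :=
  ∀ κ : WithZero Cl, ∃ φ : O → O → ℂ, (∀ G n, ‖φ G n‖ ≤ 1) ∧
    (∀ G n n', cls n = cls n' → φ G n = φ G n') ∧
    ∀ (Y : ℕ) (A B : ℝ), 0 < A → 0 < B → ∀ S : Finset O, (∀ a ∈ S, Primary a) →
      ∑ a ∈ S, gw (nr a / A) * (1 / 2 : ℝ) ^ (pf a).card * ‖MobY κ Y B a‖ ^ 2 ≤
        ∑ G ∈ pball Y, cG G * A * ‖th G‖ ^ 2 *
          ‖∑' h : O, ∑ n₁ ∈ pball (Y / nm G), ∑ n₂ ∈ pball (Y / nm G),
            cfG (φ G) G B h n₁ * conj (cfG (φ G) G B h n₂) *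
              (gr h (A * nr h / (nr (eG G) * nr n₁ * nr n₂)) : ℂ)‖

open Classical in
/-- The mean square of the Möbius sums over the primary rows. -/
def SStmt : Prop :=
  ∀ ε : ℝ, 0 < ε → ∃ C : ℝ, 0 < C ∧ ∀ (κ : WithZero Cl) (A B : ℝ), 1 ≤ B → B ≤ A →
    ∑ a ∈ pball ⌊A⌋₊, ‖∑' n : O, if Primary n ∧ cls n = κ then
      mu n * conj (sym n a) * Wc (nr n / B) 0 else 0‖ ^ 2 ≤ C * A ^ (1 + ε) * B

open Classical in
/-- The power saving for the Möbius function of the frame. -/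
def MobFr : Prop :=
  ∀ ε : ℝ, 0 < ε → ∃ C : ℝ, 0 < C ∧ ∀ B : ℝ, 1 ≤ B →
    ‖∑' n : O, if Primary n then mu n * Wc (nr n / B) 0 else 0‖ ≤ C * B ^ (11 / 12 + ε)

end Crest.Agent.T27
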