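import Crest.Agent.T27.Symbol_55
import Crest.Agent.T27.Cnt_21
import Crest.Agent.T27.Core_51

/-!
# Row 27: amplification over the rows `c ^ 6` (helper84)

`mobFr_84 : SStmt → MobFr`.
-/

set_option autoImplicit false

noncomputable section

namespace Crest.Agent.T27

open scoped ComplexConjugate

namespace A84

theorem norm_Wc_zero_le {y : ℝ} (hy : 0 < y) (σ : ℝ) :
    ‖Wc y 0‖ ≤ Real.exp (σ ^ 2 / 4) * y ^ (-σ) := by
  have h1 : Wc y 0 = ((Real.exp (-(Real.log y) ^ 2) : ℝ) : ℂ) := by simp [Wc]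
  rw [h1, Complex.norm_real, Real.norm_of_nonneg (Real.exp_pos _).le, Real.rpow_def_of_pos hy,
    ← Real.exp_add]
  exact Real.exp_le_exp.2 (by nlinarith [sq_nonneg (Real.log y - σ / 2)])

section
variable [Fr0]

open Classical in
/-- The Dirichlet series of the primary elements converges for `σ > 1`. -/
theorem summable_prim {σ : ℝ} (hσ : 1 < σ) :
    Summable fun n : O => if Primary n then nr n ^ (-σ) else 0 := by
  have hs : Summable fun m : ℕ => (m : ℝ) ^ (-σ) := Real.summable_nat_rpow.2 (by linarith)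
  have h0 : ∀ m : ℕ, 0 ≤ (m : ℝ) ^ (-σ) := fun m => Real.rpow_nonneg (Nat.cast_nonneg _) _
  refine summable_of_sum_le (c := Fr0.kp * ∑' m : ℕ, (m : ℝ) ^ (-σ)) (fun n => ?_) fun S => ?_
  · dsimp only
    split_ifs
    · exact h0 _
    · exact le_rfl
  have h1 := C21.sum_pball_le (fun m => (m : ℝ) ^ (-σ)) h0 (fun m hm =>
    Real.rpow_le_rpow_of_nonpos (by exact_mod_cast hm) (by push_cast; linarith) (by linarith))
    (S.sup nm)
  rw [← Finset.sum_filter]
  refine le_trans (Finset.sum_le_sum_of_subset_of_nonneg (fun n hn => ?_) fun n _ _ => h0 _)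
    (h1.trans (mul_le_mul_of_nonneg_left (hs.sum_le_tsum _ fun m _ => h0 m) (Nat.cast_nonneg _)))
  obtain ⟨h2, h3⟩ := Finset.mem_filter.1 hn
  exact mem_pball.2 ⟨h3, Finset.le_sup h2⟩

open Classical in
theorem norm_term_le {P : O → Prop} [DecidablePred P] (hP : ∀ n, P n → Primary n) {b : O → ℂ}
    (hb : ∀ n, ‖b n‖ ≤ 1)
    {B : ℝ} (hB : 0 < B) (σ : ℝ) (n : O) :
    ‖if P n then b n * Wc (nr n / B) 0 else 0‖ ≤
      Real.exp (σ ^ 2 / 4) * B ^ σ * if Primary n then nr n ^ (-σ) else 0 := by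
  by_cases h : P n
  · have hn := nr_pos (hP n h).ne_zero
    rw [if_pos h, if_pos (hP n h), norm_mul]
    refine (mul_le_of_le_one_left (norm_nonneg _) (hb n)).trans
      ((norm_Wc_zero_le (div_pos hn hB) σ).trans (le_of_eq ?_))
    rw [Real.div_rpow hn.le hB.le, Real.rpow_neg hB.le]
    field_simp
  · rw [if_neg h, norm_zero]
    split_ifs
    · positivity
    · simp

theorem summable_term {P : O → Prop} [DecidablePred P] (hP : ∀ n, P n → Primary n) {b : O → ℂ}
    (hb : ∀ n, ‖b n‖ ≤ 1) {B : ℝ} (hB : 0 < B) :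
    Summable fun n : O => if P n then b n * Wc (nr n / B) 0 else 0 :=
  Summable.of_norm_bounded ((summable_prim one_lt_two).mul_left _) (norm_term_le hP hb hB 2)

open Classical in
theorem conj_sym_six {n : O} (hn : n ≠ 0) (c : O) :
    conj (sym n (c ^ 6)) = if IsCoprime n c then 1 else 0 := by
  rw [sym_pow_right']
  split_ifs with h
  · rw [sym_pow_six' hn h, map_one]
  · rw [(sym_eq_zero_iff' hn).2 h]; simp

open Classical in
/-- Every squarefree primary `n` is uniquely `d n'`, `d ∣ c`, `n'` coprime to `c`. -/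
theorem sum_split {c n : O} (hc : Primary c) (hn : Primary n) (x : ℂ) :
    ∑ d ∈ pdiv c, (if Primary n ∧ ∃ n', n = d * n' ∧ IsCoprime n' c then mu n * x else 0) =
      mu n * x := by
  by_cases hsq : Squarefree n
  swap
  · simp [BasicB.mu_of_not hsq]
  have hg := primary_pgcd n c
  obtain ⟨h1, h2⟩ := (dvd_pgcd_iff hn.ne_zero hc.ne_zero hg).1 dvd_rfl
  rw [Finset.sum_eq_single (pgcd n c)]
  · refine if_pos ⟨hn, ?_⟩
    obtain ⟨n', hn'⟩ := h1
    refine ⟨n', hn', by_contra fun h => ?_⟩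
    have hn0 : n' ≠ 0 := by
      rintro rfl
      exact hn.ne_zero (by rw [hn', mul_zero])
    obtain ⟨p, hp, hpc⟩ := (SymbolAux.not_coprime_iff' hn0).1 h
    obtain ⟨h3, h4, h5⟩ := BasicB.of_mem_pf hp
    have h6 : p ∣ pgcd n c :=
      (dvd_pgcd_iff hn.ne_zero hc.ne_zero h4).2 ⟨by rw [hn']; exact h5.mul_left _, hpc⟩
    exact h3.not_isUnit (hsq p (by rw [hn']; exact mul_dvd_mul h6 h5))
  · intro d hd hne
    refine if_neg ?_
    rintro ⟨-, n', hn', hco⟩
    obtain ⟨h3, h4⟩ := (mem_pdiv hc.ne_zero).1 hd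
    refine hne (h3.eq_of_associated hg (associated_of_dvd_dvd
      ((dvd_pgcd_iff hn.ne_zero hc.ne_zero h3).2 ⟨⟨n', hn'⟩, h4⟩) ?_))
    have h5 : IsCoprime (pgcd n c) n' := (hco.of_isCoprime_of_dvd_right h2).symm
    exact h5.dvd_of_dvd_mul_right (hn' ▸ h1)
  · intro h
    exact absurd ((mem_pdiv hc.ne_zero).2 ⟨hg, h2⟩) h

open Classical in
/-- Removal of the coprimality condition. -/
theorem mob_eq_sum {c : O} (hc : Primary c) {B : ℝ} (hB : 0 < B) :
    (∑' n : O, if Primary n then mu n * Wc (nr n / B) 0 else 0) =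
      ∑ d ∈ pdiv c, mu d * ∑' n : O,
        if Primary n then mu n * conj (sym n (c ^ 6)) * Wc (nr n / (B / nr d)) 0 else 0 := by
  have h1 : ∀ d ∈ pdiv c, (mu d * ∑' n : O,
      if Primary n then mu n * conj (sym n (c ^ 6)) * Wc (nr n / (B / nr d)) 0 else 0) =
      ∑' n : O, if Primary n ∧ ∃ n', n = d * n' ∧ IsCoprime n' c then
        mu n * Wc (nr n / B) 0 else 0 := by
    intro d hd
    obtain ⟨h3, h4⟩ := (mem_pdiv hc.ne_zero).1 hd
    rw [← tsum_mul_left]
    refine Eq.trans ?_ ((mul_right_injective₀ h3.ne_zero).tsum_eq ?_)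
    · refine tsum_congr fun n => ?_
      by_cases hn : Primary n
      · rw [if_pos hn, conj_sym_six hn.ne_zero]
        by_cases hco : IsCoprime n c
        · rw [if_pos hco, if_pos ⟨h3.mul hn, n, rfl, hco⟩,
            mu_mul h3 hn (hco.of_isCoprime_of_dvd_right h4).symm, nr_mul,
            div_div_eq_mul_div, mul_comm (nr n)]
          ring
        · rw [if_neg hco, if_neg]
          · simp
          · rintro ⟨-, n', h5, h6⟩
            exact hco (mul_left_cancel₀ h3.ne_zero h5 ▸ h6)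
      · rw [if_neg hn, if_neg fun h => hn (h3.of_mul h.1), mul_zero]
    · intro n hn
      by_contra h
      refine hn (if_neg ?_)
      rintro ⟨-, n', h5, -⟩
      exact h ⟨n', h5.symm⟩
  rw [Finset.sum_congr rfl h1, ← Summable.tsum_finsetSum fun d _ =>
    summable_term (fun n h => h.1) norm_mu_le hB]
  refine tsum_congr fun n => ?_
  by_cases hn : Primary n
  · rw [if_pos hn, sum_split hc hn]
  · rw [if_neg hn]
    exact (Finset.sum_eq_zero fun d _ => if_neg fun h => hn h.1).symm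

open Classical in
/-- Splitting into classes. -/
theorem norm_le_sum_cls {b : O → ℂ} (hb : ∀ n, ‖b n‖ ≤ 1) {B : ℝ} (hB : 0 < B) :
    ‖∑' n : O, if Primary n then b n * Wc (nr n / B) 0 else 0‖ ≤
      ∑ κ : WithZero Cl,
        ‖∑' n : O, if Primary n ∧ cls n = κ then b n * Wc (nr n / B) 0 else 0‖ := by
  refine le_trans (le_of_eq ?_) (norm_sum_le _ _)
  rw [← Summable.tsum_finsetSum fun κ _ => summable_term (fun n h => h.1) hb hB]
  congr 1
  refine tsum_congr fun n => ?_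
  by_cases hn : Primary n
  · rw [if_pos hn, Finset.sum_eq_single (cls n), if_pos ⟨hn, rfl⟩]
    · intro κ _ h
      exact if_neg fun h' => h h'.2.symm
    · simp
  · rw [if_neg hn]
    exact (Finset.sum_eq_zero fun d _ => if_neg fun h => hn h.1).symm

open Classical in
theorem card_dvd_le {d : O} (hd : Primary d) (Y : ℕ) :
    (((pball Y).filter (d ∣ ·)).card : ℝ) ≤ Fr0.kp * Y / nr d := by
  have h0 : 0 < nm d := Nat.pos_of_ne_zero fun h => hd.ne_zero (nm_eq_zero.1 h)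
  have h1 : (pball Y).filter (d ∣ ·) ⊆ (pball (Y / nm d)).image (d * ·) := by
    intro c hc
    obtain ⟨h2, e, rfl⟩ := Finset.mem_filter.1 hc
    obtain ⟨h3, h4⟩ := mem_pball.1 h2
    refine Finset.mem_image.2 ⟨e, mem_pball.2 ⟨hd.of_mul h3, ?_⟩, rfl⟩
    rw [Nat.le_div_iff_mul_le h0, mul_comm, ← nm_mul]
    exact h4
  have h2 := ((Finset.card_le_card h1).trans Finset.card_image_le).trans (card_pball_le _)
  calc (((pball Y).filter (d ∣ ·)).card : ℝ) ≤ (Fr0.kp * (Y / nm d) : ℕ) := by exact_mod_cast h2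
    _ ≤ Fr0.kp * Y / nr d := by
      rw [Nat.cast_mul, mul_div_assoc]
      exact mul_le_mul_of_nonneg_left Nat.cast_div_le (Nat.cast_nonneg _)

theorem pow_six_inj {c c' : O} (hc : Primary c) (hc' : Primary c') (h : c ^ 6 = c' ^ 6) :
    c = c' :=
  hc.ext_vp hc' fun p hp _ => by
    have := congrArg (vp p) h
    rw [vp_pow hp hc.ne_zero, vp_pow hp hc'.ne_zero] at this
    omega

theorem sum_inv_le {η : ℝ} (hη : 0 < η) : ∃ Z : ℝ, 0 < Z ∧ ∀ (Y : ℕ) (B : ℝ), (Y : ℝ) ≤ B →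
    ∑ d ∈ pball Y, (nr d)⁻¹ ≤ Z * B ^ η := by
  classical
  have hs := summable_prim (σ := 1 + η) (by linarith)
  have h0 : ∀ n : O, 0 ≤ if Primary n then nr n ^ (-(1 + η)) else 0 := fun n => by
    split_ifs
    · positivity
    · exact le_rfl
  refine ⟨(∑' n : O, if Primary n then nr n ^ (-(1 + η)) else 0) + 1,
    add_pos_of_nonneg_of_pos (tsum_nonneg h0) one_pos, fun Y B hY => ?_⟩
  have hB : 0 ≤ B := (Nat.cast_nonneg _).trans hY
  calc ∑ d ∈ pball Y, (nr d)⁻¹
      ≤ ∑ d ∈ pball Y, (if Primary d then nr d ^ (-(1 + η)) else 0) * B ^ η := by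
        refine Finset.sum_le_sum fun d hd => ?_
        obtain ⟨h1, h2⟩ := mem_pball.1 hd
        have h3 := nr_pos h1.ne_zero
        have h4 : nr d ≤ B := le_trans (by exact_mod_cast h2) hY
        rw [if_pos h1, ← Real.rpow_neg_one, show (-1 : ℝ) = -(1 + η) + η by ring,
          Real.rpow_add h3]
        exact mul_le_mul_of_nonneg_left (Real.rpow_le_rpow h3.le h4 hη.le) (by positivity)
    _ ≤ _ := by
        rw [← Finset.sum_mul]
        exact mul_le_mul_of_nonneg_right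
          ((hs.sum_le_tsum _ fun n _ => h0 n).trans (by linarith)) (by positivity)

end

end A84

open A84 in
/-- **Amplification.** -/
theorem mobFr_84 [Fr] (h : SStmt) : MobFr := by
  classical
  intro ε hε
  obtain ⟨C, hC, hS⟩ := h ε hε
  obtain ⟨c₀, hc₀, hcnt⟩ := Fr.cntAx
  obtain ⟨Z, hZ, hsum⟩ := sum_inv_le (half_pos hε)
  set D : ℝ := Real.sqrt (2 * Fr0.kp * C) + 1 with hD
  have hD0 : 0 < D := by positivity
  have hD2 : 2 * Fr0.kp * C ≤ D ^ 2 := by
    have := Real.sq_sqrt (show 0 ≤ 2 * (Fr0.kp : ℝ) * C by positivity)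
    nlinarith [Real.sqrt_nonneg (2 * (Fr0.kp : ℝ) * C)]
  set K : ℝ := (Fintype.card (WithZero Cl) : ℝ) with hK
  have hK0 : 0 < K := by rw [hK]; exact_mod_cast Fintype.card_pos
  refine ⟨K * D * Z / c₀, by positivity, fun B hB => ?_⟩
  have hB0 : 0 < B := by linarith
  set y : ℝ := B ^ (1 / 6 : ℝ) with hy
  have hy1 : 1 ≤ y := Real.one_le_rpow hB (by norm_num)
  have hy6 : y ^ 6 = B := by
    rw [hy, ← Real.rpow_natCast, ← Real.rpow_mul hB0.le]; norm_num
  have hyB : y ≤ B := by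
    rw [← hy6]; exact le_self_pow₀ hy1 (by norm_num)
  set Y : ℕ := ⌊y⌋₊ with hY
  have hYy : (Y : ℝ) ≤ y := Nat.floor_le (by linarith)
  have hY1 : (1 : ℝ) ≤ Y := by exact_mod_cast Nat.floor_pos.2 hy1
  have hY2 : y ≤ 2 * Y := by linarith [Nat.lt_floor_add_one y]
  set T : ℝ := B ^ (11 / 12 + ε / 2) with hT
  have hT0 : 0 < T := by positivity
  have hT2 : B ^ (1 + ε) * B = y * T ^ 2 := by
    rw [hy, hT, ← Real.rpow_natCast, ← Real.rpow_mul hB0.le, ← Real.rpow_add hB0,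
      ← Real.rpow_add_one hB0.ne']
    congr 1; push_cast; ring
  set M : ℝ := ‖∑' n : O, if Primary n then mu n * Wc (nr n / B) 0 else 0‖ with hM
  set x : WithZero Cl → O → O → ℝ := fun κ d a => ‖∑' n : O, if Primary n ∧ cls n = κ then
    mu n * conj (sym n a) * Wc (nr n / (B / nr d)) 0 else 0‖ with hx
  have hx0 : ∀ κ d a, 0 ≤ x κ d a := fun _ _ _ => norm_nonneg _
  -- pointwise bound
  have h1 : ∀ c ∈ pball Y, M ≤ ∑ d ∈ pball Y, if d ∣ c then ∑ κ, x κ d (c ^ 6) else 0 := by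
    intro c hc
    obtain ⟨h2, h3⟩ := mem_pball.1 hc
    rw [hM, mob_eq_sum h2 hB0, ← Finset.sum_filter]
    refine (norm_sum_le _ _).trans (le_trans (Finset.sum_le_sum fun d hd => ?_)
      (Finset.sum_le_sum_of_subset_of_nonneg (s := pdiv c) (fun d hd => ?_)
        fun d _ _ => Finset.sum_nonneg fun κ _ => hx0 _ _ _))
    · rw [norm_mul]
      refine (mul_le_of_le_one_left (norm_nonneg _) (norm_mu_le d)).trans ?_
      refine norm_le_sum_cls (b := fun n => mu n * conj (sym n (c ^ 6))) (fun n => ?_)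
        (div_pos hB0 (nr_pos ((mem_pdiv h2.ne_zero).1 hd).1.ne_zero))
      rw [norm_mul, Complex.norm_conj]
      exact mul_le_one₀ (norm_mu_le _) (norm_nonneg _) (norm_sym_le _ _)
    · obtain ⟨h4, h5⟩ := (mem_pdiv h2.ne_zero).1 hd
      exact Finset.mem_filter.2 ⟨mem_pball.2 ⟨h4, (nm_le_of_dvd h5 h2.ne_zero).trans h3⟩, h5⟩
  -- Cauchy–Schwarz
  have h2 : ∀ d ∈ pball Y, ∀ κ, ∑ c ∈ (pball Y).filter (d ∣ ·), x κ d (c ^ 6) ≤
      D * Y * T * (nr d)⁻¹ := by
    intro d hd κ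
    obtain ⟨h3, h4⟩ := mem_pball.1 hd
    have h5 := one_le_nr h3.ne_zero
    have h6 : nr d ≤ B := le_trans (by exact_mod_cast h4) (hYy.trans hyB)
    have h7 : ∑ a ∈ pball ⌊B⌋₊, x κ d a ^ 2 ≤ C * B ^ (1 + ε) * (B / nr d) := by
      have := hS κ B (B / nr d) ((one_le_div (by linarith)).2 h6) (div_le_self hB0.le h5)
      simp only [hx]
      convert this
    have h8 : ∑ c ∈ (pball Y).filter (d ∣ ·), x κ d (c ^ 6) ^ 2 ≤
        C * B ^ (1 + ε) * (B / nr d) := by
      refine le_trans ?_ h7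
      rw [← Finset.sum_image (s := (pball Y).filter (d ∣ ·)) (g := fun c => c ^ 6)
        (f := fun a => x κ d a ^ 2) fun c hc c' hc' e =>
          pow_six_inj (mem_pball.1 (Finset.mem_filter.1 hc).1).1
            (mem_pball.1 (Finset.mem_filter.1 hc').1).1 e]
      refine Finset.sum_le_sum_of_subset_of_nonneg (fun a ha => ?_) fun _ _ _ => sq_nonneg _
      obtain ⟨c, hc, rfl⟩ := Finset.mem_image.1 ha
      obtain ⟨h9, h10⟩ := mem_pball.1 (Finset.mem_filter.1 hc).1
      refine mem_pball.2 ⟨h9.pow 6, Nat.le_floor ?_⟩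
      rw [nm_pow, Nat.cast_pow, ← hy6]
      exact pow_le_pow_left₀ (Nat.cast_nonneg _) (le_trans (by exact_mod_cast h10) hYy) 6
    refine abs_le_of_sq_le_sq' ?_ (by positivity) |>.2
    refine sq_sum_le_card_mul_sum_sq.trans ?_
    refine (mul_le_mul (card_dvd_le h3 Y) h8 (by positivity) (by positivity)).trans ?_
    have h9 : (Fr0.kp : ℝ) * Y / nr d * (C * B ^ (1 + ε) * (B / nr d)) =
        (Fr0.kp * C * y) * (Y * T ^ 2 * (nr d)⁻¹ ^ 2) := by
      rw [show (Fr0.kp : ℝ) * Y / nr d * (C * B ^ (1 + ε) * (B / nr d)) =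
        Fr0.kp * Y * C * (B ^ (1 + ε) * B) * (nr d)⁻¹ ^ 2 by field_simp, hT2]
      ring
    rw [h9, show (D * Y * T * (nr d)⁻¹) ^ 2 = (D ^ 2 * Y) * (Y * T ^ 2 * (nr d)⁻¹ ^ 2) by ring]
    refine mul_le_mul_of_nonneg_right ?_ (by positivity)
    calc (Fr0.kp : ℝ) * C * y ≤ Fr0.kp * C * (2 * Y) :=
          mul_le_mul_of_nonneg_left hY2 (by positivity)
      _ = 2 * Fr0.kp * C * Y := by ring
      _ ≤ D ^ 2 * Y := mul_le_mul_of_nonneg_right hD2 (by positivity)
  have h3 : c₀ * Y * M ≤ K * D * Y * T * (Z * B ^ (ε / 2)) :=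
    calc c₀ * Y * M ≤ (pball Y).card * M := mul_le_mul_of_nonneg_right (hcnt Y) (norm_nonneg _)
      _ = ∑ c ∈ pball Y, M := by rw [Finset.sum_const, nsmul_eq_mul]
      _ ≤ ∑ c ∈ pball Y, ∑ d ∈ pball Y, if d ∣ c then ∑ κ, x κ d (c ^ 6) else 0 :=
          Finset.sum_le_sum h1
      _ = ∑ d ∈ pball Y, ∑ κ, ∑ c ∈ (pball Y).filter (d ∣ ·), x κ d (c ^ 6) := by
          rw [Finset.sum_comm]
          refine Finset.sum_congr rfl fun d _ => ?_
          rw [← Finset.sum_filter, Finset.sum_comm]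
      _ ≤ ∑ d ∈ pball Y, ∑ _κ : WithZero Cl, D * Y * T * (nr d)⁻¹ :=
          Finset.sum_le_sum fun d hd => Finset.sum_le_sum fun κ _ => h2 d hd κ
      _ = K * D * Y * T * ∑ d ∈ pball Y, (nr d)⁻¹ := by
          rw [Finset.mul_sum]
          refine Finset.sum_congr rfl fun d _ => ?_
          rw [Finset.sum_const, Finset.card_univ, nsmul_eq_mul]
          ring
      _ ≤ _ := mul_le_mul_of_nonneg_left (hsum Y B (hYy.trans hyB)) (by positivity)
  have h4 : B ^ (11 / 12 + ε) = T * B ^ (ε / 2) := by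
    rw [hT, ← Real.rpow_add hB0]; congr 1; ring
  rw [h4, div_mul_eq_mul_div, le_div_iff₀ hc₀]
  refine le_of_mul_le_mul_left (a := (Y : ℝ)) ?_ (by linarith)
  calc (Y : ℝ) * (M * c₀) = c₀ * Y * M := by ring
    _ ≤ _ := h3
    _ = _ := by ring

end Crest.Agent.T27
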