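import Crest.Agent.T27.EndDefs_65
import Crest.Agent.PVc.R5.Mertens

/-! Row 27: many shifted primes have a very large prime factor (`BigK`). -/

set_option autoImplicit false

namespace Crest.Agent.T27

open Finset Filter

namespace Big65

theorem mem_pr {A B : ℝ} {p : ℕ} (h : p ∈ R5.pr A B) (hB : 0 ≤ B) :
    p.Prime ∧ A < p ∧ (p : ℝ) ≤ B := by
  classical
  simp only [R5.pr, mem_filter, mem_Icc] at h
  exact ⟨h.2.1, h.2.2, (Nat.le_floor_iff hB).1 h.1.2⟩

theorem few {m n : ℕ} (hm : 10 ≤ m) (hn : 1 ≤ n) (hn' : n ≤ 9 * m ^ 2) {T : Finset ℕ}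
    (hT : ∀ p ∈ T, p.Prime ∧ p ∣ n ∧ (m : ℝ) ^ (1 / 2 : ℝ) ≤ p) : T.card ≤ 5 := by
  by_contra hc
  have hm1 : (1 : ℝ) ≤ m := by exact_mod_cast (by omega : 1 ≤ m)
  have h1 : ∏ p ∈ T, p ∣ n :=
    Finset.prod_primes_dvd n (fun p hp => (hT p hp).1.prime) fun p hp => (hT p hp).2.1
  have h2 : ((m : ℝ) ^ (1 / 2 : ℝ)) ^ T.card ≤ ∏ p ∈ T, (p : ℝ) := by
    rw [← prod_const]
    exact prod_le_prod (fun _ _ => by positivity) fun p hp => (hT p hp).2.2
  have h3 : (∏ p ∈ T, (p : ℝ)) ≤ 9 * (m : ℝ) ^ 2 := by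
    have := (Nat.cast_le (α := ℝ)).2 ((Nat.le_of_dvd hn h1).trans hn')
    push_cast at this
    exact this
  have h4 : ((m : ℝ) ^ (1 / 2 : ℝ)) ^ 6 ≤ ((m : ℝ) ^ (1 / 2 : ℝ)) ^ T.card :=
    pow_le_pow_right₀ (Real.one_le_rpow hm1 (by norm_num)) (by omega)
  have h5 : ((m : ℝ) ^ (1 / 2 : ℝ)) ^ 6 = (m : ℝ) ^ 3 := by
    rw [← Real.rpow_natCast, ← Real.rpow_mul (by linarith), ← Real.rpow_natCast]
    norm_num
  have h6 : (10 : ℝ) ≤ m := by exact_mod_cast hm
  nlinarith [pow_pos (by linarith : (0 : ℝ) < m) 2]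

theorem split (f : ℕ → ℝ) (P : ℕ → Prop) [DecidablePred P] {a b : ℕ} (h : a ≤ b) :
    ∑ p ∈ (Ioc a b).filter P, f p =
      ∑ p ∈ (Ioc 0 b).filter P, f p - ∑ p ∈ (Ioc 0 a).filter P, f p := by
  simp only [sum_filter]
  rw [← sum_Ioc_consecutive _ (Nat.zero_le a) h]
  ring

theorem ev_log (K : ℝ) : ∀ᶠ m : ℕ in atTop, K ≤ Real.log m :=
  (Real.tendsto_log_atTop.comp tendsto_natCast_atTop_atTop).eventually_ge_atTop K

theorem mul_top {k : ℕ} (hk : 0 < k) : Tendsto (fun m : ℕ => k * m) atTop atTop :=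
  tendsto_atTop_mono (fun m => Nat.le_mul_of_pos_left m hk) tendsto_id

theorem low (hθ : ThetaAP) {M r : ℕ} (hM : 1 ≤ M) (hr : r.Coprime M) : ∀ᶠ m : ℕ in atTop,
    1 / (4 * (M.totient : ℝ)) * (m / Real.log m) ≤
      ((Ioc (2 * m) (3 * m)).filter (fun p => p.Prime ∧ p ≡ r [MOD M])).card := by
  have hφ : (0 : ℝ) < M.totient := by exact_mod_cast Nat.totient_pos.2 hM
  have h := hθ M r (1 / (10 * M.totient)) hM hr (by positivity)
  filter_upwards [(mul_top (k := 2) (by norm_num)).eventually h,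
    (mul_top (k := 3) (by norm_num)).eventually h, eventually_ge_atTop 3] with m h2 h3 hm
  have hm' : (3 : ℝ) ≤ m := by exact_mod_cast hm
  have hl : 0 < Real.log m := Real.log_pos (by linarith)
  have h4 := split (fun p => Real.log p) (fun p => p.Prime ∧ p ≡ r [MOD M])
    (by omega : 2 * m ≤ 3 * m)
  have h5 : ∑ p ∈ (Ioc (2 * m) (3 * m)).filter (fun p => p.Prime ∧ p ≡ r [MOD M]), Real.log p ≤
      ((Ioc (2 * m) (3 * m)).filter (fun p => p.Prime ∧ p ≡ r [MOD M])).card * (2 * Real.log m) := by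
    rw [← nsmul_eq_mul]
    refine sum_le_card_nsmul _ _ _ fun p hp => ?_
    have h6 := mem_Ioc.1 (mem_filter.1 hp).1
    have h7 : (p : ℝ) ≤ 3 * m := by exact_mod_cast h6.2
    have h8 : (0 : ℝ) < p := by exact_mod_cast (by omega : 0 < p)
    calc Real.log p ≤ Real.log ((m : ℝ) ^ 2) := Real.log_le_log h8 (by nlinarith)
      _ = _ := by rw [Real.log_pow]; norm_num
  have h6 := (abs_le.1 h2).2
  have h7 := (abs_le.1 h3).1
  push_cast at h6 h7
  have e1 : (1 : ℝ) / (10 * M.totient) * (2 * m) = 1 / 5 * (m / M.totient) := by field_simp; ring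
  have e2 : (1 : ℝ) / (10 * M.totient) * (3 * m) = 3 / 10 * (m / M.totient) := by field_simp
  have e3 : (2 * m : ℝ) / M.totient = 2 * (m / M.totient) := by ring
  have e4 : (3 * m : ℝ) / M.totient = 3 * (m / M.totient) := by ring
  have e5 : 1 / (4 * (M.totient : ℝ)) * (m / Real.log m) =
      1 / 2 * (m / M.totient) / (2 * Real.log m) := by field_simp; ring
  rw [e5, div_le_iff₀ (by positivity)]
  rw [e1, e3] at h6
  rw [e2, e4] at h7
  linarith

end Big65

open Big65 in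
theorem big_65 (hA : R27.MainAP) (hθ : ThetaAP) : BigK := by
  classical
  intro κ hκ hκ2
  obtain ⟨C, hC, hMer, -⟩ := R5.mertens
  obtain ⟨l, hl⟩ : ∃ l : ℝ, l = Real.log (1 - κ / 2) - Real.log (1 - κ) := ⟨_, rfl⟩
  have hl0 : 0 < l := by
    rw [hl, sub_pos]
    exact Real.log_lt_log (by linarith) (by linarith)
  refine ⟨l / 80, by positivity, fun M r hM hr => ?_⟩
  have hφ : (0 : ℝ) < M.totient := by exact_mod_cast Nat.totient_pos.2 hM
  have h := hA M r (κ / 2) (2 * l + 5) (l / (80 * M.totient)) hM (by positivity) (by linarith)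
    (by positivity)
  filter_upwards [(mul_top (k := 2) (by norm_num)).eventually h,
    (mul_top (k := 3) (by norm_num)).eventually h, low hθ hM hr, eventually_ge_atTop 10,
    ev_log 8, ev_log (4 * C / l)] with m h2 h3 hlow hm hl8 hlC
  have hm' : (10 : ℝ) ≤ m := by exact_mod_cast hm
  have hm1 : (1 : ℝ) ≤ m := by linarith
  have hlog : 0 < Real.log m := by linarith
  obtain ⟨R, hR⟩ : ∃ R, R = R5.pr ((m : ℝ) ^ (1 - κ)) ((m : ℝ) ^ (1 - κ / 2)) := ⟨_, rfl⟩
  have hRm : ∀ p ∈ R, p.Prime ∧ (m : ℝ) ^ (1 - κ) < p ∧ (p : ℝ) ≤ (m : ℝ) ^ (1 - κ / 2) :=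
    fun p hp => mem_pr (hR ▸ hp) (by positivity)
  have hhalf : (m : ℝ) ^ (1 / 2 : ℝ) ≤ (m : ℝ) ^ (1 - κ) :=
    Real.rpow_le_rpow_of_exponent_le hm1 (by linarith)
  have hL : |∑ p ∈ R, 1 / (p : ℝ) - l| ≤ l / 2 := by
    have h2A : (2 : ℝ) ≤ (m : ℝ) ^ (1 - κ) := by
      refine le_trans ?_ hhalf
      rw [← Real.sqrt_eq_rpow]
      exact Real.le_sqrt_of_sq_le (by linarith)
    have h4 := hMer _ _ h2A (Real.rpow_le_rpow_of_exponent_le hm1 (by linarith : 1 - κ ≤ 1 - κ / 2))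
    rw [Real.log_rpow (by linarith), Real.log_rpow (by linarith),
      Real.log_mul (by linarith) hlog.ne', Real.log_mul (by linarith) hlog.ne', ← hR] at h4
    have e : Real.log (1 - κ / 2) + Real.log (Real.log m) -
      (Real.log (1 - κ) + Real.log (Real.log m)) = l := by rw [hl]; ring
    rw [e] at h4
    refine h4.trans ?_
    rw [div_le_iff₀ hl0] at hlC
    rw [div_le_iff₀ (mul_pos (by linarith) hlog)]
    nlinarith [mul_pos hl0 hlog]
  have hfew : ∀ n : ℕ, 1 ≤ n → n ≤ 9 * m ^ 2 → (R.filter (fun d => d ∣ n)).card ≤ 5 :=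
    fun n h1 h2 => few hm h1 h2 fun p hp =>
      ⟨(hRm p (mem_filter.1 hp).1).1, (mem_filter.1 hp).2,
        hhalf.trans (hRm p (mem_filter.1 hp).1).2.1.le⟩
  have hT : ∀ X : ℕ, m ≤ X → X ≤ 3 * m → R5.TypeI X (κ / 2) (2 * l + 5) R (fun _ => 1) ∧
      ∀ d ∈ R, ∀ p : ℕ, p.Prime → p ∣ d → (X : ℝ) ^ (κ / 2) < p := fun X hX1 hX2 => by
    have hX1' : (m : ℝ) ≤ X := by exact_mod_cast hX1
    have hX2' : (X : ℝ) ≤ (m : ℝ) ^ 2 := by
      have : (X : ℝ) ≤ 3 * m := by exact_mod_cast hX2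
      nlinarith
    have heq : ∀ d ∈ R, ∀ p : ℕ, p.Prime → p ∣ d → (m : ℝ) ^ (1 - κ) < p := fun d hd p hp hpd => by
      rw [(Nat.prime_dvd_prime_iff_eq hp (hRm d hd).1).1 hpd]
      exact (hRm d hd).2.1
    refine ⟨⟨fun _ => by simp, fun d hd => (hRm d hd).1.one_le, fun d hd => (hRm d hd).2.2.trans
      (Real.rpow_le_rpow (by linarith) hX1' (by linarith)), fun d hd p hp hpd => ?_,
      by linarith [(abs_le.1 hL).2], fun n h1 h2 => ?_⟩, fun d hd p hp hpd => ?_⟩
    · refine lt_of_le_of_lt (le_trans ?_ hhalf) (heq d hd p hp hpd)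
      rw [Real.rpow_def_of_pos (by linarith)]
      refine Real.exp_le_exp.2 (Real.sqrt_le_iff.2 ⟨by positivity, ?_⟩)
      have : Real.log X ≤ 2 * Real.log m := by
        refine (Real.log_le_log (by linarith) hX2').trans_eq ?_
        rw [Real.log_pow]; norm_num
      nlinarith
    · have : ((R.filter (fun d => d ∣ n)).card : ℝ) ≤ 5 := by
        exact_mod_cast hfew n h1 (h2.trans (by nlinarith))
      linarith
    · refine lt_of_le_of_lt ?_ (heq d hd p hp hpd)
      calc (X : ℝ) ^ (κ / 2) ≤ ((m : ℝ) ^ (2 : ℝ)) ^ (κ / 2) :=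
            Real.rpow_le_rpow (by linarith) (by rwa [Real.rpow_two]) (by linarith)
        _ = (m : ℝ) ^ (2 * (κ / 2)) := (Real.rpow_mul (by linarith) _ _).symm
        _ ≤ _ := Real.rpow_le_rpow_of_exponent_le hm1 (by linarith)
  have g2 := h2 R _ (hT _ (by omega) (by omega)).1 (hT _ (by omega) (by omega)).2
  have g3 := h3 R _ (hT _ (by omega) le_rfl).1 (hT _ (by omega) le_rfl).2
  have eI : ∀ X : ℕ, Icc 1 X = Ioc 0 X := fun X => rfl
  rw [eI] at g2 g3
  have h4 := split (fun p => R5.gI R (fun _ => 1) (p - 1)) (fun p => p.Prime ∧ p ≡ r [MOD M])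
    (by omega : 2 * m ≤ 3 * m)
  obtain ⟨P, hP⟩ : ∃ P, P = (Ioc (2 * m) (3 * m)).filter (fun p => p.Prime ∧ p ≡ r [MOD M]) :=
    ⟨_, rfl⟩
  rw [← hP] at h4 hlow
  have h5 : ∑ p ∈ P, R5.gI R (fun _ => 1) (p - 1) ≤
      5 * (bigK κ M r m).card - l / 2 * P.card := by
    have e : (bigK κ M r m) = P.filter (fun p => p ∈ bigK κ M r m) := by
      ext p
      simp only [mem_filter, iff_and_self]
      intro hp
      simp only [bigK, mem_filter] at hp
      rw [hP, mem_filter]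
      exact ⟨hp.1, hp.2.1, hp.2.2.1⟩
    calc _ ≤ ∑ p ∈ P, (5 * (if p ∈ bigK κ M r m then 1 else 0) - l / 2) := by
          refine sum_le_sum fun p hp => ?_
          simp only [R5.gI, one_mul, sum_sub_distrib, sum_boole]
          have h6 := (abs_le.1 hL).1
          rw [hP, mem_filter, mem_Ioc] at hp
          split_ifs with hb
          · have : ((R.filter (fun d => d ∣ p - 1)).card : ℝ) ≤ 5 := by
              exact_mod_cast hfew (p - 1) (by omega) (by nlinarith [hp.1.2, Nat.sub_le p 1])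
            linarith
          · have : R.filter (fun d => d ∣ p - 1) = ∅ := filter_eq_empty_iff.2 fun Q hQ hQp => hb (by
              simp only [bigK, mem_filter, mem_Ioc]
              exact ⟨hp.1, hp.2.1, hp.2.2, Q, (hRm Q hQ).1, (hRm Q hQ).2.1, hQp⟩)
            rw [this, card_empty]
            push_cast
            linarith
      _ = _ := by
          rw [sum_sub_distrib, ← mul_sum, sum_boole, ← e, sum_const, nsmul_eq_mul]
          ring
  have h6 : ∀ k : ℕ, 1 ≤ k → l / (80 * M.totient) * ((k * m : ℕ) : ℝ) / Real.log ((k * m : ℕ) : ℝ) ≤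
      k * (l / 80 / M.totient * (m / Real.log m)) := fun k hk => by
    have hk' : (1 : ℝ) ≤ k := by exact_mod_cast hk
    have : Real.log m ≤ Real.log ((k * m : ℕ) : ℝ) := Real.log_le_log (by linarith) (by
      push_cast
      nlinarith)
    calc _ ≤ l / (80 * M.totient) * ((k * m : ℕ) : ℝ) / Real.log m := by gcongr
      _ = _ := by
        push_cast
        field_simp
  have g2' := (abs_le.1 (g2.trans (h6 2 (by norm_num)))).2
  have g3' := (abs_le.1 (g3.trans (h6 3 (by norm_num)))).1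
  have e : l / 2 * (1 / (4 * (M.totient : ℝ)) * (m / Real.log m)) =
      10 * (l / 80 / M.totient * (m / Real.log m)) := by
    field_simp
    ring
  have h7 := mul_le_mul_of_nonneg_left hlow (by positivity : 0 ≤ l / 2)
  push_cast at g2' g3'
  linarith

end Crest.Agent.T27
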