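import Crest.Agent.T27.ThG1_80

/-!
# Row 27, theta leaf A2b: multiplicity of boxes, Parseval on boxes

`BoxStmt F` from `LatStmt F`, `GeomStmt F` and a family of lattice weights with Parseval (`WPack`).
-/

set_option autoImplicit false

noncomputable section

namespace Crest.Agent.T27.TH.Box86

open scoped ComplexConjugate ENNReal NumberField
open MeasureTheory NumberField
open Crest.Agent.T27.TH.G

variable {F : Type} [Field F] [NumberField F] [Emb F]

/-- Counting pairs `(c, d)` with `c` in a box and `c z + d` in a box of bounded size. -/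
theorem count_pairs (hL : LatStmt F) (T' : ℝ) (hT' : 0 ≤ T') : ∃ C : ℝ, 0 < C ∧
    ∀ (z : Pl F → ℂ) (T : Pl F → ℝ) (S : Finset (F × F)), (∀ j, 0 ≤ T j) →
      (∀ u ∈ S, IsIntegral ℤ u.1 ∧ IsIntegral ℤ u.2 ∧
        ∀ j, ‖em u.1 j‖ ^ 2 ≤ T j ∧ ‖em u.1 j * z j + em u.2 j‖ ^ 2 ≤ T') →
      (S.card : ℝ) ≤ C * (1 + ∏ j, T j) := by
  classical
  obtain ⟨C, hC⟩ := hL.count 1 one_ne_zero
  have hC0 : 0 ≤ C := by
    have h := hC 0 (fun _ => 0) {0} (fun _ => le_rfl) (by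
      intro x hx
      rw [Finset.mem_singleton.1 hx]
      exact ⟨by simpa using isIntegral_zero, fun j => by simp⟩)
    have h2 : (0 : ℝ) < 1 + ∏ _j : Pl F, (0 : ℝ) := by positivity
    rw [Finset.card_singleton, Nat.cast_one] at h
    by_contra hneg
    have := mul_neg_of_neg_of_pos (lt_of_not_ge hneg) h2
    linarith
  set K : ℝ := C * (1 + ∏ _j : Pl F, T') with hK
  have hK0 : 0 ≤ K := by positivity
  refine ⟨K * C + 1, by positivity, fun z T S hT hS => ?_⟩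
  have hP : 0 ≤ ∏ j, T j := Finset.prod_nonneg fun j _ => hT j
  have h1 : ((S.image Prod.fst).card : ℝ) ≤ C * (1 + ∏ j, T j) := by
    refine hC 0 T _ hT fun x hx => ?_
    obtain ⟨u, hu, rfl⟩ := Finset.mem_image.1 hx
    exact ⟨by simpa using (hS u hu).1, fun j => by simpa using ((hS u hu).2.2 j).1⟩
  have h2 : ∀ c ∈ S.image Prod.fst, ((S.filter fun u => u.1 = c).card : ℝ) ≤ K := by
    intro c _
    have hinj : Set.InjOn (Prod.snd : F × F → F) (S.filter fun u => u.1 = c : Finset (F × F)) := by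
      intro u hu u' hu' h
      have h3 := (Finset.mem_filter.1 (Finset.mem_coe.1 hu)).2
      have h4 := (Finset.mem_filter.1 (Finset.mem_coe.1 hu')).2
      exact Prod.ext (h3.trans h4.symm) h
    rw [← Finset.card_image_of_injOn hinj]
    refine hC (fun j => -(em c j * z j)) (fun _ => T') _ (fun _ => hT') fun x hx => ?_
    obtain ⟨u, hu, rfl⟩ := Finset.mem_image.1 hx
    obtain ⟨hu1, rfl⟩ := Finset.mem_filter.1 hu
    refine ⟨by simpa using (hS u hu1).2.1, fun j => ?_⟩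
    rw [sub_neg_eq_add, add_comm]
    exact ((hS u hu1).2.2 j).2
  rw [Finset.card_eq_sum_card_image Prod.fst S, Nat.cast_sum]
  refine (Finset.sum_le_card_nsmul _ _ K h2).trans ?_
  rw [nsmul_eq_mul]
  calc ((S.image Prod.fst).card : ℝ) * K ≤ C * (1 + ∏ j, T j) * K := by gcongr
    _ ≤ (K * C + 1) * (1 + ∏ j, T j) := by nlinarith

/-- The number of second rows of integral matrices that move `w` into a box. -/
theorem count_rows (hL : LatStmt F) (L : ℝ) : ∃ C : ℝ, 0 < C ∧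
    ∀ (a : Pl F → ℝ) (w : HH F) (S : Finset (SL F)),
      (∀ g ∈ S, g ∈ Gam0 F ∧ lF (g • w) ∈ box a L) →
      Set.InjOn (fun g : SL F => row2 (g : Mat F)) S →
      (S.card : ℝ) ≤ C * (1 + Real.exp (-2 * ∑ j, a j)) := by
  classical
  obtain ⟨C, hC0, hC⟩ := count_pairs hL (Real.exp L) (Real.exp_pos _).le
  refine ⟨C, hC0, fun a w S hS hinj => ?_⟩
  rcases S.eq_empty_or_nonempty with rfl | ⟨g0, hg0⟩
  · simp only [Finset.card_empty, Nat.cast_zero]
    positivity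
  have hinj' : Set.InjOn (fun g : SL F => row2 ((g * g0⁻¹ : SL F) : Mat F)) S := by
    intro g hg g' hg' h
    refine hinj hg hg' ?_
    simp only [Matrix.SpecialLinearGroup.coe_mul, row2_mul] at h
    exact (rowEquiv g0⁻¹).injective h
  rw [← Finset.card_image_of_injOn hinj']
  have e : Real.exp (-2 * ∑ j, a j) = ∏ j, Real.exp (-2 * a j) := by
    rw [Finset.mul_sum, Real.exp_sum]
  rw [e]
  refine hC (zF (g0 • w)) _ _ (fun _ => (Real.exp_pos _).le) fun u hu => ?_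
  obtain ⟨g, hg, rfl⟩ := Finset.mem_image.1 hu
  have hm : g * g0⁻¹ ∈ Gam0 F := mul_mem (hS g hg).1 (inv_mem (hS g0 hg0).1)
  refine ⟨hm 1 0, hm 1 1, fun j => ?_⟩
  have h1 := QF_row2 (g * g0⁻¹) (g0 • w) j
  rw [← mul_smul, inv_mul_cancel_right, QF_eq] at h1
  have h2 := (hS g hg).2 j trivial
  have h3 := (hS g0 hg0).2 j trivial
  set c := ‖em (row2 ((g * g0⁻¹ : SL F) : Mat F)).1 j‖
  set d := ‖em (row2 ((g * g0⁻¹ : SL F) : Mat F)).1 j * zF (g0 • w) j +
    em (row2 ((g * g0⁻¹ : SL F) : Mat F)).2 j‖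
  set l := lF (g0 • w) j
  set l' := lF (g • w) j
  have hy := Real.exp_pos l
  rw [div_eq_iff hy.ne', ← Real.exp_add] at h1
  constructor
  · have h4 : c ^ 2 * Real.exp l ^ 2 ≤ Real.exp (-2 * a j) * Real.exp l ^ 2 := by
      refine le_trans (le_add_of_nonneg_left (sq_nonneg d)) (h1.le.trans ?_)
      rw [sq, ← Real.exp_add, ← Real.exp_add, Real.exp_le_exp]
      linarith [h2.1, h3.1]
    exact le_of_mul_le_mul_right h4 (by positivity)
  · refine le_trans (le_add_of_nonneg_right (by positivity)) (h1.le.trans ?_)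
    rw [Real.exp_le_exp]
    linarith [h2.1, h3.2]

/-- The test function `1_box(l) φ(z)`. -/
def tf (a : Pl F → ℝ) (L : ℝ) (φ : (Pl F → ℂ) → ℝ≥0∞) (w : HH F) : ℝ≥0∞ :=
  (box a L).indicator (fun _ => φ (zF w)) (lF w)

omit [NumberField F] [Emb F] in
theorem tf_of_mem {a : Pl F → ℝ} {L : ℝ} (φ : (Pl F → ℂ) → ℝ≥0∞) {w : HH F}
    (h : lF w ∈ box a L) : tf a L φ w = φ (zF w) := Set.indicator_of_mem h _

omit [NumberField F] [Emb F] in
theorem tf_of_notMem {a : Pl F → ℝ} {L : ℝ} (φ : (Pl F → ℂ) → ℝ≥0∞) {w : HH F}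
    (h : lF w ∉ box a L) : tf a L φ w = 0 := Set.indicator_of_notMem h _

omit [Emb F] in
theorem measurableSet_box (a : Pl F → ℝ) (L : ℝ) : MeasurableSet (box a L) :=
  MeasurableSet.univ_pi fun _ => measurableSet_Icc

omit [Emb F] in
theorem measurable_tf (a : Pl F → ℝ) (L : ℝ) {φ : (Pl F → ℂ) → ℝ≥0∞} (hφ : Measurable φ) :
    Measurable (tf a L φ) := by
  have : tf a L φ = (lF ⁻¹' box a L).indicator fun w => φ (zF w) := by
    funext w
    by_cases h : lF w ∈ box a L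
    · rw [tf_of_mem _ h, Set.indicator_of_mem (show w ∈ lF ⁻¹' box a L from h)]
    · rw [tf_of_notMem _ h, Set.indicator_of_notMem (show w ∉ lF ⁻¹' box a L from h)]
  rw [this]
  exact (hφ.comp continuous_zF.measurable).indicator
    (continuous_lF.measurable (measurableSet_box a L))

/-- Multiplicity with which a box covers `Δ \ HH`. -/
theorem tsum_tf_le (hL : LatStmt F) (L : ℝ) : ∃ C : ℝ, 0 < C ∧
    ∀ (Δ : Subgroup (SL F)) (a : Pl F → ℝ) (φ : (Pl F → ℂ) → ℝ≥0∞) (w : HH F), Δ ≤ Gam0 F →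
      (∀ z, ∑' t : latt F 1, φ (z + em (t : F)) ≤ 1) →
      ∑' δ : Δ, tf a L φ (δ • w) ≤ ENNReal.ofReal (C * (1 + Real.exp (-2 * ∑ j, a j))) := by
  classical
  obtain ⟨C, hC0, hC⟩ := count_rows hL L
  refine ⟨C, hC0, fun Δ a φ w hΔ hφ => ?_⟩
  let f : Gam0 F → ℝ≥0∞ := fun γ => tf a L φ ((γ : SL F) • w)
  have h1 : Function.Injective fun δ : Δ => (⟨δ, hΔ δ.2⟩ : Gam0 F) := fun δ δ' h =>
    Subtype.ext (congrArg (fun g : Gam0 F => (g : SL F)) h)
  refine le_trans (ENNReal.tsum_comp_le_tsum_of_injective h1 f) ?_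
  let R := {u : F × F // ∃ g ∈ Gam0 F, row2 (g : Mat F) = u}
  choose γ hγ hγ' using fun v : R => v.2
  have hlat : ∀ t : latt F 1, IsIntegral ℤ (t : F) := fun t => by
    obtain ⟨y, hy, h⟩ := t.2
    rw [h]
    simpa using hy
  have h3 : Function.Surjective fun p : R × latt F 1 =>
      (⟨nT (p.2 : F) * γ p.1, mul_mem (nT_mem_Gam0.2 (hlat p.2)) (hγ p.1)⟩ : Gam0 F) := by
    intro τ
    let v : R := ⟨row2 ((τ : SL F) : Mat F), τ, τ.2, rfl⟩
    have h := eq_nT_mul_of_row2 (g := τ) (h := γ v) (hγ' v).symm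
    have hi : IsIntegral ℤ ((τ : SL F) 0 1 * γ v 0 0 - (τ : SL F) 0 0 * γ v 0 1) :=
      ((τ.2 0 1).mul (hγ v 0 0)).sub ((τ.2 0 0).mul (hγ v 0 1))
    exact ⟨(v, ⟨_, mem_latt.2 ⟨_, hi, by rw [Nat.cast_one, one_mul]⟩⟩), Subtype.ext h.symm⟩
  refine (ENNReal.tsum_le_tsum_comp_of_surjective h3 f).trans ?_
  rw [ENNReal.tsum_prod']
  have h4 : ∀ v : R, ∑' t : latt F 1, tf a L φ ((nT (t : F) * γ v) • w) ≤
      if lF (γ v • w) ∈ box a L then 1 else 0 := by
    intro v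
    by_cases h : lF (γ v • w) ∈ box a L
    · rw [if_pos h]
      refine le_trans (le_of_eq (tsum_congr fun t => ?_)) (hφ (zF (γ v • w)))
      rw [mul_smul, tf_of_mem _ (by rwa [lF_nT_smul]), zF_nT_smul]
    · rw [if_neg h]
      refine le_of_eq (ENNReal.tsum_eq_zero.2 fun t => ?_)
      rw [mul_smul, tf_of_notMem _ (by rwa [lF_nT_smul])]
  refine (ENNReal.tsum_le_tsum h4).trans (ENNReal.summable.tsum_le_of_sum_le fun S => ?_)
  rw [Finset.sum_boole, ← ENNReal.ofReal_natCast]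
  refine ENNReal.ofReal_le_ofReal ?_
  have hγi : Function.Injective γ := fun v v' h =>
    Subtype.ext ((hγ' v).symm.trans (by rw [h]; exact hγ' v'))
  rw [← Finset.card_image_of_injective _ hγi]
  refine hC a w _ (fun g hg => ?_) fun g hg g' hg' h => ?_
  · obtain ⟨v, hv, rfl⟩ := Finset.mem_image.1 hg
    exact ⟨hγ v, (Finset.mem_filter.1 hv).2⟩
  · obtain ⟨v, -, rfl⟩ := Finset.mem_image.1 (Finset.mem_coe.1 hg)
    obtain ⟨v', -, rfl⟩ := Finset.mem_image.1 (Finset.mem_coe.1 hg')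
    simp only [hγ'] at h
    rw [Subtype.ext h]

variable (F) in
/-- Lattice weights with Parseval's identity, normalised with respect to `𝒪_F`. -/
def WPack : Prop :=
  ∃ V : ℝ, 0 < V ∧ ∀ N : ℕ, N ≠ 0 → ∃ W : (Pl F → ℂ) → ℝ, Continuous W ∧ (∀ z, 0 < W z) ∧
    (∀ z, ∑' t : latt F 1, ENNReal.ofReal (W (z + em (t : F))) ≤ 1) ∧
    ∀ a : F → ℂ, (Summable fun r => ‖a r‖) → (∀ r, a r ≠ 0 → IsIntegral ℤ ((N : F) * r)) →
      ∫⁻ z, ENNReal.ofReal (W z) * ‖∑' r : F, a r * eV (fun j => em r j * z j)‖ₑ ^ 2 =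
        ENNReal.ofReal V * ∑' r : F, ‖a r‖ₑ ^ 2

/-- The local norm in terms of the coefficients. -/
theorem lintegral_tf {V : ℝ} {N : ℕ} {W : (Pl F → ℂ) → ℝ} (hW : Continuous W)
    (hP : ∀ a : F → ℂ, (Summable fun r => ‖a r‖) → (∀ r, a r ≠ 0 → IsIntegral ℤ ((N : F) * r)) →
      ∫⁻ z, ENNReal.ofReal (W z) * ‖∑' r : F, a r * eV (fun j => em r j * z j)‖ₑ ^ 2 =
        ENNReal.ofReal V * ∑' r : F, ‖a r‖ₑ ^ 2)
    {f : HH F → ℂ} {A : F → (Pl F → ℝ) → ℂ} (hf : Measurable f) (hA : HasExp N f A)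
    (a : Pl F → ℝ) (L : ℝ) :
    ∫⁻ w, tf a L (fun z => ENNReal.ofReal (W z)) w * ‖f w‖ₑ ^ 2 ∂μHH F =
      ∫⁻ l in box a L, (ENNReal.ofReal V * ∑' r : F, ‖A r l‖ₑ ^ 2) *
        ENNReal.ofReal (Real.exp (-2 * ∑ j, l j)) := by
  have hm : Measurable fun w => tf a L (fun z => ENNReal.ofReal (W z)) w * ‖f w‖ₑ ^ 2 :=
    (measurable_tf a L hW.measurable.ennreal_ofReal).mul (hf.enorm.pow_const 2)
  rw [lintegral_μHH hm, ← lintegral_indicator (measurableSet_box a L)]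
  refine lintegral_congr fun l => ?_
  by_cases h : l ∈ box a L
  · rw [Set.indicator_of_mem h, ← hP (fun r => A r l) (hA.2.2 l).1 fun r hr => hA.2.1 r l hr]
    congr 1
    refine lintegral_congr fun z => ?_
    rw [tf_of_mem _ (show lF (pt z l) ∈ box a L from h), zF_pt, (hA.2.2 l).2 z]
  · rw [Set.indicator_of_notMem h]
    have : ∀ z, tf a L (fun z => ENNReal.ofReal (W z)) (pt z l) * ‖f (pt z l)‖ₑ ^ 2 = 0 := fun z => by
      rw [tf_of_notMem _ (show lF (pt z l) ∉ box a L from h), zero_mul]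
    simp only [this, lintegral_zero, zero_mul]

theorem tsum_lintegral {N : ℕ} {f : HH F → ℂ} {A : F → (Pl F → ℝ) → ℂ} (hA : HasExp N f A)
    (a : Pl F → ℝ) (L : ℝ) :
    ∑' r : F, ∫⁻ l in box a L, ‖A r l‖ₑ ^ 2 = ∫⁻ l in box a L, ∑' r : F, ‖A r l‖ₑ ^ 2 :=
  (lintegral_tsum fun r => ((hA.1 r).enorm.pow_const 2).aemeasurable).symm

theorem box_of_pack (hL : LatStmt F) (hG : GeomStmt F) (hW : WPack F) : BoxStmt F := by
  obtain ⟨V, hV, hW⟩ := hW
  refine ⟨fun Δ L hΔ => ?_, fun K N hK hN => ?_⟩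
  · obtain ⟨C, hC0, hC⟩ := tsum_tf_le hL L
    set E : ℝ := Real.exp (2 * ∑ _j : Pl F, L) with hE
    have hE0 : 0 < E := Real.exp_pos _
    refine ⟨V⁻¹ * E * C, by positivity, fun N f A a hN hf hinv hA => ?_⟩
    obtain ⟨W, hWc, hWp, hWs, hP⟩ := hW N hN
    have h1 := (hG.wt Δ hΔ).lintegral_le (μ := μHH F)
      (fun δ => measurePreserving_smul_SL (δ : SL F))
      (measurable_tf a L hWc.measurable.ennreal_ofReal) (hf.enorm.pow_const 2)
      (fun δ w => by
        rw [← ofReal_norm, ← ofReal_norm (f w)]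
        exact congrArg (fun t => ENNReal.ofReal t ^ 2) (hinv δ δ.2 w))
      (fun w => hC Δ a _ w hΔ hWs)
    rw [lintegral_tf hWc hP hf hA] at h1
    rw [tsum_lintegral hA]
    set c : ℝ := V⁻¹ * E * Real.exp (2 * ∑ j, a j) with hc
    have hc0 : 0 < c := by positivity
    have h2 : ∫⁻ l in box a L, ∑' r : F, ‖A r l‖ₑ ^ 2 ≤
        ENNReal.ofReal c * ∫⁻ l in box a L, (ENNReal.ofReal V * ∑' r : F, ‖A r l‖ₑ ^ 2) *
          ENNReal.ofReal (Real.exp (-2 * ∑ j, l j)) := by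
      rw [← lintegral_const_mul' _ _ ENNReal.ofReal_ne_top]
      refine setLIntegral_mono' (measurableSet_box a L) fun l hl => ?_
      have h3 : 1 ≤ c * (V * Real.exp (-2 * ∑ j, l j)) := by
        have h4 : ∑ j, l j ≤ ∑ j, a j + ∑ _j : Pl F, L := by
          rw [← Finset.sum_add_distrib]
          exact Finset.sum_le_sum fun j _ => (hl j trivial).2
        have h5 : c * (V * Real.exp (-2 * ∑ j, l j)) =
            Real.exp (2 * ∑ _j : Pl F, L + 2 * ∑ j, a j + -2 * ∑ j, l j) := by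
          rw [Real.exp_add, Real.exp_add, hc, hE]
          field_simp
        rw [h5]
        exact Real.one_le_exp (by linarith)
      calc ∑' r : F, ‖A r l‖ₑ ^ 2 = 1 * ∑' r : F, ‖A r l‖ₑ ^ 2 := (one_mul _).symm
        _ ≤ ENNReal.ofReal (c * (V * Real.exp (-2 * ∑ j, l j))) * ∑' r : F, ‖A r l‖ₑ ^ 2 := by
          gcongr
          rw [← ENNReal.ofReal_one]
          exact ENNReal.ofReal_le_ofReal h3
        _ = _ := by
          rw [ENNReal.ofReal_mul hc0.le, ENNReal.ofReal_mul hV.le]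
          ring
    refine h2.trans ((mul_le_mul_right h1 _).trans (le_of_eq ?_))
    rw [← mul_assoc, ← ENNReal.ofReal_mul hc0.le, N2]
    congr 2
    have h6 : Real.exp (2 * ∑ j, a j) * Real.exp (-2 * ∑ j, a j) = 1 := by
      rw [← Real.exp_add]
      simp
    rw [hc]
    linear_combination V⁻¹ * E * C * h6
  · obtain ⟨W, hWc, hWp, -, hP⟩ := hW N hN
    obtain ⟨R, hR⟩ := (hK.image continuous_lF).isBounded.exists_norm_le
    have hbox : ∀ w ∈ K, lF w ∈ box (fun _ => -R) (2 * R) := fun w hw j _ => by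
      have h := abs_le.1 ((norm_le_pi_norm (lF w) j).trans (hR _ ⟨w, hw, rfl⟩))
      exact ⟨h.1, by linarith [h.2]⟩
    obtain ⟨c, hc0, hc⟩ : ∃ c : ℝ, 0 < c ∧ ∀ w ∈ K, c ≤ W (zF w) := by
      rcases K.eq_empty_or_nonempty with rfl | hne
      · exact ⟨1, one_pos, fun _ h => h.elim⟩
      · obtain ⟨w0, -, h0⟩ := hK.exists_isMinOn hne (hWc.comp continuous_zF).continuousOn
        exact ⟨_, hWp (zF w0), fun w hw => h0 hw⟩
    set E : ℝ := Real.exp (-2 * ∑ _j : Pl F, -R) with hE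
    have hE0 : 0 < E := Real.exp_pos _
    refine ⟨c⁻¹ * (V * E), fun _ => -R, 2 * R, fun f A hf hA => ?_⟩
    have h1 : ∫⁻ w in K, ‖f w‖ₑ ^ 2 ∂μHH F ≤ ENNReal.ofReal c⁻¹ *
        ∫⁻ w, tf (fun _ => -R) (2 * R) (fun z => ENNReal.ofReal (W z)) w * ‖f w‖ₑ ^ 2 ∂μHH F := by
      rw [← lintegral_const_mul' _ _ ENNReal.ofReal_ne_top]
      refine le_trans (setLIntegral_mono' hK.measurableSet fun w hw => ?_)
        (setLIntegral_le_lintegral K _)
      rw [tf_of_mem _ (hbox w hw), ← mul_assoc, ← ENNReal.ofReal_mul (inv_nonneg.2 hc0.le)]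
      refine le_mul_of_one_le_left' ?_
      rw [← ENNReal.ofReal_one]
      refine ENNReal.ofReal_le_ofReal ?_
      rw [← div_eq_inv_mul, one_le_div hc0]
      exact hc w hw
    rw [lintegral_tf hWc hP hf hA] at h1
    rw [tsum_lintegral hA, ENNReal.ofReal_mul (inv_nonneg.2 hc0.le), mul_assoc]
    refine h1.trans (mul_le_mul_right ?_ _)
    rw [← lintegral_const_mul' _ _ ENNReal.ofReal_ne_top]
    refine setLIntegral_mono' (measurableSet_box _ _) fun l hl => ?_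
    rw [ENNReal.ofReal_mul hV.le, mul_right_comm]
    gcongr
    rw [hE, Real.exp_le_exp]
    have h4 : ∑ _j : Pl F, -R ≤ ∑ j, l j := Finset.sum_le_sum fun j _ => (hl j trivial).1
    linarith

end Crest.Agent.T27.TH.Box86
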