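import Crest.Agent.T27.BoxA_86
import Crest.Agent.T27.ThW_80

/-!
# Row 27, theta leaf A2b: `BoxStmt`
-/

set_option autoImplicit false

noncomputable section

namespace Crest.Agent.T27.TH

open scoped ENNReal
open MeasureTheory
open Crest.Agent.T27.TH.G

theorem Box86.wpack (F : Type) [Field F] [NumberField F] [Emb F] : Box86.WPack F := by
  have h1 := isLat_latt (F := F) one_ne_zero
  have hV := vol_pos h1
  refine ⟨vol (latt F 1), hV, fun N hN => ?_⟩
  have hL := isLat_latt (F := F) hN
  have hVN := vol_pos hL
  have hc : 0 < vol (latt F 1) / vol (latt F N) := div_pos hV hVN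
  refine ⟨fun z => vol (latt F 1) / vol (latt F N) * wt (latt F N) z,
    continuous_const.mul (continuous_wt hL), fun z => mul_pos hc (wt_pos hL z), fun z => ?_,
    fun a ha hs => ?_⟩
  · have h := (exists_index h1 hL (latt_le_latt (one_dvd N)) z).mul_left
      (vol (latt F 1) / vol (latt F N))
    rw [← ENNReal.ofReal_tsum_of_nonneg (fun _ => (mul_pos hc (wt_pos hL _)).le) h.summable,
      h.tsum_eq, show vol (latt F 1) / vol (latt F N) * (vol (latt F N) / vol (latt F 1)) = 1 by
        field_simp, ENNReal.ofReal_one]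
  · have h := parseval_latt hN ha hs
    simp only [ENNReal.ofReal_mul hc.le, mul_assoc]
    rw [lintegral_const_mul' _ _ ENNReal.ofReal_ne_top]
    refine (congrArg _ h).trans ?_
    rw [← mul_assoc, ← ENNReal.ofReal_mul hc.le, div_mul_cancel₀ _ hVN.ne']

/-- **Leaf A2b.** -/
theorem box_86 (F : Type) [Field F] [NumberField F] [Emb F] (hG : GeomStmt F) : BoxStmt F :=
  Box86.box_of_pack (latStmt_80 F) hG (Box86.wpack F)

end Crest.Agent.T27.TH
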