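import Crest.Agent.T27.ThA_54

/-!
# Row 27, theta function, leaf M: the calculus of mean values (`TH.MeanStmt`)
-/

set_option autoImplicit false

noncomputable section

namespace Crest.Agent.T27.TH

open scoped ComplexConjugate
open NumberField

variable {F : Type} [Field F] [NumberField F] [Emb F]

namespace M82

/-- The lattice `a 𝒪_F`. -/
def lat (a : F) : AddSubgroup F where
  carrier := {x | ∃ y : F, IsIntegral ℤ y ∧ x = a * y}
  zero_mem' := ⟨0, isIntegral_zero, by simp⟩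
  add_mem' := by
    rintro _ _ ⟨y, hy, rfl⟩ ⟨z, hz, rfl⟩
    exact ⟨y + z, hy.add hz, by ring⟩
  neg_mem' := by
    rintro _ ⟨y, hy, rfl⟩
    exact ⟨-y, hy.neg, by ring⟩

omit [NumberField F] [Emb F] in
theorem latt_eq (N : ℕ) : latt F N = lat (N : F) := rfl

omit [NumberField F] [Emb F] in
theorem mem_lat {a x : F} : x ∈ lat a ↔ ∃ y : F, IsIntegral ℤ y ∧ x = a * y := Iff.rfl

omit [NumberField F] [Emb F] in
theorem lat_mul_le (a : F) {e : F} (he : IsIntegral ℤ e) : lat (a * e) ≤ lat a := by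
  rintro _ ⟨y, hy, rfl⟩
  exact ⟨e * y, he.mul hy, by ring⟩

omit [NumberField F] [Emb F] in
theorem int_nat (N : ℕ) : IsIntegral ℤ (N : F) := by
  have : (N : F) = algebraMap ℤ F (N : ℤ) := by simp
  rw [this]
  exact isIntegral_algebraMap

omit [Emb F] in
theorem exists_den (x : F) : ∃ D : ℕ, D ≠ 0 ∧ IsIntegral ℤ ((D : F) * x) := by
  have hx : IsAlgebraic ℤ x :=
    (IsFractionRing.isAlgebraic_iff ℤ ℚ F).2 (Algebra.IsAlgebraic.isAlgebraic x)
  obtain ⟨m, s, hm, h⟩ := hx.exists_nsmul_eq (S := 𝓞 F)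
  refine ⟨m, hm, ?_⟩
  rw [← nsmul_eq_mul, h]
  exact s.2

theorem nF_mul (x y : F) : nF (x * y) = nF x * nF y := by
  simp only [nF, em, map_mul, norm_mul, mul_pow, Finset.prod_mul_distrib]

theorem nF_one : nF (1 : F) = 1 := by simp [nF, em]

theorem nF_nonneg (x : F) : 0 ≤ nF x := Finset.prod_nonneg fun _ _ => sq_nonneg _

theorem nF_ne {x : F} (hx : x ≠ 0) : nF x ≠ 0 :=
  Finset.prod_ne_zero_iff.2 fun j _ =>
    pow_ne_zero _ (norm_ne_zero_iff.2 ((map_ne_zero (Emb.σ j)).2 hx))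

theorem nF_neC {x : F} (hx : x ≠ 0) : (nF x : ℂ) ≠ 0 := by exact_mod_cast nF_ne hx

theorem nF_nat (hL : LatStmt F) (N : ℕ) : nF (N : F) = (N : ℝ) ^ Module.finrank ℚ F := by
  have : (N : F) = algebraMap ℚ F (N : ℚ) := by simp
  rw [hL.nF_eq, this, Algebra.norm_algebraMap]
  push_cast
  exact abs_of_nonneg (by positivity)

theorem eF_add (x y : F) : eF (x + y) = eF x * eF y := by
  simp only [eF, eV, em, map_add, Complex.add_re, Finset.sum_add_distrib, ← Complex.exp_add]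
  congr 1
  push_cast
  ring

theorem eF_zero : eF (0 : F) = 1 := by simp [eF, eV, em]

theorem eF_int (hL : LatStmt F) {x : F} (hx : IsIntegral ℤ x) : eF x = 1 := by
  have h : ((Algebra.trace ℤ (𝓞 F) ⟨x, hx⟩ : ℤ) : ℚ) = Algebra.trace ℚ F x :=
    Algebra.coe_trace_int (⟨x, hx⟩ : 𝓞 F)
  rw [hL.eF_eq, ← h, mul_comm]
  push_cast
  exact Complex.exp_int_mul_two_pi_mul_I _

theorem norm_eF (x : F) : ‖eF x‖ = 1 := by
  rw [eF, eV, show (4 * Real.pi * Complex.I * ((∑ j, (em x j).re : ℝ) : ℂ)) =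
    ((4 * Real.pi * ∑ j, (em x j).re : ℝ) : ℂ) * Complex.I by push_cast; ring]
  exact Complex.norm_exp_ofReal_mul_I _

theorem trace_int (hL : LatStmt F) {x : F} (hx : eF x = 1) :
    ∃ n : ℤ, Algebra.trace ℚ F x = n := by
  rw [hL.eF_eq, Complex.exp_eq_one_iff] at hx
  obtain ⟨n, hn⟩ := hx
  refine ⟨n, ?_⟩
  have h2 : (2 * Real.pi * Complex.I : ℂ) ≠ 0 := Complex.two_pi_I_ne_zero
  have : ((Algebra.trace ℚ F x : ℚ) : ℂ) = (n : ℂ) := by
    apply mul_left_cancel₀ h2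
    rw [hn]
    ring
  exact_mod_cast this

/-- `S` is a system of representatives modulo `L` for the support of `φ`. -/
def IsRep (L : AddSubgroup F) (φ : F → ℂ) (S : Finset F) : Prop :=
  (∀ x ∈ S, ∀ y ∈ S, x - y ∈ L → x = y) ∧ ∀ x, φ x ≠ 0 → ∃ y ∈ S, x - y ∈ L

/-- Periodicity. -/
def PerL (L : AddSubgroup F) (φ : F → ℂ) : Prop := ∀ x, ∀ y ∈ L, φ (x + y) = φ x

omit [NumberField F] [Emb F] in
theorem PerL.congr {L : AddSubgroup F} {φ : F → ℂ} (h : PerL L φ) {x y : F} (hxy : x - y ∈ L) :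
    φ x = φ y := by
  rw [← h y _ hxy]
  congr 1
  ring

omit [NumberField F] [Emb F] in
theorem finsum_eq {L : AddSubgroup F} {φ : F → ℂ} {S : Finset F} (hp : PerL L φ)
    (h : IsRep L φ S) : ∑ᶠ q : F ⧸ L, φ q.out = ∑ x ∈ S, φ x := by
  classical
  have hout : ∀ x : F, φ (Quotient.out (x : F ⧸ L)) = φ x := fun x => by
    refine hp.congr ?_
    have := QuotientAddGroup.eq.1 (QuotientAddGroup.out_eq' (x : F ⧸ L))
    have h2 := L.neg_mem this
    rwa [neg_add_rev, neg_neg, neg_add_eq_sub] at h2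
  rw [finsum_eq_sum_of_support_subset (s := S.image (QuotientAddGroup.mk : F → F ⧸ L)), Finset.sum_image]
  · exact Finset.sum_congr rfl fun x _ => hout x
  · intro x hx y hy hxy
    refine h.1 x hx y hy ?_
    have h2 := L.neg_mem (QuotientAddGroup.eq.1 hxy)
    rwa [neg_add_rev, neg_neg, neg_add_eq_sub] at h2
  · intro q hq
    obtain ⟨y, hy, hxy⟩ := h.2 _ hq
    refine Finset.mem_coe.2 (Finset.mem_image.2 ⟨y, hy, ?_⟩)
    rw [← QuotientAddGroup.out_eq' q]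
    refine QuotientAddGroup.eq.2 ?_
    rwa [neg_add_eq_sub]

/-- Representatives of `b𝒪 / be𝒪`. -/
theorem exists_reps (hL : LatStmt F) {b e : F} (hb : b ≠ 0) (he : IsIntegral ℤ e) (he0 : e ≠ 0) :
    ∃ S : Finset F, (S.card : ℝ) = nF e ∧ (∀ x ∈ S, x ∈ lat b) ∧
      (∀ x ∈ S, ∀ y ∈ S, x - y ∈ lat (b * e) → x = y) ∧
      ∀ x ∈ lat b, ∃ y ∈ S, x - y ∈ lat (b * e) := by
  classical
  let e' : 𝓞 F := ⟨e, he⟩
  have he' : e' ≠ 0 := fun h => he0 (congrArg (fun z : 𝓞 F => (z : F)) h)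
  have hI : Ideal.span {e'} ≠ ⊥ := by simpa using he'
  have : Finite (𝓞 F ⧸ Ideal.span {e'}) := Ideal.finiteQuotientOfFreeOfNeBot _ hI
  let _ := Fintype.ofFinite (𝓞 F ⧸ Ideal.span {e'})
  let g : 𝓞 F ⧸ Ideal.span {e'} → F := fun q => b * ((Quotient.out q : 𝓞 F) : F)
  have key : ∀ s t : 𝓞 F, b * (s : F) - b * (t : F) ∈ lat (b * e) ↔
      Ideal.Quotient.mk (Ideal.span {e'}) s = Ideal.Quotient.mk _ t := fun s t => by
    rw [Ideal.Quotient.eq, Ideal.mem_span_singleton]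
    constructor
    · rintro ⟨y, hy, h⟩
      refine ⟨⟨y, hy⟩, RingOfIntegers.ext ?_⟩
      apply mul_left_cancel₀ hb
      have : ((s - t : 𝓞 F) : F) = s - t := by simp
      rw [this, mul_sub, h]
      have : ((e' * ⟨y, hy⟩ : 𝓞 F) : F) = e * y := rfl
      rw [this, mul_assoc]
    · rintro ⟨y, hy⟩
      refine ⟨y, y.2, ?_⟩
      have h2 : ((s - t : 𝓞 F) : F) = ((e' * y : 𝓞 F) : F) := by rw [hy]
      have h3 : ((s - t : 𝓞 F) : F) = s - t := by simp
      have h4 : ((e' * y : 𝓞 F) : F) = e * y := rfl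
      rw [← mul_sub, ← h3, h2, h4, mul_assoc]
  have hinj : Function.Injective g := fun q q' h => by
    have h1 := (key q.out q'.out).1 (by
      show g q - g q' ∈ _
      rw [h, sub_self]
      exact zero_mem _)
    rwa [Ideal.Quotient.mk_out, Ideal.Quotient.mk_out] at h1
  refine ⟨Finset.univ.image g, ?_, ?_, ?_, ?_⟩
  · rw [Finset.card_image_of_injective _ hinj, Finset.card_univ, ← Nat.card_eq_fintype_card,
      ← Submodule.cardQuot_apply, ← Ideal.absNorm_apply, Ideal.absNorm_span_singleton, hL.nF_eq]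
    have h := Algebra.coe_norm_int e'
    have h' : (e' : F) = e := rfl
    rw [h'] at h
    rw [← h]
    push_cast
    rw [Nat.cast_natAbs, Int.cast_abs]
  · intro x hx
    obtain ⟨q, -, rfl⟩ := Finset.mem_image.1 hx
    exact ⟨_, (Quotient.out q : 𝓞 F).2, rfl⟩
  · intro x hx y hy h
    obtain ⟨q, -, rfl⟩ := Finset.mem_image.1 hx
    obtain ⟨q', -, rfl⟩ := Finset.mem_image.1 hy
    have h1 := (key q.out q'.out).1 h
    rw [Ideal.Quotient.mk_out, Ideal.Quotient.mk_out] at h1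
    rw [h1]
  · rintro _ ⟨y, hy, rfl⟩
    refine ⟨g (Ideal.Quotient.mk _ ⟨y, hy⟩), Finset.mem_image_of_mem _ (Finset.mem_univ _), ?_⟩
    exact (key ⟨y, hy⟩ _).2 (Ideal.Quotient.mk_out _).symm

/-- The support lies in a lattice `M⁻¹ 𝒪`. -/
def Supp (φ : F → ℂ) (M : ℕ) : Prop := ∀ x, φ x ≠ 0 → IsIntegral ℤ ((M : F) * x)

omit [Emb F] in
theorem Supp.mem {φ : F → ℂ} {M : ℕ} (h : Supp φ M) (hM : M ≠ 0) {x : F} (hx : φ x ≠ 0) :
    x ∈ lat ((M : F)⁻¹) :=
  ⟨_, h x hx, by rw [← mul_assoc, inv_mul_cancel₀ (Nat.cast_ne_zero.2 hM), one_mul]⟩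

omit [NumberField F] [Emb F] in
theorem Supp.mul {φ : F → ℂ} {M : ℕ} (h : Supp φ M) (D : ℕ) : Supp φ (M * D) := fun x hx => by
  rw [Nat.cast_mul, mul_comm (M : F), mul_assoc]
  exact (int_nat D).mul (h x hx)

theorem exists_isRep (hL : LatStmt F) {φ : F → ℂ} {M : ℕ} (hM : M ≠ 0) (h : Supp φ M) {a : F}
    (ha : a ≠ 0) : ∃ S, IsRep (lat a) φ S := by
  obtain ⟨D, hD, hDa⟩ := exists_den a
  have hMD : M * D ≠ 0 := mul_ne_zero hM hD
  have h0 : ((M * D : ℕ) : F) ≠ 0 := Nat.cast_ne_zero.2 hMD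
  have he : IsIntegral ℤ (((M * D : ℕ) : F) * a) := by
    rw [Nat.cast_mul, mul_assoc]
    exact (int_nat M).mul hDa
  obtain ⟨S, -, -, h2, h3⟩ := exists_reps hL (inv_ne_zero h0) he (mul_ne_zero h0 ha)
  rw [← mul_assoc, inv_mul_cancel₀ h0, one_mul] at h2 h3
  exact ⟨S, h2, fun x hx => h3 x ((h.mul D).mem hMD hx)⟩

/-- The normalised sum modulo `a𝒪`. -/
def avg (a : F) (φ : F → ℂ) : ℂ := (nF a : ℂ)⁻¹ * ∑ᶠ q : F ⧸ lat a, φ q.out

theorem avg_mul (hL : LatStmt F) {φ : F → ℂ} {M : ℕ} (hM : M ≠ 0) (h : Supp φ M) {a e : F}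
    (ha : a ≠ 0) (he : IsIntegral ℤ e) (he0 : e ≠ 0) (hp : PerL (lat a) φ) :
    avg (a * e) φ = avg a φ := by
  classical
  obtain ⟨S, hS⟩ := exists_isRep hL hM h ha
  obtain ⟨T, hT0, hT1, hT2, hT3⟩ := exists_reps hL ha he he0
  have hle := lat_mul_le a he
  have hinj : ∀ p ∈ S ×ˢ T, ∀ p' ∈ S ×ˢ T, p.1 + p.2 - (p'.1 + p'.2) ∈ lat (a * e) → p = p' := by
    rintro ⟨s, t⟩ hp1 ⟨s', t'⟩ hp2 hd
    obtain ⟨hs, ht⟩ := Finset.mem_product.1 hp1
    obtain ⟨hs', ht'⟩ := Finset.mem_product.1 hp2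
    have h1 : s = s' := hS.1 s hs s' hs' (by
      have := sub_mem (hle hd) (sub_mem (hT1 t ht) (hT1 t' ht'))
      convert this using 1
      ring)
    subst h1
    have h2 : t = t' := hT2 t ht t' ht' (by
      convert hd using 1
      ring)
    rw [h2]
  have hR : IsRep (lat (a * e)) φ ((S ×ˢ T).image fun p => p.1 + p.2) := by
    constructor
    · intro x hx y hy hxy
      obtain ⟨p, hp1, rfl⟩ := Finset.mem_image.1 hx
      obtain ⟨p', hp2, rfl⟩ := Finset.mem_image.1 hy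
      rw [hinj p hp1 p' hp2 hxy]
    · intro x hx
      obtain ⟨s, hs, h1⟩ := hS.2 x hx
      obtain ⟨t, ht, h2⟩ := hT3 _ h1
      refine ⟨s + t, Finset.mem_image.2 ⟨(s, t), Finset.mem_product.2 ⟨hs, ht⟩, rfl⟩, ?_⟩
      convert h2 using 1
      ring
  rw [avg, avg, finsum_eq hp hS, finsum_eq (fun x y hy => hp x y (hle hy)) hR,
    Finset.sum_image fun p hp1 p' hp2 hpp => hinj p hp1 p' hp2 (by
      rw [show p.1 + p.2 = p'.1 + p'.2 from hpp, sub_self]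
      exact zero_mem _), Finset.sum_product]
  have : ∀ s ∈ S, ∑ t ∈ T, φ (s + t) = (nF e : ℂ) * φ s := fun s _ => by
    rw [Finset.sum_congr rfl fun t ht => hp s t (hT1 t ht), Finset.sum_const, nsmul_eq_mul, ← hT0]
    simp
  rw [Finset.sum_congr rfl this, ← Finset.mul_sum, nF_mul]
  have h1 := nF_neC ha
  have h2 := nF_neC he0
  push_cast
  field_simp

theorem avg_eq (hL : LatStmt F) {φ : F → ℂ} {M : ℕ} (hM : M ≠ 0) (h : Supp φ M) {a b : F}
    (ha : a ≠ 0) (hb : b ≠ 0) (hp : PerL (lat a) φ) (hq : PerL (lat b) φ) :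
    avg a φ = avg b φ := by
  obtain ⟨D, hD, h1⟩ := exists_den (b / a)
  have h0 : (D : F) ≠ 0 := Nat.cast_ne_zero.2 hD
  rw [← avg_mul hL hM h ha h1 (mul_ne_zero h0 (div_ne_zero hb ha)) hp,
    ← avg_mul hL hM h hb (int_nat D) h0 hq]
  congr 1
  field_simp

theorem meanN_eq (hL : LatStmt F) (N : ℕ) (φ : F → ℂ) : meanN N φ = avg (N : F) φ := by
  rw [meanN, avg, nF_nat hL]
  push_cast
  rfl

theorem mean_eq_avg (hL : LatStmt F) {φ : F → ℂ} (h : Per φ) {a : F} (ha : a ≠ 0)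
    (hp : PerL (lat a) φ) : mean φ = avg a φ := by
  rw [mean, dif_pos h, meanN_eq hL]
  obtain ⟨h1, h2, h3⟩ := h.choose_spec
  exact avg_eq hL h1 h3 (Nat.cast_ne_zero.2 h1) ha h2 hp

theorem mean_eq_sum (hL : LatStmt F) {φ : F → ℂ} (h : Per φ) {a : F} (ha : a ≠ 0)
    (hp : PerL (lat a) φ) {S : Finset F} (hS : IsRep (lat a) φ S) :
    mean φ = (nF a : ℂ)⁻¹ * ∑ x ∈ S, φ x := by
  rw [mean_eq_avg hL h ha hp, avg, finsum_eq hp hS]

omit [Emb F] in
theorem per_of {φ : F → ℂ} {M : ℕ} (hM : M ≠ 0) (h : Supp φ M) {a : F} (ha : a ≠ 0)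
    (hp : PerL (lat a) φ) : Per φ := by
  obtain ⟨D, hD, h1⟩ := exists_den a⁻¹
  refine ⟨M * D, mul_ne_zero hM hD, fun x y hy => hp x y ?_, h.mul D⟩
  obtain ⟨z, hz, rfl⟩ := hy
  refine ⟨(D * a⁻¹) * (M * z), h1.mul ((int_nat M).mul hz), ?_⟩
  push_cast
  field_simp

omit [NumberField F] [Emb F] in
theorem mono (φ : F → ℂ) (N N' : ℕ) (h : PerS φ N) (hN : N' ≠ 0) (hd : N ∣ N') : PerS φ N' := by
  obtain ⟨D, rfl⟩ := hd
  refine ⟨hN, fun x y hy => h.2.1 x y ?_, Supp.mul h.2.2 D⟩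
  rw [latt_eq, Nat.cast_mul] at hy
  exact lat_mul_le _ (int_nat D) hy

theorem sum_eq (hL : LatStmt F) (φ : F → ℂ) (N : ℕ) (S : Finset F) (h : PerS φ N)
    (h1 : ∀ x ∈ S, ∀ y ∈ S, x - y ∈ latt F N → x = y)
    (h2 : ∀ x, φ x ≠ 0 → ∃ y ∈ S, x - y ∈ latt F N) :
    mean φ = ((N : ℂ) ^ Module.finrank ℚ F)⁻¹ * ∑ x ∈ S, φ x := by
  rw [mean_eq_sum hL ⟨N, h⟩ (Nat.cast_ne_zero.2 h.1) h.2.1 ⟨h1, h2⟩, nF_nat hL]
  push_cast
  rfl

theorem reps (hL : LatStmt F) (N : ℕ) (hN : N ≠ 0) :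
    ∃ S : Finset F, S.card = N ^ (2 * Module.finrank ℚ F) ∧
      (∀ x ∈ S, IsIntegral ℤ ((N : F) * x)) ∧ (∀ x ∈ S, ∀ y ∈ S, x - y ∈ latt F N → x = y) ∧
      ∀ x : F, IsIntegral ℤ ((N : F) * x) → ∃ y ∈ S, x - y ∈ latt F N := by
  have h0 : (N : F) ≠ 0 := Nat.cast_ne_zero.2 hN
  obtain ⟨S, h1, h2, h3, h4⟩ := exists_reps hL (inv_ne_zero h0) ((int_nat N).mul (int_nat N))
    (mul_ne_zero h0 h0)
  rw [← mul_assoc, inv_mul_cancel₀ h0, one_mul] at h3 h4
  refine ⟨S, ?_, fun x hx => ?_, h3, fun x hx => h4 x ⟨_, hx, ?_⟩⟩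
  · rw [nF_mul, nF_nat hL, ← pow_add, ← two_mul] at h1
    exact_mod_cast h1
  · obtain ⟨y, hy, rfl⟩ := h2 x hx
    rwa [← mul_assoc, mul_inv_cancel₀ h0, one_mul]
  · rw [← mul_assoc, inv_mul_cancel₀ h0, one_mul]

omit [NumberField F] [Emb F] in
theorem common {φ ψ : F → ℂ} (h : Per φ) (h' : Per ψ) : ∃ N, PerS φ N ∧ PerS ψ N := by
  obtain ⟨N, h⟩ := h
  obtain ⟨N', h'⟩ := h'
  have := mul_ne_zero h.1 h'.1
  exact ⟨N * N', mono _ _ _ h this (dvd_mul_right _ _), mono _ _ _ h' this (dvd_mul_left _ _)⟩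

theorem add (hL : LatStmt F) (φ ψ : F → ℂ) (h : Per φ) (h' : Per ψ) :
    Per (φ + ψ) ∧ mean (φ + ψ) = mean φ + mean ψ := by
  obtain ⟨N, h, h'⟩ := common h h'
  have hs : PerS (φ + ψ) N := by
    refine ⟨h.1, fun x y hy => ?_, fun x hx => ?_⟩
    · rw [Pi.add_apply, Pi.add_apply, h.2.1 x y hy, h'.2.1 x y hy]
    · by_cases h1 : φ x = 0
      · refine h'.2.2 x fun h2 => hx ?_
        rw [Pi.add_apply, h1, h2, add_zero]
      · exact h.2.2 x h1
  obtain ⟨S, -, -, h3, h4⟩ := reps hL N h.1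
  refine ⟨⟨N, hs⟩, ?_⟩
  rw [sum_eq hL _ N S hs h3 fun x hx => h4 x (hs.2.2 x hx),
    sum_eq hL _ N S h h3 fun x hx => h4 x (h.2.2 x hx),
    sum_eq hL _ N S h' h3 fun x hx => h4 x (h'.2.2 x hx), ← mul_add, ← Finset.sum_add_distrib]
  rfl

theorem smul (hL : LatStmt F) (a : ℂ) (φ : F → ℂ) (h : Per φ) :
    Per (fun x => a * φ x) ∧ mean (fun x => a * φ x) = a * mean φ := by
  obtain ⟨N, h⟩ := h
  have hs : PerS (fun x => a * φ x) N :=
    ⟨h.1, fun x y hy => congrArg (a * ·) (h.2.1 x y hy),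
      fun x hx => h.2.2 x (right_ne_zero_of_mul hx)⟩
  obtain ⟨S, -, -, h3, h4⟩ := reps hL N h.1
  refine ⟨⟨N, hs⟩, ?_⟩
  rw [sum_eq hL _ N S hs h3 fun x hx => h4 x (hs.2.2 x hx),
    sum_eq hL _ N S h h3 fun x hx => h4 x (h.2.2 x hx), ← Finset.mul_sum]
  ring

theorem shift (hL : LatStmt F) (φ : F → ℂ) (b : F) (h : Per φ) :
    Per (fun x => φ (x + b)) ∧ mean (fun x => φ (x + b)) = mean φ := by
  classical
  obtain ⟨N, h⟩ := h
  obtain ⟨D, hD, hb⟩ := exists_den b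
  have h0 : (N : F) ≠ 0 := Nat.cast_ne_zero.2 h.1
  have hp : PerL (lat (N : F)) fun x => φ (x + b) := fun x y hy => by
    show φ (x + y + b) = φ (x + b)
    rw [add_right_comm, h.2.1 _ y hy]
  have hs : Supp (fun x => φ (x + b)) (N * D) := fun x hx => by
    have h1 := Supp.mul h.2.2 D _ hx
    have h2 := (int_nat (F := F) N).mul hb
    have e : ((N * D : ℕ) : F) * x = ((N * D : ℕ) : F) * (x + b) - N * (D * b) := by
      push_cast
      ring
    rw [e]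
    exact h1.sub h2
  have hP := per_of (mul_ne_zero h.1 hD) hs h0 hp
  obtain ⟨S, hS⟩ := exists_isRep hL h.1 h.2.2 h0
  have hR : IsRep (lat (N : F)) (fun x => φ (x + b)) (S.image fun x => x - b) := by
    constructor
    · intro x hx y hy hxy
      obtain ⟨s, hs, rfl⟩ := Finset.mem_image.1 hx
      obtain ⟨t, ht, rfl⟩ := Finset.mem_image.1 hy
      rw [hS.1 s hs t ht (by convert hxy using 1; ring)]
    · intro x hx
      obtain ⟨s, hs, h1⟩ := hS.2 _ hx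
      exact ⟨s - b, Finset.mem_image_of_mem _ hs, by convert h1 using 1; ring⟩
  refine ⟨hP, ?_⟩
  rw [mean_eq_sum hL hP h0 hp hR, mean_eq_sum hL ⟨N, h⟩ h0 h.2.1 hS,
    Finset.sum_image fun x _ y _ hxy => sub_left_injective hxy]
  simp only [sub_add_cancel]

theorem scale (hL : LatStmt F) (φ : F → ℂ) (e : F) (h : Per φ) (he : e ≠ 0) :
    Per (fun x => φ (e * x)) ∧ mean (fun x => φ (e * x)) = (nF e : ℂ) * mean φ := by
  classical
  obtain ⟨N, h⟩ := h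
  obtain ⟨D, hD, hb⟩ := exists_den e⁻¹
  have h0 : (N : F) ≠ 0 := Nat.cast_ne_zero.2 h.1
  have h1 : (N : F) / e ≠ 0 := div_ne_zero h0 he
  have key : ∀ y, y ∈ lat ((N : F) / e) ↔ e * y ∈ lat (N : F) := fun y => by
    constructor
    · rintro ⟨z, hz, rfl⟩
      exact ⟨z, hz, by field_simp⟩
    · rintro ⟨z, hz, h2⟩
      exact ⟨z, hz, by rw [div_mul_eq_mul_div, ← h2]; field_simp⟩
  have hp : PerL (lat ((N : F) / e)) fun x => φ (e * x) := fun x y hy => by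
    show φ (e * (x + y)) = φ (e * x)
    rw [mul_add, h.2.1 _ _ ((key y).1 hy)]
  have hs : Supp (fun x => φ (e * x)) (N * D) := fun x hx => by
    have h1 := h.2.2 _ hx
    have e' : ((N * D : ℕ) : F) * x = (D * e⁻¹) * (N * (e * x)) := by
      push_cast
      field_simp
    rw [e']
    exact hb.mul h1
  have hP := per_of (mul_ne_zero h.1 hD) hs h1 hp
  obtain ⟨S, hS⟩ := exists_isRep hL h.1 h.2.2 h0
  have hR : IsRep (lat ((N : F) / e)) (fun x => φ (e * x)) (S.image fun x => e⁻¹ * x) := by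
    constructor
    · intro x hx y hy hxy
      obtain ⟨s, hs, rfl⟩ := Finset.mem_image.1 hx
      obtain ⟨t, ht, rfl⟩ := Finset.mem_image.1 hy
      rw [hS.1 s hs t ht (by convert (key _).1 hxy using 1; field_simp)]
    · intro x hx
      obtain ⟨s, hs, h1⟩ := hS.2 _ hx
      exact ⟨e⁻¹ * s, Finset.mem_image_of_mem _ hs, (key _).2 (by convert h1 using 1; field_simp)⟩
  refine ⟨hP, ?_⟩
  rw [mean_eq_sum hL hP h1 hp hR, mean_eq_sum hL ⟨N, h⟩ h0 h.2.1 hS,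
    Finset.sum_image fun x _ y _ hxy => mul_left_cancel₀ (inv_ne_zero he) hxy]
  simp only [mul_inv_cancel_left₀ he]
  have h2 : nF (N : F) = nF ((N : F) / e) * nF e := by rw [← nF_mul, div_mul_cancel₀ _ he]
  have h3 := nF_neC he
  have h4 := nF_neC h1
  rw [h2]
  push_cast
  field_simp

theorem norm_le (hL : LatStmt F) (φ : F → ℂ) (M : ℕ) (B : ℝ) (hM : M ≠ 0) (hB : ∀ x, ‖φ x‖ ≤ B)
    (hs : ∀ x, φ x ≠ 0 → IsIntegral ℤ ((M : F) * x)) :
    ‖mean φ‖ ≤ B * (M : ℝ) ^ Module.finrank ℚ F := by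
  have hB0 : 0 ≤ B := (norm_nonneg _).trans (hB 0)
  by_cases h : Per φ
  swap
  · rw [mean, dif_neg h, norm_zero]
    positivity
  obtain ⟨N, hN⟩ := id h
  have h0 : (N : F) ≠ 0 := Nat.cast_ne_zero.2 hN.1
  have h1 : (M : F) ≠ 0 := Nat.cast_ne_zero.2 hM
  obtain ⟨S, h2, -, h3, h4⟩ := exists_reps hL (inv_ne_zero h1) ((int_nat M).mul (int_nat N))
    (mul_ne_zero h1 h0)
  rw [← mul_assoc, inv_mul_cancel₀ h1, one_mul] at h3 h4
  rw [mean_eq_sum hL h h0 hN.2.1 ⟨h3, fun x hx => h4 x (Supp.mem hs hM hx)⟩, norm_mul, norm_inv,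
    Complex.norm_real, Real.norm_of_nonneg (nF_nonneg _)]
  have h5 : ‖∑ x ∈ S, φ x‖ ≤ S.card * B := by
    refine (norm_sum_le _ _).trans ?_
    rw [← nsmul_eq_mul, ← Finset.sum_const]
    exact Finset.sum_le_sum fun x _ => hB x
  have h6 : 0 < nF (N : F) := lt_of_le_of_ne (nF_nonneg _) (nF_ne h0).symm
  rw [h2, nF_mul, nF_nat hL M] at h5
  rw [inv_mul_le_iff₀ h6]
  refine h5.trans (le_of_eq ?_)
  ring

theorem char (hL : LatStmt F) (φ : F → ℂ) (r : F) (h : Per φ) :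
    Per fun x => φ x * eF (r * x) := by
  obtain ⟨N, h⟩ := h
  obtain ⟨D, hD, hr⟩ := exists_den r
  have h' := mono φ N (N * D) h (mul_ne_zero h.1 hD) (dvd_mul_right _ _)
  refine ⟨N * D, h'.1, fun x y hy => ?_, fun x hx => h'.2.2 x (left_ne_zero_of_mul hx)⟩
  show φ (x + y) * eF (r * (x + y)) = φ x * eF (r * x)
  rw [h'.2.1 x y hy, mul_add, eF_add]
  obtain ⟨z, hz, rfl⟩ := hy
  rw [eF_int hL (x := r * (((N * D : ℕ) : F) * z)), mul_one]
  have e : r * (((N * D : ℕ) : F) * z) = (D * r) * (N * z) := by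
    push_cast
    ring
  rw [e]
  exact hr.mul ((int_nat N).mul hz)

theorem char_zero (hL : LatStmt F) (φ : F → ℂ) (r t : F) (h : Per φ) (ht : ∀ x, φ (x + t) = φ x)
    (h1 : eF (r * t) ≠ 1) : mean (fun x => φ x * eF (r * x)) = 0 := by
  have hP := char hL φ r h
  have h2 := (shift hL _ t hP).2
  have h3 := (smul hL (eF (r * t)) _ hP).2
  have h4 : (fun x => φ (x + t) * eF (r * (x + t))) = fun x => eF (r * t) * (φ x * eF (r * x)) := by
    funext x
    rw [ht, mul_add, eF_add]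
    ring
  rw [h4, h3] at h2
  have h5 : (eF (r * t) - 1) * mean (fun x => φ x * eF (r * x)) = 0 := by
    rw [sub_mul, h2, one_mul, sub_self]
  exact (mul_eq_zero.1 h5).resolve_left (sub_ne_zero.2 h1)

theorem dual (hL : LatStmt F) : ∃ D : ℕ, D ≠ 0 ∧ ∀ r : F,
    (∀ t : F, IsIntegral ℤ t → eF (r * t) = 1) → IsIntegral ℤ ((D : F) * r) := by
  classical
  let b := integralBasis F
  choose D hD hD' using fun i => exists_den (b.traceDual i)
  refine ⟨∏ i, D i, Finset.prod_ne_zero_iff.2 fun i _ => hD i, fun r hr => ?_⟩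
  rw [← b.traceDual.sum_repr r, Finset.mul_sum]
  refine IsIntegral.sum _ fun i _ => ?_
  have hb : IsIntegral ℤ (b i) := by
    rw [integralBasis_apply]
    exact (RingOfIntegers.basis F i).2
  obtain ⟨n, hn⟩ := trace_int hL (hr _ hb)
  rw [Module.Basis.traceDual_repr_apply, Algebra.traceForm_apply, hn,
    ← Finset.mul_prod_erase _ _ (Finset.mem_univ i)]
  have h1 : IsIntegral ℤ (n : F) := by
    have : (n : F) = algebraMap ℤ F n := by simp
    rw [this]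
    exact isIntegral_algebraMap
  convert (h1.mul (int_nat (∏ j ∈ Finset.univ.erase i, D j))).mul (hD' i) using 1
  rw [Algebra.smul_def]
  push_cast
  simp only [map_intCast]
  ring

theorem fubini (hL : LatStmt F) (Φ : F → F → ℂ) (N : ℕ) (h1 : ∀ y, PerS (fun x => Φ x y) N)
    (h2 : ∀ x, PerS (Φ x) N) :
    PerS (fun x => mean (Φ x)) N ∧ PerS (fun y => mean fun x => Φ x y) N ∧
      mean (fun x => mean (Φ x)) = mean fun y => mean fun x => Φ x y := by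
  have hN := (h2 0).1
  obtain ⟨S, -, -, h3, h4⟩ := reps hL N hN
  have e : ∀ φ : F → ℂ, PerS φ N →
      mean φ = ((N : ℂ) ^ Module.finrank ℚ F)⁻¹ * ∑ x ∈ S, φ x := fun φ h =>
    sum_eq hL φ N S h h3 fun x hx => h4 x (h.2.2 x hx)
  have p1 : PerS (fun x => mean (Φ x)) N := by
    refine ⟨hN, fun x y hy => ?_, fun x hx => ?_⟩
    · show mean (Φ (x + y)) = mean (Φ x)
      congr 1
      funext z
      exact (h1 z).2.1 x y hy
    · replace hx : mean (Φ x) ≠ 0 := hx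
      rw [e _ (h2 x)] at hx
      obtain ⟨z, -, hz⟩ := Finset.exists_ne_zero_of_sum_ne_zero (right_ne_zero_of_mul hx)
      exact (h1 z).2.2 x hz
  have p2 : PerS (fun y => mean fun x => Φ x y) N := by
    refine ⟨hN, fun x y hy => ?_, fun x hx => ?_⟩
    · show (mean fun z => Φ z (x + y)) = mean fun z => Φ z x
      congr 1
      funext z
      exact (h2 z).2.1 x y hy
    · replace hx : (mean fun z => Φ z x) ≠ 0 := hx
      rw [e _ (h1 x)] at hx
      obtain ⟨z, -, hz⟩ := Finset.exists_ne_zero_of_sum_ne_zero (right_ne_zero_of_mul hx)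
      exact (h2 z).2.2 x hz
  refine ⟨p1, p2, ?_⟩
  rw [e _ p1, e _ p2, Finset.sum_congr rfl fun x _ => e _ (h2 x),
    Finset.sum_congr rfl fun y _ => e _ (h1 y), ← Finset.mul_sum, ← Finset.mul_sum,
    Finset.sum_comm]

end M82

/-- **Leaf M.** -/
theorem mean_82 (F : Type) [Field F] [NumberField F] [Emb F] (hL : LatStmt F) : MeanStmt F where
  mono := M82.mono
  eq φ N h := by
    rw [M82.mean_eq_avg hL ⟨N, h⟩ (Nat.cast_ne_zero.2 h.1) h.2.1, M82.meanN_eq hL]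
  sum := M82.sum_eq hL
  reps := M82.reps hL
  add := M82.add hL
  smul := M82.smul hL
  shift := M82.shift hL
  scale := M82.scale hL
  norm_le := M82.norm_le hL
  char := M82.char hL
  char_zero := M82.char_zero hL
  dual := M82.dual hL
  fubini := M82.fubini hL

end Crest.Agent.T27.TH
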