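import Crest.Agent.T27.ThB_54
import Crest.Agent.T27.Mean_82

/-!
# Row 27, theta function, leaf C2, last field: every class of `F^× / P_J` is cut out by a test function
-/

set_option autoImplicit false

noncomputable section

namespace Crest.Agent.T27.TH

open scoped ComplexConjugate
open NumberField

variable {F : Type} [Field F] [NumberField F] [Emb F] [Ar F]

namespace C73

theorem N_ne : (Ar.N F : F) ≠ 0 := by
  have := Ar.two_le (F := F)
  exact Nat.cast_ne_zero.2 (by omega)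

theorem Npow_ne (a : ℕ) : Ar.N F ^ a ≠ 0 := by
  have := Ar.two_le (F := F)
  exact pow_ne_zero _ (by omega)

theorem int_mem_L {x : F} (h : IsIntegral ℤ x) : x ∈ (Ar.L : Subring F) :=
  (Ar.mem_L x).2 ⟨1, Nat.coprime_one_left _, by simpa using h⟩

theorem N_mem_L : (Ar.N F : F) ∈ (Ar.L : Subring F) := natCast_mem _ _

theorem N_mem_R : (Ar.N F : F) ∈ (Ar.R : Subring F) := natCast_mem _ _

theorem deep_mono {j j' : ℕ} (h : j ≤ j') {x : F} (hx : Deep j' x) : Deep j x := by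
  obtain ⟨y, hy, rfl⟩ := hx
  obtain ⟨k, rfl⟩ := Nat.exists_eq_add_of_le h
  exact ⟨(Ar.N F : F) ^ k * y, mul_mem (pow_mem N_mem_L _) hy, by ring⟩

theorem deep_neg {j : ℕ} {x : F} (hx : Deep j x) : Deep j (-x) := by
  obtain ⟨y, hy, rfl⟩ := hx
  exact ⟨-y, neg_mem hy, by ring⟩

theorem deep_add {j : ℕ} {x y : F} (hx : Deep j x) (hy : Deep j y) : Deep j (x + y) := by
  obtain ⟨x, hx, rfl⟩ := hx
  obtain ⟨y, hy, rfl⟩ := hy
  exact ⟨x + y, add_mem hx hy, by ring⟩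

theorem deep_latt {a : ℕ} {x : F} (hx : x ∈ latt F (Ar.N F ^ a)) : Deep a x := by
  obtain ⟨y, hy, rfl⟩ := hx
  exact ⟨y, int_mem_L hy, by push_cast; rfl⟩

theorem pow_mul_mem {j j' : ℕ} (h : j ≤ j') {x : F} (hx : (Ar.N F : F) ^ j * x ∈ (Ar.L : Subring F)) :
    (Ar.N F : F) ^ j' * x ∈ (Ar.L : Subring F) := by
  obtain ⟨k, rfl⟩ := Nat.exists_eq_add_of_le h
  rw [pow_add, mul_comm _ ((Ar.N F : F) ^ k), mul_assoc]
  exact mul_mem (pow_mem N_mem_L _) hx

theorem int_of_mem {a : ℕ} {x : F} (hR : x ∈ (Ar.R : Subring F))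
    (hx : (Ar.N F : F) ^ a * x ∈ (Ar.L : Subring F)) :
    IsIntegral ℤ (((Ar.N F ^ a : ℕ) : F) * x) := by
  push_cast
  exact Ar.int_of _ (mul_mem (pow_mem N_mem_R _) hR) hx

theorem mem_R_of_int {a : ℕ} {x : F} (h : IsIntegral ℤ (((Ar.N F ^ a : ℕ) : F) * x)) :
    x ∈ (Ar.R : Subring F) := (Ar.mem_R x).2 ⟨a, by simpa using h⟩

theorem test_zero {f : F × F → ℂ} (h : Test f) : f 0 = 0 := by
  obtain ⟨j, h⟩ := h
  by_contra h0
  obtain ⟨-, -, a, -, b, -, hab⟩ := h.supp 0 h0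
  exact pow_ne_zero j (N_ne (F := F)) (by rw [← hab]; simp)

theorem thF_mem {r : F} (h : thF r ≠ 0) : r ∈ (Ar.R : Subring F) := by
  by_contra hr
  apply h
  rw [thF, dif_neg]
  rintro ⟨p, -, -, rfl⟩
  exact hr (mul_mem p.1.2 (pow_mem p.2.2 _))

theorem xiF_add (f g : F × F → ℂ) : xiF (f + g) = xiF f + xiF g := by
  funext u
  simp only [xiF, Pi.add_apply]
  split_ifs <;> ring

theorem xiF_smul (a : ℂ) (f : F × F → ℂ) : xiF (fun u => a * f u) = fun u => a * xiF f u := by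
  funext u
  simp only [xiF]
  split_ifs <;> ring

theorem xiF_zero : xiF (0 : F × F → ℂ) = 0 := by
  funext u
  simp [xiF]

/-- `W` is the Whittaker function of a test function. -/
def Rz (W : F → ℂ) : Prop := ∃ f : F × F → ℂ, Test f ∧ ∀ r : F, r ≠ 0 → tt f r = thF r * W r

theorem Rz.congr {W W' : F → ℂ} (h : Rz W)
    (hW : ∀ r, r ≠ 0 → r ∈ (Ar.R : Subring F) → W r = W' r) : Rz W' := by
  obtain ⟨f, hf, h⟩ := h
  refine ⟨f, hf, fun r hr => ?_⟩
  rw [h r hr]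
  by_cases h0 : thF r = 0
  · rw [h0, zero_mul, zero_mul]
  · rw [hW r hr (thF_mem h0)]

section

variable (hA : TauStmt F) (hO : OpStmt F) (hG : ∀ f : F × F → ℂ, Test f → Good (xiF f))
include hA hO

theorem Rz.zero : Rz (0 : F → ℂ) :=
  ⟨0, hO.zero, fun r _ => by rw [tt, xiF_zero, hA.tau_zero]; simp⟩

include hG

theorem Rz.add {W W' : F → ℂ} (h : Rz W) (h' : Rz W') : Rz (W + W') := by
  obtain ⟨f, hf, h⟩ := h
  obtain ⟨g, hg, h'⟩ := h'
  refine ⟨f + g, hO.add _ _ hf hg, fun r hr => ?_⟩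
  rw [Pi.add_apply, mul_add, ← h r hr, ← h' r hr, tt, tt, tt, xiF_add,
    hA.tau_add _ _ (hG f hf) (hG g hg), add_mul]

theorem Rz.smul (a : ℂ) {W : F → ℂ} (h : Rz W) : Rz fun r => a * W r := by
  obtain ⟨f, hf, h⟩ := h
  refine ⟨fun u => a * f u, hO.smul _ _ hf, fun r hr => ?_⟩
  rw [mul_left_comm, ← h r hr, tt, tt, xiF_smul, hA.tau_smul _ _ (hG f hf), mul_assoc]

theorem Rz.sum {ι : Type} (S : Finset ι) (W : ι → F → ℂ) (h : ∀ i ∈ S, Rz (W i)) :
    Rz (∑ i ∈ S, W i) :=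
  Finset.sum_induction _ _ (fun _ _ => Rz.add hA hO hG) (Rz.zero hA hO) h

theorem Rz.char {p : F} (hp : p ∈ (Ar.R : Subring F)) {W : F → ℂ} (h : Rz W) :
    Rz fun r => eF (-(r * p)) * W r := by
  obtain ⟨f, hf, h⟩ := h
  have hin : InR ((nT p : SL F) : Mat F) := by
    intro i j
    fin_cases i <;> fin_cases j <;> simp [nT, mkSL, hp]
  have hm := hO.master f (nT p : SL F) (nT p).det_coe hin
  have h1 : xiF (rho (nT p : SL F) f) = tr (xiF f) !![1, p; 0, 1] := by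
    have : ((nT p : SL F) : Mat F) = !![1, p; 0, 1] := rfl
    rw [← this, hm]
    funext u
    simp [this, syR]
  refine ⟨rho (nT p : SL F) f, hO.test_rho _ _ (nT p).det_coe hf, fun r hr => ?_⟩
  rw [mul_left_comm, ← h r hr, tt, tt, h1,
    hA.tau_tri _ (hG f hf) 1 p 1 r one_ne_zero one_ne_zero]
  simp [M82.nF_one, mul_assoc]

/-- The algebra of multipliers of level `a`. -/
def mult (a : ℕ) : Subalgebra ℂ (F → ℂ) where
  carrier := {m | (∀ W, Rz W → Rz (m * W)) ∧ ∀ r, ∀ z ∈ latt F (Ar.N F ^ a), m (r + z) = m r}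
  mul_mem' := by
    rintro m m' ⟨h1, h2⟩ ⟨h1', h2'⟩
    refine ⟨fun W hW => ?_, fun r z hz => ?_⟩
    · rw [mul_assoc]
      exact h1 _ (h1' _ hW)
    · rw [Pi.mul_apply, Pi.mul_apply, h2 r z hz, h2' r z hz]
  add_mem' := by
    rintro m m' ⟨h1, h2⟩ ⟨h1', h2'⟩
    refine ⟨fun W hW => ?_, fun r z hz => ?_⟩
    · rw [add_mul]
      exact (h1 _ hW).add hA hO hG (h1' _ hW)
    · rw [Pi.add_apply, Pi.add_apply, h2 r z hz, h2' r z hz]
  algebraMap_mem' c := ⟨fun _ hW => hW.smul hA hO hG c, fun _ _ _ => rfl⟩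

/-- Cutting a Whittaker function by an `S`-adically open and closed set. -/
theorem Rz.cut (hL : LatStmt F) (hM : MeanStmt F) {W : F → ℂ} (h : Rz W) {b c : ℕ}
    (hb : ∀ r, r ≠ 0 → W r ≠ 0 → (Ar.N F : F) ^ b * r ∈ (Ar.L : Subring F)) (X : Set F)
    (hX : ∀ r ∈ X, ∀ z, Deep c z → r + z ∈ X) : Rz (X.indicator W) := by
  classical
  obtain ⟨D, hD, hdual⟩ := hM.dual
  obtain ⟨e, he⟩ := Ar.pow_mem_L (D : F)⁻¹
  set a := b + c + e with ha
  obtain ⟨T, -, -, -, hT⟩ := hM.reps _ (Npow_ne (F := F) a)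
  have hN := pow_ne_zero a (N_ne (F := F))
  -- separating multipliers
  have sep : ∀ x y : F, x ∈ X → y ∉ X → ∃ m ∈ mult hA hO hG a, m x = 1 ∧ m y = 0 := by
    intro x y hx hy
    have : ∃ t : F, IsIntegral ℤ t ∧ eF ((y - x) / (Ar.N F : F) ^ a * t) ≠ 1 := by
      by_contra hc
      push Not at hc
      have h1 := mul_mem he (int_mem_L (hdual _ hc))
      refine hy ?_
      rw [show y = x + (y - x) by ring]
      refine hX x hx _ (deep_mono (j' := b + c) (by omega) ⟨_, h1, ?_⟩)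
      have : (D : F) ≠ 0 := Nat.cast_ne_zero.2 hD
      have := N_ne (F := F)
      rw [ha]
      field_simp
      ring
    obtain ⟨t, ht, hne⟩ := this
    set p := t / (Ar.N F : F) ^ a with hp
    have hpR : p ∈ (Ar.R : Subring F) :=
      (Ar.mem_R p).2 ⟨a, by rwa [hp, mul_div_cancel₀ _ hN]⟩
    let χ : F → ℂ := fun r => eF (-(r * p))
    have hχ : χ ∈ mult hA hO hG a := by
      refine ⟨fun W hW => hW.char hA hO hG hpR, ?_⟩
      rintro r _ ⟨z, hz, rfl⟩
      have : -((r + ((Ar.N F ^ a : ℕ) : F) * z) * p) = -(r * p) + -(z * t) := by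
        rw [hp]
        push_cast
        field_simp
        ring
      simp only [χ]
      rw [this, M82.eF_add, M82.eF_int hL (hz.mul ht).neg, mul_one]
    have hxy : χ x - χ y ≠ 0 := by
      intro h0
      apply hne
      have h2 : χ x = eF ((y - x) / (Ar.N F : F) ^ a * t) * χ y := by
        simp only [χ]
        rw [← M82.eF_add, hp]
        congr 1
        field_simp
        ring
      have h3 : χ y ≠ 0 := norm_ne_zero_iff.1 (by simp only [χ]; rw [M82.norm_eF]; norm_num)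
      rw [sub_eq_zero, h2] at h0
      exact mul_right_cancel₀ h3 (by rw [h0, one_mul])
    refine ⟨(χ x - χ y)⁻¹ • (χ - algebraMap ℂ (F → ℂ) (χ y)),
      Subalgebra.smul_mem _ (sub_mem hχ (Subalgebra.algebraMap_mem _ _)) _, ?_, ?_⟩
    · simpa using inv_mul_cancel₀ hxy
    · simp
  choose! m hm hm1 hm0 using sep
  let μ : F → ℂ := 1 - ∏ x ∈ T with x ∈ X, (1 - ∏ y ∈ T with y ∉ X, m x y)
  have hμ : μ ∈ mult hA hO hG a :=
    sub_mem (one_mem _) (prod_mem fun x hx => sub_mem (one_mem _) (prod_mem fun y hy =>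
      hm x y (Finset.mem_filter.1 hx).2 (Finset.mem_filter.1 hy).2))
  have hμT : ∀ s ∈ T, μ s = if s ∈ X then 1 else 0 := by
    intro s hs
    simp only [μ, Pi.sub_apply, Pi.one_apply, Finset.prod_apply]
    split_ifs with hsX
    · rw [Finset.prod_eq_zero (Finset.mem_filter.2 ⟨hs, hsX⟩), sub_zero]
      rw [Finset.prod_eq_one fun y hy => hm1 s y hsX (Finset.mem_filter.1 hy).2, sub_self]
    · rw [Finset.prod_eq_one, sub_self]
      intro x hx
      rw [Finset.prod_eq_zero (s := T.filter (· ∉ X)) (f := fun c => m x c s)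
        (Finset.mem_filter.2 ⟨hs, hsX⟩)
        (hm0 x s (Finset.mem_filter.1 hx).2 hsX), sub_zero]
  refine (hμ.1 W h).congr fun r hr hR => ?_
  by_cases hW : W r = 0
  · simp [Set.indicator, hW]
  obtain ⟨s, hs, hrs⟩ := hT r (int_of_mem hR (pow_mul_mem (by omega) (hb r hr hW)))
  have hd : Deep c (r - s) := deep_mono (by omega) (deep_latt hrs)
  have h1 : μ r = μ s := by rw [← hμ.2 s _ hrs, add_sub_cancel]
  have h2 : s ∈ X ↔ r ∈ X :=
    ⟨fun h => by simpa using hX s h _ hd, fun h => by simpa using hX r h _ (deep_neg hd)⟩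
  rw [Pi.mul_apply, h1, hμT s hs, Set.indicator, h2]
  split_ifs <;> simp

theorem WF_opT {f : F × F → ℂ} (hf : Test f) {t r : F} (ht : t ≠ 0) (hr : r ≠ 0) :
    WF (opT t f) r * ((absS t ^ (3 / 2 : ℝ) : ℝ) : ℂ) = conj (Ar.cc t r) * WF f (t * r) := by
  have h0 : ∀ x : F, x ≠ 0 → 0 ≤ absS x := fun x hx =>
    div_nonneg (Ar.nm_pos x hx).le (M82.nF_nonneg x)
  have h1 : absS (t * r) = absS t * absS r := by
    rw [absS, absS, absS, Ar.nm_mul, M82.nF_mul, mul_div_mul_comm]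
  rw [WF, WF, hO.opT_opT f t r ht hr (test_zero hf), xiF_smul,
    hA.tau_smul _ _ (hG _ (hO.test_opT f _ (mul_ne_zero ht hr) hf)), h1,
    Real.mul_rpow (h0 t ht) (h0 r hr)]
  push_cast
  ring

end

theorem absS_pos {x : F} (hx : x ≠ 0) : 0 < absS x :=
  div_pos (Ar.nm_pos x hx) (lt_of_le_of_ne (M82.nF_nonneg x) (M82.nF_ne hx).symm)

theorem PJ_unit {J : ℕ} (hJ : 1 ≤ J) {k : F} (hk : PJ J k) :
    k ≠ 0 ∧ k ∈ (Ar.L : Subring F) ∧ k⁻¹ ∈ (Ar.L : Subring F) := by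
  obtain ⟨y, hy, hk⟩ := deep_mono hJ hk
  have : k = 1 + (Ar.N F : F) * y := by rw [← pow_one (Ar.N F : F), ← hk]; ring
  rw [this]
  exact ⟨(Ar.unit_P y hy).1, add_mem (one_mem _) (mul_mem N_mem_L hy), (Ar.unit_P y hy).2⟩

theorem cc_PJ {J : ℕ} (hJ : Ar.kc F ≤ J) {t k : F} (ht : t ≠ 0) (hk : PJ J k) : Ar.cc t k = 1 := by
  have hk0 := (PJ_unit ((Ar.one_le_kc (F := F)).trans hJ) hk).1
  obtain ⟨y, hy, hk⟩ := deep_mono hJ hk
  have h1 : k = 1 + (Ar.N F : F) ^ Ar.kc F * y := by rw [← hk]; ring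
  have h2 := Ar.cc_swap t k ht hk0
  have h3 : Ar.cc k t = 1 := by rw [h1]; exact Ar.cc_P y hy t ht
  rwa [h3, mul_one] at h2

end C73

open C73 in
/-- The field `cls` of `MainStmt`. -/
theorem cls_73 (hL : LatStmt F) (hM : MeanStmt F) (hA : TauStmt F) (hO : OpStmt F)
    (hI : IntStmt F) (hC : CuspStmt F)
    (hmain : ∀ f : F × F → ℂ, Test f → ∀ r : F, r ≠ 0 → tt f r = thF r * WF f r)
    (hP : ∀ f : F × F → ℂ, Test f → ∃ J, ∀ r k : F, r ≠ 0 → PJ J k → WF f (r * k) = WF f r)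
    (hS : ∀ f : F × F → ℂ, Test f → ∃ J : ℕ, ∀ r : F, r ≠ 0 → WF f r ≠ 0 →
      (Ar.N F : F) ^ J * r ∈ (Ar.L : Subring F))
    (J : ℕ) (α : F) (hJ : 1 ≤ J) (hα : α ≠ 0) :
    ∃ f : F × F → ℂ, Test f ∧ ∀ r : F, r ≠ 0 → tt f r = {r | PJ J (r / α)}.indicator thF r := by
  classical
  obtain ⟨κ, hκ, hC⟩ := hC
  have hG : ∀ f : F × F → ℂ, Test f → Good (xiF f) := fun f hf => (hC f hf).1
  obtain ⟨f, hf, hf0⟩ := hI.basic
  obtain ⟨r₀, hr₀, ht₀⟩ := hA.nonconst _ (hG f hf) (by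
    rw [(hC f hf).2.1]
    exact mul_ne_zero (Complex.ofReal_ne_zero.2 hκ.ne') hf0)
  have hW₀ : WF f r₀ ≠ 0 := by
    intro h
    have h1 := hmain f hf r₀ hr₀
    rw [h, mul_zero, tt, mul_eq_zero] at h1
    refine h1.elim ht₀ fun h2 => ?_
    exact (Real.rpow_pos_of_pos (lt_of_le_of_ne (M82.nF_nonneg r₀) (M82.nF_ne hr₀).symm) _).ne'
      (Complex.ofReal_eq_zero.1 h2)
  obtain ⟨J₀, hJ₀⟩ := hP f hf
  obtain ⟨b, hb⟩ := Ar.pow_mem_L α
  obtain ⟨e, he⟩ := Ar.pow_mem_L α⁻¹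
  set J₁ := J + J₀ + Ar.kc F with hJ₁
  set a := J₁ + b + e with ha
  set X : Set F := {r | PJ J (r / α)} with hX
  have hX0 : ∀ s ∈ X, s ≠ 0 := fun s hs h => (PJ_unit hJ hs).1 (by rw [h, zero_div])
  -- small cosets are contained in cosets of `P_{J₁}`
  have hsmall : ∀ s ∈ X, ∀ z, Deep a z → Deep J₁ (z / s) := by
    rintro s hs _ ⟨y, hy, rfl⟩
    refine ⟨_, mul_mem (mul_mem (mul_mem (pow_mem N_mem_L b) he) (PJ_unit hJ hs).2.2) hy, ?_⟩
    have := hX0 s hs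
    rw [ha]
    field_simp
    ring
  have hXa : ∀ s ∈ X, ∀ z, Deep a z → s + z ∈ X := by
    rintro s hs _ ⟨y, hy, rfl⟩
    show Deep J _
    rw [add_div, add_sub_right_comm]
    refine deep_add hs (deep_mono (j' := J₁ + b) (by omega) ⟨_, mul_mem he hy, ?_⟩)
    rw [ha]
    field_simp
    ring
  have hY : ∀ s ∈ X, Rz ({r | Deep a (r - s)}.indicator 1) := by
    intro s hs
    have hs0 := hX0 s hs
    have ht : r₀ / s ≠ 0 := div_ne_zero hr₀ hs0
    have hg := hO.test_opT f _ ht hf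
    obtain ⟨c, hc⟩ := hS _ hg
    have h1 := Rz.cut hA hO hG hL hM ⟨_, hg, hmain _ hg⟩ hc {r | Deep a (r - s)} (c := a)
      fun r hr z hz => by
        show Deep a _
        rw [add_sub_right_comm]
        exact deep_add hr hz
    have hcc : conj (Ar.cc (r₀ / s) s) ≠ 0 := by
      rw [map_ne_zero]
      intro h
      have := Ar.cc_cube _ _ ht hs0
      rw [h] at this
      norm_num at this
    refine (h1.smul hA hO hG (((absS (r₀ / s) ^ (3 / 2 : ℝ) : ℝ) : ℂ) /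
      (conj (Ar.cc (r₀ / s) s) * WF f r₀))).congr fun r hr _ => ?_
    by_cases hrs : r ∈ {r | Deep a (r - s)}
    · have hk : PJ J₁ (r / s) := by
        have := hsmall s hs _ hrs
        rwa [sub_div, div_self hs0] at this
      have hk0 : r / s ≠ 0 := div_ne_zero hr hs0
      rw [Set.indicator_of_mem hrs, Set.indicator_of_mem hrs, Pi.one_apply, div_mul_eq_mul_div,
        mul_comm, WF_opT hA hO hG hf ht hr, show r₀ / s * r = r₀ * (r / s) by ring,
        hJ₀ _ _ hr₀ (deep_mono (by omega) hk)]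
      conv_lhs => rw [show r = s * (r / s) by field_simp, Ar.cc_mul_right _ _ _ ht hs0 hk0,
        cc_PJ (by omega) ht hk, mul_one]
      exact div_self (mul_ne_zero hcc hW₀)
    · rw [Set.indicator_of_notMem hrs, Set.indicator_of_notMem hrs, mul_zero]
  obtain ⟨T, -, hT1, hT2, hT3⟩ := hM.reps _ (Npow_ne (F := F) a)
  have hsum := Rz.sum hA hO hG (T.filter (· ∈ X)) _ fun s hs => hY s (Finset.mem_filter.1 hs).2
  obtain ⟨g, hg, h⟩ := hsum.congr (W' := X.indicator 1) fun r _ hR => by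
    rw [Finset.sum_apply]
    by_cases hrX : r ∈ X
    · have h1 : (Ar.N F : F) ^ b * r ∈ (Ar.L : Subring F) := by
        have := mul_mem hb (PJ_unit hJ hrX).2.1
        rwa [mul_assoc, mul_div_cancel₀ _ hα] at this
      obtain ⟨s, hs, hrs⟩ := hT3 r (int_of_mem hR (pow_mul_mem (by omega) h1))
      have hd := deep_latt hrs
      have hsX : s ∈ X := by simpa using hXa r hrX _ (deep_neg hd)
      rw [Finset.sum_eq_single_of_mem s (Finset.mem_filter.2 ⟨hs, hsX⟩),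
        Set.indicator_of_mem hrX, Set.indicator_of_mem (show r ∈ {r | Deep a (r - s)} from hd)]
      intro s' hs' hne
      refine Set.indicator_of_notMem (fun hd' => hne ?_) _
      have hs'T := (Finset.mem_filter.1 hs').1
      obtain ⟨y, hy, hy'⟩ := deep_add hd (deep_neg hd')
      refine hT2 s' hs'T s hs ⟨y, Ar.int_of y ?_ hy, by push_cast; rw [← hy']; ring⟩
      have h2 := sub_mem (mem_R_of_int (hT1 s' hs'T)) (mem_R_of_int (hT1 s hs))
      obtain ⟨k, hk⟩ := (Ar.mem_R _).1 h2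
      refine (Ar.mem_R y).2 ⟨k + a, ?_⟩
      rwa [pow_add, mul_assoc, ← hy', show r - s + -(r - s') = s' - s by ring]
    · rw [Set.indicator_of_notMem hrX]
      refine Finset.sum_eq_zero fun s hs => Set.indicator_of_notMem (fun hd => hrX ?_) _
      simpa using hXa s (Finset.mem_filter.1 hs).2 _ hd
  refine ⟨g, hg, fun r hr => ?_⟩
  rw [h r hr]
  by_cases hrX : r ∈ X <;> simp [hrX]

end Crest.Agent.T27.TH
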