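import Crest.Agent.T27.PsdA_62
import Crest.Agent.T27.Basic_55
import Crest.Agent.T27.Core_51

/-!
# Row 27, core leaf P1 (part B): the pointwise domination `psd_dom` on the frame
-/

set_option autoImplicit false

noncomputable section

namespace Crest.Agent.T27

open scoped ComplexConjugate
open Finset Psd

variable [Fr]

namespace Psd

/-- `G` is a unitary divisor of `x`. -/
def UD (G x : O) : Prop := ∀ p ∈ pf G, vp p x = vp p G

open Classical in
/-- The primes of norm at most `Y`. -/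
def primesY (Y : ℕ) : Finset O := (pball Y).filter Prime

theorem mem_primesY {Y : ℕ} {p : O} (h : p ∈ primesY Y) : Prime p ∧ Primary p := by
  classical
  rw [primesY, mem_filter, mem_pball] at h
  exact ⟨h.2, h.1.1⟩

theorem pf_subset {Y : ℕ} {n : O} (hn : n ∈ pball Y) : pf n ⊆ primesY Y := by
  classical
  intro p hp
  obtain ⟨h1, h2⟩ := mem_pball.1 hn
  obtain ⟨a1, a2, a3⟩ := BasicB.of_mem_pf hp
  rw [primesY, mem_filter, mem_pball]
  exact ⟨⟨a2, (nm_le_of_dvd a3 h1.ne_zero).trans h2⟩, a1⟩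

theorem vp_eq_zero_of_notMem {n p : O} (hn : n ≠ 0) (hp : Prime p ∧ Primary p) (h : p ∉ pf n) :
    vp p n = 0 := by
  by_contra hc
  exact h ((BasicB.mem_pf_iff hn hp.1 hp.2).2 hc)

theorem UD.dvd {G x : O} (h : UD G x) (hG : Primary G) (hx : x ≠ 0) : G ∣ x :=
  (hG.dvd_iff_vp hx).2 fun p hp => (h p hp).ge

theorem eG_dvd_iff (G a : O) : eG G ∣ a ↔ ∀ p ∈ pf G, p ^ (vp p G - 1) ∣ a := by
  refine ⟨fun h p hp => (dvd_prod_of_mem (fun p => p ^ (vp p G - 1)) hp).trans h, fun h => ?_⟩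
  refine prod_dvd_of_coprime (fun p hp p' hp' hne => ?_) h
  obtain ⟨a1, a2⟩ := BasicB.pf_sub (mem_coe.1 hp)
  obtain ⟨b1, b2⟩ := BasicB.pf_sub (mem_coe.1 hp')
  refine IsCoprime.pow ?_
  exact a1.irreducible.coprime_iff_not_dvd.2 fun hd => hne (BasicB.eq_of_dvd a1 b1 a2 b2 hd)

open Classical in
theorem prod_dl (G a : O) :
    ∏ p ∈ pf G, dl (nr p) (fun j => p ^ j ∣ a) (vp p G) =
      if eG G ∣ a then nr (eG G) * cG G else 0 := by
  split_ifs with h
  · rw [eG_dvd_iff] at h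
    have e : nr (eG G) = ∏ p ∈ pf G, nr p ^ (vp p G - 1) := by
      simp only [eG, nr, nm_prod, nm_pow, Nat.cast_prod, Nat.cast_pow]
    rw [e, cG, ← prod_mul_distrib]
    refine prod_congr rfl fun p hp => ?_
    simp only [dl, cl, if_pos (h p hp)]
  · rw [eG_dvd_iff] at h
    push Not at h
    obtain ⟨p, hp, h⟩ := h
    exact prod_eq_zero hp (by simp only [dl, if_neg h])

open Classical in
/-- Expansion over the unitary common divisors. -/
theorem sum_powerset {Y : ℕ} {x y : O} (hx : x ∈ pball Y) (a : O) (f : O → ℂ) :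
    ∑ T ∈ (primesY Y).powerset,
        (∏ p ∈ T, Dl (nr p) (fun j => p ^ j ∣ a) (vp p x) (vp p y)) * ∏ p ∈ primesY Y \ T, f p =
      ∑ G ∈ pball Y, if UD G x ∧ UD G y then
        ((if eG G ∣ a then nr (eG G) * cG G else 0 : ℝ) : ℂ) * ∏ p ∈ primesY Y \ pf G, f p
        else 0 := by
  obtain ⟨hx1, hx2⟩ := mem_pball.1 hx
  rw [← sum_filter]
  symm
  refine sum_of_injOn pf (fun G hG G' hG' e => ?_) (fun G hG => ?_) (fun T hT hT' => ?_)
    fun G hG => ?_
  · obtain ⟨a1, a2, -⟩ := mem_filter.1 (mem_coe.1 hG)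
    obtain ⟨b1, b2, -⟩ := mem_filter.1 (mem_coe.1 hG')
    rw [(mem_pball.1 a1).1.eq_prod, (mem_pball.1 b1).1.eq_prod, ← e]
    refine prod_congr rfl fun p hp => ?_
    rw [← a2 p hp, b2 p (e ▸ hp)]
  · exact mem_powerset.2 (pf_subset (mem_filter.1 hG).1)
  · by_contra hc
    have h0 := prod_ne_zero_iff.1 (left_ne_zero_of_mul hc)
    have hTp : ∀ p ∈ T, Prime p ∧ Primary p := fun p hp => mem_primesY (mem_powerset.1 hT hp)
    have h1 : ∀ p ∈ T, vp p x = vp p y ∧ vp p x ≠ 0 := by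
      intro p hp
      have := h0 p hp
      unfold Dl at this
      split_ifs at this with e
      · refine ⟨e, fun e0 => this ?_⟩
        rw [e0, dl_zero, Complex.ofReal_zero]
      · exact absurd rfl this
    have hG := BasicB.primary_prod_pow hTp fun p => vp p x
    have hpf : pf (∏ p ∈ T, p ^ vp p x) = T := by
      ext p
      constructor
      · intro hp
        have a1 := BasicB.pf_sub hp
        have a2 := BasicB.vp_ne_zero hp
        rw [vp_prod_pow hTp _ a1.1 a1.2] at a2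
        by_contra hc'
        exact a2 (if_neg hc')
      · intro hp
        rw [BasicB.mem_pf_iff hG.ne_zero (hTp p hp).1 (hTp p hp).2,
          vp_prod_pow hTp _ (hTp p hp).1 (hTp p hp).2, if_pos hp]
        exact (h1 p hp).2
    have hU : UD (∏ p ∈ T, p ^ vp p x) x := by
      intro p hp
      rw [hpf] at hp
      rw [vp_prod_pow hTp _ (hTp p hp).1 (hTp p hp).2, if_pos hp]
    refine hT' ⟨_, mem_coe.2 (mem_filter.2 ⟨mem_pball.2 ⟨hG, ?_⟩, hU, fun p hp => ?_⟩), hpf⟩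
    · exact (nm_le_of_dvd (hU.dvd hG hx1.ne_zero) hx1.ne_zero).trans hx2
    · rw [← hU p hp, (h1 p (hpf ▸ hp)).1]
  · obtain ⟨-, a2, a3⟩ := mem_filter.1 hG
    rw [← prod_dl, Complex.ofReal_prod]
    congr 1
    refine prod_congr rfl fun p hp => ?_
    rw [a2 p hp, a3 p hp, Dl, if_pos rfl]

theorem mem_cofS {κ : WithZero Cl} {Y : ℕ} {G k : O} : k ∈ cofS κ Y G ↔
    k ∈ pball Y ∧ IsCoprime k G ∧ nm (G * k) ≤ Y ∧ cls (G * k) = κ := by
  simp only [cofS, mem_filter]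

open Classical in
theorem filter_UD {κ : WithZero Cl} {Y : ℕ} {S : Finset O}
    (hS : ∀ n, n ∈ S ↔ n ∈ pball Y ∧ cls n = κ) {G : O} (hG : Primary G) :
    S.filter (UD G) = (cofS κ Y G).image (G * ·) := by
  ext n
  simp only [mem_filter, mem_image, mem_cofS, mem_pball, hS]
  constructor
  · rintro ⟨⟨⟨h1, h2⟩, h3⟩, h4⟩
    obtain ⟨k, rfl⟩ := h4.dvd hG h1.ne_zero
    have hk := hG.of_mul h1
    refine ⟨k, ⟨⟨hk, (nm_le_of_dvd (dvd_mul_left k G) h1.ne_zero).trans h2⟩, ?_, h2, h3⟩, rfl⟩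
    refine isCoprime_of_disjoint_pf hk hG.ne_zero (disjoint_left.2 fun p hp hp' => ?_)
    have := h4 p hp'
    rw [vp_mul (BasicB.pf_sub hp).1 hG.ne_zero hk.ne_zero] at this
    exact BasicB.vp_ne_zero hp (by omega)
  · rintro ⟨k, ⟨⟨hk, -⟩, h1, h2, h3⟩, rfl⟩
    refine ⟨⟨⟨hG.mul hk, h2⟩, h3⟩, fun p hp => ?_⟩
    rw [vp_mul (BasicB.pf_sub hp).1 hG.ne_zero hk.ne_zero,
      vp_eq_zero_of_notMem hk.ne_zero (BasicB.pf_sub hp)
        (disjoint_right.1 (disjoint_pf h1) hp), add_zero]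

theorem prod_cof {κ : WithZero Cl} {Y : ℕ} {G k₁ k₂ : O} (hG : Primary G) (h₁ : k₁ ∈ cofS κ Y G)
    (h₂ : k₂ ∈ cofS κ Y G) (m : O → ℕ → ℕ → ℂ) (hm : ∀ p, Prime p → Primary p → m p 0 0 = 1) :
    ∏ p ∈ primesY Y \ pf G, m p (vp p (G * k₁)) (vp p (G * k₂)) =
      ∏ p ∈ pf (k₁ * k₂), m p (vp p k₁) (vp p k₂) := by
  classical
  rw [mem_cofS] at h₁ h₂
  have a1 := (mem_pball.1 h₁.1).1.ne_zero
  have a2 := (mem_pball.1 h₂.1).1.ne_zero
  have e : ∏ p ∈ primesY Y \ pf G, m p (vp p (G * k₁)) (vp p (G * k₂)) =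
      ∏ p ∈ primesY Y \ pf G, m p (vp p k₁) (vp p k₂) := by
    refine prod_congr rfl fun p hp => ?_
    obtain ⟨b1, b2⟩ := mem_sdiff.1 hp
    have b3 := mem_primesY b1
    rw [vp_mul b3.1 hG.ne_zero a1, vp_mul b3.1 hG.ne_zero a2,
      vp_eq_zero_of_notMem hG.ne_zero b3 b2, zero_add, zero_add]
  rw [e, pf_mul a1 a2]
  symm
  refine prod_subset (fun p hp => mem_sdiff.2 ?_) fun p hp hp' => ?_
  · rcases mem_union.1 hp with h | h
    · exact ⟨pf_subset h₁.1 h, disjoint_left.1 (disjoint_pf h₁.2.1) h⟩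
    · exact ⟨pf_subset h₂.1 h, disjoint_left.1 (disjoint_pf h₂.2.1) h⟩
  · have b3 := mem_primesY (mem_sdiff.1 hp).1
    rw [mem_union, not_or] at hp'
    rw [vp_eq_zero_of_notMem a1 b3 hp'.1, vp_eq_zero_of_notMem a2 b3 hp'.2, hm p b3.1 b3.2]

open Classical in
theorem prod_ul {Y : ℕ} {n a : O} (hn : n ∈ pball Y) (ha : a ≠ 0) (m : O → ℕ → ℕ → ℂ) :
    ∏ p ∈ primesY Y, ul (fun j => p ^ j ∣ a) (m p) (vp p n) =
      if Squarefree n ∧ IsCoprime n a then ∏ p ∈ pf n, m p 1 0 else 0 := by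
  have h1 := (mem_pball.1 hn).1
  rw [← prod_subset (pf_subset hn) fun p hp hp' => by
    rw [vp_eq_zero_of_notMem h1.ne_zero (mem_primesY hp) hp', ul, if_pos rfl]]
  split_ifs with h
  · refine prod_congr rfl fun p hp => ?_
    have a1 := h1.squarefree_iff.1 h.1 p hp
    have a2 : ¬ p ^ 1 ∣ a := fun hd => disjoint_left.1 (disjoint_pf h.2) hp
      ((mem_pf ha).2 ⟨(BasicB.pf_sub hp).1, (BasicB.pf_sub hp).2, by rwa [pow_one] at hd⟩)
    rw [a1, ul, if_neg one_ne_zero, if_pos ⟨rfl, a2⟩]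
  · by_contra hc
    have h0 := prod_ne_zero_iff.1 hc
    have h2 : ∀ p ∈ pf n, vp p n = 1 ∧ ¬ p ^ 1 ∣ a := by
      intro p hp
      have := h0 p hp
      rw [ul, if_neg (BasicB.vp_ne_zero hp)] at this
      by_contra hc'
      exact this (if_neg hc')
    refine h ⟨h1.squarefree_iff.2 fun p hp => (h2 p hp).1,
      isCoprime_of_disjoint_pf h1 ha (disjoint_left.2 fun p hp hp' => (h2 p hp).2 ?_)⟩
    rw [pow_one]
    exact (BasicB.of_mem_pf hp').2.2

theorem le_prod_cD (Y : ℕ) {a : O} (ha : a ≠ 0) :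
    (1 / 2 : ℝ) ^ (pf a).card ≤ ∏ p ∈ primesY Y, cD (fun j => p ^ j ∣ a) := by
  classical
  simp only [cD]
  rw [prod_ite, prod_const, prod_const_one, mul_one]
  refine pow_le_pow_of_le_one (by norm_num) (by norm_num) (card_le_card fun p hp => ?_)
  obtain ⟨h1, h2⟩ := mem_filter.1 hp
  rw [pow_one] at h2
  exact (mem_pf ha).2 ⟨(mem_primesY h1).1, (mem_primesY h1).2, h2⟩

end Psd

open Classical in
/-- **Pointwise PSD domination** for abstract local kernels `m p`. -/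
theorem psd_dom (a : O) (m : O → ℕ → ℕ → ℂ)
    (hm : ∀ p, Prime p → Primary p → LocOK (nr p) (fun j => p ^ j ∣ a) (m p))
    (κ : WithZero Cl) (Y : ℕ) (S : Finset O) (hS : ∀ n, n ∈ S ↔ n ∈ pball Y ∧ cls n = κ)
    (t : O → ℂ) :
    (if a = 0 then 0 else (1 / 2 : ℝ) ^ (pf a).card) *
        ‖∑ n ∈ S, if Squarefree n ∧ IsCoprime n a then t n * ∏ p ∈ pf n, m p 1 0 else 0‖ ^ 2 ≤
      ∑ G ∈ pball Y, (if eG G ∣ a then nr (eG G) * cG G else 0) *
        (∑ k₁ ∈ cofS κ Y G, ∑ k₂ ∈ cofS κ Y G, t (G * k₁) * conj (t (G * k₂)) *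
          ∏ p ∈ pf (k₁ * k₂), m p (vp p k₁) (vp p k₂)).re := by
  have h := tensor_dom (primesY Y) nr (fun p j => p ^ j ∣ a) m
    (fun p hp => hm p (mem_primesY hp).1 (mem_primesY hp).2) vp S t
  refine le_trans ?_ (h.trans (le_of_eq ?_))
  · split_ifs with ha
    · rw [zero_mul]
      exact mul_nonneg (prod_nonneg fun _ _ => cD_nonneg _) (by positivity)
    · refine mul_le_mul (le_prod_cD Y ha) (le_of_eq ?_) (by positivity)
        (prod_nonneg fun _ _ => cD_nonneg _)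
      congr 2
      refine sum_congr rfl fun n hn => ?_
      rw [prod_ul ((hS n).1 hn).1 ha, mul_ite, mul_zero]
  · simp only [← Complex.re_ofReal_mul]
    rw [← Complex.re_sum]
    congr 1
    have e1 : ∀ x ∈ S, ∀ y ∈ S, t x * conj (t y) * ∑ T ∈ (primesY Y).powerset,
        (∏ p ∈ T, Dl (nr p) (fun j => p ^ j ∣ a) (vp p x) (vp p y)) *
          ∏ p ∈ primesY Y \ T, m p (vp p x) (vp p y) =
        ∑ G ∈ pball Y, ((if eG G ∣ a then nr (eG G) * cG G else 0 : ℝ) : ℂ) *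
          if UD G x then (if UD G y then t x * conj (t y) *
            ∏ p ∈ primesY Y \ pf G, m p (vp p x) (vp p y) else 0) else 0 := by
      intro x hx y _
      rw [sum_powerset ((hS x).1 hx).1, mul_sum]
      refine sum_congr rfl fun G _ => ?_
      by_cases h1 : UD G x <;> by_cases h2 : UD G y <;> simp only [h1, h2, and_self, and_false,
        false_and, if_true, if_false, mul_zero]
      ring
    rw [sum_congr rfl fun x hx => sum_congr rfl fun y hy => e1 x hx y hy]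
    simp only [sum_comm (s := S) (t := pball Y), ← mul_sum]
    refine sum_congr rfl fun G hG => ?_
    have hG1 := (mem_pball.1 hG).1
    congr 1
    simp only [sum_ite_irrel, sum_const_zero, ← sum_filter]
    have hinj : Set.InjOn (G * ·) (cofS κ Y G : Set O) := fun _ _ _ _ e =>
      mul_left_cancel₀ hG1.ne_zero e
    rw [filter_UD hS hG1, sum_image hinj]
    refine sum_congr rfl fun k₁ h₁ => ?_
    rw [sum_image hinj]
    refine sum_congr rfl fun k₂ h₂ => ?_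
    rw [prod_cof hG1 h₁ h₂ m fun p a1 a2 => (hm p a1 a2).m00]

end Crest.Agent.T27
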