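import Crest.Agent.T27.Recip_55
import Crest.Agent.T27.PsdB_62

/-!
# Row 27, PSD core, part P2 (helper91): the local kernels and the factorisation of `MK`
-/

set_option autoImplicit false

noncomputable section

namespace Crest.Agent.T27

open scoped ComplexConjugate

namespace Dom

section loc

variable [Fr0]

theorem po {n : O} (hn : Primary n) : PO n := ⟨hn, hn.ne_zero⟩

omit [Fr0] in
theorem conj_mul_self {z : ℂ} (h : ‖z‖ = 1) : conj z * z = 1 := by
  rw [Complex.conj_mul', h]; simp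

/-- the local character `χ_p^j · conj χ_p^{j'}` -/
def fl (p : O) (j j' : ℕ) (x : O) : ℂ := sym p x ^ j * conj (sym p x ^ j')

/-- the local kernel -/
def mloc (a p : O) (j j' : ℕ) : ℂ :=
  sym p (-1) ^ (j' + j * j') * ft (p ^ (j + j')) (fl p j j') a / (Real.sqrt (nr p) : ℂ) ^ (j + j')

theorem fl_per (p : O) (j j' : ℕ) (x y : O) (h : p ∣ x - y) : fl p j j' x = fl p j j' y := by
  unfold fl
  rw [sym_congr ((rad_dvd p).trans h)]

theorem fl_per' (p : O) (j j' : ℕ) (x y : O) (h : p ^ (j + j') ∣ x - y) :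
    fl p j j' x = fl p j j' y := by
  rcases Nat.eq_zero_or_pos (j + j') with h0 | h0
  · obtain ⟨rfl, rfl⟩ : j = 0 ∧ j' = 0 := by omega
    simp [fl]
  · exact fl_per p j j' x y ((dvd_pow_self p h0.ne').trans h)

theorem fl_mul {p : O} (hp : Primary p) (j j' : ℕ) (x y : O) :
    fl p j j' (x * y) = fl p j j' x * fl p j j' y := by
  unfold fl
  rw [sym_mul_right (po hp), mul_pow, mul_pow, map_mul]
  ring

theorem ft_one (f : O → ℂ) (hf : ∀ x, f x = 1) (a : O) : ft 1 f a = 1 := by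
  unfold ft
  simp only [hf, one_mul]
  simpa using sum_res_eq_char one_ne_zero a

theorem mloc_zero (a p : O) : mloc a p 0 0 = 1 := by
  simp [mloc, ft_one (fl p 0 0) (fun x => by simp [fl])]

theorem conj_neg_one {p : O} (hp : Primary p) : conj (sym p (-1)) = sym p (-1) := by
  have h := Gauss_neg_one (po hp)
  rw [conj_sym hp]
  linear_combination (sym p (-1) ^ 3 + sym p (-1)) * h

theorem neg_one_pow_two_mul {p : O} (hp : Primary p) (n : ℕ) : sym p (-1) ^ (2 * n) = 1 := by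
  rw [pow_mul, Gauss_neg_one (po hp), one_pow]

theorem conj_ft {q : O} (hq : q ≠ 0) (f : O → ℂ) (hf : ∀ x y, q ∣ x - y → f x = f y) (a : O) :
    conj (ft q f a) = ft q (fun x => conj (f (-x))) a := by
  unfold ft
  have h := sum_res_affine hq (fun x => conj (f x * eq (a * x) q)) (fun x y hxy => by
    rw [hf x y hxy, eq_congr (show q ∣ a * x - a * y from mul_sub a x y ▸ hxy.mul_left a)])
    (a := -1) (isCoprime_one_left.neg_left) 0
  rw [map_sum, ← h]
  refine Finset.sum_congr rfl fun x _ => ?_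
  simp only [add_zero, neg_mul, one_mul, map_mul, mul_neg, eq_neg, Complex.conj_conj]

theorem mloc_herm {p : O} (hp : Primary p) (a : O) (j j' : ℕ) :
    mloc a p j' j = conj (mloc a p j j') := by
  unfold mloc
  rw [map_div₀, map_mul, map_pow, map_pow, Complex.conj_ofReal, conj_neg_one hp,
    conj_ft (pow_ne_zero _ hp.ne_zero) _ (fl_per' p j j'), add_comm j' j]
  congr 1
  have e : (fun x => conj (fl p j j' (-x))) = fun x => sym p (-1) ^ (j + j') * fl p j' j x := by
    funext x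
    rw [← neg_one_mul, fl_mul hp, map_mul]
    unfold fl
    simp only [map_mul, map_pow, Complex.conj_conj, conj_neg_one hp]
    ring
  rw [e]
  unfold ft
  simp only [mul_assoc, ← Finset.mul_sum]
  rw [← mul_assoc, ← pow_add, show j' + j * j' + (j + j') = 2 * j' + (j + j' * j) by ring,
    pow_add _ (2 * j'), neg_one_pow_two_mul hp, one_mul]

open Classical in
theorem ft_fl {p : O} (hp : Primary p) (a : O) {j j' i : ℕ} (h : j + j' = i + 1) :
    ft (p ^ (j + j')) (fl p j j') a =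
      if p ^ i ∣ a then (nm p : ℂ) ^ i * gs (j + 5 * j') p (a / p ^ i) else 0 := by
  rw [h]
  refine (Gauss_pow hp.ne_zero (fl_per p j j') i a).trans ?_
  congr 2
  refine Finset.sum_congr rfl fun x _ => ?_
  rw [sym_pow_add_six hp x (by omega), fl, map_pow, conj_sym hp, ← pow_mul, ← pow_add]

theorem two_le_nr {p : O} (hp : Prime p) : 2 ≤ nr p := by
  have := (nm_prime_mod_six' hp).2
  exact_mod_cast (by omega : 2 ≤ nm p)

theorem sqrt_pow_two_mul (p : O) (j : ℕ) :
    (Real.sqrt (nr p) : ℂ) ^ (j + j) = ((nr p ^ j : ℝ) : ℂ) := by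
  rw [← two_mul, pow_mul, ← Complex.ofReal_pow, Real.sq_sqrt (Nat.cast_nonneg _),
    Complex.ofReal_pow]

theorem norm_gs_prime {p : O} (hp : Prime p) (hp' : Primary p) (i : ℕ) (k : O) :
    ‖gs i p k‖ ^ 2 ≤ if 6 ∣ i then nr p ^ 2 else nr p := by
  have h2 := two_le_nr hp
  split_ifs with h
  · refine pow_le_pow_left₀ (norm_nonneg _) ?_ 2
    rw [gs_prime_zero h hp (po hp')]
    split_ifs
    · rw [show (nm p : ℂ) - 1 = ((nr p - 1 : ℝ) : ℂ) by push_cast; ring, Complex.norm_real,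
        Real.norm_of_nonneg (by linarith)]
      linarith
    · simp only [zero_sub, norm_neg, norm_one]; linarith
  · rw [gs_sqfree h (po hp') hp.squarefree, norm_mul, Gauss_norm_gs h (po hp') hp.squarefree,
      mul_pow, Real.sq_sqrt (Nat.cast_nonneg _), Complex.norm_conj, norm_pow]
    exact mul_le_of_le_one_left (Nat.cast_nonneg _)
      (pow_le_one₀ (by positivity) (pow_le_one₀ (norm_nonneg _) (norm_sym_le _ _)))

theorem norm_neg_one {p : O} (hp : Primary p) : ‖sym p (-1)‖ = 1 :=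
  norm_sym hp isCoprime_one_right.neg_right

theorem locOK {p : O} (hp : Prime p) (hp' : Primary p) (a : O) :
    Psd.LocOK (nr p) (fun j => p ^ j ∣ a) (mloc a p) where
  two_le := two_le_nr hp
  zero := by simp
  anti j h := (pow_dvd_pow p j.le_succ).trans h
  herm := mloc_herm hp' a
  m00 := mloc_zero a p
  diag j hj := by
    classical
    have h2 := two_le_nr hp
    obtain ⟨i, rfl⟩ : ∃ i, j = i + 1 := ⟨j - 1, by omega⟩
    have hs : sym p (-1) ^ (i + 1 + (i + 1) * (i + 1)) = 1 := by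
      obtain ⟨c, hc⟩ := Nat.even_mul_succ_self (i + 1)
      rw [show i + 1 + (i + 1) * (i + 1) = 2 * c by linarith, neg_one_pow_two_mul hp']
    have hq : (0 : ℝ) < nr p := by linarith
    rw [mloc, hs, one_mul, ft_fl hp' a (i := 2 * i + 1) (by ring), sqrt_pow_two_mul,
      gs_prime_zero (by omega) hp (po hp'), show 2 * (i + 1) - 1 = 2 * i + 1 by omega,
      Nat.add_sub_cancel]
    by_cases h1 : p ^ (2 * i + 1) ∣ a
    · have e : p ∣ a / p ^ (2 * i + 1) ↔ p ^ (2 * (i + 1)) ∣ a := by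
        obtain ⟨k, rfl⟩ := h1
        have hi := pow_ne_zero (2 * i + 1) hp.ne_zero
        rw [mul_div_cancel_left₀ _ hi, show 2 * (i + 1) = 2 * i + 1 + 1 by ring, pow_succ p (2 * i + 1),
          mul_dvd_mul_iff_left hi]
      rw [if_pos h1, if_pos h1]
      by_cases h3 : p ^ (2 * (i + 1)) ∣ a
      · rw [if_pos h3, if_pos (e.2 h3), show (nm p : ℂ) ^ (2 * i + 1) * ((nm p : ℂ) - 1) /
          ((nr p ^ (i + 1) : ℝ) : ℂ) = ((nr p ^ (2 * i + 1) * (nr p - 1) / nr p ^ (i + 1) : ℝ) : ℂ) by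
            push_cast; ring, Complex.ofReal_re, show nr p ^ (2 * i + 1) * (nr p - 1) / nr p ^ (i + 1) =
            nr p ^ i * (nr p - 1) by field_simp; ring, pow_succ]
        have := pow_pos hq i
        nlinarith
      · rw [if_neg h3, if_neg fun h => h3 (e.1 h), show (nm p : ℂ) ^ (2 * i + 1) * (0 - 1) /
          ((nr p ^ (i + 1) : ℝ) : ℂ) = ((nr p ^ (2 * i + 1) * (0 - 1) / nr p ^ (i + 1) : ℝ) : ℂ) by
            push_cast; ring, Complex.ofReal_re, show nr p ^ (2 * i + 1) * (0 - 1) / nr p ^ (i + 1) =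
            -nr p ^ i by field_simp; ring]
    · rw [if_neg h1, if_neg h1, if_neg fun h => h1 ((pow_dvd_pow p (by omega)).trans h)]
      simp
  off j j' hjj := by
    classical
    have h2 := two_le_nr hp
    have hq : (0 : ℝ) < nr p := by linarith
    obtain ⟨i, hi⟩ : ∃ i, j + j' = i + 1 := ⟨j + j' - 1, by omega⟩
    rw [mloc, ft_fl hp' a hi, hi, Nat.add_sub_cancel]
    by_cases h1 : p ^ i ∣ a
    · rw [if_pos h1, if_pos h1, norm_div, norm_mul, norm_mul, norm_pow, norm_neg_one hp', one_pow,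
        one_mul, norm_pow, norm_pow, Complex.norm_natCast, Complex.norm_real,
        Real.norm_of_nonneg (Real.sqrt_nonneg _), div_pow, mul_pow, ← pow_mul (Real.sqrt _),
        mul_comm (i + 1) 2, pow_mul, Real.sq_sqrt hq.le, div_le_iff₀ (pow_pos hq _)]
      have hb := norm_gs_prime hp hp' (j + 5 * j') (a / p ^ i)
      have hqi := pow_pos hq i
      refine (mul_le_mul_of_nonneg_left hb (by positivity)).trans ?_
      change (nr p ^ i) ^ 2 * _ ≤ _
      by_cases h6 : 6 ∣ j + 5 * j'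
      · rw [if_pos h6, if_pos (by omega)]
        exact le_of_eq (by ring)
      · rw [if_neg h6]
        split_ifs
        · calc _ = (nr p ^ i) ^ 2 * nr p * 1 := by ring
            _ ≤ (nr p ^ i) ^ 2 * nr p * nr p :=
              mul_le_mul_of_nonneg_left (by linarith) (by positivity)
            _ = _ := by ring
        · exact le_of_eq (by field_simp; ring)
    · rw [if_neg h1, if_neg h1]
      simp

/-! ### the twist `λ` -/

/-- `λ(n) = ∏_{p ≠ p'} χ_p(p')^{v_p(n) v_{p'}(n)}` -/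
def lamb (n : O) : ℂ := ∏ p ∈ pf n, sym (p ^ vp p n) (n / p ^ vp p n)

theorem pow_vp_dvd {p n : O} (hp : Prime p) (hn : n ≠ 0) : p ^ vp p n ∣ n :=
  (pow_dvd_iff_le_vp hp hn).2 le_rfl

theorem lamb_aux {G k : O} (hG : Primary G) (hk : Primary k) (h : IsCoprime G k) :
    ∏ p ∈ pf G, sym (p ^ vp p (G * k)) (G * k / p ^ vp p (G * k)) = lamb G * sym G k := by
  rw [lamb, sym_eq_prod G k, ← Finset.prod_mul_distrib]
  refine Finset.prod_congr rfl fun p hp => ?_
  obtain ⟨h1, h2, h3⟩ := BasicB.of_mem_pf hp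
  have hv : vp p (G * k) = vp p G := by
    rw [vp_mul h1 hG.ne_zero hk.ne_zero, (vp_eq_zero_iff h1 hk.ne_zero).2 fun hpk =>
      h1.not_isUnit (h.isUnit_of_dvd' h3 hpk), add_zero]
  have hi := pow_ne_zero (vp p G) h1.ne_zero
  have e : G * k / p ^ vp p G = G / p ^ vp p G * k := by
    obtain ⟨c, hc⟩ := pow_vp_dvd h1 hG.ne_zero
    generalize vp p G = v at *
    rw [hc, mul_assoc, mul_div_cancel_left₀ _ hi, mul_div_cancel_left₀ _ hi]
  rw [hv, e, sym_mul_right (po (h2.pow _)), sym_pow_left h1.ne_zero _ k]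

theorem lamb_mul {G k : O} (hG : Primary G) (hk : Primary k) (h : IsCoprime G k) :
    lamb (G * k) = lamb G * lamb k * (sym G k * sym k G) := by
  have h1 := lamb_aux hG hk h
  have h2 := lamb_aux hk hG h.symm
  rw [mul_comm k G] at h2
  rw [lamb, pf_mul hG.ne_zero hk.ne_zero, Finset.prod_union (disjoint_pf h), h1, h2]
  ring

theorem lamb_one : lamb 1 = 1 := by simp [lamb]

theorem lamb_pow {p : O} (hp : Prime p) (hp' : Primary p) (i : ℕ) : lamb (p ^ i) = 1 := by
  rcases Nat.eq_zero_or_pos i with rfl | hi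
  · simpa using lamb_one
  · have h0 := pow_ne_zero i hp.ne_zero
    rw [lamb, pf_pow hi.ne', pf_prime hp hp', Finset.prod_singleton, vp_pow hp hp.ne_zero,
      vp_self hp, mul_one]
    have : p ^ i / p ^ i = 1 := by
      conv_lhs => rw [← mul_one (p ^ i)]
      rw [mul_one (p ^ i)]
      simpa using mul_div_cancel_left₀ (1 : O) h0
    rw [this, sym_one_right]

theorem norm_lamb {n : O} (hn : Primary n) : ‖lamb n‖ = 1 := by
  rw [lamb, norm_prod]
  refine Finset.prod_eq_one fun p hp => ?_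
  obtain ⟨h1, h2, h3⟩ := BasicB.of_mem_pf hp
  refine norm_sym (h2.pow _) (IsCoprime.pow_left (h1.coprime_iff_not_dvd.2 fun hd => ?_))
  have hi := pow_ne_zero (vp p n) h1.ne_zero
  have e := EuclideanDomain.mul_div_cancel' hi (pow_vp_dvd h1 hn.ne_zero)
  have : p ^ (vp p n + 1) ∣ n := by
    conv_rhs => rw [← e]
    rw [pow_succ]
    exact mul_dvd_mul_left _ hd
  have := (pow_dvd_iff_le_vp h1 hn.ne_zero).1 this
  omega

/-! ### the theta coefficients -/

theorem cub_cube {m d m' d' : O} (hm : Primary m) (hd : Primary d)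
    (h : IsCoprime (m * d ^ 3) (m' * d' ^ 3)) : cub (m * d ^ 3) (m' * d' ^ 3) = cub m m' := by
  have h1 : IsCoprime d (m' * d' ^ 3) :=
    (IsCoprime.pow_left_iff (by norm_num : 0 < 3)).1 h.of_mul_left_right
  have h2 : IsCoprime m d' :=
    (IsCoprime.pow_right_iff (by norm_num : 0 < 3)).1 h.of_mul_left_left.of_mul_right_right
  rw [cub_mul_left hm.ne_zero (pow_ne_zero _ hd.ne_zero), cub_pow_left hd.ne_zero,
    cub_pow_three hd h1, mul_one, cub_mul_right, cub_pow_right, cub_pow_three hm h2, mul_one]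

theorem th_eq {m d : O} (hm : Primary m) (hs : Squarefree m) (hd : Primary d) :
    th (m * d ^ 3) = gc m 1 / (Real.sqrt (nr m) : ℂ) * (Real.sqrt (nr d) : ℂ) *
      conj (arg (m * d ^ 3)) := by
  obtain ⟨h1, h2, h3⟩ := sq1_cu hm hs hd
  rw [th, if_pos ⟨hm.mul (hd.pow 3), h3⟩, h1, h2]

theorem th_zero {m n : O} (hm : Primary m) (hn : Primary n) (h : IsCoprime m n)
    (h2 : ¬ ∀ p ∈ pf m, vp p m % 3 ≠ 2) : th (m * n) = 0 := by
  rw [th, if_neg]
  rintro ⟨-, h3⟩
  refine h2 fun p hp => ?_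
  have hp' := BasicB.of_mem_pf hp
  have := h3 p (by rw [pf_mul hm.ne_zero hn.ne_zero]; exact Finset.mem_union_left _ hp)
  rw [vp_mul hp'.1 hm.ne_zero hn.ne_zero, (vp_eq_zero_iff hp'.1 hn.ne_zero).2 fun hpn =>
    hp'.1.not_isUnit (h.isUnit_of_dvd' hp'.2.2 hpn), add_zero] at this
  exact this

/-- Twisted multiplicativity of the theta coefficients. -/
theorem th_mul {m n : O} (hm : Primary m) (hn : Primary n) (h : IsCoprime m n) :
    th (m * n) = cub m n * cub n m * th m * th n := by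
  by_cases h1 : ∀ p ∈ pf m, vp p m % 3 ≠ 2
  swap
  · rw [th_zero hm hn h h1, show th m = 0 by rw [th, if_neg fun h' => h1 h'.2]]; ring
  by_cases h2 : ∀ p ∈ pf n, vp p n % 3 ≠ 2
  swap
  · rw [mul_comm m n, th_zero hn hm h.symm h2,
      show th n = 0 by rw [th, if_neg fun h' => h2 h'.2]]; ring
  obtain ⟨e₁, hm₁, hs₁, hd₁⟩ := eq_sq1_mul_cu hm h1
  obtain ⟨e₂, hm₂, hs₂, hd₂⟩ := eq_sq1_mul_cu hn h2
  generalize sq1 m = a at e₁ hm₁ hs₁
  generalize cu m = b at e₁ hd₁
  generalize sq1 n = c at e₂ hm₂ hs₂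
  generalize cu n = d at e₂ hd₂
  subst e₁ e₂
  have hac : IsCoprime a c := h.of_mul_left_left.of_mul_right_left
  have e : a * b ^ 3 * (c * d ^ 3) = a * c * (b * d) ^ 3 := by ring
  have ha := arg_mul (a * b ^ 3) (c * d ^ 3)
  rw [cub_cube hm₁ hd₁ h, cub_cube hm₂ hd₂ h.symm, th_eq hm₁ hs₁ hd₁, th_eq hm₂ hs₂ hd₂]
  rw [e] at ha ⊢
  rw [th_eq (hm₁.mul hm₂) ((squarefree_mul_iff).2 ⟨hac.isRelPrime, hs₁, hs₂⟩) (hd₁.mul hd₂), ha,
    gc_mul hm₁ hm₂ hac, nr_mul, nr_mul, Real.sqrt_mul (Nat.cast_nonneg _),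
    Real.sqrt_mul (Nat.cast_nonneg _), map_mul]
  push_cast
  ring

end loc

section glob

variable [Fr]

theorem rs_left {m m' n : O} (hm : m ≠ 0) (hm' : m' ≠ 0) (hn : n ≠ 0) :
    Rs (m * m') n = Rs m n * Rs m' n := Fr.recAx.mul_left m m' n hm hm' hn

theorem rs_anti {m n : O} (hm : m ≠ 0) (hn : n ≠ 0) : Rs m n * Rs n m = 1 :=
  Fr.recAx.anti m n hm hn

theorem rs_right {m n n' : O} (hm : m ≠ 0) (hn : n ≠ 0) (hn' : n' ≠ 0) :
    Rs m (n * n') = Rs m n * Rs m n' := by
  have h1 := rs_anti hm (mul_ne_zero hn hn')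
  have h2 := rs_anti hm hn
  have h3 := rs_anti hm hn'
  rw [rs_left hn hn' hm] at h1
  linear_combination (Rs m n * Rs m n') * h1 - Rs m (n * n') * h2 -
    (Rs m (n * n') * Rs m n * Rs n m) * h3

theorem rs_one_left {n : O} (hn : n ≠ 0) : Rs 1 n = 1 := by
  have h1 := rs_left one_ne_zero one_ne_zero hn
  have h2 := rs_anti one_ne_zero hn
  rw [one_mul] at h1
  linear_combination (1 - Rs 1 n) * h2 - Rs n 1 * h1

theorem rs_one_right {n : O} (hn : n ≠ 0) : Rs n 1 = 1 := by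
  have h2 := rs_anti one_ne_zero hn
  rwa [rs_one_left hn, one_mul] at h2

theorem rs_pow_left {m n : O} (hm : m ≠ 0) (hn : n ≠ 0) (i : ℕ) : Rs (m ^ i) n = Rs m n ^ i := by
  induction i with
  | zero => simp [rs_one_left hn]
  | succ i ih => rw [pow_succ, rs_left (pow_ne_zero i hm) hm hn, ih, pow_succ]

theorem rs_pow_right {m n : O} (hm : m ≠ 0) (hn : n ≠ 0) (i : ℕ) : Rs m (n ^ i) = Rs m n ^ i := by
  induction i with
  | zero => simp [rs_one_right hm]
  | succ i ih => rw [pow_succ, rs_right hm (pow_ne_zero i hn) hn, ih, pow_succ]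

theorem rs_self {n : O} (hn : n ≠ 0) : Rs n n = sym n (-1) := Fr.recAx.self n hn

theorem rs_recip {m n : O} (hm : m ≠ 0) (hn : n ≠ 0) (h : IsCoprime m n) :
    sym m n = Rs m n * sym n m := Fr.recAx.recip m n hm hn h

theorem rs_congr {m m' n n' : O} (h : cls m = cls m') (h' : cls n = cls n') :
    Rs m n = Rs m' n' := Fr.recAx.congr m m' n n' h h'

/-- one step of the Chinese remainder factorisation -/
theorem ft_step {p m₁ m₂ : O} (hp : Prime p) (hp' : Primary p) (h₁ : Primary m₁) (h₂ : Primary m₂)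
    (c₁ : IsCoprime p m₁) (c₂ : IsCoprime p m₂) (i j : ℕ) (a : O) :
    ft (p ^ i * m₁ * (p ^ j * m₂)) (fun x => sym (p ^ i * m₁) x * conj (sym (p ^ j * m₂) x)) a =
      (sym p m₁ * sym m₁ p) ^ i * conj ((sym p m₂ * sym m₂ p) ^ j) * Rs p m₂ ^ i * Rs m₁ p ^ j *
        ft (p ^ (i + j)) (fl p i j) a * ft (m₁ * m₂) (fun x => sym m₁ x * conj (sym m₂ x)) a := by
  have h0 := hp.ne_zero
  have key := Gauss_crt (f := fl p i j) (g := fun x => sym m₁ x * conj (sym m₂ x))
    (pow_ne_zero (i + j) h0) (mul_ne_zero h₁.ne_zero h₂.ne_zero) (c₁.mul_right c₂).pow_left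
    (fl_per' p i j) (fun x y hxy => by
      rw [sym_congr (((rad_dvd m₁).trans (dvd_mul_right _ _)).trans hxy),
        sym_congr (((rad_dvd m₂).trans (dvd_mul_left _ _)).trans hxy)])
    (fl_mul hp' i j) (fun x y => by
      rw [sym_mul_right (po h₁), sym_mul_right (po h₂), map_mul]; ring) a
  have e : (fun x => sym (p ^ i * m₁) x * conj (sym (p ^ j * m₂) x)) =
      fun x => fl p i j x * (sym m₁ x * conj (sym m₂ x)) := by
    funext x
    rw [sym_mul_left (pow_ne_zero i h0) h₁.ne_zero, sym_mul_left (pow_ne_zero j h0) h₂.ne_zero,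
      sym_pow_left h0, sym_pow_left h0, map_mul, fl]
    ring
  rw [e, show p ^ i * m₁ * (p ^ j * m₂) = p ^ (i + j) * (m₁ * m₂) by ring]
  refine key.trans ?_
  change _ * _ * ft _ _ _ * ft _ _ _ = _
  congr 2
  have n1 := conj_mul_self (norm_sym hp' c₁)
  have n2 := conj_mul_self (norm_sym h₂ c₂.symm)
  have r1 := rs_recip h₁.ne_zero h0 c₁.symm
  have r2 := rs_recip h0 h₂.ne_zero c₂
  rw [fl, sym_mul_right (po hp'), sym_pow_right (po h₁), sym_pow_right (po h₂)]
  simp only [map_mul, map_pow, mul_pow, pow_add]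
  calc _ = sym p m₁ ^ i * sym m₁ p ^ i * (conj (sym p m₂) ^ j * conj (sym m₂ p) ^ j) *
        (conj (sym m₂ p) * sym p m₂) ^ i * (conj (sym p m₁) * sym m₁ p) ^ j := by
        simp only [mul_pow]; ring
    _ = _ := by
        have a1 : conj (sym m₂ p) * sym p m₂ = Rs p m₂ := by
          linear_combination conj (sym m₂ p) * r2 + Rs p m₂ * n2
        have a2 : conj (sym p m₁) * sym m₁ p = Rs m₁ p := by
          linear_combination conj (sym p m₁) * r1 + Rs m₁ p * n1
        rw [a1, a2]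

theorem ft_fact (a : O) (s : Finset O) (hs : ∀ q ∈ s, Prime q ∧ Primary q) (e₁ e₂ : O → ℕ) :
    ft ((∏ p ∈ s, p ^ e₁ p) * ∏ p ∈ s, p ^ e₂ p)
        (fun x => sym (∏ p ∈ s, p ^ e₁ p) x * conj (sym (∏ p ∈ s, p ^ e₂ p) x)) a =
      lamb (∏ p ∈ s, p ^ e₁ p) * conj (lamb (∏ p ∈ s, p ^ e₂ p)) *
        Rs (∏ p ∈ s, p ^ e₁ p) (∏ p ∈ s, p ^ e₂ p) *
        ∏ p ∈ s, sym p (-1) ^ (e₁ p * e₂ p) * ft (p ^ (e₁ p + e₂ p)) (fl p (e₁ p) (e₂ p)) a := by
  induction s using Finset.induction_on with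
  | empty =>
    simp only [Finset.prod_empty, mul_one, lamb_one, map_one, rs_one_left one_ne_zero]
    exact ft_one _ (fun x => by simp) a
  | insert p s hps ih =>
    have hs' : ∀ r ∈ s, Prime r ∧ Primary r := fun r hr => hs r (Finset.mem_insert_of_mem hr)
    obtain ⟨hp, hp'⟩ := hs p (Finset.mem_insert_self p s)
    have h0 := hp.ne_zero
    have hc : ∀ e : O → ℕ, IsCoprime p (∏ q ∈ s, q ^ e q) := fun e =>
      IsCoprime.prod_right fun q hq => IsCoprime.pow_right (hp.coprime_iff_not_dvd.2 fun hd =>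
        hps (BasicB.eq_of_dvd hp (hs' q hq).1 hp' (hs' q hq).2 hd ▸ hq))
    have h₁ := BasicB.primary_prod_pow hs' e₁
    have h₂ := BasicB.primary_prod_pow hs' e₂
    have c₁ := hc e₁
    have c₂ := hc e₂
    simp only [Finset.prod_insert hps]
    rw [ft_step hp hp' h₁ h₂ c₁ c₂, ih hs']
    generalize (∏ q ∈ s, q ^ e₁ q) = m₁ at *
    generalize (∏ q ∈ s, q ^ e₂ q) = m₂ at *
    have hsq := neg_one_pow_two_mul hp' (e₁ p * e₂ p)
    rw [lamb_mul (hp'.pow _) h₁ c₁.pow_left, lamb_mul (hp'.pow _) h₂ c₂.pow_left, lamb_pow hp hp',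
      lamb_pow hp hp', sym_pow_left h0, sym_pow_left h0, sym_pow_right (po h₁),
      sym_pow_right (po h₂), rs_left (pow_ne_zero _ h0) h₁.ne_zero
        (mul_ne_zero (pow_ne_zero _ h0) h₂.ne_zero), rs_pow_left h0
        (mul_ne_zero (pow_ne_zero _ h0) h₂.ne_zero), rs_right h0 (pow_ne_zero _ h0) h₂.ne_zero,
      rs_right h₁.ne_zero (pow_ne_zero _ h0) h₂.ne_zero, rs_pow_right h0 h0,
      rs_pow_right h₁.ne_zero h0, rs_self h0]
    simp only [map_mul, map_pow, mul_pow, one_mul]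
    rw [← pow_mul, mul_comm (e₂ p) (e₁ p)]
    rw [two_mul, pow_add] at hsq
    generalize sym p (-1) ^ (e₁ p * e₂ p) = σ at *
    generalize (∏ x ∈ s, sym x (-1) ^ (e₁ x * e₂ x) * ft (x ^ (e₁ x + e₂ x)) (fl x (e₁ x) (e₂ x)) a) = T
    linear_combination (-(sym p m₁ ^ e₁ p * sym m₁ p ^ e₁ p * conj (sym p m₂) ^ e₂ p *
      conj (sym m₂ p) ^ e₂ p * Rs p m₂ ^ e₁ p * Rs m₁ p ^ e₂ p *
      ft (p ^ (e₁ p + e₂ p)) (fl p (e₁ p) (e₂ p)) a * lamb m₁ * conj (lamb m₂) * Rs m₁ m₂ * T)) * hsq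

theorem sqrt_nr_prod (s : Finset O) (e : O → ℕ) :
    (Real.sqrt (nr (∏ p ∈ s, p ^ e p)) : ℂ) = ∏ p ∈ s, (Real.sqrt (nr p) : ℂ) ^ e p := by
  induction s using Finset.induction_on with
  | empty => simp [nr]
  | insert p s hps ih =>
    rw [Finset.prod_insert hps, Finset.prod_insert hps, nr_mul, Real.sqrt_mul (Nat.cast_nonneg _),
      Complex.ofReal_mul, ih]
    congr 1
    rw [← Complex.ofReal_pow, nm_pow, Nat.cast_pow]
    congr 1
    rw [Real.sqrt_eq_iff_mul_self_eq (by positivity) (by positivity), ← mul_pow,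
      Real.mul_self_sqrt (Nat.cast_nonneg _)]

/-- The factorisation of the kernel (general classes). -/
theorem MK_fact' {n₁ n₂ : O} (h₁ : Primary n₁) (h₂ : Primary n₂) (a : O) :
    MK n₁ n₂ a = lamb n₁ * conj (lamb n₂) * (Rs n₁ n₂ * sym n₂ (-1)) *
      ∏ p ∈ pf (n₁ * n₂), mloc a p (vp p n₁) (vp p n₂) := by
  have hs : ∀ q ∈ pf (n₁ * n₂), Prime q ∧ Primary q := fun q => BasicB.pf_sub
  have e₁ : ∏ p ∈ pf (n₁ * n₂), p ^ vp p n₁ = n₁ := by
    rw [BasicB.prod_superset h₁.ne_zero hs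
      (pf_mul h₁.ne_zero h₂.ne_zero ▸ Finset.subset_union_left), ← h₁.eq_prod]
  have e₂ : ∏ p ∈ pf (n₁ * n₂), p ^ vp p n₂ = n₂ := by
    rw [BasicB.prod_superset h₂.ne_zero hs
      (pf_mul h₁.ne_zero h₂.ne_zero ▸ Finset.subset_union_right), ← h₂.eq_prod]
  have key := ft_fact a _ hs (fun p => vp p n₁) (fun p => vp p n₂)
  have s₁ := sqrt_nr_prod (pf (n₁ * n₂)) (fun p => vp p n₁)
  have s₂ := sqrt_nr_prod (pf (n₁ * n₂)) (fun p => vp p n₂)
  have e₃ : sym n₂ (-1) = ∏ p ∈ pf (n₁ * n₂), sym p (-1) ^ vp p n₂ := by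
    rw [sym_eq_prod]
    refine Finset.prod_subset (pf_mul h₁.ne_zero h₂.ne_zero ▸ Finset.subset_union_right)
      fun p hp hp' => ?_
    rw [BasicB.mem_pf_iff h₂.ne_zero (hs p hp).1 (hs p hp).2, not_not] at hp'
    rw [hp', pow_zero]
  rw [e₁, e₂] at key
  rw [e₁] at s₁
  rw [e₂] at s₂
  rw [MK, key, s₁, s₂, e₃, ← Finset.prod_mul_distrib, mul_div_assoc, ← Finset.prod_div_distrib,
    mul_assoc (lamb n₁ * _), mul_assoc (lamb n₁ * _), mul_assoc (Rs _ _), ← Finset.prod_mul_distrib]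
  congr 2
  refine Finset.prod_congr rfl fun p hp => ?_
  have hsq := neg_one_pow_two_mul (hs p hp).2 (vp p n₂)
  rw [two_mul, pow_add] at hsq
  rw [mloc, pow_add (sym p (-1)), ← pow_add (Real.sqrt (nr p) : ℂ), ← mul_div_assoc, ← mul_assoc,
    ← mul_assoc, hsq, one_mul]

/-- The factorisation of the kernel for two elements of the same class. -/
theorem MK_fact {n₁ n₂ : O} (h₁ : Primary n₁) (h₂ : Primary n₂) (h : cls n₁ = cls n₂) (a : O) :
    MK n₁ n₂ a = lamb n₁ * conj (lamb n₂) * ∏ p ∈ pf (n₁ * n₂), mloc a p (vp p n₁) (vp p n₂) := by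
  rw [MK_fact' h₁ h₂, rs_congr h rfl, rs_self h₂.ne_zero, ← sq, Gauss_neg_one (po h₂), mul_one]

/-- The squarefree columns. -/
theorem lamb_mul_prod {n : O} (hn : Primary n) (hs : Squarefree n) (a : O) :
    lamb n * ∏ p ∈ pf n, mloc a p 1 0 = conj (sym n a) * gam 1 n := by
  have h := MK_fact' hn primary_one a
  rw [mul_one, lamb_one, map_one, mul_one, rs_one_right hn.ne_zero, sym_one_left, mul_one,
    mul_one] at h
  have e : ∏ p ∈ pf n, mloc a p (vp p n) (vp p 1) = ∏ p ∈ pf n, mloc a p 1 0 :=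
    Finset.prod_congr rfl fun p hp => by
      have h1 := BasicB.vp_le_one hs (BasicB.pf_sub hp).1
      have h2 := BasicB.vp_ne_zero hp
      rw [BasicB.vp_unit (BasicB.pf_sub hp).1 isUnit_one, show vp p n = 1 by omega]
  rw [← e, ← h, MK, mul_one, gam, ← mul_div_assoc, ← pow_one (sym n a),
    ← gs_sqfree (by norm_num) (po hn) hs]
  simp only [sym_one_left, map_one, mul_one, nr, nm_one, Nat.cast_one, Real.sqrt_one,
    Complex.ofReal_one]
  congr 1
  refine Finset.sum_congr rfl fun x _ => ?_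
  rw [sym_pow_add_six hn x one_ne_zero, pow_one]

/-- Conversion of theta coefficients into Möbius coefficients. -/
theorem th_gam_one {n : O} (hn : Primary n) (hs : Squarefree n) :
    th n * gam 1 n = mu n * (conj (Gf n) * Rs n n) := by
  have h1 := mu_gam_five (po hn) hs
  have h2 := gam_mul_gam (j := 1) (by norm_num) (po hn) hs
  have h3 := conj_mul_self (norm_Gf (po hn))
  rw [mul_one, pow_one, ← rs_self hn.ne_zero] at h2
  linear_combination (-(conj (Gf n) * gam 1 n)) * h1 + (mu n * conj (Gf n)) * h2 -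
    (th n * gam 1 n) * h3

/-- The twisted theta coefficient of a coprime product. -/
theorem th_lamb_mul {G k : O} (hG : Primary G) (hk : Primary k) (h : IsCoprime G k) :
    th (G * k) * lamb (G * k) = th G * lamb G * (th k * Rq G k) * lamb k := by
  have r := rs_recip hG.ne_zero hk.ne_zero h
  have h6 := sym_pow_six hk h.symm
  rw [th_mul hG hk h, lamb_mul hG hk h, ← sym_sq hG, ← sym_sq hk, Rq, r]
  linear_combination (th G * lamb G * th k * lamb k * Rs G k ^ 3) * h6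

end glob

end Dom

open Dom in
/-- **Pointwise PSD domination** of the Möbius sums. -/
theorem dom_91 [Fr] : DomStmt := by
  classical
  intro κ Y Φ a
  generalize hS0 : @Finset.filter O (fun n => cls n = κ) (_) (pball Y) = S
  have hS : ∀ n, n ∈ S ↔ n ∈ pball Y ∧ cls n = κ := fun n => by
    rw [← hS0]; simp only [Finset.mem_filter]
  have h := psd_dom a (mloc a) (fun p hp hp' => locOK hp hp' a) κ Y S hS
    (fun n => th n * Φ n * lamb n)
  refine le_trans (le_of_eq ?_) (h.trans (le_of_eq ?_))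
  · congr 2
    rcases S.eq_empty_or_nonempty with h0 | ⟨n₀, hn₀⟩
    · rw [h0]; simp
    have hp : ∀ n ∈ S, Primary n ∧ cls n = κ := fun n hn =>
      ⟨(mem_pball.1 ((hS n).1 hn).1).1, ((hS n).1 hn).2⟩
    obtain ⟨p₀, c₀⟩ := hp n₀ hn₀
    have hc : ‖conj (Gf n₀) * Rs n₀ n₀‖ = 1 := by
      rw [norm_mul, Complex.norm_conj, norm_Gf (po p₀), rs_self p₀.ne_zero, norm_neg_one p₀, one_mul]
    rw [← one_mul ‖∑ n ∈ _, mu n * _ * _‖, ← hc, ← norm_mul, Finset.mul_sum]
    congr 1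
    refine Finset.sum_congr rfl fun n hn => ?_
    obtain ⟨p₁, c₁⟩ := hp n hn
    split_ifs with hs
    · rw [mul_assoc (th n * Φ n), lamb_mul_prod p₁ hs.1, Gf_congr (po p₀) (po p₁) (c₀.trans c₁.symm),
        rs_congr (c₀.trans c₁.symm) (c₀.trans c₁.symm)]
      linear_combination (-(Φ n * conj (sym n a))) * th_gam_one p₁ hs.1
    · by_cases h1 : Squarefree n
      · rw [(sym_eq_zero_iff p₁).2 fun h2 => hs ⟨h1, h2⟩]; simp
      · rw [BasicB.mu_of_not h1]; simp
  · refine Finset.sum_congr rfl fun G hG => ?_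
    have pG := (mem_pball.1 hG).1
    rw [mul_assoc, ← Complex.re_ofReal_mul (‖th G‖ ^ 2), Finset.mul_sum]
    congr 2
    refine Finset.sum_congr rfl fun k₁ hk₁ => ?_
    rw [Finset.mul_sum]
    refine Finset.sum_congr rfl fun k₂ hk₂ => ?_
    simp only [cofS, Finset.mem_filter] at hk₁ hk₂
    obtain ⟨a₁, b₁, -, c₁⟩ := hk₁
    obtain ⟨a₂, b₂, -, c₂⟩ := hk₂
    have p₁ := (mem_pball.1 a₁).1
    have p₂ := (mem_pball.1 a₂).1
    have hcl : cls k₁ = cls k₂ := by
      have := c₁.trans c₂.symm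
      rw [map_mul, map_mul] at this
      exact mul_left_cancel₀ (cls_ne_zero pG.ne_zero) this
    have e₁ := th_lamb_mul pG p₁ b₁.symm
    have e₂ := congrArg conj (th_lamb_mul pG p₂ b₂.symm)
    have n₁ := conj_mul_self (norm_lamb pG)
    have n₂ : ((‖th G‖ ^ 2 : ℝ) : ℂ) = conj (th G) * th G := by
      rw [Complex.conj_mul', Complex.ofReal_pow]
    rw [MK_fact p₁ p₂ hcl, n₂, mul_right_comm (th (G * k₁)), mul_right_comm (th (G * k₂)), e₁,
      map_mul, e₂]
    simp only [map_mul]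
    generalize (∏ p ∈ pf (k₁ * k₂), mloc a p (vp p k₁) (vp p k₂)) = T
    linear_combination (th G * conj (th G) * (th k₁ * Rq G k₁) * lamb k₁ * Φ (G * k₁) *
      conj (th k₂) * conj (Rq G k₂) * conj (lamb k₂) * conj (Φ (G * k₂)) * T) * n₁

end Crest.Agent.T27
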