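import Crest.Agent.T27.Core_51

/-!
# Row 27: the energy bound consumed by the last part of the PSD core (definitions only, helper17)

`PsdStmt → EnAll → SStmt → MobFr`.  `EnFix → EnAll` is the reduction to squarefree rows.
-/

set_option autoImplicit false

noncomputable section

namespace Crest.Agent.T27

variable [Fr]

/-- The energy bound for the completed theta sums over all the rows `k * h₀`, `0 < N k ≤ K`. -/
def EnAll : Prop :=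
  ∀ ε : ℝ, 0 < ε → ∃ C : ℝ, 0 < C ∧ ∃ J : ℕ, ∀ (Q K D : ℝ) (φ : O → ℂ) (h₀ : O) (s : ℂ),
    1 ≤ K → K ≤ Q → 0 < D → D ≤ Q → D⁻¹ ≤ Q → Primary h₀ → nr (rad h₀) ≤ Q →
    (∀ n, ‖φ n‖ ≤ 1) → (∀ n n', cls n = cls n' → φ n = φ n') → |s.re| ≤ 3 →
      ∑ k ∈ rows K, ‖∑' n : O, th n * φ n * sym n (k * h₀) * Wc (nr n / D) s‖ ^ 2 ≤
        C * Q ^ ε * (1 + |s.im|) ^ J * (D * K + K ^ 2 * nr (rad h₀) ^ 2)

open Classical in
/-- The energy bound over the squarefree primary rows coprime to `h`. -/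
def EnFix : Prop :=
  ∀ ε : ℝ, 0 < ε → ∃ C : ℝ, 0 < C ∧ ∃ J : ℕ, ∀ (Q K D : ℝ) (φ : O → ℂ) (h : O) (s : ℂ),
    1 ≤ K → K ≤ Q → 0 < D → D ≤ Q → D⁻¹ ≤ Q → Primary h → nr (rad h) ≤ Q →
    (∀ n, ‖φ n‖ ≤ 1) → (∀ n n', cls n = cls n' → φ n = φ n') → |s.re| ≤ 3 →
      ∑ k ∈ (pball ⌊K⌋₊).filter (fun k => Squarefree k ∧ IsCoprime k h),
        ‖∑' n : O, th n * φ n * sym n (k * h) * Wc (nr n / D) s‖ ^ 2 ≤
        C * Q ^ ε * (1 + |s.im|) ^ J * (D * K + K ^ 2 * nr (rad h) ^ 2)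

end Crest.Agent.T27
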