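import Crest.Agent.T27.Basic_55

/-!
# Row 27 frame: residue symbols (port of `PVc/R17/SymbolAux.lean`, `Symbol.lean`; primed = for `n ≠ 0`)
-/

set_option autoImplicit false
set_option linter.unusedSectionVars false
set_option linter.unusedVariables false

noncomputable section

namespace Crest.Agent.T27

open scoped ComplexConjugate

variable [Fr0]

namespace SymbolAux

theorem of_mem_pf {n p : O} (h : p ∈ pf n) :
    Prime p ∧ Primary p ∧ p ∣ n ∧ vp p n ≠ 0 := by
  have hn : n ≠ 0 := by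
    rintro rfl
    simp at h
  obtain ⟨h1, h2, h3⟩ := (mem_pf hn).1 h
  exact ⟨h1, h2, h3, fun h0 => (vp_eq_zero_iff h1 hn).1 h0 h3⟩

theorem prod_mul {m n : O} (hm : m ≠ 0) (hn : n ≠ 0) (f : O → ℂ) :
    ∏ p ∈ pf (m * n), f p ^ vp p (m * n) =
      (∏ p ∈ pf m, f p ^ vp p m) * ∏ p ∈ pf n, f p ^ vp p n := by
  classical
  have key : ∀ k : O, k ≠ 0 → pf k ⊆ pf (m * n) →
      ∏ p ∈ pf k, f p ^ vp p k = ∏ p ∈ pf (m * n), f p ^ vp p k := fun k hk hs =>
    Finset.prod_subset hs fun p hp hp' => by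
      obtain ⟨h1, h2, -, -⟩ := of_mem_pf hp
      rw [(vp_eq_zero_iff h1 hk).2 fun h => hp' ((mem_pf hk).2 ⟨h1, h2, h⟩), pow_zero]
  rw [key m hm (by rw [pf_mul hm hn]; exact Finset.subset_union_left),
    key n hn (by rw [pf_mul hm hn]; exact Finset.subset_union_right), ← Finset.prod_mul_distrib]
  refine Finset.prod_congr rfl fun p hp => ?_
  rw [vp_mul (of_mem_pf hp).1 hm hn, pow_add]

theorem not_coprime_iff' {n a : O} (hn : n ≠ 0) : ¬ IsCoprime n a ↔ ∃ p ∈ pf n, p ∣ a := by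
  constructor
  · intro h
    by_contra hc
    push Not at hc
    apply h
    obtain ⟨u, hu, e⟩ := exists_eq_unit_prod hn
    rw [e]
    exact (isCoprime_of_isUnit a hu).symm.mul_left (IsCoprime.prod_left fun p hp =>
      ((of_mem_pf hp).1.coprime_iff_not_dvd.2 (hc p hp)).pow_left)
  · rintro ⟨p, hp, hpa⟩ h
    obtain ⟨h1, -, h3, -⟩ := of_mem_pf hp
    exact h1.not_isUnit (h.isUnit_of_dvd' h3 hpa)

theorem not_coprime_iff {n a : O} (hn : Primary n) : ¬ IsCoprime n a ↔ ∃ p ∈ pf n, p ∣ a :=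
  not_coprime_iff' hn.ne_zero

theorem prod_eq_zero_iff' {n a : O} (hn : n ≠ 0) (f : O → ℂ)
    (hf : ∀ p, Prime p → Primary p → (f p = 0 ↔ p ∣ a)) :
    ∏ p ∈ pf n, f p ^ vp p n = 0 ↔ ¬ IsCoprime n a := by
  rw [not_coprime_iff' hn, Finset.prod_eq_zero_iff]
  refine exists_congr fun p => and_congr_right fun hp => ?_
  obtain ⟨h1, h2, -, h4⟩ := of_mem_pf hp
  rw [pow_eq_zero_iff h4, hf p h1 h2]

theorem prod_eq_zero_iff {n a : O} (hn : Primary n) (f : O → ℂ)
    (hf : ∀ p, Prime p → Primary p → (f p = 0 ↔ p ∣ a)) :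
    ∏ p ∈ pf n, f p ^ vp p n = 0 ↔ ¬ IsCoprime n a := prod_eq_zero_iff' hn.ne_zero f hf

theorem dvd_rad {n p : O} (h : p ∈ pf n) : p ∣ rad n := Finset.dvd_prod_of_mem _ h

theorem om_pow_mod (k : ℕ) : om ^ k = om ^ (k % 3) := pow_eq_pow_mod k om_cube

omit [Fr0] in
theorem omC_cube : omC ^ 3 = 1 := by linear_combination (omC - 1) * omC_mul

omit [Fr0] in
theorem prim_omC : IsPrimitiveRoot omC 3 := by
  have h : omC ^ 2 + omC + 1 = 0 := by linear_combination omC_mul
  refine (IsPrimitiveRoot.iff three_pos).2 ⟨by linear_combination (omC - 1) * h, fun l h0 h3 e => ?_⟩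
  interval_cases l
  · rw [pow_one] at e
    norm_num [e] at h
  · have : omC = -2 := by linear_combination h - e
    norm_num [this] at h

omit [Fr0] in
theorem omC_ne_zero : omC ≠ 0 := by
  intro h
  simpa [h] using omC_cube

omit [Fr0] in
theorem norm_omC : ‖omC‖ = 1 := by
  have := congrArg norm omC_cube
  rw [norm_pow, norm_one] at this
  exact (pow_eq_one_iff_of_nonneg (norm_nonneg _) (by norm_num)).1 this

omit [Fr0] in
theorem conj_omC : conj omC = omC ^ 2 := by
  rw [← Complex.inv_eq_conj norm_omC]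
  exact inv_eq_of_mul_eq_one_right (by linear_combination omC_cube)

variable {p : O}

theorem dvd_om_sub (hp : Prime p) (h : Primary p) {i j : ℕ} (hd : p ∣ om ^ i - om ^ j) :
    i % 3 = j % 3 := by
  have h3 : ¬ p ∣ 3 := fun h' => hp.not_isUnit (isUnit_of_dvd_unit h' isUnit_three)
  have e := om_sq_add
  rw [om_pow_mod i, om_pow_mod j] at hd
  have hi := Nat.mod_lt i (show 0 < 3 by norm_num)
  have hj := Nat.mod_lt j (show 0 < 3 by norm_num)
  generalize i % 3 = a at *
  generalize j % 3 = b at *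
  by_contra hne
  apply h3
  refine hd.trans ?_
  interval_cases a <;> interval_cases b <;> first
    | exact absurd rfl hne
    | exact ⟨1 - om ^ 2, by linear_combination (2 - om) * e⟩
    | exact ⟨1 - om, by linear_combination (2 - om) * e⟩
    | exact ⟨om ^ 2 - 1, by linear_combination (2 - om) * e⟩
    | exact ⟨om - 1, by linear_combination (2 - om) * e⟩
    | exact ⟨om ^ 2 - om, by linear_combination (om ^ 2 - 3 * om + 3) * e⟩
    | exact ⟨om - om ^ 2, by linear_combination (om ^ 2 - 3 * om + 3) * e⟩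

theorem four_le (hp : Prime p) (h : Primary p) : 4 ≤ nm p := by
  have h1 := nm_prime_mod hp h
  have h2 : nm p ≠ 1 := fun h' => hp.not_isUnit (isUnit_iff_nm.2 h')
  omega

theorem fermat (hp : Prime p) {a : O} (ha : ¬ p ∣ a) : p ∣ a ^ (nm p - 1) - 1 := by
  have := Fact.mk hp.ne_zero
  have : (Ideal.span {p}).IsMaximal := PrincipalIdealRing.isMaximal_of_irreducible hp.irreducible
  let _ := Ideal.Quotient.field (Ideal.span {p})
  have := Fintype.ofFinite (O ⧸ Ideal.span {p})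
  have h1 := FiniteField.pow_card_sub_one_eq_one (Ideal.Quotient.mk (Ideal.span {p}) a)
    (by rwa [Ne, Ideal.Quotient.eq_zero_iff_mem, Ideal.mem_span_singleton])
  rw [← Nat.card_eq_fintype_card, card_quot hp.ne_zero] at h1
  rw [← Ideal.mem_span_singleton, ← Ideal.Quotient.eq, map_pow, map_one]
  exact h1

theorem exists_pow_ne (hp : Prime p) {e : ℕ} (he : e ≠ 0) (he' : e < nm p - 1) :
    ∃ a, ¬ p ∣ a ∧ ¬ p ∣ a ^ e - 1 := by
  have := Fact.mk hp.ne_zero
  have : (Ideal.span {p}).IsMaximal := PrincipalIdealRing.isMaximal_of_irreducible hp.irreducible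
  let _ := Ideal.Quotient.field (Ideal.span {p})
  obtain ⟨g, hg⟩ := IsCyclic.exists_ofOrder_eq_natCard (α := (O ⧸ Ideal.span {p})ˣ)
  rw [Nat.card_units, card_quot hp.ne_zero] at hg
  obtain ⟨a, ha⟩ := Ideal.Quotient.mk_surjective (g : O ⧸ Ideal.span {p})
  refine ⟨a, fun h => g.ne_zero ?_, fun h => pow_ne_one_of_lt_orderOf he (hg ▸ he') ?_⟩
  · rwa [← ha, Ideal.Quotient.eq_zero_iff_mem, Ideal.mem_span_singleton]
  · rw [← Ideal.mem_span_singleton, ← Ideal.Quotient.eq, map_pow, map_one, ha] at h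
    exact Units.ext (by simpa using h)

theorem exists_cub (hp : Prime p) (h : Primary p) {a : O} (ha : ¬ p ∣ a) :
    ∃ k, p ∣ a ^ ((nm p - 1) / 3) - om ^ k := by
  have h1 := fermat hp ha
  have h2 := nm_prime_mod hp h
  rw [show nm p - 1 = (nm p - 1) / 3 * 3 by omega, pow_mul] at h1
  generalize a ^ ((nm p - 1) / 3) = x at *
  have e : x ^ 3 - 1 = (x - om ^ 0) * ((x - om ^ 1) * (x - om ^ 2)) := by
    linear_combination (x ^ 2 - om * x + om - 1) * om_sq_add
  rw [e] at h1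
  rcases hp.dvd_or_dvd h1 with h3 | h3
  · exact ⟨0, h3⟩
  · rcases hp.dvd_or_dvd h3 with h4 | h4
    exacts [⟨1, h4⟩, ⟨2, h4⟩]

theorem cub1_of_dvd (hp : Prime p) (h : Primary p) {a : O} {k : ℕ}
    (hk : p ∣ a ^ ((nm p - 1) / 3) - om ^ k) : cub1 p a = omC ^ k := by
  unfold cub1
  rw [Finset.sum_eq_single (k % 3), if_pos (om_pow_mod k ▸ hk), ← pow_eq_pow_mod k omC_cube]
  · intro j hj hne
    refine if_neg fun hd => hne ?_
    have h1 := dvd_sub hk hd
    rw [sub_sub_sub_cancel_left] at h1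
    rw [← dvd_om_sub hp h h1, Nat.mod_eq_of_lt (Finset.mem_range.1 hj)]
  · intro hn
    exact absurd (Finset.mem_range.2 (Nat.mod_lt _ (by norm_num))) hn

theorem not_dvd_of_cub (hp : Prime p) (h : Primary p) {a : O} {k : ℕ}
    (hk : p ∣ a ^ ((nm p - 1) / 3) - om ^ k) : ¬ p ∣ a := by
  intro ha
  have h4 := four_le hp h
  have h1 : p ∣ a ^ ((nm p - 1) / 3) := dvd_pow ha (by omega)
  have h2 : p ∣ om := hp.dvd_of_dvd_pow ((dvd_sub_right h1).1 hk)
  exact hp.not_dvd_one (om_cube ▸ dvd_pow h2 (by norm_num))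

theorem cub1_of_dvd_zero (hp : Prime p) (h : Primary p) {a : O} (ha : p ∣ a) : cub1 p a = 0 :=
  Finset.sum_eq_zero fun _ _ => if_neg fun hk => not_dvd_of_cub hp h hk ha

theorem cub1_eq_zero_iff (hp : Prime p) (h : Primary p) {a : O} : cub1 p a = 0 ↔ p ∣ a := by
  refine ⟨fun h0 => by_contra fun ha => ?_, cub1_of_dvd_zero hp h⟩
  obtain ⟨k, hk⟩ := exists_cub hp h ha
  rw [cub1_of_dvd hp h hk] at h0
  exact pow_ne_zero _ omC_ne_zero h0

theorem cub1_iff (hp : Prime p) (h : Primary p) {a : O} (k : ℕ) :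
    cub1 p a = omC ^ k ↔ p ∣ a ^ ((nm p - 1) / 3) - om ^ k := by
  refine ⟨fun h1 => ?_, cub1_of_dvd hp h⟩
  have ha : ¬ p ∣ a := fun ha => by
    rw [cub1_of_dvd_zero hp h ha] at h1
    exact pow_ne_zero _ omC_ne_zero h1.symm
  obtain ⟨j, hj⟩ := exists_cub hp h ha
  rw [cub1_of_dvd hp h hj, pow_eq_pow_mod j omC_cube, pow_eq_pow_mod k omC_cube] at h1
  rwa [om_pow_mod, ← prim_omC.pow_inj (Nat.mod_lt _ three_pos) (Nat.mod_lt _ three_pos) h1,
    ← om_pow_mod]

theorem cub1_one (hp : Prime p) (h : Primary p) : cub1 p 1 = 1 := by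
  have := cub1_of_dvd hp h (a := 1) (k := 0) (by simp)
  simpa using this

theorem cub1_mul (hp : Prime p) (h : Primary p) (a b : O) :
    cub1 p (a * b) = cub1 p a * cub1 p b := by
  by_cases ha : p ∣ a
  · rw [cub1_of_dvd_zero hp h ha, cub1_of_dvd_zero hp h (ha.mul_right b), zero_mul]
  by_cases hb : p ∣ b
  · rw [cub1_of_dvd_zero hp h hb, cub1_of_dvd_zero hp h (hb.mul_left a), mul_zero]
  obtain ⟨i, hi⟩ := exists_cub hp h ha
  obtain ⟨j, hj⟩ := exists_cub hp h hb
  rw [cub1_of_dvd hp h hi, cub1_of_dvd hp h hj, ← pow_add]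
  refine cub1_of_dvd hp h ?_
  have := dvd_add (hi.mul_right (b ^ ((nm p - 1) / 3))) (hj.mul_left (om ^ i))
  convert this using 1
  rw [mul_pow, pow_add]; ring

theorem dvd_pow_sub_iff {a b c : O} (hab : p ∣ a - b) (e : ℕ) : p ∣ a ^ e - c ↔ p ∣ b ^ e - c := by
  have := hab.trans (sub_dvd_pow_sub_pow a b e)
  rw [show a ^ e - c = (a ^ e - b ^ e) + (b ^ e - c) by ring]
  exact dvd_add_right this

theorem cub1_congr {a b : O} (hab : p ∣ a - b) : cub1 p a = cub1 p b := by
  unfold cub1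
  refine Finset.sum_congr rfl fun k _ => ?_
  rw [propext (dvd_pow_sub_iff hab _)]

theorem cub1_cube (hp : Prime p) (h : Primary p) {a : O} (ha : ¬ p ∣ a) : cub1 p a ^ 3 = 1 := by
  obtain ⟨k, hk⟩ := exists_cub hp h ha
  rw [cub1_of_dvd hp h hk, ← pow_mul, mul_comm, pow_mul, omC_cube, one_pow]

theorem norm_cub1_le (hp : Prime p) (h : Primary p) (a : O) : ‖cub1 p a‖ ≤ 1 := by
  by_cases ha : p ∣ a
  · simp [cub1_of_dvd_zero hp h ha]
  · obtain ⟨k, hk⟩ := exists_cub hp h ha
    rw [cub1_of_dvd hp h hk, norm_pow, norm_omC, one_pow]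

theorem conj_cub1 (hp : Prime p) (h : Primary p) (a : O) : conj (cub1 p a) = cub1 p a ^ 2 := by
  by_cases ha : p ∣ a
  · simp [cub1_of_dvd_zero hp h ha]
  · obtain ⟨k, hk⟩ := exists_cub hp h ha
    rw [cub1_of_dvd hp h hk, map_pow, conj_omC, ← pow_mul, ← pow_mul, mul_comm]

/-! ### quadratic character -/

theorem quad1_eq_zero_iff {a : O} : quad1 p a = 0 ↔ p ∣ a := by
  unfold quad1
  split_ifs with h1 h2 <;> simp [h1]

theorem quad1_one (hp : Prime p) : quad1 p 1 = 1 := by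
  unfold quad1
  rw [if_neg hp.not_dvd_one, if_pos (by simp)]

theorem quad1_sq {a : O} (ha : ¬ p ∣ a) : quad1 p a ^ 2 = 1 := by
  unfold quad1
  rw [if_neg ha]
  split_ifs <;> simp

theorem norm_quad1_le (a : O) : ‖quad1 p a‖ ≤ 1 := by
  unfold quad1
  split_ifs <;> simp

theorem conj_quad1 (a : O) : conj (quad1 p a) = quad1 p a := by
  unfold quad1
  split_ifs <;> simp

theorem quad1_congr {a b : O} (hab : p ∣ a - b) : quad1 p a = quad1 p b := by
  unfold quad1
  rw [propext (dvd_iff_dvd_of_dvd_sub hab), propext (dvd_pow_sub_iff hab _)]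

theorem nm_mod_six (hp : Prime p) (h : Primary p) (h2 : ¬ p ∣ 2) : nm p % 6 = 1 ∧ 7 ≤ nm p :=
  nm_prime_mod_six hp h

theorem not_dvd_two (hp : Prime p) : ¬ p ∣ 2 :=
  fun h' => hp.not_isUnit (isUnit_of_dvd_unit h' isUnit_two)

theorem quad1_mul (hp : Prime p) (h : Primary p) (h2 : ¬ p ∣ 2) (a b : O) :
    quad1 p (a * b) = quad1 p a * quad1 p b := by
  by_cases ha : p ∣ a
  · rw [quad1_eq_zero_iff.2 ha, quad1_eq_zero_iff.2 (ha.mul_right b), zero_mul]
  by_cases hb : p ∣ b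
  · rw [quad1_eq_zero_iff.2 hb, quad1_eq_zero_iff.2 (hb.mul_left a), mul_zero]
  have hab : ¬ p ∣ a * b := fun h' => (hp.dvd_or_dvd h').elim ha hb
  have h6 := (nm_mod_six hp h h2).1
  have key : ∀ c, ¬ p ∣ c → ¬ p ∣ c ^ ((nm p - 1) / 2) - 1 → p ∣ c ^ ((nm p - 1) / 2) + 1 := by
    intro c hc hc'
    have h1 := fermat hp hc
    rw [show nm p - 1 = (nm p - 1) / 2 * 2 by omega, pow_mul] at h1
    generalize c ^ ((nm p - 1) / 2) = x at *
    rw [show x ^ 2 - 1 = (x + 1) * (x - 1) by ring] at h1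
    exact (hp.dvd_or_dvd h1).resolve_right hc'
  have ka := key a ha
  have kb := key b hb
  unfold quad1
  rw [if_neg ha, if_neg hb, if_neg hab, mul_pow]
  generalize a ^ ((nm p - 1) / 2) = x at *
  generalize b ^ ((nm p - 1) / 2) = y at *
  by_cases hx : p ∣ x - 1 <;> by_cases hy : p ∣ y - 1
  · rw [if_pos hx, if_pos hy, if_pos, one_mul]
    convert dvd_add (hx.mul_right y) hy using 1; ring
  · rw [if_pos hx, if_neg hy, if_neg, one_mul]
    intro h'
    apply hy
    convert dvd_sub h' (hx.mul_right y) using 1; ring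
  · rw [if_neg hx, if_pos hy, if_neg, mul_one]
    intro h'
    apply hx
    convert dvd_sub h' (hy.mul_left x) using 1; ring
  · rw [if_neg hx, if_neg hy, if_pos]
    · norm_num
    · convert dvd_sub ((ka hx).mul_right y) (kb hy) using 1; ring

theorem isUnit_mk_iff (a p : O) :
    IsUnit (Ideal.Quotient.mk (Ideal.span {p}) a) ↔ IsCoprime a p := by
  constructor
  · intro h
    obtain ⟨y, hy⟩ := h.exists_left_inv
    obtain ⟨b, rfl⟩ := Ideal.Quotient.mk_surjective y
    rw [← map_mul, ← map_one (Ideal.Quotient.mk (Ideal.span {p})), Ideal.Quotient.eq,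
      Ideal.mem_span_singleton] at hy
    obtain ⟨c, hc⟩ := hy
    exact ⟨b, -c, by linear_combination hc⟩
  · rintro ⟨b, c, h⟩
    refine IsUnit.of_mul_eq_one_right (Ideal.Quotient.mk _ b) ?_
    rw [← map_mul, ← map_one (Ideal.Quotient.mk (Ideal.span {p})), Ideal.Quotient.eq,
      Ideal.mem_span_singleton]
    exact ⟨-c, by linear_combination h⟩

/-- a character of the residue ring from a function -/
theorem exists_chr_prime (f : O → ℂ) (h1 : f 1 = 1) (hmul : ∀ a b, f (a * b) = f a * f b)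
    (hper : ∀ a b, p ∣ a - b → f a = f b) (h0 : ∀ a, ¬ IsCoprime a p → f a = 0) :
    ∃ χ : MulChar (O ⧸ Ideal.span {p}) ℂ, ∀ a, χ (Ideal.Quotient.mk _ a) = f a := by
  have hval : ∀ a, f (Quotient.out (Ideal.Quotient.mk (Ideal.span {p}) a)) = f a := fun a =>
    (hper _ _ (dvd_sub_mod' a p)).symm
  refine ⟨⟨⟨⟨fun q => f (Quotient.out q), ?_⟩, fun q q' => ?_⟩, fun q hq => ?_⟩, hval⟩
  · exact (hval 1).trans h1
  · obtain ⟨a, rfl⟩ := Ideal.Quotient.mk_surjective q
    obtain ⟨b, rfl⟩ := Ideal.Quotient.mk_surjective q'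
    simp only [← map_mul, hval, hmul]
  · obtain ⟨a, rfl⟩ := Ideal.Quotient.mk_surjective q
    exact (hval a).trans (h0 a fun h => hq ((isUnit_mk_iff a p).2 h))

theorem chr_pow_eq_one_iff (χ : MulChar (O ⧸ Ideal.span {p}) ℂ) (j : ℕ) :
    χ ^ j = 1 ↔ ∀ a, IsCoprime a p → χ (Ideal.Quotient.mk _ a) ^ j = 1 := by
  rw [MulChar.eq_one_iff]
  constructor
  · intro h a ha
    have hu : IsUnit (Ideal.Quotient.mk (Ideal.span {p}) a) :=
      (isUnit_mk_iff a p).2 ha
    have := h hu.unit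
    rwa [MulChar.pow_apply_coe, IsUnit.unit_spec] at this
  · intro h u
    obtain ⟨a, ha⟩ := Ideal.Quotient.mk_surjective (u : O ⧸ Ideal.span {p})
    rw [MulChar.pow_apply_coe, ← ha]
    exact h a ((isUnit_mk_iff a p).1 (ha ▸ u.isUnit))

end SymbolAux

open SymbolAux

/-! ## cubic symbol (only the ideal generated by the denominator matters) -/

theorem cub_prime {p : O} (hp : Prime p) (h : Primary p) (a : O) : cub p a = cub1 p a := by
  rw [cub, pf_prime hp h, Finset.prod_singleton, vp_self hp, pow_one]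
@[simp] theorem cub_one_left (a : O) : cub 1 a = 1 := by
  rw [cub, pf_one, Finset.prod_empty]
@[simp] theorem cub_one_right (n : O) : cub n 1 = 1 := by
  exact Finset.prod_eq_one fun p hp => by
    rw [cub1_one (of_mem_pf hp).1 (of_mem_pf hp).2.1, one_pow]
theorem cub_mul_left {m n : O} (hm : m ≠ 0) (hn : n ≠ 0) (a : O) :
    cub (m * n) a = cub m a * cub n a := by
  exact prod_mul hm hn fun p => cub1 p a
theorem cub_pow_left {n : O} (hn : n ≠ 0) (k : ℕ) (a : O) : cub (n ^ k) a = cub n a ^ k := by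
  induction k with
  | zero => simp
  | succ k ih => rw [pow_succ, cub_mul_left (pow_ne_zero _ hn) hn, ih, pow_succ]
theorem cub_unit_mul_left {u : O} (hu : IsUnit u) (n a : O) : cub (u * n) a = cub n a := by
  rcases eq_or_ne n 0 with rfl | hn
  · rw [mul_zero]
  · have h : pf u = ∅ := by rw [← mul_one u, pf_unit_mul hu, pf_one]
    rw [cub_mul_left hu.ne_zero hn, cub, h, Finset.prod_empty, one_mul]
theorem cub_unit_left {u : O} (hu : IsUnit u) (a : O) : cub u a = 1 := by
  rw [cub, BasicB.pf_unit hu, Finset.prod_empty]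
theorem cub_mul_right (n a b : O) : cub n (a * b) = cub n a * cub n b := by
  rw [cub, cub, cub, ← Finset.prod_mul_distrib]
  refine Finset.prod_congr rfl fun p hp => ?_
  rw [cub1_mul (of_mem_pf hp).1 (of_mem_pf hp).2.1, mul_pow]
theorem cub_pow_right (n a : O) (k : ℕ) : cub n (a ^ k) = cub n a ^ k := by
  induction k with
  | zero => simp
  | succ k ih => rw [pow_succ, cub_mul_right, ih, pow_succ]
theorem cub_congr {n a b : O} (h : rad n ∣ a - b) : cub n a = cub n b := by
  exact Finset.prod_congr rfl fun p hp => by rw [cub1_congr ((dvd_rad hp).trans h)]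
theorem cub_eq_zero_iff' {n a : O} (hn : n ≠ 0) : cub n a = 0 ↔ ¬ IsCoprime n a := by
  exact prod_eq_zero_iff' hn (fun p => cub1 p a) fun p hp h => cub1_eq_zero_iff hp h
theorem cub_eq_zero_iff {n a : O} (hn : Primary n) : cub n a = 0 ↔ ¬ IsCoprime n a :=
  cub_eq_zero_iff' hn.ne_zero
theorem cub_pow_three' {n a : O} (hn : n ≠ 0) (h : IsCoprime n a) : cub n a ^ 3 = 1 := by
  rw [cub, ← Finset.prod_pow]
  refine Finset.prod_eq_one fun p hp => ?_
  rw [← pow_mul, mul_comm, pow_mul, cub1_cube (of_mem_pf hp).1 (of_mem_pf hp).2.1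
    fun hpa => (not_coprime_iff' hn).2 ⟨p, hp, hpa⟩ h, one_pow]
theorem cub_pow_three {n a : O} (hn : Primary n) (h : IsCoprime n a) : cub n a ^ 3 = 1 :=
  cub_pow_three' hn.ne_zero h
theorem norm_cub_le (n a : O) : ‖cub n a‖ ≤ 1 := by
  rw [cub, norm_prod]
  refine Finset.prod_le_one (fun _ _ => norm_nonneg _) fun p hp => ?_
  rw [norm_pow]
  exact pow_le_one₀ (norm_nonneg _) (norm_cub1_le (of_mem_pf hp).1 (of_mem_pf hp).2.1 a)
theorem norm_cub' {n a : O} (hn : n ≠ 0) (h : IsCoprime n a) : ‖cub n a‖ = 1 := by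
  have := congrArg norm (cub_pow_three' hn h)
  rw [norm_pow, norm_one] at this
  exact (pow_eq_one_iff_of_nonneg (norm_nonneg _) (by norm_num)).1 this
theorem norm_cub {n a : O} (hn : Primary n) (h : IsCoprime n a) : ‖cub n a‖ = 1 :=
  norm_cub' hn.ne_zero h
theorem conj_cub (n a : O) : conj (cub n a) = cub n a ^ 2 := by
  rw [cub, map_prod, ← Finset.prod_pow]
  refine Finset.prod_congr rfl fun p hp => ?_
  rw [map_pow, conj_cub1 (of_mem_pf hp).1 (of_mem_pf hp).2.1, ← pow_mul, ← pow_mul, mul_comm]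
theorem cub_neg_one (n : O) : cub n (-1) = 1 := by
  rw [show (-1 : O) = (-1) ^ 3 by norm_num, cub_pow_right, cub, ← Finset.prod_pow]
  refine Finset.prod_eq_one fun p hp => ?_
  rw [← pow_mul, mul_comm, pow_mul, cub1_cube (of_mem_pf hp).1 (of_mem_pf hp).2.1
    fun hpa => (of_mem_pf hp).1.not_dvd_one (dvd_neg.1 hpa), one_pow]
/-- The defining congruence. -/
theorem cub1_eq_pow_iff {p a : O} (hp : Prime p) (h : Primary p) (k : ℕ) :
    cub1 p a = omC ^ k ↔ p ∣ a ^ ((nm p - 1) / 3) - om ^ k := by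
  exact cub1_iff hp h k
theorem Symbol_exists_cub_ne {p : O} (hp : Prime p) (h : Primary p) :
    ∃ a, IsCoprime a p ∧ cub p a ≠ 1 := by
  have h4 := four_le hp h
  obtain ⟨a, ha, ha'⟩ := exists_pow_ne hp (e := (nm p - 1) / 3) (by omega) (by omega)
  refine ⟨a, (hp.coprime_iff_not_dvd.2 ha).symm, fun h1 => ha' ?_⟩
  rw [cub_prime hp h, ← pow_zero omC, cub1_iff hp h, pow_zero] at h1
  exact h1
/-- `cub1 p` is a non-trivial (order three) character of the field `O/(p)`. -/
theorem exists_mulChar_cub {p : O} (hp : Prime p) (h : Primary p) :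
    ∃ χ : MulChar (O ⧸ Ideal.span {p}) ℂ, orderOf χ = 3 ∧
      ∀ a, χ (Ideal.Quotient.mk _ a) = cub p a := by
  obtain ⟨χ, hχ⟩ := exists_chr_prime (p := p) (cub p) (cub_one_right p) (cub_mul_right p)
    (fun a b hab => cub_congr ((rad_dvd p).trans hab))
    fun a ha => (cub_eq_zero_iff h).2 fun h' => ha h'.symm
  refine ⟨χ, orderOf_eq_prime (p := 3) ((chr_pow_eq_one_iff χ 3).2 fun a ha => ?_) fun h1 => ?_,
    hχ⟩
  · rw [hχ, cub_pow_three h ha.symm]
  · obtain ⟨a, ha, ha'⟩ := Symbol_exists_cub_ne hp h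
    have := (chr_pow_eq_one_iff χ 1).1 (by rw [h1, one_pow]) a ha
    rw [pow_one, hχ] at this
    exact ha' this
/-! ## quadratic and sextic symbols  -/

/-- Primary (the second clause is redundant, it replaces the oddness condition of `R17`). -/
def PO (n : O) : Prop := Primary n ∧ n ≠ 0

theorem Primary.po {n : O} (hn : Primary n) : PO n := ⟨hn, hn.ne_zero⟩
theorem PO.mul {m n : O} (hm : PO m) (hn : PO n) : PO (m * n) := (hm.1.mul hn.1).po
theorem PO.of_dvd {m n : O} (hn : PO n) (hm : Primary m) (h : m ∣ n) : PO m := hm.po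
theorem PO.of_adm {M n : O} (hM : Adm M) (hn : Primary n) (h : IsCoprime n M) : PO n := hn.po

theorem Symbol_quad_prime {p : O} (hp : Prime p) (h : Primary p) (a : O) :
    quad p a = quad1 p a := by
  rw [quad, pf_prime hp h, Finset.prod_singleton, vp_self hp, pow_one]
theorem Symbol_quad_eq_zero_iff' {n a : O} (hn : n ≠ 0) : quad n a = 0 ↔ ¬ IsCoprime n a :=
  prod_eq_zero_iff' hn (fun p => quad1 p a) fun _ _ _ => quad1_eq_zero_iff
theorem Symbol_quad_eq_zero_iff {n a : O} (hn : Primary n) : quad n a = 0 ↔ ¬ IsCoprime n a :=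
  Symbol_quad_eq_zero_iff' hn.ne_zero
theorem Symbol_norm_quad_le (n a : O) : ‖quad n a‖ ≤ 1 := by
  rw [quad, norm_prod]
  refine Finset.prod_le_one (fun _ _ => norm_nonneg _) fun p _ => ?_
  rw [norm_pow]
  exact pow_le_one₀ (norm_nonneg _) (norm_quad1_le a)
theorem Symbol_quad_sq' {n a : O} (hn : n ≠ 0) (h : IsCoprime n a) : quad n a ^ 2 = 1 := by
  rw [quad, ← Finset.prod_pow]
  refine Finset.prod_eq_one fun p hp => ?_
  rw [← pow_mul, mul_comm, pow_mul, quad1_sq
    fun hpa => (not_coprime_iff' hn).2 ⟨p, hp, hpa⟩ h, one_pow]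

theorem Symbol_quad_sq {n a : O} (hn : Primary n) (h : IsCoprime n a) : quad n a ^ 2 = 1 :=
  Symbol_quad_sq' hn.ne_zero h
@[simp] theorem quad_one_left (a : O) : quad 1 a = 1 := by
  rw [quad, pf_one, Finset.prod_empty]
@[simp] theorem sym_one_left (a : O) : sym 1 a = 1 := by
  simp [sym]
theorem quad_one_right (n : O) : quad n 1 = 1 := by
  exact Finset.prod_eq_one fun p hp => by rw [quad1_one (of_mem_pf hp).1, one_pow]
theorem sym_one_right (n : O) : sym n 1 = 1 := by
  simp [sym, quad_one_right]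
theorem quad_mul_left {m n : O} (hm : m ≠ 0) (hn : n ≠ 0) (a : O) :
    quad (m * n) a = quad m a * quad n a := by
  exact prod_mul hm hn fun p => quad1 p a
theorem sym_mul_left {m n : O} (hm : m ≠ 0) (hn : n ≠ 0) (a : O) :
    sym (m * n) a = sym m a * sym n a := by
  rw [sym, sym, sym, quad_mul_left hm hn, cub_mul_left hm hn, map_mul]; ring
theorem sym_pow_left {n : O} (hn : n ≠ 0) (k : ℕ) (a : O) : sym (n ^ k) a = sym n a ^ k := by
  induction k with
  | zero => simp
  | succ k ih => rw [pow_succ, sym_mul_left (pow_ne_zero _ hn) hn, ih, pow_succ]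
theorem sym_eq_prod (n a : O) : sym n a = ∏ p ∈ pf n, sym p a ^ vp p n := by
  rw [sym, quad, cub, map_prod, ← Finset.prod_mul_distrib]
  refine Finset.prod_congr rfl fun p hp => ?_
  obtain ⟨h1, h2, -, -⟩ := of_mem_pf hp
  rw [sym, cub_prime h1 h2, Symbol_quad_prime h1 h2, mul_pow, map_pow]
theorem quad_mul_right' (n a b : O) : quad n (a * b) = quad n a * quad n b := by
  rw [quad, quad, quad, ← Finset.prod_mul_distrib]
  refine Finset.prod_congr rfl fun p hp => ?_
  obtain ⟨h1, h2, h3, -⟩ := of_mem_pf hp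
  rw [quad1_mul h1 h2 (not_dvd_two h1), mul_pow]
theorem quad_mul_right {n : O} (hn : PO n) (a b : O) : quad n (a * b) = quad n a * quad n b :=
  quad_mul_right' n a b
theorem sym_mul_right' (n a b : O) : sym n (a * b) = sym n a * sym n b := by
  rw [sym, sym, sym, quad_mul_right', cub_mul_right, map_mul]; ring
theorem sym_mul_right {n : O} (hn : PO n) (a b : O) : sym n (a * b) = sym n a * sym n b :=
  sym_mul_right' n a b
theorem sym_pow_right' (n a : O) (k : ℕ) : sym n (a ^ k) = sym n a ^ k := by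
  induction k with
  | zero => simp [sym_one_right]
  | succ k ih => rw [pow_succ, sym_mul_right', ih, pow_succ]
theorem sym_pow_right {n : O} (hn : PO n) (a : O) (k : ℕ) : sym n (a ^ k) = sym n a ^ k :=
  sym_pow_right' n a k
theorem quad_unit_left {u : O} (hu : IsUnit u) (a : O) : quad u a = 1 := by
  rw [quad, BasicB.pf_unit hu, Finset.prod_empty]
theorem sym_unit_left {u : O} (hu : IsUnit u) (a : O) : sym u a = 1 := by
  rw [sym, quad_unit_left hu, cub_unit_left hu, map_one, mul_one]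
theorem quad_unit_mul_left {u : O} (hu : IsUnit u) (n a : O) : quad (u * n) a = quad n a := by
  rcases eq_or_ne n 0 with rfl | hn
  · rw [mul_zero]
  · rw [quad_mul_left hu.ne_zero hn, quad_unit_left hu, one_mul]
theorem sym_unit_mul_left {u : O} (hu : IsUnit u) (n a : O) : sym (u * n) a = sym n a := by
  rw [sym, sym, quad_unit_mul_left hu, cub_unit_mul_left hu]
theorem quad_congr {n a b : O} (h : rad n ∣ a - b) : quad n a = quad n b := by
  exact Finset.prod_congr rfl fun p hp => by rw [quad1_congr ((dvd_rad hp).trans h)]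
theorem sym_congr {n a b : O} (h : rad n ∣ a - b) : sym n a = sym n b := by
  rw [sym, sym, quad_congr h, cub_congr h]
theorem sym_eq_zero_iff' {n a : O} (hn : n ≠ 0) : sym n a = 0 ↔ ¬ IsCoprime n a := by
  rw [sym, mul_eq_zero, map_eq_zero, cub_eq_zero_iff' hn, Symbol_quad_eq_zero_iff' hn, or_self]
theorem sym_eq_zero_iff {n a : O} (hn : Primary n) : sym n a = 0 ↔ ¬ IsCoprime n a :=
  sym_eq_zero_iff' hn.ne_zero
theorem norm_sym_le (n a : O) : ‖sym n a‖ ≤ 1 := by
  rw [sym, norm_mul, Complex.norm_conj]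
  exact mul_le_one₀ (Symbol_norm_quad_le n a) (norm_nonneg _) (norm_cub_le n a)
theorem norm_sym' {n a : O} (hn : n ≠ 0) (h : IsCoprime n a) : ‖sym n a‖ = 1 := by
  have := congrArg norm (Symbol_quad_sq' hn h)
  rw [norm_pow, norm_one] at this
  rw [sym, norm_mul, Complex.norm_conj, norm_cub' hn h,
    (pow_eq_one_iff_of_nonneg (norm_nonneg _) (by norm_num)).1 this, one_mul]
theorem norm_sym {n a : O} (hn : Primary n) (h : IsCoprime n a) : ‖sym n a‖ = 1 :=
  norm_sym' hn.ne_zero h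
theorem norm_quad_le (n a : O) : ‖quad n a‖ ≤ 1 := by
  exact Symbol_norm_quad_le n a
theorem conj_quad (n a : O) : conj (quad n a) = quad n a := by
  rw [quad, map_prod]
  exact Finset.prod_congr rfl fun p _ => by rw [map_pow, conj_quad1]
theorem quad_sq' {n a : O} (hn : n ≠ 0) (h : IsCoprime n a) : quad n a ^ 2 = 1 := by
  exact Symbol_quad_sq' hn h
theorem quad_sq {n a : O} (hn : Primary n) (h : IsCoprime n a) : quad n a ^ 2 = 1 :=
  quad_sq' hn.ne_zero h
theorem sym_sq' {n : O} (hn : n ≠ 0) (a : O) : sym n a ^ 2 = cub n a := by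
  rw [sym, conj_cub]
  by_cases h : IsCoprime n a
  · linear_combination cub n a ^ 4 * quad_sq' hn h + cub n a * cub_pow_three' hn h
  · rw [(cub_eq_zero_iff' hn).2 h]; simp
theorem sym_sq {n : O} (hn : Primary n) (a : O) : sym n a ^ 2 = cub n a :=
  sym_sq' hn.ne_zero a
theorem sym_pow_three' {n : O} (hn : n ≠ 0) (a : O) : sym n a ^ 3 = quad n a := by
  rw [sym, conj_cub]
  by_cases h : IsCoprime n a
  · linear_combination quad n a * cub n a ^ 6 * quad_sq' hn h +
      quad n a * (cub n a ^ 3 + 1) * cub_pow_three' hn h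
  · rw [(Symbol_quad_eq_zero_iff' hn).2 h]; simp
theorem sym_pow_three {n : O} (hn : Primary n) (a : O) : sym n a ^ 3 = quad n a :=
  sym_pow_three' hn.ne_zero a
theorem sym_pow_six' {n a : O} (hn : n ≠ 0) (h : IsCoprime n a) : sym n a ^ 6 = 1 := by
  rw [show 6 = 2 * 3 from rfl, pow_mul, sym_sq' hn, cub_pow_three' hn h]
theorem sym_pow_six {n a : O} (hn : Primary n) (h : IsCoprime n a) : sym n a ^ 6 = 1 :=
  sym_pow_six' hn.ne_zero h
theorem sym_pow_add_six' {n : O} (hn : n ≠ 0) (a : O) {j : ℕ} (hj : j ≠ 0) :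
    sym n a ^ (j + 6) = sym n a ^ j := by
  by_cases h : IsCoprime n a
  · rw [pow_add, sym_pow_six' hn h, mul_one]
  · rw [(sym_eq_zero_iff' hn).2 h, zero_pow hj, zero_pow (by omega)]
theorem sym_pow_add_six {n : O} (hn : Primary n) (a : O) {j : ℕ} (hj : j ≠ 0) :
    sym n a ^ (j + 6) = sym n a ^ j :=
  sym_pow_add_six' hn.ne_zero a hj
theorem conj_sym' {n : O} (hn : n ≠ 0) (a : O) : conj (sym n a) = sym n a ^ 5 := by
  rw [show 5 = 3 + 2 from rfl, pow_add, sym_pow_three' hn, sym_sq' hn, sym, map_mul, conj_quad,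
    Complex.conj_conj]
theorem conj_sym {n : O} (hn : Primary n) (a : O) : conj (sym n a) = sym n a ^ 5 :=
  conj_sym' hn.ne_zero a
/-- `sym p` is a character of exact order six of the field `O/(p)`. -/
theorem exists_mulChar_sym {p : O} (hp : Prime p) (h : PO p) :
    ∃ χ : MulChar (O ⧸ Ideal.span {p}) ℂ, orderOf χ = 6 ∧
      ∀ a, χ (Ideal.Quotient.mk _ a) = sym p a := by
  obtain ⟨χ, hχ⟩ := exists_chr_prime (p := p) (sym p) (sym_one_right p) (sym_mul_right h)
    (fun a b hab => sym_congr ((rad_dvd p).trans hab))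
    fun a ha => (sym_eq_zero_iff h.1).2 fun h' => ha h'.symm
  refine ⟨χ, orderOf_eq_of_pow_and_pow_div_prime (by norm_num)
    ((chr_pow_eq_one_iff χ 6).2 fun a ha => ?_) fun q hq hq6 h1 => ?_, hχ⟩
  · rw [hχ, sym_pow_six h.1 ha.symm]
  · have hq' : q = 2 ∨ q = 3 := by
      have := Nat.le_of_dvd (by norm_num) hq6
      interval_cases q <;> first | omega | exact absurd hq (by norm_num)
    rcases hq' with rfl | rfl
    · have h6 := nm_prime_mod_six' hp
      obtain ⟨a, ha, ha'⟩ := exists_pow_ne hp (e := (nm p - 1) / 2) (by omega) (by omega)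
      have := (chr_pow_eq_one_iff χ 3).1 h1 a (hp.coprime_iff_not_dvd.2 ha).symm
      rw [hχ, sym_pow_three h.1, Symbol_quad_prime hp h.1, quad1, if_neg ha, if_neg ha'] at this
      norm_num at this
    · obtain ⟨a, ha, ha'⟩ := Symbol_exists_cub_ne hp h.1
      have := (chr_pow_eq_one_iff χ 2).1 h1 a ha
      rw [hχ, sym_sq h.1] at this
      exact ha' this
/-- A non-trivial power has mean zero. -/
theorem sum_res_sym_pow {p : O} (hp : Prime p) (h : PO p) {j : ℕ} (hj : ¬ 6 ∣ j) :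
    ∑ x ∈ res p, sym p x ^ j = 0 := by
  obtain ⟨χ, h6, hχ⟩ := exists_mulChar_sym hp h
  have := Fact.mk hp.ne_zero
  have := Fintype.ofFinite (O ⧸ Ideal.span {p})
  have hj0 : j ≠ 0 := by
    rintro rfl
    exact hj (dvd_zero _)
  have h1 : χ ^ j ≠ 1 := fun h' => hj (h6 ▸ orderOf_dvd_of_pow_eq_one h')
  rw [← MulChar.sum_eq_zero_of_ne_one h1, ← sum_res_eq_quot hp.ne_zero]
  exact Finset.sum_congr rfl fun x _ => by rw [MulChar.pow_apply' _ hj0, hχ]
theorem exists_sym_pow_ne_one {p : O} (hp : Prime p) (h : PO p) {j : ℕ} (hj : ¬ 6 ∣ j) :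
    ∃ x, IsCoprime x p ∧ sym p x ^ j ≠ 1 := by
  obtain ⟨χ, h6, hχ⟩ := exists_mulChar_sym hp h
  have h1 : χ ^ j ≠ 1 := fun h' => hj (h6 ▸ orderOf_dvd_of_pow_eq_one h')
  by_contra hc
  push Not at hc
  exact h1 ((chr_pow_eq_one_iff χ j).2 fun a ha => by rw [hχ, hc a ha])

end Crest.Agent.T27
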