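import Crest.Agent.T27.ReflDefs_56
import Crest.Agent.T27.Symbol_55
import Crest.Agent.T27.Cnt_21
import Crest.Agent.T27.P4Defs_17

/-!
# Row 27: the reflected energy estimate (helper56)

`enFixed_56 : LS2Stmt → ReflStmt → EnFixed`, `energy_56 : RecAx R → EnFixed → EnergyStmt`,
`enAll_56 : LS2Stmt → ReflStmt → EnAll`.
-/

set_option autoImplicit false

noncomputable section

namespace Crest.Agent.T27

open Finset

namespace En56

variable [Fr0]

theorem zeta_le {η : ℝ} (hη : 0 < η) : ∃ Z : ℝ, 0 < Z ∧ ∀ A : Finset O, (∀ n ∈ A, Primary n) →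
    ∑ n ∈ A, (nr n ^ (1 + η))⁻¹ ≤ Z := by
  have hs : Summable fun m : ℕ => ((m : ℝ) ^ (1 + η))⁻¹ :=
    Real.summable_nat_rpow_inv.2 (by linarith)
  have h0 : 0 ≤ ∑' m : ℕ, ((m : ℝ) ^ (1 + η))⁻¹ := tsum_nonneg fun _ => by positivity
  refine ⟨Fr0.kp * ∑' m : ℕ, ((m : ℝ) ^ (1 + η))⁻¹ + 1, by positivity, fun A hA => ?_⟩
  have h1 : A ⊆ pball (A.sup nm) := fun n hn => mem_pball.2 ⟨hA n hn, le_sup hn⟩
  have h2 := C21.sum_pball_le (fun m => ((m : ℝ) ^ (1 + η))⁻¹) (fun _ => by positivity)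
    (fun m hm => by
      have : (0 : ℝ) < m := by exact_mod_cast hm
      gcongr
      simp) (A.sup nm)
  refine (sum_le_sum_of_subset_of_nonneg h1 fun _ _ _ => by positivity).trans (h2.trans ?_)
  have h3 := hs.sum_le_tsum (Ioc 0 (A.sup nm)) fun _ _ => by positivity
  have h4 : (0 : ℝ) ≤ Fr0.kp := Nat.cast_nonneg _
  nlinarith

theorem nr_le_of_dvd {z w : O} (h : z ∣ w) (hw : w ≠ 0) : nr z ≤ nr w :=
  Nat.cast_le.2 (nm_le_of_dvd h hw)

theorem nr_prod {α : Type*} (s : Finset α) (f : α → O) :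
    nr (∏ i ∈ s, f i) = ∏ i ∈ s, nr (f i) := by
  simp only [nr, nm_prod, Nat.cast_prod]

theorem two_pow_le {ε : ℝ} (hε : 0 < ε) :
    ∃ C : ℝ, 0 < C ∧ ∀ n : O, (2 : ℝ) ^ (pf n).card ≤ C * nr (rad n) ^ ε := by
  set T := pball ⌈(2 : ℝ) ^ ε⁻¹⌉₊
  refine ⟨2 ^ T.card, by positivity, fun n => ?_⟩
  have h2 : ∀ p ∈ pf n, (2 : ℝ) ≤ (if p ∈ T then 2 else 1) * nr p ^ ε := by
    intro p hp
    have hp' := BasicB.pf_sub hp
    split_ifs with h
    · exact le_mul_of_one_le_right (by linarith) (Real.one_le_rpow (one_le_nr hp'.1.ne_zero) hε.le)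
    · rw [mem_pball, not_and, not_le] at h
      rw [one_mul, ← Real.rpow_inv_rpow (by norm_num : (0 : ℝ) ≤ 2) hε.ne']
      exact Real.rpow_le_rpow (by positivity) (Nat.ceil_le.1 (h hp'.2).le) hε.le
  calc (2 : ℝ) ^ (pf n).card = ∏ _p ∈ pf n, (2 : ℝ) := (Finset.prod_const _).symm
    _ ≤ ∏ p ∈ pf n, (if p ∈ T then 2 else 1) * nr p ^ ε :=
        Finset.prod_le_prod (fun _ _ => by norm_num) h2
    _ = 2 ^ (pf n ∩ T).card * nr (rad n) ^ ε := by
        rw [Finset.prod_mul_distrib, Finset.prod_ite_mem, Finset.prod_const,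
          Real.finsetProd_rpow _ _ (fun _ _ => Nat.cast_nonneg _), rad, nr_prod]
    _ ≤ _ := mul_le_mul_of_nonneg_right
        (pow_le_pow_right₀ one_le_two (Finset.card_le_card Finset.inter_subset_right))
        (by positivity)

theorem pf_subset {d n : O} (hd : d ∣ n) (hn : n ≠ 0) : pf d ⊆ pf n := fun p hp => by
  obtain ⟨h1, h2, h3⟩ := BasicB.of_mem_pf hp
  exact (mem_pf hn).2 ⟨h1, h2, h3.trans hd⟩

theorem card_pdiv_rad (h : O) : (pdiv (rad h)).card ≤ 2 ^ (pf h).card := by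
  have h0 := (primary_rad h).ne_zero
  rw [← card_powerset]
  refine card_le_card_of_injOn pf (fun d hd => ?_) fun d hd d' hd' e => ?_
  · exact mem_coe.2 (mem_powerset.2 (pf_rad h ▸ pf_subset ((mem_pdiv h0).1 hd).2 h0))
  · obtain ⟨a1, a2⟩ := (mem_pdiv h0).1 hd
    obtain ⟨b1, b2⟩ := (mem_pdiv h0).1 hd'
    rw [← a1.eq_rad ((squarefree_rad h).squarefree_of_dvd a2),
      ← b1.eq_rad ((squarefree_rad h).squarefree_of_dvd b2), rad, rad, e]

open Classical in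
/-- The norm of the part of `P` dividing `m`. -/
def Gw (P : Finset O) (m : O) : ℝ := ∏ p ∈ P, if p ∣ m then nr p else 1

theorem Gw_pos {P : Finset O} (hP : ∀ p ∈ P, Prime p ∧ Primary p) (m : O) : 0 < Gw P m :=
  prod_pos fun p hp => by
    split_ifs
    · exact nr_pos (hP p hp).1.ne_zero
    · exact one_pos

theorem sum_Gw_le {η Z : ℝ} (hη : 0 < η)
    (hZ : ∀ A : Finset O, (∀ n ∈ A, Primary n) → ∑ n ∈ A, (nr n ^ (1 + η))⁻¹ ≤ Z)
    {P : Finset O} (hP : ∀ p ∈ P, Prime p ∧ Primary p) (A : Finset O) (hA : ∀ n ∈ A, Primary n) :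
    ∑ m ∈ A, Gw P m * (nr m ^ (1 + η))⁻¹ ≤ 2 ^ P.card * Z := by
  classical
  rw [← sum_fiberwise_of_maps_to (t := P.powerset) (g := fun m => P.filter (· ∣ m))
    fun m _ => mem_powerset.2 (filter_subset _ _)]
  refine (sum_le_card_nsmul _ _ Z fun T hT => ?_).trans
    (by rw [card_powerset, nsmul_eq_mul]; push_cast; exact le_rfl)
  have hT' : ∀ p ∈ T, Prime p ∧ Primary p := fun p hp => hP p (mem_powerset.1 hT hp)
  have hf := (squarefree_prod_primes hT').2.1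
  have hf1 := one_le_nr hf.ne_zero
  have hdvd : ∀ m ∈ A.filter (fun m => P.filter (· ∣ m) = T), ∃ m', Primary m' ∧
      m = (∏ p ∈ T, p) * m' := fun m hm => by
    obtain ⟨h1, h2⟩ := mem_filter.1 hm
    have h3 := (hA m h1).ne_zero
    obtain ⟨m', e⟩ : ∏ p ∈ T, p ∣ m := BasicB.prod_dvd_of_subset h3 fun p hp =>
      (mem_pf h3).2 ⟨(hT' p hp).1, (hT' p hp).2, (mem_filter.1 (h2 ▸ hp : p ∈ P.filter (· ∣ m))).2⟩
    exact ⟨m', hf.of_mul (e ▸ hA m h1), e⟩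
  choose! c hc hc' using hdvd
  refine le_trans ?_ (hZ ((A.filter fun m => P.filter (· ∣ m) = T).image c) fun n hn => ?_)
  · rw [sum_image fun a ha b hb e => by rw [hc' a ha, hc' b hb, e]]
    refine sum_le_sum fun m hm => ?_
    have e1 : Gw P m = nr (∏ p ∈ T, p) := by
      rw [Gw, ← prod_filter, (mem_filter.1 hm).2, nr_prod]
    have e2 := nr_pos (hc m hm).ne_zero
    have e3 : nr (∏ p ∈ T, p) ≤ nr (∏ p ∈ T, p) ^ (1 + η) := by
      simpa using Real.rpow_le_rpow_of_exponent_le hf1 (show (1 : ℝ) ≤ 1 + η by linarith)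
    have e4 : nr m = nr (∏ p ∈ T, p) * nr (c m) := by rw [← nr_mul, ← hc' m hm]
    rw [e1, e4, Real.mul_rpow (by positivity) e2.le, mul_inv, ← mul_assoc]
    refine mul_le_of_le_one_left (by positivity) ?_
    rw [← div_eq_mul_inv, div_le_one (by positivity)]
    exact e3
  · obtain ⟨m, hm, rfl⟩ := mem_image.1 hn
    exact hc m hm

open Classical in
theorem fac_le {P : Finset O} (hP : ∀ p ∈ P, Prime p ∧ Primary p) (n d : O) :
    (∏ p ∈ P, ((Real.sqrt (nr p))⁻¹ + if p ∣ n * d ^ 3 then Real.sqrt (nr p) else 0)) ^ 2 ≤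
      (2 ^ P.card) ^ 2 * (Gw P d ^ 2 * Gw P n) := by
  rw [Gw, Gw, ← prod_const, ← prod_pow, ← prod_pow, ← prod_pow, ← prod_mul_distrib,
    ← prod_mul_distrib]
  refine prod_le_prod (fun _ _ => sq_nonneg _) fun p hp => ?_
  have h0 := one_le_nr (hP p hp).1.ne_zero
  have h1 : 1 ≤ Real.sqrt (nr p) := Real.one_le_sqrt.2 h0
  have h2 : (Real.sqrt (nr p))⁻¹ ≤ 1 := inv_le_one_of_one_le₀ h1
  have h3 : 0 ≤ (Real.sqrt (nr p))⁻¹ := by positivity
  have h4 := Real.sq_sqrt (show 0 ≤ nr p by linarith)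
  have h5 : ((Real.sqrt (nr p))⁻¹ + Real.sqrt (nr p)) ^ 2 ≤ 2 ^ 2 * nr p := by
    rw [← h4, ← mul_pow]
    rw [h4]
    gcongr
    linarith
  have h6 : ((Real.sqrt (nr p))⁻¹ + 0) ^ 2 ≤ 2 ^ 2 * 1 := by nlinarith
  have h7 : 1 ≤ (if p ∣ d then nr p else 1) := by split_ifs <;> linarith
  have h8 : 1 ≤ (if p ∣ n then nr p else 1) := by split_ifs <;> linarith
  by_cases h : p ∣ n * d ^ 3
  · rw [if_pos h]
    refine h5.trans (mul_le_mul_of_nonneg_left ?_ (by norm_num))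
    rcases (hP p hp).1.dvd_or_dvd h with h | h
    · rw [if_pos h]
      exact le_mul_of_one_le_left (by linarith) (one_le_pow₀ h7)
    · rw [if_pos ((hP p hp).1.dvd_of_dvd_pow h)]
      nlinarith
  · rw [if_neg h]
    exact h6.trans (mul_le_mul_of_nonneg_left
      (one_le_mul_of_one_le_of_one_le (one_le_pow₀ h7) h8) (by norm_num))

omit [Fr0] in
theorem log_le {ε : ℝ} (hε : 0 < ε) : ∃ C : ℝ, 0 < C ∧ ∀ (Q : ℝ) (n : ℕ),
    (2 : ℝ) ^ n ≤ Q → (n : ℝ) + 1 ≤ C * Q ^ ε := by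
  refine ⟨1 + 2 * ε⁻¹, by positivity, fun Q n hQ => ?_⟩
  have hQ1 : 1 ≤ Q := (one_le_pow₀ one_le_two).trans hQ
  have h2 : n * Real.log 2 ≤ Real.log Q := by
    rw [← Real.log_pow]
    exact Real.log_le_log (by positivity) hQ
  have h3 : Real.log Q ≤ Q ^ ε / ε := Real.log_le_rpow_div (by linarith) hε
  have h4 : 1 ≤ Q ^ ε := Real.one_le_rpow hQ1 hε.le
  have h5 := Real.log_two_gt_d9
  have h6 : (0 : ℝ) ≤ n := Nat.cast_nonneg _
  rw [div_eq_inv_mul] at h3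
  nlinarith

/-- dyadic decomposition -/
theorem dyadic {ε : ℝ} (hε : 0 < ε) : ∃ C : ℝ, 0 < C ∧ ∀ (Q K E : ℝ) (S : Finset O) (f : O → ℝ),
    1 ≤ K → K ≤ Q → (∀ k ∈ S, k ≠ 0 ∧ nr k ≤ K) → (∀ k, 0 ≤ f k) →
    (∀ K₁ : ℝ, 1 ≤ K₁ → K₁ ≤ K →
      ∑ k ∈ S.filter (fun k => K₁ ≤ nr k ∧ nr k ≤ 2 * K₁), f k ≤ E) →
    ∑ k ∈ S, f k ≤ C * Q ^ ε * E := by
  classical
  obtain ⟨C, hC, h⟩ := log_le hε
  refine ⟨C, hC, fun Q K E S f hK hKQ hS hf hE => ?_⟩
  have hE0 : 0 ≤ E := (sum_nonneg fun _ _ => hf _).trans (hE 1 le_rfl hK)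
  have hK0 : ⌊K⌋₊ ≠ 0 := by
    have := (Nat.one_le_floor_iff K).2 hK
    omega
  have hm : (2 : ℝ) ^ Nat.log 2 ⌊K⌋₊ ≤ K :=
    le_trans (by exact_mod_cast Nat.pow_log_le_self 2 hK0) (Nat.floor_le (by linarith))
  rw [← sum_fiberwise_of_maps_to (t := range (Nat.log 2 ⌊K⌋₊ + 1)) (g := fun k => Nat.log 2 (nm k))
    fun k hk => mem_range.2 (Nat.lt_succ_of_le (Nat.log_mono_right
      ((Nat.le_floor_iff (by linarith)).2 (hS k hk).2)))]
  calc _ ≤ ∑ _e ∈ range (Nat.log 2 ⌊K⌋₊ + 1), E := by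
        refine sum_le_sum fun e he => le_trans ?_ (hE (2 ^ e) (one_le_pow₀ one_le_two)
          ((pow_le_pow_right₀ one_le_two (Nat.lt_succ_iff.1 (mem_range.1 he))).trans hm))
        refine sum_le_sum_of_subset_of_nonneg (fun k hk => ?_) fun _ _ _ => hf _
        obtain ⟨hk', rfl⟩ := mem_filter.1 hk
        have h0 : nm k ≠ 0 := fun h0 => (hS k hk').1 (nm_eq_zero.1 h0)
        refine mem_filter.2 ⟨hk', by exact_mod_cast Nat.pow_log_le_self 2 h0, ?_⟩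
        have := (Nat.lt_pow_succ_log_self one_lt_two (nm k)).le
        rw [pow_succ'] at this
        exact_mod_cast this
    _ ≤ _ := by
        rw [sum_const, card_range, nsmul_eq_mul]
        refine mul_le_mul_of_nonneg_right ?_ hE0
        exact_mod_cast h Q _ (hm.trans hKQ)

/-- One term `(i, r)` of the reflection formula. -/
theorem piece (hL : LS2Stmt) {Kr : ℂ → ℂ → ℂ} {V : ℝ → ℂ → ℂ} (hV : KernelOK Kr V) {T : Type}
    {a : T → ℝ} (ha : IdxOK a) (C₁ : ℝ) {η : ℝ} (hη : 0 < η) (hη1 : η ≤ 1 / 4) (R₀ : ℝ) :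
    ∃ (C : ℝ) (J : ℕ), 0 < C ∧ ∀ (Q K X : ℝ) (h r : O) (b : T × O → ℂ) (ρ : O → ℂ) (s : ℂ)
      (S : Finset O), 1 ≤ K → K ≤ Q → 0 < X → X⁻¹ ≤ Q → r ≠ 0 → nr r ≤ Q →
      (∀ t, DualB (C₁ * Real.sqrt (a t)) h r fun ν => b (t, ν)) → (∀ k, ‖ρ k‖ ≤ 1) → |s.re| ≤ R₀ →
      (∀ k ∈ S, (Primary k ∧ Squarefree k) ∧ nr k ≤ K) →
      ∑ k ∈ S, ‖ρ k * (X / (nr k * nr r) : ℝ) * ∑' p : T × O, b p * quad k p.2 *
          V (a p.1 * nr p.2 * X / (nr k * nr r) ^ 2) s‖ ^ 2 ≤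
        C * (Q ^ η) ^ 27 * (1 + |s.im|) ^ J * (X * K + K ^ 2 * nr r ^ 2) := by
  classical
  obtain ⟨⟨c₀, hc₀, hca⟩, hsa⟩ := ha
  have ha0 : ∀ t, 0 < a t := fun t => hc₀.trans_le (hca t)
  obtain ⟨Cc, J, hCc, hcore⟩ := core (δ := O) (Λ := T × O) hV (Pk := fun k => Primary k ∧ Squarefree k)
    (nk := nr) (Pn := fun k => Primary k ∧ Squarefree k) (nn := nr) (q := quad) hL
    (Ns := fun t => a t / c₀) (fun t => (one_le_div hc₀).2 (hca t)) (fun ε hε => by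
      refine ((hsa ε hε).mul_right (c₀ ^ (-ε))⁻¹).congr fun t => ?_
      rw [Real.div_rpow (ha0 t).le hc₀.le, div_eq_mul_inv]) hη hη1 R₀
  obtain ⟨Z, hZ0, hZ⟩ := zeta_le hη
  obtain ⟨Cp, hCp, hp⟩ := two_pow_le hη
  obtain ⟨Cd, hCd, hd⟩ := dyadic hη
  refine ⟨Cd * (Cc * (C₁ ^ 2 * c₀ * Cp ^ 2) * (Cp * Z) ^ 3 * (2 * (4 / c₀) ^ (4 * η)) *
    (4 / c₀ * (2 + 4 / c₀))) + 1, J, by positivity, ?_⟩
  intro Q K X h r b ρ s S hK hKQ hX hXQ hr hrQ hb hρ hs hS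
  have hQ : 1 ≤ Q := hK.trans hKQ
  have hQ0 : 0 < Q := by linarith
  have hr1 := one_le_nr hr
  set q := Q ^ η with hq
  have hq1 : 1 ≤ q := Real.one_le_rpow hQ hη.le
  set W := (1 + |s.im|) ^ J with hW
  have hW0 : 0 ≤ W := by positivity
  set F := X * K + K ^ 2 * nr r ^ 2 with hF
  have hF0 : 0 ≤ F := by positivity
  set P := (pf r).filter (fun p => vp p h % 6 = 4) with hPdef
  have hP : ∀ p ∈ P, Prime p ∧ Primary p := fun p hp => BasicB.pf_sub (mem_filter.1 hp).1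
  have h2P : (2 : ℝ) ^ P.card ≤ Cp * q := by
    refine (pow_le_pow_right₀ one_le_two (card_le_card (filter_subset _ _))).trans
      ((hp r).trans ?_)
    have := (nr_le_of_dvd (rad_dvd r) hr).trans hrQ
    rw [hq]
    gcongr
  have hb' : ∀ l : T × O, b l ≠ 0 → ∃ n d : O, Primary n ∧ Squarefree n ∧ Primary d ∧
      l.2 = n * d ^ 3 ∧ ‖b l‖ ≤ C₁ * Real.sqrt (a l.1) * Real.sqrt (nr d) *
        ∏ p ∈ P, ((Real.sqrt (nr p))⁻¹ + if p ∣ l.2 then Real.sqrt (nr p) else 0) :=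
    fun l hl => hb l.1 l.2 hl
  choose! n d hn hn' hd' hnd hle using hb'
  refine (hd Q K (Cc * (C₁ ^ 2 * c₀ * Cp ^ 2) * (Cp * Z) ^ 3 * (2 * (4 / c₀) ^ (4 * η)) *
    (4 / c₀ * (2 + 4 / c₀)) * q ^ 26 * W * F) S _ hK hKQ
    (fun k hk => ⟨(hS k hk).1.1.ne_zero, (hS k hk).2⟩) (fun k => by positivity)
    fun K₁ hK₁ hK₁K => ?_).trans ?_
  · set S' := S.filter (fun k => K₁ ≤ nr k ∧ nr k ≤ 2 * K₁) with hS'
    set B := (2 * K₁ * nr r) ^ 2 / (c₀ * X) with hB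
    have hB0 : 0 < B := by positivity
    have h1 := hcore (2 * K₁) B (2 ^ P.card * Z) (C₁ * Real.sqrt c₀ * 2 ^ P.card) S' b Prod.fst n d
      Primary nr (Gw P) (Gw P) (fun k _ e => quad k (e ^ 3)) (fun k l => quad k l.2)
      (fun l => a l.1 * nr l.2 / c₀) (fun k => c₀ * X / (nr k * nr r) ^ 2) s (by linarith) hB0
      (by positivity) hs (fun k hk => ?_) (fun _ _ _ => norm_quad_le _ _)
      (fun m => (Gw_pos hP m).le) (Gw_pos hP) (fun l hl => ?_) (fun l l' hl hl' e1 e2 e3 => ?_)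
      (fun A hA => sum_Gw_le hη hZ hP A fun m hm => (hA m hm).1.1)
      fun A hA => sum_Gw_le hη hZ hP A fun m hm => (hA m hm).1
    · have e1 : ∀ (k : O) (l : T × O), a l.1 * nr l.2 / c₀ * (c₀ * X / (nr k * nr r) ^ 2) =
          a l.1 * nr l.2 * X / (nr k * nr r) ^ 2 := fun k l => by field_simp
      simp only [e1] at h1
      have e2 : ∀ k ∈ S', ‖ρ k * (X / (nr k * nr r) : ℝ) * ∑' p : T × O, b p * quad k p.2 *
          V (a p.1 * nr p.2 * X / (nr k * nr r) ^ 2) s‖ ^ 2 ≤ (X / (K₁ * nr r)) ^ 2 *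
          ‖∑' p : T × O, b p * quad k p.2 * V (a p.1 * nr p.2 * X / (nr k * nr r) ^ 2) s‖ ^ 2 := by
        intro k hk
        have a1 := (mem_filter.1 hk).2.1
        have a2 : 0 < nr k := by linarith
        rw [norm_mul, norm_mul, mul_pow, Complex.norm_real, Real.norm_of_nonneg (by positivity)]
        refine mul_le_mul_of_nonneg_right (pow_le_pow_left₀ (by positivity) ?_ 2) (sq_nonneg _)
        refine (mul_le_of_le_one_left (by positivity) (hρ k)).trans ?_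
        gcongr
      refine (sum_le_sum e2).trans ?_
      rw [← mul_sum]
      refine (mul_le_mul_of_nonneg_left h1 (sq_nonneg _)).trans ?_
      have f1 : (2 * K₁) ^ η ≤ 2 * q := by
        rw [Real.mul_rpow two_pos.le (by linarith), hq]
        have : (2 : ℝ) ^ η ≤ 2 := by
          simpa using Real.rpow_le_rpow_of_exponent_le (x := 2) (by norm_num)
            (show η ≤ 1 by linarith)
        have := hK₁K.trans hKQ
        gcongr
      have f2 : B ^ (4 * η) ≤ (4 / c₀) ^ (4 * η) * q ^ 20 := by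
        have g1 : B ≤ 4 / c₀ * Q ^ 5 := by
          have g2 := hK₁K.trans hKQ
          calc B = 4 / c₀ * (K₁ ^ 2 * nr r ^ 2 * X⁻¹) := by rw [hB]; field_simp; ring
            _ ≤ 4 / c₀ * (Q ^ 2 * Q ^ 2 * Q) := by gcongr
            _ = _ := by ring
        refine (Real.rpow_le_rpow hB0.le g1 (by positivity)).trans_eq ?_
        rw [Real.mul_rpow (by positivity) (by positivity), hq, ← Real.rpow_natCast,
          ← Real.rpow_natCast, ← Real.rpow_mul hQ0.le, ← Real.rpow_mul hQ0.le]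
        congr 2
        push_cast
        ring
      have f3 : (X / (K₁ * nr r)) ^ 2 * (B * (2 * K₁ + B)) ≤ 4 / c₀ * (2 + 4 / c₀) * F := by
        calc _ = 4 / c₀ * (2 * (X * K₁) + 4 / c₀ * (K₁ ^ 2 * nr r ^ 2)) := by
              rw [hB]; field_simp; ring
          _ ≤ 4 / c₀ * (2 * F + 4 / c₀ * F) := by
              have g1 : X * K₁ ≤ F := le_add_of_le_of_nonneg (by gcongr) (by positivity)
              have g2 : K₁ ^ 2 * nr r ^ 2 ≤ F := le_add_of_nonneg_of_le (by positivity) (by gcongr)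
              gcongr
          _ = _ := by ring
      rw [Real.rpow_add hB0, Real.rpow_one, mul_pow, mul_pow, Real.sq_sqrt hc₀.le]
      calc _ = Cc * (C₁ ^ 2 * c₀ * (2 ^ P.card) ^ 2) * (2 ^ P.card * Z) ^ 3 * W *
            ((2 * K₁) ^ η * B ^ (4 * η)) * ((X / (K₁ * nr r)) ^ 2 * (B * (2 * K₁ + B))) := by ring
        _ ≤ Cc * (C₁ ^ 2 * c₀ * (Cp * q) ^ 2) * (Cp * q * Z) ^ 3 * W *
            (2 * q * ((4 / c₀) ^ (4 * η) * q ^ 20)) * (4 / c₀ * (2 + 4 / c₀) * F) := by gcongr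
        _ = _ := by ring
    · obtain ⟨a1, a2, a3⟩ := mem_filter.1 hk
      have a4 : 0 < nr k := by linarith
      refine ⟨(hS k a1).1, a3, ?_⟩
      rw [hB, inv_div]
      gcongr
    · have a1 := one_le_nr (hd' l hl).ne_zero
      refine ⟨⟨hn l hl, hn' l hl⟩, one_le_nr (hn l hl).ne_zero, hd' l hl, a1, ?_, fun k _ => ?_, ?_⟩
      · conv_lhs => rw [hnd l hl, nr_mul, nr_pow]
        ring
      · conv_lhs => rw [hnd l hl, quad_mul_right']
        ring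
      · have a2 := fac_le hP (n l) (d l)
        rw [← hnd l hl] at a2
        refine (pow_le_pow_left₀ (norm_nonneg _) (hle l hl) 2).trans ?_
        rw [mul_pow, mul_pow, mul_pow, Real.sq_sqrt (ha0 _).le, Real.sq_sqrt (by linarith)]
        refine (mul_le_mul_of_nonneg_left a2 (by have := ha0 l.1; positivity)).trans_eq ?_
        rw [mul_pow, mul_pow, Real.sq_sqrt hc₀.le]
        field_simp
    · exact Prod.ext e1 (by rw [hnd l hl, hnd l' hl', e2, e3])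
  · calc _ = Cd * (Cc * (C₁ ^ 2 * c₀ * Cp ^ 2) * (Cp * Z) ^ 3 * (2 * (4 / c₀) ^ (4 * η)) *
          (4 / c₀ * (2 + 4 / c₀))) * q ^ 27 * W * F := by ring
      _ ≤ _ := by gcongr; linarith

omit [Fr0] in
theorem exists_eta {ε : ℝ} (hε : 0 < ε) (m : ℕ) : ∃ η : ℝ, 0 < η ∧ η ≤ 1 / 4 ∧
    ∀ Q : ℝ, 1 ≤ Q → (Q ^ η) ^ m ≤ Q ^ ε := by
  refine ⟨min (ε / (m + 1)) (1 / 4), lt_min (by positivity) (by norm_num), min_le_right _ _,
    fun Q hQ => ?_⟩
  rw [← Real.rpow_natCast, ← Real.rpow_mul (by linarith)]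
  refine Real.rpow_le_rpow_of_exponent_le hQ ?_
  calc min (ε / (m + 1)) (1 / 4) * m ≤ ε / (m + 1) * (m + 1) := by
        gcongr
        · exact min_le_left _ _
        · linarith
    _ = ε := by field_simp

end En56

open En56

/-- **Energy with a fixed frozen part.** -/
theorem enFixed_56 [Fr0] (hL : LS2Stmt) (hR : ReflStmt) : EnFixed := by
  classical
  intro ε hε R₀
  obtain ⟨I, _, T, a, C, Kr, V, ha, hV, hR⟩ := hR
  obtain ⟨η, hη, hη1, hηε⟩ := exists_eta hε 29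
  choose Cp Jp hCp hp using fun i => piece hL hV (ha i) C hη hη1 R₀
  obtain ⟨Cd, hCd, hd⟩ := two_pow_le hη
  have hS : 0 < ∑ i, Cp i + 1 := by
    have : 0 ≤ ∑ i, Cp i := sum_nonneg fun i _ => (hCp i).le
    linarith
  refine ⟨((Fintype.card I : ℝ) + 1) ^ 2 * Cd ^ 2 * (∑ i, Cp i + 1), univ.sup Jp, by positivity, ?_⟩
  intro Q K D φ h s S hK hKQ hD hDQ hhQ hφ hh hs hSk
  obtain ⟨b, hb, hrefl⟩ := hR φ hφ h hh
  choose! ρ hρ hT using fun k (hk : k ∈ S) => hrefl k (hSk k hk).1 D hD s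
  have hQ : 1 ≤ Q := hK.trans hKQ
  have hr0 : rad h ≠ 0 := (primary_rad h).ne_zero
  set q := Q ^ η with hq
  have hq0 : 0 ≤ q := by positivity
  set F := D * K + K ^ 2 * nr (rad h) ^ 2 with hF
  have hF0 : 0 ≤ F := by positivity
  have hs1 : 1 ≤ 1 + |s.im| := le_add_of_nonneg_right (abs_nonneg _)
  set f : I → O → O → ℂ := fun i r k => (if k ∈ S then ρ k i r else 0) *
    (D / (nr k * nr r) : ℝ) * ∑' p : T i × O, b i r p * quad k p.2 *
      V (a i p.1 * nr p.2 * D / (nr k * nr r) ^ 2) s with hf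
  set E : ℝ := (∑ i, Cp i + 1) * q ^ 27 * (1 + |s.im|) ^ univ.sup Jp * F with hE
  have hE0 : 0 ≤ E := by positivity
  have hpiece : ∀ i, ∀ r ∈ pdiv (rad h), ∑ k ∈ S, ‖f i r k‖ ^ 2 ≤ E := by
    intro i r hr
    obtain ⟨r1, r2⟩ := (mem_pdiv hr0).1 hr
    have r3 : nr r ≤ nr (rad h) := nr_le_of_dvd r2 hr0
    refine (hp i Q K D h r (b i r) (fun k => if k ∈ S then ρ k i r else 0) s S hK hKQ hD hDQ
      r1.ne_zero (r3.trans hhQ) (hb i r hr) (fun k => ?_) hs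
      fun k hk => ⟨⟨(hSk k hk).1.1, (hSk k hk).1.2.1⟩, (hSk k hk).2⟩).trans ?_
    · split_ifs with hk
      · exact hρ k hk i r
      · simp
    · have b1 : Cp i ≤ ∑ i, Cp i + 1 :=
        (single_le_sum (fun j _ => (hCp j).le) (mem_univ i)).trans (by linarith)
      have b2 : (1 + |s.im|) ^ Jp i ≤ (1 + |s.im|) ^ univ.sup Jp :=
        pow_le_pow_right₀ hs1 (le_sup (mem_univ i))
      have b3 := (hCp i).le
      rw [hE, hF]
      gcongr
  have h1 := l2_sum_le S univ (fun i k => ∑ r ∈ pdiv (rad h), f i r k)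
    (E := ((pdiv (rad h)).card : ℝ) ^ 2 * E)
    fun i _ => l2_sum_le S (pdiv (rad h)) (f i) (hpiece i)
  rw [sum_congr rfl fun k hk => by rw [hT k hk]]
  refine le_trans (le_of_eq (sum_congr rfl fun k hk => by simp only [hf, if_pos hk])) (h1.trans ?_)
  have h2 : ((pdiv (rad h)).card : ℝ) ≤ Cd * q := by
    refine le_trans (by exact_mod_cast card_pdiv_rad h) ((hd h).trans ?_)
    rw [hq]
    gcongr
  have h3 : ((univ : Finset I).card : ℝ) ≤ Fintype.card I + 1 := by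
    rw [card_univ]; linarith
  have h4 := hηε Q hQ
  calc ((univ : Finset I).card : ℝ) ^ 2 * (((pdiv (rad h)).card : ℝ) ^ 2 * E)
      ≤ ((Fintype.card I : ℝ) + 1) ^ 2 * ((Cd * q) ^ 2 * E) := by gcongr
    _ = ((Fintype.card I : ℝ) + 1) ^ 2 * Cd ^ 2 * (∑ i, Cp i + 1) * q ^ 29 *
        (1 + |s.im|) ^ univ.sup Jp * F := by rw [hE]; ring
    _ ≤ _ := by gcongr

namespace En56

variable [Fr0]

/-- Splitting off the generic squarefree part of a primary element. -/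
theorem decomp {h₀ n : O} (h0 : h₀ ≠ 0) (hn : Primary n) : ∃ m k : O, n = m * k ∧ Primary m ∧
    SP (m * h₀) k ∧ nr (rad (m * h₀)) ^ 2 ≤ nr m * nr (rad h₀) ^ 2 := by
  classical
  set A := (pf n).filter (fun p => p ∉ pf h₀ ∧ vp p n = 1) with hA
  set B := (pf n).filter (fun p => ¬ (p ∉ pf h₀ ∧ vp p n = 1)) with hB
  have hA' : ∀ q ∈ A, Prime q ∧ Primary q := fun q hq => BasicB.pf_sub (mem_filter.1 hq).1
  have hB' : ∀ q ∈ B, Prime q ∧ Primary q := fun q hq => BasicB.pf_sub (mem_filter.1 hq).1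
  obtain ⟨k1, k2, k3⟩ := squarefree_prod_primes hA'
  have pB := BasicB.primary_prod_pow hB' fun p => vp p n
  have sB : pf (∏ p ∈ B, p ^ vp p n) ⊆ B := fun p hp => by
    have h1 := BasicB.vp_ne_zero hp
    have h2 := BasicB.pf_sub hp
    rw [vp_prod_pow hB' _ h2.1 h2.2] at h1
    by_contra h
    exact h1 (if_neg h)
  refine ⟨∏ p ∈ B, p ^ vp p n, ∏ p ∈ A, p, ?_, pB, ⟨k2, k1, ?_⟩, ?_⟩
  · rw [mul_comm, prod_congr rfl (g := fun p => p ^ vp p n) fun p hp => by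
      rw [(mem_filter.1 hp).2.2, pow_one], hA, hB, prod_filter_mul_prod_filter_not]
    exact hn.eq_prod
  · refine isCoprime_of_disjoint_pf k2 (mul_ne_zero pB.ne_zero h0) ?_
    rw [k3, pf_mul pB.ne_zero h0, disjoint_union_right]
    exact ⟨disjoint_left.2 fun p hp hp' => (mem_filter.1 (sB hp')).2 (mem_filter.1 hp).2,
      disjoint_left.2 fun p hp => (mem_filter.1 hp).2.1⟩
  · have e1 : pf ((∏ p ∈ B, p ^ vp p n) * h₀) ⊆ (B \ pf h₀) ∪ pf h₀ := by
      rw [pf_mul pB.ne_zero h0, sdiff_union_self_eq_union]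
      exact union_subset_union_left sB
    have e2 : nr (rad ((∏ p ∈ B, p ^ vp p n) * h₀)) ≤ (∏ p ∈ B \ pf h₀, nr p) * nr (rad h₀) := by
      rw [rad, rad, nr_prod, nr_prod, ← prod_union sdiff_disjoint]
      refine prod_le_prod_of_subset_of_one_le e1 (fun _ _ => Nat.cast_nonneg _) fun p hp _ => ?_
      rcases mem_union.1 hp with hp | hp
      · exact one_le_nr (hB' p (mem_sdiff.1 hp).1).1.ne_zero
      · exact one_le_nr (BasicB.pf_sub hp).1.ne_zero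
    have e3 : (∏ p ∈ B \ pf h₀, nr p) ^ 2 ≤ nr (∏ p ∈ B, p ^ vp p n) := by
      rw [nr_prod, ← prod_pow]
      refine (prod_le_prod (fun _ _ => sq_nonneg _) fun p hp => ?_).trans
        (prod_le_prod_of_subset_of_one_le (sdiff_subset (t := pf h₀))
          (fun _ _ => Nat.cast_nonneg _)
          fun p hp _ => one_le_nr (pow_ne_zero _ (hB' p hp).1.ne_zero))
      obtain ⟨a1, a2⟩ := mem_sdiff.1 hp
      have a3 := BasicB.vp_ne_zero (mem_filter.1 a1).1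
      have a4 : vp p n ≠ 1 := fun e => (mem_filter.1 a1).2 ⟨a2, e⟩
      rw [nr_pow]
      exact pow_le_pow_right₀ (one_le_nr (hB' p a1).1.ne_zero) (by omega)
    refine (pow_le_pow_left₀ (Nat.cast_nonneg _) e2 2).trans ?_
    rw [mul_pow]
    exact mul_le_mul_of_nonneg_right e3 (sq_nonneg _)

theorem clsB_twist {R : O → O → ℂ} (hR : RecAx R) {φ : O → ℂ} (hφ : ClsB φ) {u : O}
    (hu : IsUnit u) : ClsB fun n => φ n * sym n u := by
  refine ⟨fun n => ?_, fun n n' e => ?_⟩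
  · rw [norm_mul]
    exact mul_le_one₀ (hφ.1 n) (norm_nonneg _) (norm_sym_le _ _)
  · by_cases h0 : n' = 0
    · have : n = 0 := cls_eq_zero.1 (by rw [e, h0, map_zero])
      rw [this, h0]
    · have h1 := ne_zero_of_cls_eq e h0
      beta_reduce
      rw [hφ.2 n n' e, hR.recip n u h1 hu.ne_zero (isCoprime_of_isUnit n hu),
        hR.recip n' u h0 hu.ne_zero (isCoprime_of_isUnit n' hu), sym_unit_left hu, sym_unit_left hu,
        hR.congr n n' u u e rfl]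

end En56

/-- **Reflected energy** over all non-zero rows. -/
theorem energy_56 [Fr0] {R : O → O → ℂ} (hR : RecAx R) (hE : EnFixed) : EnergyStmt := by
  classical
  intro ε hε R₀
  obtain ⟨η, hη, -, hηε⟩ := exists_eta hε 3
  obtain ⟨C₁, J, hC₁, h₁⟩ := hE η hη R₀
  obtain ⟨Z, hZ0, hZ⟩ := zeta_le hη
  refine ⟨(U0.card + 1) * C₁ * Z, J, by positivity, ?_⟩
  intro Q K D φ h₀ s S hK hKQ hD hDQ hhQ hφ hp hs hS
  have hQ : 1 ≤ Q := hK.trans hKQ
  have hQ0 : 0 < Q := by linarith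
  have hK0 : 0 ≤ K := by linarith
  have hQ2 : Q ≤ Q ^ 2 := le_self_pow₀ hQ two_ne_zero
  have h0 := hp.ne_zero
  set q := Q ^ η with hq
  have hq0 : 0 ≤ q := by positivity
  set F := D * K + K ^ 2 * nr (rad h₀) ^ 2 with hF
  have hF0 : 0 ≤ F := by positivity
  have hmem : ∀ {X : ℝ} {n : O}, 0 ≤ X → (n ∈ pball ⌊X⌋₊ ↔ Primary n ∧ nr n ≤ X) :=
    fun hX => by rw [mem_pball, Nat.le_floor_iff hX]
  set M := (pball ⌊K⌋₊).filter
    (fun m => nr (rad (m * h₀)) ^ 2 ≤ nr m * nr (rad h₀) ^ 2) with hM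
  set B := C₁ * q ^ 2 * (1 + |s.im|) ^ J * F with hB
  have hB0 : 0 ≤ B := by positivity
  have hsub : S ⊆ ((U0 ×ˢ M).sigma fun t => (pball ⌊K / nr t.2⌋₊).filter (SP (t.2 * h₀))).image
      fun x => x.1.1 * (x.1.2 * x.2) := by
    intro k hk
    obtain ⟨k0, k1, k2⟩ := hS k hk
    obtain ⟨u, hu, n, hn, rfl⟩ := k1.exists k0
    rw [nr_unit_mul (isUnit_of_mem_U0 hu)] at k2
    obtain ⟨m, k₁, rfl, a1, a2, a3⟩ := decomp h0 hn
    have a4 := nr_pos a1.ne_zero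
    refine mem_image.2 ⟨⟨(u, m), k₁⟩, mem_sigma.2 ⟨mem_product.2 ⟨hu, mem_filter.2
      ⟨(hmem hK0).2 ⟨a1, (nr_le_of_dvd (dvd_mul_right _ _) hn.ne_zero).trans k2⟩, a3⟩⟩,
      mem_filter.2 ⟨(hmem (by positivity)).2 ⟨a2.1, ?_⟩, a2⟩⟩, rfl⟩
    rw [le_div_iff₀ a4, mul_comm, ← nr_mul]
    exact k2
  have hfib : ∀ t ∈ U0 ×ˢ M, ∑ k₁ ∈ (pball ⌊K / nr t.2⌋₊).filter (SP (t.2 * h₀)),
      ‖TT φ D s (t.1 * (t.2 * k₁) * h₀)‖ ^ 2 ≤ B * (nr t.2)⁻¹ := by
    rintro ⟨u, m⟩ ht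
    obtain ⟨t1, t2⟩ := mem_product.1 ht
    obtain ⟨t3, t4⟩ := mem_filter.1 t2
    obtain ⟨t5, t6⟩ := (hmem hK0).1 t3
    simp only at *
    have hm := one_le_nr t5.ne_zero
    have e : ∀ k₁, TT φ D s (u * (m * k₁) * h₀) =
        TT (fun n => φ n * sym n u) D s (k₁ * (m * h₀)) := fun k₁ => by
      refine tsum_congr fun n => ?_
      rw [show u * (m * k₁) * h₀ = u * (k₁ * (m * h₀)) by ring, sym_mul_right' n u]
      ring
    simp only [e]
    refine (h₁ (Q ^ 2) (K / nr m) D _ (m * h₀) s _ ((one_le_div (by linarith)).2 t6)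
      ((div_le_self hK0 hm).trans (hKQ.trans hQ2)) hD (hDQ.trans hQ2) ?_
      (clsB_twist hR hφ (isUnit_of_mem_U0 t1)) (t5.mul hp) hs fun k hk =>
        ⟨(mem_filter.1 hk).2, ((hmem (by positivity)).1 (mem_filter.1 hk).1).2⟩).trans ?_
    · refine le_of_sq_le_sq ?_ (by positivity)
      have := t6.trans hKQ
      calc _ ≤ nr m * nr (rad h₀) ^ 2 := t4
        _ ≤ Q ^ 2 * Q ^ 2 := by gcongr; linarith
        _ = _ := by ring
    · have e1 : (Q ^ 2) ^ η = q ^ 2 := by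
        rw [hq, ← Real.rpow_natCast, ← Real.rpow_natCast, ← Real.rpow_mul hQ0.le,
          ← Real.rpow_mul hQ0.le, mul_comm]
      have e2 : D * (K / nr m) + (K / nr m) ^ 2 * nr (rad (m * h₀)) ^ 2 ≤ F * (nr m)⁻¹ := by
        calc _ ≤ D * (K / nr m) + (K / nr m) ^ 2 * (nr m * nr (rad h₀) ^ 2) := by gcongr
          _ = _ := by rw [hF]; field_simp
      rw [e1, hB, mul_assoc _ F]
      gcongr
  have hA : ∑ m ∈ M, (nr m)⁻¹ ≤ q * Z := by
    refine le_trans ?_ (mul_le_mul_of_nonneg_left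
      (hZ M fun m hm => ((hmem hK0).1 (mem_filter.1 hm).1).1) hq0)
    rw [mul_sum]
    refine sum_le_sum fun m hm => ?_
    obtain ⟨a1, a2⟩ := (hmem hK0).1 (mem_filter.1 hm).1
    have a3 := nr_pos a1.ne_zero
    have a4 : nr m ^ η ≤ q := Real.rpow_le_rpow a3.le (a2.trans hKQ) hη.le
    have a5 : 0 < nr m ^ η := by positivity
    rw [Real.rpow_add a3, Real.rpow_one, mul_inv, mul_left_comm]
    refine le_mul_of_one_le_right (by positivity) ?_
    rwa [← div_eq_mul_inv, one_le_div a5]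
  refine (sum_le_sum_of_subset_of_nonneg hsub fun _ _ _ => sq_nonneg _).trans
    ((sum_image_le_of_nonneg fun _ _ => sq_nonneg _).trans ?_)
  have h4 := hηε Q hQ
  calc _ ≤ ∑ t ∈ U0 ×ˢ M, B * (nr t.2)⁻¹ := by
        rw [sum_sigma]
        exact sum_le_sum hfib
    _ = U0.card * (B * ∑ m ∈ M, (nr m)⁻¹) := by
        simp only [sum_product, sum_const, nsmul_eq_mul, ← mul_sum]
        ring
    _ ≤ (U0.card + 1) * (B * (q * Z)) := by
        have : 0 ≤ ∑ m ∈ M, (nr m)⁻¹ := sum_nonneg fun _ _ => by positivity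
        gcongr
        linarith
    _ = (U0.card + 1) * C₁ * Z * q ^ 3 * (1 + |s.im|) ^ J * F := by rw [hB]; ring
    _ ≤ _ := by gcongr

/-- The energy bound in the form consumed by the last part of the core. -/
theorem enAll_56 [Fr] (hL : LS2Stmt) (hR : ReflStmt) : EnAll := by
  intro ε hε
  obtain ⟨C, J, hC, h⟩ := energy_56 Fr.recAx (enFixed_56 hL hR) ε hε 3
  exact ⟨C, hC, J, fun Q K D φ h₀ s hK hKQ hD _ hDQ hp hh h1 h2 hs =>
    h Q K D φ h₀ s _ hK hKQ hD hDQ hh ⟨h1, h2⟩ hp hs fun k hk => (mem_rows (by linarith)).1 hk⟩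

end Crest.Agent.T27
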