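import Crest.Agent.T27.Gauss_55
import Crest.Agent.T27.Count_55
import Crest.Agent.T27.Core_51

/-!
# Row 27, PSD core, last part (helper17): the sum of the costs over `G`
-/

set_option autoImplicit false

noncomputable section

namespace Crest.Agent.T27.P4

open scoped ComplexConjugate
open Finset

variable [Fr]

theorem th_ne_zero {n : O} (h : th n ≠ 0) : Primary n ∧ ∀ p ∈ pf n, vp p n % 3 ≠ 2 := by
  by_contra h'
  exact h (if_neg h')

theorem norm_th_sq {n : O} (h : th n ≠ 0) : ‖th n‖ ^ 2 = nr (cu n) := by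
  have h1 := th_ne_zero h
  obtain ⟨-, h2, h3, h4⟩ := eq_sq1_mul_cu h1.1 h1.2
  have h5 : 0 < Real.sqrt (nr (sq1 n)) := Real.sqrt_pos.2 (nr_pos h2.ne_zero)
  rw [th, if_pos h1, norm_mul, norm_mul, norm_div, norm_gc h2 h3, Complex.norm_conj,
    norm_arg h1.1.ne_zero, Complex.norm_real, Complex.norm_real, Real.norm_of_nonneg h5.le,
    Real.norm_of_nonneg (Real.sqrt_nonneg _), div_self h5.ne', one_mul, mul_one,
    Real.sq_sqrt (Nat.cast_nonneg _)]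

theorem nr_eq {n : O} (h : th n ≠ 0) : nr n = nr (sq1 n) * nr (cu n) ^ 3 := by
  have h1 := th_ne_zero h
  obtain ⟨h2, -⟩ := eq_sq1_mul_cu h1.1 h1.2
  conv_lhs => rw [h2, nr_mul, nr_pow]

theorem norm_th_le (n : O) : ‖th n‖ ≤ nr n ^ (1 / 2 : ℝ) := by
  by_cases h : th n = 0
  · rw [h, norm_zero]; positivity
  have h1 := th_ne_zero h
  obtain ⟨-, h2, -, h4⟩ := eq_sq1_mul_cu h1.1 h1.2
  rw [← Real.sqrt_eq_rpow]
  refine Real.le_sqrt_of_sq_le ?_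
  rw [norm_th_sq h, nr_eq h]
  have a1 := one_le_nr h2.ne_zero
  have a2 := one_le_nr h4.ne_zero
  calc nr (cu n) = 1 * nr (cu n) ^ 1 := by ring
    _ ≤ _ := mul_le_mul a1 (pow_le_pow_right₀ a2 (by norm_num)) (by positivity) (by positivity)

theorem eG_mul_rad {G : O} (hG : Primary G) : eG G * rad G = G := by
  rw [eG, rad, ← prod_mul_distrib]
  refine (prod_congr rfl fun p hp => ?_).trans hG.eq_prod.symm
  have := BasicB.vp_ne_zero hp
  rw [← pow_succ]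
  congr 1
  omega

theorem primary_eG (G : O) : Primary (eG G) :=
  BasicB.primary_prod_pow (fun _ => BasicB.pf_sub) _

theorem rad_h0 {G : O} (hG : Primary G) : rad (eG G ^ 5 * rad G ^ 6) = rad G := by
  have h1 := (primary_eG G).ne_zero
  have h2 := (primary_rad G).ne_zero
  have h3 : pf (eG G) ⊆ pf G := fun p hp => by
    rw [mem_pf h1] at hp
    exact (mem_pf hG.ne_zero).2 ⟨hp.1, hp.2.1, hp.2.2.trans ⟨_, (eG_mul_rad hG).symm⟩⟩
  rw [rad, pf_mul (pow_ne_zero _ h1) (pow_ne_zero _ h2), pf_pow (by norm_num),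
    pf_pow (by norm_num), pf_rad, union_eq_right.2 h3, rad]

theorem nr_prod {α : Type*} (s : Finset α) (f : α → O) : nr (∏ i ∈ s, f i) = ∏ i ∈ s, nr (f i) := by
  rw [nr, nm_prod, Nat.cast_prod]

theorem cG_nonneg (G : O) : 0 ≤ cG G :=
  prod_nonneg fun p _ => by split_ifs <;> positivity

omit [Fr] in
theorem cube_le {δ : ℝ} (hδ : 0 < δ) : ∃ c : ℝ, 0 < c ∧ ∀ (j : ℕ) (q : ℝ), 2 ≤ q →
    5 * (j : ℝ) ^ 3 ≤ c * (q ^ j) ^ δ := by
  have hl : 0 < δ * Real.log 2 := mul_pos hδ (Real.log_pos (by norm_num))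
  refine ⟨30 / (δ * Real.log 2) ^ 3, by positivity, fun j q hq => ?_⟩
  have h1 := Real.pow_div_factorial_le_exp (δ * Real.log 2 * j) (by positivity) 3
  have h2 : Real.exp (δ * Real.log 2 * j) ≤ (q ^ j) ^ δ := by
    rw [Real.rpow_def_of_pos (by positivity), Real.log_pow]
    refine Real.exp_le_exp.2 ?_
    have := Real.log_le_log (by norm_num) hq
    have h3 : (0 : ℝ) ≤ j := Nat.cast_nonneg _
    nlinarith [mul_le_mul_of_nonneg_left this (mul_nonneg hδ.le h3)]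
  have h3 := h1.trans h2
  rw [div_mul_eq_mul_div, le_div_iff₀ (by positivity)]
  rw [show ((Nat.factorial 3 : ℕ) : ℝ) = 6 by norm_num [Nat.factorial], div_le_iff₀ (by norm_num),
    mul_pow] at h3
  linarith

theorem cG_le {δ : ℝ} (hδ : 0 < δ) : ∃ C : ℝ, 0 < C ∧ ∀ G : O, Primary G →
    cG G ≤ C * nr G ^ δ * nr (cu G) := by
  obtain ⟨c, hc, h1⟩ := cube_le (half_pos hδ)
  obtain ⟨C, hC, h2⟩ := pow_card_pf_le (half_pos hδ) c
  refine ⟨C, hC, fun G hG => ?_⟩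
  have h3 : ∏ p ∈ pf G, (5 * (vp p G : ℝ) ^ 3) ≤ c ^ (pf G).card * nr G ^ (δ / 2) := by
    conv_rhs => rw [hG.eq_prod, nr_prod, ← Real.finsetProd_rpow _ _ (fun _ _ => Nat.cast_nonneg _),
      ← hG.eq_prod, ← prod_const, ← prod_mul_distrib]
    refine prod_le_prod (fun _ _ => by positivity) fun p hp => ?_
    rw [nm_pow, Nat.cast_pow]
    refine h1 _ _ ?_
    have := (nm_prime_mod_six' (BasicB.pf_sub hp).1).2
    exact_mod_cast (by omega : 2 ≤ nm p)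
  have h4 : ∏ p ∈ pf G, (if 6 ≤ vp p G then nr p else 1) ≤ nr (cu G) := by
    rw [cu, nr_prod]
    refine prod_le_prod (fun _ _ => by split_ifs <;> positivity) fun p hp => ?_
    have h5 := one_le_nr (BasicB.pf_sub hp).1.ne_zero
    rw [nr_pow]
    split_ifs with h6
    · exact le_self_pow₀ h5 (by omega)
    · exact one_le_pow₀ h5
  rw [cG, prod_mul_distrib]
  refine mul_le_mul (h3.trans ?_) h4 (prod_nonneg fun _ _ => by split_ifs <;> positivity)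
    (by positivity)
  refine (mul_le_mul_of_nonneg_right (h2 G hG.ne_zero) (by positivity)).trans_eq ?_
  rw [mul_assoc, ← Real.rpow_add (nr_pos hG.ne_zero), add_halves]

theorem sum_inv_le {δ : ℝ} (hδ : 0 < δ) : ∃ C : ℝ, 0 < C ∧ ∀ Y : ℕ, 1 ≤ Y →
    ∑ n ∈ pball Y, (nr n)⁻¹ ≤ C * (Y : ℝ) ^ δ := by
  obtain ⟨C, hC, h⟩ := sum_nr_rpow_le (σ := -1 + δ) (by linarith)
  refine ⟨C, hC, fun Y hY => ?_⟩
  have h1 := h Y hY
  rw [add_neg_cancel_left] at h1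
  refine le_trans ?_ h1
  refine le_trans (sum_le_sum (g := fun n => nr n ^ (-1 + δ)) fun n hn => ?_)
    (sum_le_sum_of_subset_of_nonneg (fun n hn => ?_) fun _ _ _ => by positivity)
  · rw [← Real.rpow_neg_one]
    exact Real.rpow_le_rpow_of_exponent_le (one_le_nr (mem_pball.1 hn).1.ne_zero) (by linarith)
  · exact mem_erase.2 ⟨(mem_pball.1 hn).1.ne_zero, pball_subset_ball _ hn⟩

/-- The sum of the costs. -/
theorem gsum {ε : ℝ} (hε : 0 < ε) : ∃ C : ℝ, 0 < C ∧ ∀ Y : ℕ, 1 ≤ Y →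
    ∑ G ∈ pball Y, cG G * ‖th G‖ ^ 2 / nr G ≤ C * (Y : ℝ) ^ ε := by
  classical
  have hδ : 0 < ε / 3 := by positivity
  obtain ⟨C₁, hC₁, h₁⟩ := cG_le hδ
  obtain ⟨C₂, hC₂, h₂⟩ := sum_inv_le hδ
  refine ⟨C₁ * C₂ ^ 2, by positivity, fun Y hY => ?_⟩
  have hY0 : (0 : ℝ) < Y := by exact_mod_cast hY
  set T := (pball Y).filter (fun G => th G ≠ 0) with hT
  have e1 : ∑ G ∈ pball Y, cG G * ‖th G‖ ^ 2 / nr G = ∑ G ∈ T, cG G * ‖th G‖ ^ 2 / nr G := by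
    rw [hT, sum_filter]
    refine sum_congr rfl fun G _ => ?_
    split_ifs with h
    · rfl
    · rw [not_not.1 h]; simp
  have e2 : ∀ G ∈ T, cG G * ‖th G‖ ^ 2 / nr G ≤
      C₁ * (Y : ℝ) ^ (ε / 3) * ((nr (sq1 G))⁻¹ * (nr (cu G))⁻¹) := by
    intro G hG
    obtain ⟨hG1, hG2⟩ := mem_filter.1 hG
    obtain ⟨hG3, hG4⟩ := mem_pball.1 hG1
    obtain ⟨-, a2, -, a4⟩ := eq_sq1_mul_cu hG3 (th_ne_zero hG2).2
    have b2 := nr_pos a2.ne_zero
    have b4 := nr_pos a4.ne_zero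
    have b5 : nr G ^ (ε / 3) ≤ (Y : ℝ) ^ (ε / 3) :=
      Real.rpow_le_rpow (Nat.cast_nonneg _) (by exact_mod_cast hG4) hδ.le
    have b6 : cG G ≤ C₁ * (Y : ℝ) ^ (ε / 3) * nr (cu G) := (h₁ G hG3).trans (by gcongr)
    rw [norm_th_sq hG2, nr_eq hG2, div_le_iff₀ (by positivity)]
    refine (mul_le_mul_of_nonneg_right b6 b4.le).trans_eq ?_
    field_simp
  have e3 : ∑ G ∈ T, (nr (sq1 G))⁻¹ * (nr (cu G))⁻¹ ≤
      ∑ v ∈ pball Y ×ˢ pball Y, (nr v.1)⁻¹ * (nr v.2)⁻¹ := by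
    rw [← sum_image (s := T) (g := fun G => (sq1 G, cu G))
      (f := fun v : O × O => (nr v.1)⁻¹ * (nr v.2)⁻¹)]
    · refine sum_le_sum_of_subset_of_nonneg (fun v hv => ?_) fun _ _ _ => by positivity
      obtain ⟨G, hG, rfl⟩ := mem_image.1 hv
      obtain ⟨hG1, hG2⟩ := mem_filter.1 hG
      obtain ⟨hG3, hG4⟩ := mem_pball.1 hG1
      obtain ⟨a1, a2, -, a4⟩ := eq_sq1_mul_cu hG3 (th_ne_zero hG2).2
      refine mem_product.2 ⟨mem_pball.2 ⟨a2, (nm_le_of_dvd ⟨_, a1⟩ hG3.ne_zero).trans hG4⟩,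
        mem_pball.2 ⟨a4, (nm_le_of_dvd ?_ hG3.ne_zero).trans hG4⟩⟩
      exact (dvd_pow_self _ three_ne_zero).trans (Dvd.intro_left _ a1.symm)
    · intro G hG G' hG' h
      obtain ⟨hG1, hG2⟩ := mem_filter.1 hG
      obtain ⟨hG1', hG2'⟩ := mem_filter.1 hG'
      obtain ⟨a1, -⟩ := eq_sq1_mul_cu (mem_pball.1 hG1).1 (th_ne_zero hG2).2
      obtain ⟨a1', -⟩ := eq_sq1_mul_cu (mem_pball.1 hG1').1 (th_ne_zero hG2').2
      obtain ⟨b1, b2⟩ := Prod.mk.inj h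
      rw [a1, a1', b1, b2]
  rw [sum_product] at e3
  simp only [← mul_sum, ← sum_mul] at e3
  rw [e1]
  refine (sum_le_sum e2).trans ?_
  rw [← mul_sum]
  have e4 := h₂ Y hY
  have e5 : 0 ≤ ∑ n ∈ pball Y, (nr n)⁻¹ := sum_nonneg fun _ _ => by positivity
  refine (mul_le_mul_of_nonneg_left (e3.trans (mul_le_mul e4 e4 e5 (by positivity)))
    (by positivity)).trans_eq ?_
  have e6 : (Y : ℝ) ^ ε = (Y : ℝ) ^ (ε / 3) * (Y : ℝ) ^ (ε / 3) * (Y : ℝ) ^ (ε / 3) := by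
    rw [← Real.rpow_add hY0, ← Real.rpow_add hY0]
    congr 1
    ring
  rw [e6]
  ring

end Crest.Agent.T27.P4
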