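import Crest.Agent.T27.Fr_55

/-!
# Row 27, PSD core, last part (helper17): Mellin separation and dyadic summation

Pure analysis: a bilinear form with a kernel `g (x D² / (N n₁ N n₂))` is bounded by smooth sums
on the lines `Re s = σ - 1/2`; weighted sums over the rows from bounds over balls.
-/

set_option autoImplicit false

noncomputable section

namespace Crest.Agent.T27.P4

open scoped ComplexConjugate
open MeasureTheory Finset

theorem cpow_eq {y : ℝ} (hy : 0 < y) (t : ℂ) :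
    (y : ℂ) ^ t = Complex.exp (t * (Real.log y : ℂ)) := by
  rw [Complex.cpow_def_of_ne_zero (by exact_mod_cast hy.ne'), Complex.ofReal_log hy.le, mul_comm]

theorem conj_W (y : ℝ) (s : ℂ) : conj (Wc y s) = Wc y (conj s) := by
  rw [Wc, Wc, ← Complex.exp_conj]
  generalize Real.log y = L
  simp

theorem sqrt_eq {y : ℝ} (hy : 0 < y) :
    (Real.sqrt y : ℂ) = Complex.exp ((Real.log y : ℂ) / 2) := by
  have h : Real.sqrt y = Real.exp (Real.log y / 2) := by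
    rw [Real.sqrt_eq_rpow, Real.rpow_def_of_pos hy]
    congr 1
    ring
  rw [h, Complex.ofReal_exp]
  push_cast
  rfl

theorem key {n D : ℝ} (hn : 0 < n) (hD : 0 < D) (s : ℂ) :
    Wc (n / D) 0 / (Real.sqrt n : ℂ) * Complex.exp (s * (Real.log (n / D) : ℂ)) =
      (Real.sqrt D : ℂ)⁻¹ * Wc (n / D) (s - 1 / 2) := by
  rw [sqrt_eq hn, sqrt_eq hD, Wc, Wc, Real.log_div hn.ne' hD.ne', ← Complex.exp_neg,
    ← Complex.exp_sub, ← Complex.exp_add, ← Complex.exp_add]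
  congr 1
  push_cast
  ring

/-- A finite smooth sum. -/
def TY {ι : Type*} (P : Finset ι) (N : ι → ℝ) (a : ι → ℂ) (D : ℝ) (s : ℂ) : ℂ :=
  ∑ n ∈ P, a n * Wc (N n / D) s

/-- The bilinear form. -/
def Bil {ι : Type*} (g : ℝ → ℝ) (P : Finset ι) (N : ι → ℝ) (a : ι → ℂ) (D x : ℝ) : ℂ :=
  ∑ n₁ ∈ P, ∑ n₂ ∈ P, (a n₁ * Wc (N n₁ / D) 0 / (Real.sqrt (N n₁) : ℂ)) *
    conj (a n₂ * Wc (N n₂ / D) 0 / (Real.sqrt (N n₂) : ℂ)) * (g (x * D ^ 2 / (N n₁ * N n₂)) : ℂ)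

theorem term_eq {n₁ n₂ D x : ℝ} (h₁ : 0 < n₁) (h₂ : 0 < n₂) (hD : 0 < D) (hx : 0 < x)
    (a b s : ℂ) :
    (a * Wc (n₁ / D) 0 / (Real.sqrt n₁ : ℂ)) * conj (b * Wc (n₂ / D) 0 / (Real.sqrt n₂ : ℂ)) *
        ((x * D ^ 2 / (n₁ * n₂) : ℝ) : ℂ) ^ (-s) =
      (x : ℂ) ^ (-s) * (D : ℂ)⁻¹ * ((a * Wc (n₁ / D) (s - 1 / 2)) *
        conj (b * Wc (n₂ / D) (conj s - 1 / 2))) := by
  have e1 := key h₁ hD s
  have e2 := key h₂ hD s
  have hl : Real.log (x * D ^ 2 / (n₁ * n₂)) =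
      Real.log x - Real.log (n₁ / D) - Real.log (n₂ / D) := by
    rw [← Real.log_div hx.ne' (by positivity), ← Real.log_div (by positivity) (by positivity)]
    congr 1
    field_simp
  have hD' : (D : ℂ)⁻¹ = (Real.sqrt D : ℂ)⁻¹ * (Real.sqrt D : ℂ)⁻¹ := by
    rw [← mul_inv, ← Complex.ofReal_mul, Real.mul_self_sqrt hD.le]
  have hc : conj (conj s - 1 / 2) = s - 1 / 2 := by
    rw [map_sub, Complex.conj_conj, map_div₀, map_one, map_ofNat]
  rw [cpow_eq (by positivity), cpow_eq hx, hl, map_div₀, map_mul, map_mul, conj_W, conj_W,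
    Complex.conj_ofReal, map_zero, hc, hD']
  have e3 : Complex.exp (-s * ((Real.log x - Real.log (n₁ / D) - Real.log (n₂ / D) : ℝ) : ℂ)) =
      Complex.exp (-s * (Real.log x : ℂ)) * (Complex.exp (s * (Real.log (n₁ / D) : ℂ)) *
        Complex.exp (s * (Real.log (n₂ / D) : ℂ))) := by
    rw [← Complex.exp_add, ← Complex.exp_add]
    congr 1
    push_cast
    ring
  rw [e3]
  calc _ = Complex.exp (-s * (Real.log x : ℂ)) * a * conj b *
        (Wc (n₁ / D) 0 / (Real.sqrt n₁ : ℂ) * Complex.exp (s * (Real.log (n₁ / D) : ℂ))) *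
        (Wc (n₂ / D) 0 / (Real.sqrt n₂ : ℂ) * Complex.exp (s * (Real.log (n₂ / D) : ℂ))) := by
        ring
    _ = _ := by rw [e1, e2]; ring

theorem norm_cpow_line {x : ℝ} (hx : 0 < x) (σ u : ℝ) :
    ‖(x : ℂ) ^ (-((σ : ℂ) + u * Complex.I))‖ = x ^ (-σ) := by
  rw [Complex.norm_cpow_eq_rpow_re_of_pos hx]
  simp

theorem integrable_line {m : ℂ → ℂ} {σ : ℝ} (hc : Continuous fun u : ℝ => m (σ + u * Complex.I))
    (hi : Integrable fun u : ℝ => ‖m (σ + u * Complex.I)‖) {x : ℝ} (hx : 0 < x) :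
    Integrable fun u : ℝ => m (σ + u * Complex.I) * (x : ℂ) ^ (-((σ : ℂ) + u * Complex.I)) := by
  have h1 : Continuous fun u : ℝ => (x : ℂ) ^ (-((σ : ℂ) + u * Complex.I)) := by
    simp_rw [cpow_eq hx]
    fun_prop
  refine (hi.mul_const (x ^ (-σ))).mono' (hc.mul h1).aestronglyMeasurable
    (Filter.Eventually.of_forall fun u => ?_)
  rw [norm_mul, norm_cpow_line hx]

/-- Mellin separation of the variables. -/
theorem sep {ι : Type*} {g : ℝ → ℝ} {m : ℂ → ℂ} {σ : ℝ}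
    (hc : Continuous fun u : ℝ => m (σ + u * Complex.I))
    (hi : Integrable fun u : ℝ => ‖m (σ + u * Complex.I)‖)
    (he : ∀ x : ℝ, 0 < x → (g x : ℂ) = (1 / (2 * Real.pi) : ℂ) *
      ∫ u : ℝ, m (σ + u * Complex.I) * (x : ℂ) ^ (-((σ : ℂ) + u * Complex.I)))
    (P : Finset ι) (N : ι → ℝ) (hN : ∀ n ∈ P, 0 < N n) (a : ι → ℂ) {D x : ℝ} (hD : 0 < D)
    (hx : 0 < x) :
    ∃ f : ℝ → ℂ, Integrable f ∧ ‖Bil g P N a D x‖ ≤ ∫ u, ‖f u‖ ∧ ∀ u : ℝ, ‖f u‖ ≤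
      ‖m (σ + u * Complex.I)‖ * (D⁻¹ * (x ^ (-σ) *
        (‖TY P N a D ((σ - 1 / 2 : ℝ) + u * Complex.I)‖ ^ 2 +
          ‖TY P N a D ((σ - 1 / 2 : ℝ) + (-u : ℝ) * Complex.I)‖ ^ 2))) := by
  set c : ι → ℂ := fun n => a n * Wc (N n / D) 0 / (Real.sqrt (N n) : ℂ) with hcdef
  set F : ι → ι → ℝ → ℂ := fun n₁ n₂ u => c n₁ * conj (c n₂) * (m (σ + u * Complex.I) *
    ((x * D ^ 2 / (N n₁ * N n₂) : ℝ) : ℂ) ^ (-((σ : ℂ) + u * Complex.I))) with hF
  have hpos : ∀ n₁ ∈ P, ∀ n₂ ∈ P, 0 < x * D ^ 2 / (N n₁ * N n₂) := fun n₁ h₁ n₂ h₂ => by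
    have := hN n₁ h₁
    have := hN n₂ h₂
    positivity
  have hFi : ∀ n₁ ∈ P, ∀ n₂ ∈ P, Integrable (F n₁ n₂) := fun n₁ h₁ n₂ h₂ =>
    (integrable_line hc hi (hpos n₁ h₁ n₂ h₂)).const_mul _
  refine ⟨fun u => ∑ n₁ ∈ P, ∑ n₂ ∈ P, F n₁ n₂ u,
    integrable_finsetSum _ fun n₁ h₁ => integrable_finsetSum _ fun n₂ h₂ => hFi n₁ h₁ n₂ h₂,
    ?_, fun u => ?_⟩
  · have e : Bil g P N a D x =
        (1 / (2 * Real.pi) : ℂ) * ∫ u, ∑ n₁ ∈ P, ∑ n₂ ∈ P, F n₁ n₂ u := by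
      rw [integral_finsetSum _ fun n₁ h₁ => integrable_finsetSum _ fun n₂ h₂ =>
        hFi n₁ h₁ n₂ h₂, Bil, mul_sum]
      refine sum_congr rfl fun n₁ h₁ => ?_
      rw [integral_finsetSum _ fun n₂ h₂ => hFi n₁ h₁ n₂ h₂, mul_sum]
      refine sum_congr rfl fun n₂ h₂ => ?_
      rw [he _ (hpos n₁ h₁ n₂ h₂), hF]
      simp only [integral_const_mul, hcdef]
      ring
    rw [e, norm_mul]
    have h1 : ‖(1 / (2 * Real.pi) : ℂ)‖ ≤ 1 := by
      rw [norm_div, norm_one, norm_mul, Complex.norm_real, Real.norm_of_nonneg Real.pi_pos.le,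
        Complex.norm_ofNat, div_le_one (by positivity)]
      linarith [Real.pi_gt_three]
    exact (mul_le_of_le_one_left (norm_nonneg _) h1).trans (norm_integral_le_integral_norm _)
  · have e1 : ((σ - 1 / 2 : ℝ) : ℂ) + u * Complex.I = (σ + u * Complex.I) - 1 / 2 := by
      push_cast; ring
    have e2 : ((σ - 1 / 2 : ℝ) : ℂ) + (-u : ℝ) * Complex.I =
        conj ((σ : ℂ) + u * Complex.I) - 1 / 2 := by
      simp only [map_add, map_mul, Complex.conj_ofReal, Complex.conj_I]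
      push_cast; ring
    rw [e1, e2]
    set s : ℂ := σ + u * Complex.I with hs
    have e : ∑ n₁ ∈ P, ∑ n₂ ∈ P, F n₁ n₂ u = m s * ((x : ℂ) ^ (-s) * (D : ℂ)⁻¹ *
        (TY P N a D (s - 1 / 2) * conj (TY P N a D (conj s - 1 / 2)))) := by
      rw [TY, TY, map_sum, sum_mul_sum, mul_sum, mul_sum]
      refine sum_congr rfl fun n₁ h₁ => ?_
      rw [mul_sum, mul_sum]
      refine sum_congr rfl fun n₂ h₂ => ?_
      rw [← term_eq (hN n₁ h₁) (hN n₂ h₂) hD hx, hF]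
      simp only [hcdef, ← hs]
      ring
    beta_reduce
    rw [e, norm_mul, norm_mul, norm_mul, norm_mul, hs, norm_cpow_line hx, ← hs, norm_inv,
      Complex.norm_real, Real.norm_of_nonneg hD.le, Complex.norm_conj]
    refine mul_le_mul_of_nonneg_left ?_ (norm_nonneg _)
    rw [mul_comm (x ^ (-σ)), mul_assoc]
    refine mul_le_mul_of_nonneg_left (mul_le_mul_of_nonneg_left ?_ (by positivity))
      (by positivity)
    nlinarith [sq_nonneg (‖TY P N a D (s - 1 / 2)‖ - ‖TY P N a D (conj s - 1 / 2)‖),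
      norm_nonneg (TY P N a D (s - 1 / 2)), norm_nonneg (TY P N a D (conj s - 1 / 2))]

/-- A family of bilinear forms is bounded by the weighted energy of the smooth sums. -/
theorem sep_sum {g : ℝ → ℝ} {m : ℂ → ℂ} {σ : ℝ} (J : ℕ)
    (hc : Continuous fun u : ℝ => m (σ + u * Complex.I))
    (hi : ∀ J : ℕ, Integrable fun u : ℝ => ‖m (σ + u * Complex.I)‖ * (1 + |u|) ^ J)
    (he : ∀ x : ℝ, 0 < x → (g x : ℂ) = (1 / (2 * Real.pi) : ℂ) *
      ∫ u : ℝ, m (σ + u * Complex.I) * (x : ℂ) ^ (-((σ : ℂ) + u * Complex.I))) :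
    ∃ C : ℝ, 0 < C ∧ ∀ {ι κ : Type} (P : Finset ι) (N : ι → ℝ) (S : Finset κ) (a : κ → ι → ℂ)
      (x : κ → ℝ) (D E : ℝ), (∀ n ∈ P, 0 < N n) → 0 < D → 0 ≤ E → (∀ h ∈ S, 0 < x h) →
      (∀ u : ℝ, ∑ h ∈ S, x h ^ (-σ) * ‖TY P N (a h) D ((σ - 1 / 2 : ℝ) + u * Complex.I)‖ ^ 2 ≤
        E * (1 + |u|) ^ J) →
      ∑ h ∈ S, ‖Bil g P N (a h) D (x h)‖ ≤ C * (D⁻¹ * E) := by
  have h0 : 0 ≤ ∫ u : ℝ, ‖m (σ + u * Complex.I)‖ * (1 + |u|) ^ J :=
    integral_nonneg fun u => by positivity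
  refine ⟨2 * (∫ u : ℝ, ‖m (σ + u * Complex.I)‖ * (1 + |u|) ^ J) + 1, by positivity,
    fun P N S a x D E hN hD hE hx hS => ?_⟩
  have hi0 : Integrable fun u : ℝ => ‖m (σ + u * Complex.I)‖ := by simpa using hi 0
  have h1 := fun h : S => sep hc hi0 he P N hN (a h) hD (hx h h.2)
  choose f hf1 hf2 hf3 using h1
  have h2 : ∑ h : S, ∫ u, ‖f h u‖ ≤
      ∫ u : ℝ, ‖m (σ + u * Complex.I)‖ * (1 + |u|) ^ J * (2 * (D⁻¹ * E)) := by
    rw [← integral_finsetSum _ fun h _ => (hf1 h).norm]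
    refine integral_mono (integrable_finsetSum _ fun h _ => (hf1 h).norm) ((hi J).mul_const _)
      fun u => ?_
    refine (sum_le_sum fun h _ => hf3 h u).trans ?_
    rw [← mul_sum, ← mul_sum, mul_assoc]
    refine mul_le_mul_of_nonneg_left ?_ (norm_nonneg _)
    have h3 := hS u
    have h4 := hS (-u)
    rw [abs_neg] at h4
    rw [← sum_coe_sort] at h3 h4
    simp only [mul_add, sum_add_distrib]
    calc _ ≤ D⁻¹ * (E * (1 + |u|) ^ J) + D⁻¹ * (E * (1 + |u|) ^ J) :=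
          add_le_add (mul_le_mul_of_nonneg_left h3 (by positivity))
            (mul_le_mul_of_nonneg_left h4 (by positivity))
      _ = _ := by ring
  rw [← sum_coe_sort]
  refine ((sum_le_sum fun h _ => hf2 h).trans h2).trans ?_
  rw [integral_mul_const]
  have : 0 ≤ D⁻¹ * E := by positivity
  nlinarith

/-- Dyadic summation: weights `(N k / K)^(-3)` on the indices with `N k > K`. -/
theorem dyadic {ε : ℝ} (hε1 : ε ≤ 1 / 2) : ∃ C : ℝ, 0 < C ∧
    ∀ {κ : Type} (S : Finset κ) (N f : κ → ℝ) (K E : ℝ), 0 < K → 0 ≤ E → (∀ k ∈ S, K < N k) →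
      (∀ k ∈ S, 0 ≤ f k) →
      (∀ t : ℝ, 1 ≤ t → ∑ k ∈ S.filter (fun k => N k ≤ t * K), f k ≤ E * t ^ (2 + ε)) →
      ∑ k ∈ S, (N k / K) ^ (-3 : ℝ) * f k ≤ C * E := by
  set r : ℝ := (2 : ℝ) ^ (ε - 1) with hr
  have hr0 : 0 < r := by positivity
  have hr1 : r < 1 := Real.rpow_lt_one_of_one_lt_of_neg (by norm_num) (by linarith)
  have hr2 : 0 < 1 - r := by linarith
  refine ⟨(2 : ℝ) ^ (2 + ε) * (1 - r)⁻¹, by positivity, fun S N f K E hK hE hN hf h => ?_⟩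
  classical
  have hex : ∀ k ∈ S, ∃ j : ℕ, (2 : ℝ) ^ j ≤ N k / K ∧ N k / K < 2 ^ (j + 1) := fun k hk =>
    exists_nat_pow_near ((one_le_div hK).2 (hN k hk).le) (by norm_num)
  choose! j hj1 hj2 using hex
  set M := S.sup j + 1 with hM
  have h1 : ∀ k ∈ S, (N k / K) ^ (-3 : ℝ) * f k ≤
      ∑ i ∈ range M, ((2 : ℝ) ^ i) ^ (-3 : ℝ) * if N k ≤ 2 ^ (i + 1) * K then f k else 0 := by
    intro k hk
    have hm : j k ∈ range M := mem_range.2 (Nat.lt_succ_of_le (le_sup (f := j) hk))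
    refine le_trans ?_ (single_le_sum (f := fun i => ((2 : ℝ) ^ i) ^ (-3 : ℝ) *
      if N k ≤ 2 ^ (i + 1) * K then f k else 0) (fun i _ => ?_) hm)
    · have h2 := hj2 k hk
      rw [div_lt_iff₀ hK] at h2
      simp only [if_pos h2.le]
      exact mul_le_mul_of_nonneg_right
        (Real.rpow_le_rpow_of_nonpos (by positivity) (hj1 k hk) (by norm_num)) (hf k hk)
    · have := hf k hk
      split_ifs <;> positivity
  refine (sum_le_sum h1).trans ?_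
  rw [sum_comm]
  have h2 : ∀ i ∈ range M, ∑ k ∈ S, (((2 : ℝ) ^ i) ^ (-3 : ℝ) *
      if N k ≤ 2 ^ (i + 1) * K then f k else 0) ≤ (2 : ℝ) ^ (2 + ε) * E * r ^ i := by
    intro i _
    rw [← mul_sum, ← sum_filter]
    refine (mul_le_mul_of_nonneg_left (h _ (one_le_pow₀ (by norm_num))) (by positivity)).trans_eq ?_
    rw [hr, ← Real.rpow_natCast, ← Real.rpow_natCast, ← Real.rpow_natCast,
      ← Real.rpow_mul (by norm_num), ← Real.rpow_mul (by norm_num), ← Real.rpow_mul (by norm_num),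
      mul_left_comm, ← Real.rpow_add (by norm_num), mul_right_comm, ← Real.rpow_add (by norm_num),
      mul_comm]
    congr 2
    push_cast
    ring
  refine (sum_le_sum h2).trans ?_
  rw [← mul_sum, mul_right_comm]
  refine mul_le_mul_of_nonneg_right (mul_le_mul_of_nonneg_left ?_ (by positivity)) hE
  rw [← tsum_geometric_of_lt_one hr0.le hr1]
  exact (summable_geometric_of_lt_one hr0.le hr1).sum_le_tsum _ fun i _ => by positivity

end Crest.Agent.T27.P4
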