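import Crest.Agent.T27.Weight_23
import Crest.Agent.T27.P4G_17
import Crest.Agent.T27.P4Mel_17
import Crest.Agent.T27.P4Defs_17

/-!
# Row 27, PSD core, last part (helper17): `PsdStmt → EnAll → SStmt`
-/

set_option autoImplicit false

noncomputable section

namespace Crest.Agent.T27.P4

open scoped ComplexConjugate
open Finset

theorem norm_tsum_le_of_sum {ι : Type*} {f : ι → ℂ} {M : ℝ} (h : ∀ S : Finset ι, ∑ i ∈ S, ‖f i‖ ≤ M) :
    ‖∑' i, f i‖ ≤ M :=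
  (norm_tsum_le_tsum_norm (summable_of_sum_le (fun _ => norm_nonneg _) h)).trans
    (Real.tsum_le_of_sum_le (fun _ => norm_nonneg _) h)

theorem norm_tsum_sub_sum_le {ι : Type*} {f : ι → ℂ} (hf : Summable fun i => ‖f i‖) (P : Finset ι)
    {g : ι → ℝ} (hg : Summable g) (h0 : ∀ i, 0 ≤ g i) (h : ∀ i, i ∉ P → ‖f i‖ ≤ g i) :
    ‖∑' i, f i - ∑ i ∈ P, f i‖ ≤ ∑' i, g i := by
  classical
  have h1 : HasSum (fun i => if i ∈ P then f i else 0) (∑ i ∈ P, f i) := by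
    have := hasSum_sum_of_ne_finset_zero (f := fun i => if i ∈ P then f i else 0) (s := P)
      (L := SummationFilter.unconditional ι) fun i hi => if_neg hi
    rwa [sum_congr rfl fun i hi => if_pos hi] at this
  rw [← (hf.of_norm.hasSum.sub h1).tsum_eq]
  refine tsum_of_norm_bounded hg.hasSum fun i => ?_
  split_ifs with hi
  · rw [sub_self, norm_zero]; exact h0 i
  · rw [sub_zero]; exact h i hi

theorem norm_sq_le_two (a b : ℂ) : ‖a‖ ^ 2 ≤ 2 * ‖b‖ ^ 2 + 2 * ‖b - a‖ ^ 2 := by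
  have h : ‖a‖ ≤ ‖b‖ + ‖b - a‖ := by
    calc ‖a‖ = ‖b - (b - a)‖ := by rw [sub_sub_cancel]
      _ ≤ _ := norm_sub_le _ _
  nlinarith [norm_nonneg a, norm_nonneg b, norm_nonneg (b - a), sq_nonneg (‖b‖ - ‖b - a‖)]

variable [Fr]

/-- Truncation of a smooth sum. -/
theorem trunc (β : ℝ) (hβ : 0 ≤ β) : ∃ C : ℝ, 0 < C ∧ ∀ (b : O → ℂ) (P : Finset O) (X L : ℝ) (s : ℂ),
    (∀ n, b n ≠ 0 → Primary n) → (∀ n, ‖b n‖ ≤ nr n ^ β) → 0 < X → 1 ≤ L → |s.re| ≤ 3 →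
    (∀ n, Primary n → nr n ≤ X * L → n ∈ P) →
    ‖∑' n, b n * Wc (nr n / X) s - ∑ n ∈ P, b n * Wc (nr n / X) s‖ ≤ C * (X ^ (β + 1) / L) := by
  obtain ⟨C, hC, h⟩ := tsum_norm_Sm_tail_le 1 β 3 hβ
  refine ⟨C, hC, fun b P X L s hb1 hb2 hX hL hs hP => ?_⟩
  have hb : PolyB b 1 β := ⟨by_contra fun h0 => (hb1 0 h0).ne_zero rfl,
    fun n => by rw [one_mul]; exact hb2 n, fun n hn => by_contra fun h0 => hn (hb1 n h0).rep⟩
  have h1 := summable_Sm hb hX s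
  refine (norm_tsum_sub_sum_le h1 P (g := fun n =>
    if X / L ≤ nr n ∧ nr n ≤ X * L then 0 else ‖b n * Wc (nr n / X) s‖) ?_ (fun n => ?_)
    fun n hn => ?_).trans ((h b 1 X L s hb hX hL hs).trans_eq ?_)
  · refine Summable.of_nonneg_of_le (fun n => ?_) (fun n => ?_) h1 <;> split_ifs
    exacts [le_rfl, norm_nonneg _, norm_nonneg _, le_rfl]
  · split_ifs
    exacts [le_rfl, norm_nonneg _]
  · split_ifs with h2
    · by_cases h0 : b n = 0
      · rw [h0, zero_mul, norm_zero]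
      · exact absurd (hP n (hb1 n h0) h2.2) hn
    · exact le_rfl
  · rw [Real.rpow_neg_one]
    ring

theorem card_le_c7 {S : Finset O} {K : ℝ} (hK : 1 ≤ K) (hS : ∀ h ∈ S, Rep h ∧ nr h ≤ K) :
    (S.card : ℝ) ≤ (c7 + 1) * K := by
  have h1 : S ⊆ ball ⌊K⌋₊ := fun h hh => mem_ball.2 ⟨(hS h hh).1, Nat.le_floor (hS h hh).2⟩
  have h2 : (S.card : ℝ) ≤ (((kk + 7) * ⌊K⌋₊ + 1 : ℕ) : ℝ) :=
    Nat.cast_le.2 ((card_le_card h1).trans (card_ball_le _))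
  have h3 := Nat.floor_le (zero_le_one.trans hK)
  push_cast at h2
  nlinarith [c7_pos]

/-- The coefficients of the dual row `h`. -/
def ca (φ : O → ℂ) (h₀ h n : O) : ℂ := th n * φ n * sym n (h * h₀)

theorem ca_primary {φ : O → ℂ} {h₀ h n : O} (hn : ca φ h₀ h n ≠ 0) : Primary n :=
  (th_ne_zero (left_ne_zero_of_mul (left_ne_zero_of_mul hn))).1

theorem norm_ca_le {φ : O → ℂ} (hφ : ∀ n, ‖φ n‖ ≤ 1) (h₀ h n : O) :
    ‖ca φ h₀ h n‖ ≤ nr n ^ (1 / 2 : ℝ) := by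
  rw [ca, norm_mul, norm_mul]
  exact (mul_le_of_le_one_right (by positivity) (norm_sym_le _ _)).trans
    ((mul_le_of_le_one_right (norm_nonneg _) (hφ n)).trans (norm_th_le n))

/-- The energy of the truncated sums. -/
theorem truncE (hE : EnAll) {ε : ℝ} (hε : 0 < ε) : ∃ C : ℝ, 0 < C ∧ ∃ J : ℕ,
    ∀ (Q K D L : ℝ) (φ : O → ℂ) (h₀ : O) (s : ℂ) (P S : Finset O), 0 ≤ K → K ≤ Q → 0 < D → D ≤ Q →
      D⁻¹ ≤ Q → Primary h₀ → nr (rad h₀) ≤ Q → (∀ n, ‖φ n‖ ≤ 1) →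
      (∀ n n', cls n = cls n' → φ n = φ n') → |s.re| ≤ 3 → 1 ≤ L → D ≤ L →
      (∀ n, Primary n → nr n ≤ D * L → n ∈ P) → (∀ h ∈ S, h ≠ 0 ∧ Rep h ∧ nr h ≤ K) →
      ∑ h ∈ S, ‖TY P nr (ca φ h₀ h) D s‖ ^ 2 ≤
        C * Q ^ ε * (1 + |s.im|) ^ J * (D * K + K ^ 2 * nr (rad h₀) ^ 2) := by
  obtain ⟨C₁, hC₁, J, h₁⟩ := hE ε hε
  obtain ⟨C₂, hC₂, h₂⟩ := trunc (1 / 2) (by norm_num)
  have hc := c7_pos
  refine ⟨2 * C₁ + 2 * C₂ ^ 2 * (c7 + 1), by positivity, J,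
    fun Q K D L φ h₀ s P S hK0 hKQ hD hDQ hDQ' hh₀ hR hφ hφ' hs hL hDL hP hS => ?_⟩
  have hQ0 : 0 ≤ Q := hK0.trans hKQ
  rcases S.eq_empty_or_nonempty with rfl | ⟨k, hk⟩
  · rw [sum_empty]; positivity
  have hK : 1 ≤ K := (one_le_nr (hS k hk).1).trans (hS k hk).2.2
  have e1 := h₁ Q K D φ h₀ s hK hKQ hD hDQ hDQ' hh₀ hR hφ hφ' hs
  have e2 : ∀ h ∈ S, ‖TY P nr (ca φ h₀ h) D s‖ ^ 2 ≤
      2 * ‖∑' n : O, th n * φ n * sym n (h * h₀) * Wc (nr n / D) s‖ ^ 2 + 2 * (C₂ ^ 2 * D) := by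
    intro h _
    refine (norm_sq_le_two _ (∑' n : O, th n * φ n * sym n (h * h₀) * Wc (nr n / D) s)).trans ?_
    have e3 := h₂ (ca φ h₀ h) P D L s (fun n => ca_primary) (norm_ca_le hφ h₀ h) hD hL hs hP
    have e4 : D ^ (1 / 2 + 1 : ℝ) / L ≤ D ^ (1 / 2 : ℝ) := by
      rw [Real.rpow_add_one hD.ne', mul_div_assoc]
      exact mul_le_of_le_one_right (by positivity) ((div_le_one (by linarith)).2 hDL)
    have e5 := pow_le_pow_left₀ (norm_nonneg _) (e3.trans (mul_le_mul_of_nonneg_left e4 hC₂.le)) 2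
    rw [mul_pow, ← Real.sqrt_eq_rpow, Real.sq_sqrt hD.le] at e5
    exact add_le_add le_rfl (mul_le_mul_of_nonneg_left e5 (by norm_num))
  refine (sum_le_sum e2).trans ?_
  rw [sum_add_distrib, ← mul_sum, sum_const, nsmul_eq_mul]
  have e6 : S ⊆ rows K := fun h hh => (mem_rows hK0).2 (hS h hh)
  have e7 := (sum_le_sum_of_subset_of_nonneg e6 (f := fun h =>
    ‖∑' n : O, th n * φ n * sym n (h * h₀) * Wc (nr n / D) s‖ ^ 2)
    fun _ _ _ => by positivity).trans e1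
  have e8 := card_le_c7 hK fun h hh => (hS h hh).2
  have e9 : 1 ≤ Q ^ ε * (1 + |s.im|) ^ J := one_le_mul_of_one_le_of_one_le
    (Real.one_le_rpow (hK.trans hKQ) hε.le) (one_le_pow₀ (by linarith [abs_nonneg s.im]))
  have e10 : D * K ≤ Q ^ ε * (1 + |s.im|) ^ J * (D * K + K ^ 2 * nr (rad h₀) ^ 2) :=
    (le_add_of_nonneg_right (by positivity)).trans (le_mul_of_one_le_left (by positivity) e9)
  calc _ ≤ 2 * (C₁ * Q ^ ε * (1 + |s.im|) ^ J * (D * K + K ^ 2 * nr (rad h₀) ^ 2)) +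
        (c7 + 1) * K * (2 * (C₂ ^ 2 * D)) := by gcongr
    _ = 2 * (C₁ * Q ^ ε * (1 + |s.im|) ^ J * (D * K + K ^ 2 * nr (rad h₀) ^ 2)) +
        2 * C₂ ^ 2 * (c7 + 1) * (D * K) := by ring
    _ ≤ 2 * (C₁ * Q ^ ε * (1 + |s.im|) ^ J * (D * K + K ^ 2 * nr (rad h₀) ^ 2)) +
        2 * C₂ ^ 2 * (c7 + 1) *
          (Q ^ ε * (1 + |s.im|) ^ J * (D * K + K ^ 2 * nr (rad h₀) ^ 2)) := by gcongr
    _ = _ := by ring

/-- The zero row. -/
theorem zero_row : ∃ C : ℝ, 0 < C ∧ ∀ (φ : O → ℂ) (h₀ : O) (P : Finset O) (D : ℝ),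
    (∀ n, ‖φ n‖ ≤ 1) → 0 < D → ‖Bil gw P nr (ca φ h₀ 0) D 0‖ ≤ C * D := by
  obtain ⟨C, hC, h⟩ := norm_Wc_le_rpow (-(1 / 2)) 0
  refine ⟨C ^ 2, by positivity, fun φ h₀ P D hφ hD => ?_⟩
  have hg : gw 0 = 1 := Fr.kerAx.zero
  set c : O → ℂ := fun n => ca φ h₀ 0 n * Wc (nr n / D) 0 / (Real.sqrt (nr n) : ℂ) with hc
  have e1 : Bil gw P nr (ca φ h₀ 0) D 0 = (∑ n ∈ P, c n) * conj (∑ n ∈ P, c n) := by
    rw [Bil, map_sum, sum_mul_sum]
    refine sum_congr rfl fun _ _ => sum_congr rfl fun _ _ => ?_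
    rw [zero_mul, zero_div, hg, Complex.ofReal_one, mul_one]
  have e2 : ∀ n, n ≠ 1 → c n = 0 := by
    intro n hn
    have : ca φ h₀ 0 n = 0 := by
      by_contra h0
      have h1 := ca_primary h0
      refine right_ne_zero_of_mul h0 ((sym_eq_zero_iff h1).2 fun h2 => hn ?_)
      rw [zero_mul] at h2
      exact h1.eq_one_of_isUnit (isCoprime_zero_right.1 h2)
    simp only [hc, this, zero_mul, zero_div]
  have e3 : ‖c 1‖ ≤ C * D ^ (1 / 2 : ℝ) := by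
    have h1 := norm_ca_le hφ h₀ 0 1
    have h2 := h (nr (1 : O) / D) 0 (by simpa using hD) (by simp)
    simp only [hc, nr, nm_one, Nat.cast_one, Real.one_rpow, Real.sqrt_one, Complex.ofReal_one,
      div_one, norm_mul] at h1 h2 ⊢
    rw [Real.div_rpow zero_le_one hD.le, Real.one_rpow, Real.rpow_neg hD.le,
      one_div (D ^ (1 / 2 : ℝ))⁻¹, inv_inv] at h2
    exact (mul_le_of_le_one_left (norm_nonneg _) h1).trans h2
  have e4 : ‖∑ n ∈ P, c n‖ ≤ C * D ^ (1 / 2 : ℝ) := by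
    by_cases h1 : (1 : O) ∈ P
    · rw [sum_eq_single_of_mem 1 h1 fun n _ hn => e2 n hn]
      exact e3
    · rw [sum_eq_zero fun n hn => e2 n fun h2 => h1 (h2 ▸ hn), norm_zero]
      positivity
  have e5 := pow_le_pow_left₀ (norm_nonneg _) e4 2
  rw [mul_pow, ← Real.sqrt_eq_rpow, Real.sq_sqrt hD.le] at e5
  rwa [e1, norm_mul, Complex.norm_conj, ← sq]

/-- The non-zero rows. -/
theorem rows_le (hE : EnAll) {ε : ℝ} (hε : 0 < ε) (hε1 : ε ≤ 1 / 2) : ∃ C : ℝ, 0 < C ∧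
    ∀ (Q K D L : ℝ) (φ : O → ℂ) (h₀ : O) (P S : Finset O), 0 < K → K ≤ Q → 0 < D → D ≤ Q →
      D⁻¹ ≤ Q → 1 ≤ Q → Primary h₀ → nr (rad h₀) ≤ Q → (∀ n, ‖φ n‖ ≤ 1) →
      (∀ n n', cls n = cls n' → φ n = φ n') → 1 ≤ L → D ≤ L → (∀ n ∈ P, n ≠ 0) →
      (∀ n, Primary n → nr n ≤ D * L → n ∈ P) → (∀ h ∈ S, h ≠ 0 ∧ Rep h) →
      ∑ h ∈ S, ‖Bil gw P nr (ca φ h₀ h) D (nr h / K)‖ ≤
        C * (Q ^ ε) ^ 2 * (D⁻¹ * (D * K + K ^ 2 * nr (rad h₀) ^ 2)) := by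
  classical
  obtain ⟨C₁, hC₁, J, h₁⟩ := truncE hE hε
  obtain ⟨C₂, hC₂, h₂⟩ := dyadic hε1
  have hk := Fr.kerAx
  obtain ⟨C₃, hC₃, h₃⟩ := sep_sum (g := gw) (m := mel) J (hk.mel_cont ε hε) (hk.mel_int ε hε)
    fun x hx => hk.mel_eq x ε hx hε
  obtain ⟨C₄, hC₄, h₄⟩ := sep_sum (g := gw) (m := mel) J (hk.mel_cont 3 (by norm_num))
    (hk.mel_int 3 (by norm_num)) fun x hx => hk.mel_eq x 3 hx (by norm_num)
  refine ⟨C₃ * C₁ + C₄ * (C₂ * C₁), by positivity,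
    fun Q K D L φ h₀ P S hK hKQ hD hDQ hDQ' hQ hh₀ hR hφ hφ' hL hDL hP0 hP hS => ?_⟩
  set E := D * K + K ^ 2 * nr (rad h₀) ^ 2 with hEdef
  have hE0 : 0 ≤ E := by positivity
  have hq : 1 ≤ Q ^ ε := Real.one_le_rpow hQ hε.le
  have hx : ∀ T : Finset O, T ⊆ S → ∀ h ∈ T, 0 < nr h / K := fun T hT h hh =>
    div_pos (nr_pos (hS h (hT hh)).1) hK
  have hN : ∀ n ∈ P, 0 < nr n := fun n hn => nr_pos (hP0 n hn)
  have him : ∀ σ u : ℝ, ((σ : ℂ) + u * Complex.I).im = u := fun σ u => by simp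
  have hre : ∀ σ u : ℝ, ((σ : ℂ) + u * Complex.I).re = σ := fun σ u => by simp
  rw [← sum_filter_add_sum_filter_not S fun h => nr h ≤ K]
  have a1 := h₃ P nr (S.filter fun h => nr h ≤ K) (ca φ h₀) (fun h => nr h / K) D
    (C₁ * (Q ^ ε) ^ 2 * E) hN hD (by positivity) (hx _ (filter_subset _ _)) fun u => by
      have b1 := h₁ Q K D L φ h₀ ((ε - 1 / 2 : ℝ) + u * Complex.I) P (S.filter fun h => nr h ≤ K)
        hK.le hKQ hD hDQ hDQ' hh₀ hR hφ hφ' (by rw [hre, abs_le]; constructor <;> linarith) hL hDL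
        hP fun h hh => ⟨(hS h (mem_filter.1 hh).1).1, (hS h (mem_filter.1 hh).1).2,
          (mem_filter.1 hh).2⟩
      rw [him] at b1
      have b2 : ∀ h ∈ S.filter fun h => nr h ≤ K, (nr h / K) ^ (-ε) ≤ Q ^ ε := by
        intro h hh
        have b3 := one_le_nr (hS h (mem_filter.1 hh).1).1
        rw [Real.rpow_neg (by positivity), ← Real.inv_rpow (by positivity), inv_div]
        exact Real.rpow_le_rpow (by positivity) ((div_le_self hK.le b3).trans hKQ) hε.le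
      refine (sum_le_sum fun h hh => mul_le_mul_of_nonneg_right (b2 h hh) (sq_nonneg _)).trans ?_
      rw [← mul_sum]
      refine (mul_le_mul_of_nonneg_left b1 (by positivity)).trans_eq ?_
      ring
  have a2 := h₄ P nr (S.filter fun h => ¬ nr h ≤ K) (ca φ h₀) (fun h => nr h / K) D
    (C₂ * C₁ * Q ^ ε * E) hN hD (by positivity) (hx _ (filter_subset _ _)) fun u => by
      refine (h₂ (S.filter fun h => ¬ nr h ≤ K) nr (fun h =>
        ‖TY P nr (ca φ h₀ h) D (((3 : ℝ) - 1 / 2 : ℝ) + u * Complex.I)‖ ^ 2) K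
        (C₁ * Q ^ ε * (1 + |u|) ^ J * E) hK (by positivity)
        (fun h hh => not_le.1 (mem_filter.1 hh).2) (fun _ _ => sq_nonneg _)
        fun t ht => ?_).trans_eq (by ring)
      have hQt : Q ≤ t * Q := le_mul_of_one_le_left (by linarith) ht
      have b1 := h₁ (t * Q) (t * K) D L φ h₀ (((3 : ℝ) - 1 / 2 : ℝ) + u * Complex.I) P
        ((S.filter fun h => ¬ nr h ≤ K).filter fun h => nr h ≤ t * K)
        (by positivity) (by gcongr) hD (hDQ.trans hQt) (hDQ'.trans hQt) hh₀ (hR.trans hQt) hφ hφ'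
        (by rw [hre, abs_le]; constructor <;> norm_num) hL hDL
        hP fun h hh => ⟨(hS h (mem_filter.1 (mem_filter.1 hh).1).1).1,
          (hS h (mem_filter.1 (mem_filter.1 hh).1).1).2, (mem_filter.1 hh).2⟩
      rw [him] at b1
      refine b1.trans ?_
      have b2 : D * (t * K) + (t * K) ^ 2 * nr (rad h₀) ^ 2 ≤ t ^ 2 * E := by
        have : t ≤ t ^ 2 := by nlinarith
        have : t * (D * K) ≤ t ^ 2 * (D * K) := by gcongr
        rw [hEdef]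
        nlinarith
      rw [Real.mul_rpow (by linarith) (by linarith), Real.rpow_add (by linarith), Real.rpow_two]
      calc _ ≤ C₁ * (t ^ ε * Q ^ ε) * (1 + |u|) ^ J * (t ^ 2 * E) := by gcongr
        _ = _ := by ring
  have a3 : Q ^ ε ≤ (Q ^ ε) ^ 2 := by nlinarith
  calc _ ≤ C₃ * (D⁻¹ * (C₁ * (Q ^ ε) ^ 2 * E)) + C₄ * (D⁻¹ * (C₂ * C₁ * Q ^ ε * E)) :=
        add_le_add a1 a2
    _ ≤ C₃ * (D⁻¹ * (C₁ * (Q ^ ε) ^ 2 * E)) + C₄ * (D⁻¹ * (C₂ * C₁ * (Q ^ ε) ^ 2 * E)) := by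
        gcongr
    _ = _ := by ring

/-- The term of `G`. -/
theorem term_le (hE : EnAll) {ε : ℝ} (hε : 0 < ε) (hε1 : ε ≤ 1 / 2) : ∃ C : ℝ, 0 < C ∧
    ∀ (φ : O → ℂ) (G : O) (Y : ℕ) (A B : ℝ), (∀ n, ‖φ n‖ ≤ 1) →
      (∀ n n', cls n = cls n' → φ n = φ n') → G ∈ pball Y → 1 ≤ B → B ≤ A → B ^ 2 ≤ Y →
      (Y : ℝ) ≤ 2 * B ^ 2 →
      ‖∑' h : O, ∑ n₁ ∈ pball (Y / nm G), ∑ n₂ ∈ pball (Y / nm G),
        cfG φ G B h n₁ * conj (cfG φ G B h n₂) *
          (gr h (A * nr h / (nr (eG G) * nr n₁ * nr n₂)) : ℂ)‖ ≤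
        C * ((2 * B ^ 2) ^ ε) ^ 2 * (B / nr G) := by
  classical
  obtain ⟨C₁, hC₁, h₁⟩ := rows_le hE hε hε1
  obtain ⟨C₂, hC₂, h₂⟩ := zero_row
  refine ⟨C₂ + 2 * C₁, by positivity, fun φ G Y A B hφ hφ' hG hB hBA hY hY' => ?_⟩
  obtain ⟨hG1, hG2⟩ := mem_pball.1 hG
  have g1 := one_le_nr hG1.ne_zero
  have g2 : nr G ≤ Y := Nat.cast_le.2 hG2
  have e1 := one_le_nr (primary_eG G).ne_zero
  have r1 := one_le_nr (primary_rad G).ne_zero
  have er : nr (eG G) * nr (rad G) = nr G := by rw [← nr_mul, eG_mul_rad hG1]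
  have hA : 0 < A := by linarith
  have hB0 : 0 < B := by linarith
  set D := B / nr G with hD
  have hD0 : 0 < D := by positivity
  have hDB : D ≤ B := div_le_self hB0.le g1
  set K := nr (eG G) * D ^ 2 / A with hK
  have hK0 : 0 < K := by positivity
  set h₀ := eG G ^ 5 * rad G ^ 6 with hh₀
  set P := pball (Y / nm G) with hP
  have hQ : 1 ≤ 2 * B ^ 2 := by nlinarith
  have hBQ : B ≤ 2 * B ^ 2 := by nlinarith
  have hKD : K ≤ D := by
    rw [hK, div_le_iff₀ hA, sq, ← mul_assoc, mul_comm D A]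
    refine mul_le_mul_of_nonneg_right ?_ hD0.le
    rw [hD, ← mul_div_assoc, div_le_iff₀ (by linarith)]
    have : nr (eG G) ≤ nr G := by nlinarith
    nlinarith
  have hE2 : D⁻¹ * (D * K + K ^ 2 * nr (rad G) ^ 2) ≤ 2 * D := by
    have h3 : K * nr (rad G) = D * (B / A) := by
      rw [hK, hD, ← er]
      field_simp
    have h4 : B / A ≤ 1 := (div_le_one hA).2 hBA
    have h5 : K * nr (rad G) ≤ D := h3 ▸ mul_le_of_le_one_right hD0.le h4
    have h6 := pow_le_pow_left₀ (by positivity) h5 2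
    rw [inv_mul_le_iff₀ hD0]
    nlinarith
  have hF : ∀ h : O, ∑ n₁ ∈ P, ∑ n₂ ∈ P, cfG φ G B h n₁ * conj (cfG φ G B h n₂) *
      (gr h (A * nr h / (nr (eG G) * nr n₁ * nr n₂)) : ℂ) =
      if Rep h then Bil gw P nr (ca φ h₀ h) D (nr h / K) else 0 := by
    intro h
    split_ifs with hh
    · refine sum_congr rfl fun n₁ hn₁ => sum_congr rfl fun n₂ hn₂ => ?_
      have b1 := nr_pos (mem_pball.1 hn₁).1.ne_zero
      have b2 := nr_pos (mem_pball.1 hn₂).1.ne_zero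
      have b3 : ∀ n : O, nr G * nr n / B = nr n / D := fun n => by
        rw [hD]; field_simp
      have b4 : A * nr h / (nr (eG G) * nr n₁ * nr n₂) = nr h / K * D ^ 2 / (nr n₁ * nr n₂) := by
        rw [hK]; field_simp
      rw [cfG, cfG, b3, b3, b4, gr, grp, if_pos hh, mul_assoc h]
      rfl
    · simp only [gr, grp, if_neg hh, Complex.ofReal_zero, mul_zero, sum_const_zero]
  simp only [hF]
  refine norm_tsum_le_of_sum fun S => ?_
  have a1 := h₁ (2 * B ^ 2) K D (Y / B) φ h₀ P (S.filter fun h => h ≠ 0 ∧ Rep h) hK0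
    (hKD.trans (hDB.trans hBQ)) hD0 (hDB.trans hBQ) ?_ hQ
    (((primary_eG G).pow 5).mul ((primary_rad G).pow 6)) ?_ hφ hφ' ?_ ?_
    (fun n hn => (mem_pball.1 hn).1.ne_zero) (fun n hn hn' => ?_) fun h hh => (mem_filter.1 hh).2
  · rw [hh₀, rad_h0 hG1, ← hh₀] at a1
    have a2 := h₂ φ h₀ P D hφ hD0
    have a3 : ∑ h ∈ S, ‖if Rep h then Bil gw P nr (ca φ h₀ h) D (nr h / K) else 0‖ ≤
        ‖Bil gw P nr (ca φ h₀ 0) D 0‖ + ∑ h ∈ S.filter (fun h => h ≠ 0 ∧ Rep h),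
          ‖Bil gw P nr (ca φ h₀ h) D (nr h / K)‖ := by
      rw [← sum_filter_add_sum_filter_not S fun h => h = 0]
      refine add_le_add ?_ (le_of_eq ?_)
      · rw [filter_eq']
        split_ifs
        · rw [sum_singleton, if_pos rep_zero, nr, nm_zero, Nat.cast_zero, zero_div]
        · rw [sum_empty]; exact norm_nonneg _
      · rw [← filter_filter, sum_filter (s := S.filter fun h => h ≠ 0)]
        refine sum_congr rfl fun h _ => ?_
        split_ifs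
        · rfl
        · exact norm_zero
    have hq : 1 ≤ ((2 * B ^ 2) ^ ε) ^ 2 := one_le_pow₀ (Real.one_le_rpow hQ hε.le)
    have a4 : C₂ * D ≤ C₂ * ((2 * B ^ 2) ^ ε) ^ 2 * D := by
      rw [mul_assoc]
      exact mul_le_mul_of_nonneg_left (le_mul_of_one_le_left hD0.le hq) hC₂.le
    calc _ ≤ _ := a3
      _ ≤ C₂ * ((2 * B ^ 2) ^ ε) ^ 2 * D + C₁ * ((2 * B ^ 2) ^ ε) ^ 2 * (2 * D) :=
        add_le_add (a2.trans a4) (a1.trans (by gcongr))
      _ = _ := by ring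
  · rw [hD, inv_div]
    exact (div_le_self (by linarith) hB).trans (g2.trans hY')
  · rw [hh₀, rad_h0 hG1]
    have : nr (rad G) ≤ nr G := by nlinarith
    exact this.trans (g2.trans hY')
  · rw [le_div_iff₀ hB0]; nlinarith
  · refine hDB.trans ?_
    rw [le_div_iff₀ hB0]; nlinarith
  · refine mem_pball.2 ⟨hn, (Nat.le_div_iff_mul_le ?_).2 ?_⟩
    · exact_mod_cast (by linarith : (0 : ℝ) < nr G)
    · have : D * (Y / B) = Y / nr G := by rw [hD]; field_simp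
      rw [this, le_div_iff₀ (by linarith)] at hn'
      exact_mod_cast hn'

end Crest.Agent.T27.P4

namespace Crest.Agent.T27

open scoped ComplexConjugate
open Finset P4

variable [Fr]

/-- **The mean square of the Möbius sums** from the PSD domination and the energy bound. -/
theorem sStmt_17 (hP : PsdStmt) (hE : EnAll) : SStmt := by
  classical
  intro ε hε
  set δ := min (ε / 7) (1 / 2) with hδ
  have hδ0 : 0 < δ := lt_min (by positivity) (by norm_num)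
  have hδ1 : δ ≤ 1 / 2 := min_le_right _ _
  have hδ2 : δ ≤ ε / 7 := min_le_left _ _
  obtain ⟨C₁, hC₁, h₁⟩ := term_le hE hδ0 hδ1
  obtain ⟨C₂, hC₂, h₂⟩ := gsum hδ0
  obtain ⟨C₃, hC₃, h₃⟩ := pow_card_pf_le hδ0 2
  obtain ⟨C₄, hC₄, h₄⟩ := trunc 0 le_rfl
  have hg : 0 < gw 1 := Fr.kerAx.pos 1
  have hc := c7_pos
  refine ⟨2 * (C₃ / gw 1 * (8 * C₁ * C₂)) + 2 * C₄ ^ 2 * (c7 + 1), by positivity,
    fun κ A B hB hBA => ?_⟩
  obtain ⟨φ, hφ, hφ', hφ''⟩ := hP κ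
  have hA : 1 ≤ A := hB.trans hBA
  have hA0 : 0 < A := by linarith
  have hB0 : 0 < B := by linarith
  set Y := ⌈B ^ 2⌉₊ with hY
  have hY1 : B ^ 2 ≤ Y := Nat.le_ceil _
  have hY2 : (Y : ℝ) ≤ 2 * B ^ 2 := by
    have := (Nat.ceil_lt_add_one (sq_nonneg B)).le
    nlinarith
  have hY3 : 1 ≤ Y := by
    have : (1 : ℝ) ≤ Y := by nlinarith
    exact_mod_cast this
  set q := (2 * B ^ 2) ^ δ with hq
  have hq0 : 0 ≤ q := by positivity
  have hq1 : q ≤ 2 * (A ^ δ) ^ 2 := by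
    rw [hq, Real.mul_rpow (by norm_num) (by positivity), ← Real.rpow_natCast,
      ← Real.rpow_mul hB0.le, mul_comm _ δ, Real.rpow_mul hB0.le, Real.rpow_natCast]
    refine mul_le_mul ?_ (pow_le_pow_left₀ (by positivity)
      (Real.rpow_le_rpow hB0.le hBA hδ0.le) 2) (by positivity) (by norm_num)
    calc (2 : ℝ) ^ δ ≤ 2 ^ (1 : ℝ) :=
          Real.rpow_le_rpow_of_exponent_le (by norm_num) (by linarith)
      _ = 2 := Real.rpow_one 2
  have hq2 : (A ^ δ) ^ 7 ≤ A ^ ε := by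
    rw [← Real.rpow_natCast, ← Real.rpow_mul hA0.le]
    exact Real.rpow_le_rpow_of_exponent_le hA (by push_cast; linarith)
  -- the truncated sums
  have a1 : ∑ a ∈ pball ⌊A⌋₊, gw (nr a / A) * (1 / 2 : ℝ) ^ (pf a).card * ‖MobY κ Y B a‖ ^ 2 ≤
      C₁ * C₂ * q ^ 3 * (A * B) := by
    refine (hφ'' Y A B hA0 hB0 _ fun a ha => (mem_pball.1 ha).1).trans ?_
    refine (sum_le_sum (g := fun G => C₁ * q ^ 2 * (A * B) * (cG G * ‖th G‖ ^ 2 / nr G))
      fun G hG => ?_).trans ?_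
    · have := cG_nonneg G
      refine (mul_le_mul_of_nonneg_left (h₁ (φ G) G Y A B (hφ G) (hφ' G) hG hB hBA hY1 hY2)
        (by positivity)).trans_eq ?_
      ring
    · rw [← mul_sum]
      have b1 : (Y : ℝ) ^ δ ≤ q := Real.rpow_le_rpow (Nat.cast_nonneg _) hY2 hδ0.le
      calc _ ≤ C₁ * q ^ 2 * (A * B) * (C₂ * q) :=
            mul_le_mul_of_nonneg_left ((h₂ Y hY3).trans (by gcongr)) (by positivity)
        _ = _ := by ring
  have a2 : ∑ a ∈ pball ⌊A⌋₊, ‖MobY κ Y B a‖ ^ 2 ≤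
      C₃ / gw 1 * (8 * C₁ * C₂) * (A ^ ε * (A * B)) := by
    have b1 : ∀ a ∈ pball ⌊A⌋₊, ‖MobY κ Y B a‖ ^ 2 ≤ C₃ / gw 1 * A ^ δ *
        (gw (nr a / A) * (1 / 2 : ℝ) ^ (pf a).card * ‖MobY κ Y B a‖ ^ 2) := by
      intro a ha
      obtain ⟨c1, c2⟩ := mem_pball.1 ha
      have c3 : nr a ≤ A := (Nat.le_floor_iff hA0.le).1 c2
      have c4 := nr_pos c1.ne_zero
      have c5 : gw 1 ≤ gw (nr a / A) := Fr.kerAx.anti (div_pos c4 hA0) (Set.mem_Ioi.2 one_pos)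
        ((div_le_one hA0).2 c3)
      have c6 : (2 : ℝ) ^ (pf a).card ≤ C₃ * A ^ δ := (h₃ a c1.ne_zero).trans (by gcongr)
      rw [← mul_assoc]
      refine le_mul_of_one_le_left (sq_nonneg _) ?_
      calc (1 : ℝ) = (gw 1)⁻¹ * 2 ^ (pf a).card * (gw 1 * (1 / 2 : ℝ) ^ (pf a).card) := by
            rw [one_div, inv_pow]; field_simp
        _ ≤ (gw 1)⁻¹ * (C₃ * A ^ δ) * (gw (nr a / A) * (1 / 2 : ℝ) ^ (pf a).card) := by gcongr
        _ = _ := by ring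
    refine (sum_le_sum b1).trans ?_
    rw [← mul_sum]
    calc _ ≤ C₃ / gw 1 * A ^ δ * (C₁ * C₂ * (2 * (A ^ δ) ^ 2) ^ 3 * (A * B)) :=
          mul_le_mul_of_nonneg_left (a1.trans (by gcongr)) (by positivity)
      _ = C₃ / gw 1 * (8 * C₁ * C₂) * ((A ^ δ) ^ 7 * (A * B)) := by ring
      _ ≤ _ := by gcongr
  -- the tails
  have a3 : ∀ (i : ∀ n : O, Decidable (Primary n ∧ cls n = κ)), ∀ a ∈ pball ⌊A⌋₊,
      ‖∑' n : O, @ite _ (Primary n ∧ cls n = κ) (i n)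
      (mu n * conj (sym n a) * Wc (nr n / B) 0) 0‖ ^ 2 ≤
      2 * ‖MobY κ Y B a‖ ^ 2 + 2 * C₄ ^ 2 := by
    intro _ a _
    set b : O → ℂ := fun n => if Primary n ∧ cls n = κ then mu n * conj (sym n a) else 0 with hb
    have b1 := h₄ b (pball Y) B (Y / B) 0 (fun n hn => by
      by_contra h0
      exact hn (if_neg fun h => h0 h.1)) (fun n => by
      rw [Real.rpow_zero, hb]
      beta_reduce
      split_ifs
      · rw [norm_mul, Complex.norm_conj]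
        exact mul_le_one₀ (norm_mu_le n) (norm_nonneg _) (norm_sym_le _ _)
      · simp) hB0 (by rw [le_div_iff₀ hB0]; nlinarith) (by simp) fun n hn hn' => by
      rw [mul_div_cancel₀ _ hB0.ne'] at hn'
      exact mem_pball.2 ⟨hn, by exact_mod_cast hn'⟩
    have b2 : ∑ n ∈ pball Y, b n * Wc (nr n / B) 0 = MobY κ Y B a := by
      rw [MobY, sum_filter]
      refine sum_congr rfl fun n hn => ?_
      simp only [hb, (mem_pball.1 hn).1, true_and, ite_mul, zero_mul]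
      split_ifs <;> rfl
    have b3 : (∑' n : O, if Primary n ∧ cls n = κ then
        mu n * conj (sym n a) * Wc (nr n / B) 0 else 0) = ∑' n, b n * Wc (nr n / B) 0 := by
      simp only [hb, ite_mul, zero_mul]
    have b4 : B ^ (0 + 1 : ℝ) / (Y / B) ≤ 1 := by
      rw [zero_add, Real.rpow_one, div_le_one (by positivity), le_div_iff₀ hB0]
      nlinarith
    rw [b2, ← b3, norm_sub_rev] at b1
    have b5 := pow_le_pow_left₀ (norm_nonneg _)
      (b1.trans (mul_le_of_le_one_right hC₄.le b4)) 2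
    exact (norm_sq_le_two _ (MobY κ Y B a)).trans
      (add_le_add le_rfl (mul_le_mul_of_nonneg_left b5 (by norm_num)))
  have a4 := card_le_c7 (S := pball ⌊A⌋₊) hA fun h hh =>
    ⟨(mem_pball.1 hh).1.rep, (Nat.le_floor_iff hA0.le).1 (mem_pball.1 hh).2⟩
  have a5 : A ≤ A ^ ε * (A * B) := (le_mul_of_one_le_right hA0.le hB).trans
    (le_mul_of_one_le_left (by positivity) (Real.one_le_rpow hA hε.le))
  refine (sum_le_sum (a3 _)).trans ?_
  rw [sum_add_distrib, ← mul_sum, sum_const, nsmul_eq_mul, Real.rpow_add hA0, Real.rpow_one]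
  calc _ ≤ 2 * (C₃ / gw 1 * (8 * C₁ * C₂) * (A ^ ε * (A * B))) +
        (c7 + 1) * (A ^ ε * (A * B)) * (2 * C₄ ^ 2) := by
        gcongr
        exact a4.trans (by gcongr)
    _ = _ := by ring

end Crest.Agent.T27
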