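import Crest.Agent.PVc.R17.ReflMel

/-!
# Row 27, reflection, Mellin part A (helper71): the kernel for `r` places and the contour shift

* `KrR r`, `VR r`, `kernelOK_R` : the reflected kernel with the gamma factor `gamF ^ r`;
* `transfer_core` : from the functional equation of the completed Dirichlet series (arbitrary
  countable index types, sizes `N i > 0`) to the reflection formula for the weights `Wc`.
-/

set_option autoImplicit false

noncomputable section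

namespace Crest.Agent.T27.Mel

open scoped ComplexConjugate Topology
open MeasureTheory Complex Filter Set
open Crest.Agent.R17

/-- The density of the reflected kernel for `r` complex places. -/
def KrR (r : ℕ) (t s : ℂ) : ℂ := (1 / (2 * Real.pi) : ℂ) * Wm (1 - t + s) * gamF t ^ r

/-- The reflected kernel for `r` complex places. -/
def VR (r : ℕ) (x : ℝ) (s : ℂ) : ℂ := ∫ u : ℝ, KrR r (u * I) s * (x : ℂ) ^ (-((u : ℂ) * I))

theorem gamF_eq (t : ℂ) : gamF t = RMA.gF t := rfl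

theorem differentiableAt_KrR (r : ℕ) (s : ℂ) {t : ℂ} (ht : 0 ≤ t.re) :
    DifferentiableAt ℂ (fun t => KrR r t s) t :=
  (((differentiable_Wm _).comp t (by fun_prop)).const_mul _).mul
    ((RMA.differentiableAt_gF ht).pow r)

theorem KrR_shift (r σ : ℕ) (s : ℂ) {x : ℝ} (hx : 0 < x) :
    ∫ u : ℝ, KrR r (u * I) s * (x : ℂ) ^ (-((u : ℂ) * I)) =
      ∫ u : ℝ, KrR r (σ + u * I) s * (x : ℂ) ^ (-((σ : ℂ) + u * I)) := by
  have hσ := Nat.cast_nonneg (α := ℝ) σ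
  have hr := Nat.cast_nonneg (α := ℝ) r
  obtain ⟨C, hC, h⟩ := RMA.norm_gF_strip σ
  have := RMA.integral_vertical_shift (F := fun t => KrR r t s * (x : ℂ) ^ (-t)) (a := 0) (b := σ) hσ
    (fun t ht => ((differentiableAt_KrR r s ht.1).mul (DifferentiableAt.const_cpow (by fun_prop)
      (Or.inl (ofReal_ne_zero.2 hx.ne')))).differentiableWithinAt)
    (C := Real.sqrt Real.pi * C ^ r * Real.exp ((1 + σ + |s.re|) ^ 2 / 4 + (8 * r + 1) ^ 2 +
      (8 * r + 1) * |s.im| + σ * |Real.log x|)) one_pos fun t h0 h1 => ?_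
  · simpa using this
  have h0' : 0 ≤ t.re := by simpa using h0
  have e1 : (1 - t + s).re = 1 - t.re + s.re := by simp
  have e2 : (1 - t + s).im = s.im - t.im := by simp; ring
  have hg : ‖gamF t ^ r‖ ≤ C ^ r * Real.exp (8 * r * |t.im|) := by
    rw [norm_pow, show 8 * (r : ℝ) * |t.im| = r * (8 * |t.im|) by ring, Real.exp_nat_mul, ← mul_pow]
    exact pow_le_pow_left₀ (norm_nonneg _) (h t h0' h1) r
  rw [norm_mul, KrR, norm_mul, norm_mul, norm_Wm, Complex.norm_cpow_eq_rpow_re_of_pos hx, e1, e2,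
    Real.rpow_def_of_pos hx]
  have b1 := mul_le_mul (mul_le_of_le_one_left (by positivity :
    0 ≤ Real.sqrt Real.pi * Real.exp (((1 - t.re + s.re) ^ 2 - (s.im - t.im) ^ 2) / 4))
    RMA.norm_c_le) hg (norm_nonneg _) (by positivity)
  refine (mul_le_mul_of_nonneg_right b1 (Real.exp_pos _).le).trans ?_
  have e3 : Real.sqrt Real.pi * Real.exp (((1 - t.re + s.re) ^ 2 - (s.im - t.im) ^ 2) / 4) *
      (C ^ r * Real.exp (8 * r * |t.im|)) * Real.exp (Real.log x * (-t).re) =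
      Real.sqrt Real.pi * C ^ r * Real.exp (((1 - t.re + s.re) ^ 2 - (s.im - t.im) ^ 2) / 4 +
        8 * r * |t.im| + Real.log x * (-t).re) := by
    rw [Real.exp_add, Real.exp_add]; ring
  rw [e3, mul_assoc (Real.sqrt Real.pi * C ^ r), ← Real.exp_add]
  refine mul_le_mul_of_nonneg_left (Real.exp_le_exp.2 ?_) (by positivity)
  have c1 : (1 - t.re + s.re) ^ 2 ≤ (1 + σ + |s.re|) ^ 2 :=
    sq_le_sq' (by linarith [neg_abs_le s.re]) (by linarith [le_abs_self s.re])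
  have c2 : |t.im| ≤ |s.im| + |s.im - t.im| := by
    have := abs_sub s.im (s.im - t.im)
    rwa [sub_sub_cancel] at this
  have c3 : Real.log x * (-t).re ≤ σ * |Real.log x| := by
    rw [neg_re]
    nlinarith [neg_abs_le (Real.log x), abs_nonneg (Real.log x)]
  have c4 : (8 * r + 1) * |t.im| ≤ (8 * r + 1) * (|s.im| + |s.im - t.im|) :=
    mul_le_mul_of_nonneg_left c2 (by positivity)
  nlinarith [sq_nonneg (|s.im - t.im| / 2 - (8 * r + 1)), sq_abs (s.im - t.im)]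

theorem KrR_bound (r σ : ℕ) (B : ℝ) : ∃ C : ℝ, ∀ s : ℂ, |s.re| ≤ B →
    Integrable (fun u : ℝ => KrR r (σ + u * I) s) ∧
    (∫ u : ℝ, ‖KrR r (σ + u * I) s‖) ≤ C * (1 + |s.im|) ^ (4 * σ * r) := by
  have hσ := Nat.cast_nonneg (α := ℝ) σ
  obtain ⟨C0, hC0, h0⟩ := RMA.norm_gF_le σ
  obtain ⟨C, hC, h⟩ : ∃ C : ℝ, 0 < C ∧ ∀ u : ℝ,
      ‖gamF (σ + u * I) ^ r‖ ≤ C * (1 + |u|) ^ (4 * σ * r) := by
    refine ⟨C0 ^ r, by positivity, fun u => ?_⟩
    rw [norm_pow, pow_mul, ← mul_pow]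
    exact pow_le_pow_left₀ (norm_nonneg _) (h0 u) r
  generalize 4 * σ * r = J at h
  have hg := integrable_Wm_mul_pow 0 J
  set g : ℝ → ℝ := fun u => ‖Wm (((0 : ℝ) : ℂ) + u * I)‖ * (1 + |u|) ^ J with hgdef
  refine ⟨C * Real.exp ((1 + σ + B) ^ 2 / 4) * ∫ u, g u, fun s hs => ?_⟩
  have hpt : ∀ u : ℝ, ‖KrR r (σ + u * I) s‖ ≤
      C * Real.exp ((1 + σ + B) ^ 2 / 4) * (1 + |s.im|) ^ J * g (u - s.im) := by
    intro u
    have e1 : (1 - ((σ : ℂ) + u * I) + s).re = 1 - σ + s.re := by simp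
    have e2 : (1 - ((σ : ℂ) + u * I) + s).im = s.im - u := by simp; ring
    have e3 : (((0 : ℝ) : ℂ) + ((u - s.im : ℝ) : ℂ) * I).re = 0 := by simp
    have e4 : (((0 : ℝ) : ℂ) + ((u - s.im : ℝ) : ℂ) * I).im = u - s.im := by simp
    have w : ‖Wm (1 - ((σ : ℂ) + u * I) + s)‖ ≤
        Real.exp ((1 + σ + B) ^ 2 / 4) * ‖Wm (((0 : ℝ) : ℂ) + ((u - s.im : ℝ) : ℂ) * I)‖ := by
      rw [norm_Wm, norm_Wm, e1, e2, e3, e4, mul_left_comm, ← Real.exp_add]
      refine mul_le_mul_of_nonneg_left (Real.exp_le_exp.2 ?_) (by positivity)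
      have c1 : (1 - σ + s.re) ^ 2 ≤ (1 + σ + B) ^ 2 :=
        sq_le_sq' (by linarith [neg_abs_le s.re]) (by linarith [le_abs_self s.re])
      nlinarith
    have p : (1 + |u|) ^ J ≤ (1 + |s.im|) ^ J * (1 + |u - s.im|) ^ J := by
      rw [← mul_pow]
      refine pow_le_pow_left₀ (by positivity) ?_ _
      have := abs_add_le (u - s.im) s.im
      rw [sub_add_cancel] at this
      nlinarith [abs_nonneg s.im, abs_nonneg (u - s.im)]
    rw [KrR, norm_mul, norm_mul]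
    refine (mul_le_mul ((mul_le_of_le_one_left (norm_nonneg _) RMA.norm_c_le).trans w)
      ((h u).trans (mul_le_mul_of_nonneg_left p hC.le)) (norm_nonneg _) (by positivity)).trans
      (le_of_eq ?_)
    simp only [hgdef]
    ring
  have hcont : Continuous fun u : ℝ => KrR r (σ + u * I) s :=
    continuous_iff_continuousAt.2 fun u =>
      (differentiableAt_KrR r s (t := σ + u * I) (by simp)).continuousAt.comp
        (f := fun u : ℝ => (σ : ℂ) + u * I) (by fun_prop)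
  have hi := (hg.comp_sub_right s.im).const_mul
    (C * Real.exp ((1 + σ + B) ^ 2 / 4) * (1 + |s.im|) ^ J)
  have hI : Integrable (fun u : ℝ => KrR r (σ + u * I) s) :=
    hi.mono' hcont.aestronglyMeasurable (Eventually.of_forall hpt)
  refine ⟨hI, (integral_mono hI.norm hi hpt).trans (le_of_eq ?_)⟩
  rw [integral_const_mul, integral_sub_right_eq_self g]
  ring

/-- The kernel for `r` places is admissible. -/
theorem kernelOK_R (r : ℕ) : KernelOK (KrR r) (VR r) := by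
  intro σ B
  obtain ⟨C, h⟩ := KrR_bound r σ B
  exact ⟨C, 4 * σ * r, fun s hs => ⟨(h s hs).1, (h s hs).2, fun x hx => KrR_shift r σ s hx⟩⟩

/-- Polynomial decay of an admissible kernel. -/
theorem norm_V_le {Kr : ℂ → ℂ → ℂ} {V : ℝ → ℂ → ℂ} (hK : KernelOK Kr V) (σ : ℕ) (B : ℝ) :
    ∃ (C : ℝ) (J : ℕ), 0 ≤ C ∧ ∀ s : ℂ, |s.re| ≤ B → ∀ x : ℝ, 0 < x →
      ‖V x s‖ ≤ C * (1 + |s.im|) ^ J * x ^ (-(σ : ℝ)) := by
  obtain ⟨C, J, h⟩ := hK σ B
  refine ⟨|C|, J, abs_nonneg _, fun s hs x hx => ?_⟩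
  obtain ⟨h1, h2, h3⟩ := h s hs
  have hV : ‖V x s‖ ≤ (∫ u : ℝ, ‖Kr (σ + u * I) s‖) * x ^ (-(σ : ℝ)) := by
    rw [h3 _ hx, ← integral_mul_const]
    refine norm_integral_le_of_norm_le (h1.norm.mul_const _)
      (Eventually.of_forall fun u => le_of_eq ?_)
    rw [norm_mul, Complex.norm_cpow_eq_rpow_re_of_pos hx]
    simp
  refine hV.trans (mul_le_mul_of_nonneg_right (h2.trans ?_) (by positivity))
  exact mul_le_mul_of_nonneg_right (le_abs_self C) (by positivity)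

section core

variable {ι κ : Type*}

/-- The Dirichlet series. -/
def dS (a : ι → ℂ) (N : ι → ℝ) (w : ℂ) : ℂ := ∑' i, a i * (N i : ℂ) ^ (-w)

/-- Absolute convergence of the dual sums. -/
theorem summable_mul_V {Kr : ℂ → ℂ → ℂ} {V : ℝ → ℂ → ℂ} (hK : KernelOK Kr V) {b : κ → ℂ}
    {N : κ → ℝ} (hN : ∀ k, 0 < N k) {σ : ℕ} (hb : Summable fun k => ‖b k‖ * N k ^ (-(σ : ℝ)))
    {c : ℝ} (hc : 0 < c) (s : ℂ) : Summable fun k => ‖b k * V (c * N k) s‖ := by
  obtain ⟨C, J, hC, h⟩ := norm_V_le hK σ |s.re|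
  refine Summable.of_nonneg_of_le (fun _ => norm_nonneg _) (fun k => ?_)
    (hb.mul_left (C * (1 + |s.im|) ^ J * c ^ (-(σ : ℝ))))
  rw [norm_mul]
  refine (mul_le_mul_of_nonneg_left (h s le_rfl _ (mul_pos hc (hN k))) (norm_nonneg _)).trans
    (le_of_eq ?_)
  rw [Real.mul_rpow hc.le (hN k).le]
  ring

/-- Absolute convergence of the smooth sums. -/
theorem summable_mul_Wc {a : ι → ℂ} {N : ι → ℝ} (hN : ∀ i, 0 < N i) {σ : ℝ}
    (ha : Summable fun i => ‖a i‖ * N i ^ (-σ)) {X : ℝ} (hX : 0 < X) (s : ℂ) :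
    Summable fun i => ‖a i * Wc (N i / X) s‖ := by
  obtain ⟨C, hC, h⟩ := norm_Wc_le_rpow (-σ) |s.re|
  refine Summable.of_nonneg_of_le (fun _ => norm_nonneg _) (fun i => ?_)
    (ha.mul_left (C * X ^ σ))
  rw [norm_mul]
  refine (mul_le_mul_of_nonneg_left (h _ s (div_pos (hN i) hX) le_rfl) (norm_nonneg _)).trans
    (le_of_eq ?_)
  rw [Real.div_rpow (hN i).le hX.le, Real.rpow_neg hX.le, div_inv_eq_mul]
  ring

theorem tsum_Wc_eq [Countable ι] {a : ι → ℂ} {N : ι → ℝ} (hN : ∀ i, 0 < N i) {σ : ℝ}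
    (ha : Summable fun i => ‖a i‖ * N i ^ (-σ)) {X : ℝ} (hX : 0 < X) (t : ℂ) :
    ∑' i, a i * Wc (N i / X) t = (1 / (2 * Real.pi) : ℂ) * ∫ u : ℝ, Wm (σ + u * I + t) *
      (X : ℂ) ^ (σ + u * I) * dS a N (σ + u * I) := by
  have hX' : (X : ℂ) ≠ 0 := Complex.ofReal_ne_zero.2 hX.ne'
  have hW : Integrable fun u : ℝ => ‖Wm (σ + u * I + t)‖ := by
    refine ((integrable_Wm_mul_pow (σ + t.re) 0).comp_add_right t.im).congr
      (Eventually.of_forall fun u => ?_)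
    simp only [pow_zero, mul_one]
    congr 2
    conv_rhs => rw [← Complex.re_add_im t]
    push_cast
    ring
  have hn : ∀ (n : ι) (u : ℝ), ‖Wm (σ + u * I + t) * (X : ℂ) ^ (σ + u * I) *
      (a n * (N n : ℂ) ^ (-(σ + u * I)))‖ =
      X ^ σ * (‖a n‖ * N n ^ (-σ)) * ‖Wm (σ + u * I + t)‖ := by
    intro n u
    rw [norm_mul, norm_mul, norm_mul, Complex.norm_cpow_eq_rpow_re_of_pos hX,
      Complex.norm_cpow_eq_rpow_re_of_pos (hN n)]
    simp only [Complex.add_re, Complex.neg_re, Complex.ofReal_re, Complex.mul_re, Complex.I_re,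
      Complex.ofReal_im, Complex.I_im, mul_zero, zero_mul, sub_self, add_zero]
    ring
  have hi : ∀ n : ι, Integrable fun u : ℝ => Wm (σ + u * I + t) *
      (X : ℂ) ^ (σ + u * I) * (a n * (N n : ℂ) ^ (-(σ + u * I))) := by
    intro n
    refine (hW.const_mul _).mono' (Continuous.aestronglyMeasurable ?_)
      (Eventually.of_forall fun u => (hn n u).le)
    refine ((differentiable_Wm.continuous.comp (by fun_prop)).mul
      (Continuous.const_cpow (by fun_prop) (Or.inl hX'))).mul (continuous_const.mul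
      (Continuous.const_cpow (by fun_prop) (Or.inl ?_)))
    exact Complex.ofReal_ne_zero.2 (hN n).ne'
  simp only [dS, ← tsum_mul_left]
  rw [← integral_tsum_of_summable_integral_norm hi, ← tsum_mul_left]
  · refine tsum_congr fun n => ?_
    rw [Wc_eq_integral (div_pos (hN n) hX) σ t, mul_left_comm, ← integral_const_mul]
    congr 2
    funext u
    rw [Complex.ofReal_div, Complex.div_cpow_ofReal_nonneg (hN n).le hX.le,
      Complex.cpow_neg (X : ℂ), div_inv_eq_mul]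
    ring
  · simp only [hn, integral_const_mul]
    exact (ha.mul_left _).mul_right _

theorem tsum_kernel [Countable κ] {Kr : ℂ → ℂ → ℂ} {V : ℝ → ℂ → ℂ} (hK : KernelOK Kr V)
    {b : κ → ℂ} {N : κ → ℝ} (hN : ∀ k, 0 < N k) (hb : Summable fun k => ‖b k‖ * N k ^ (-3 : ℝ))
    {c : ℝ} (hc : 0 < c) (s : ℂ) :
    ∑' n, b n * V (c * N n) s = ∫ u : ℝ, Kr (3 + u * I) s *
      ((c : ℂ) ^ (-(3 + (u : ℂ) * I)) * dS b N (3 + u * I)) := by
  obtain ⟨C, J, h⟩ := hK 3 |s.re|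
  obtain ⟨h1, -, h2⟩ := h s le_rfl
  simp only [Nat.cast_ofNat] at h1 h2
  have hn : ∀ (n : κ) (u : ℝ), ‖(c : ℂ) ^ (-(3 + (u : ℂ) * I)) *
      (b n * (N n : ℂ) ^ (-(3 + (u : ℂ) * I)))‖ = c ^ (-3 : ℝ) * (‖b n‖ * N n ^ (-3 : ℝ)) := by
    intro n u
    rw [norm_mul, norm_mul, Complex.norm_cpow_eq_rpow_re_of_pos hc,
      Complex.norm_cpow_eq_rpow_re_of_pos (hN n)]
    simp
  have hi : ∀ n : κ, Integrable fun u : ℝ => Kr (3 + u * I) s * ((c : ℂ) ^ (-(3 + (u : ℂ) * I)) *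
      (b n * (N n : ℂ) ^ (-(3 + (u : ℂ) * I)))) := by
    intro n
    refine h1.mul_bdd (Continuous.aestronglyMeasurable ?_)
      (Eventually.of_forall fun u => (hn n u).le)
    exact (Continuous.const_cpow (by fun_prop) (Or.inl (ofReal_ne_zero.2 hc.ne'))).mul
      (continuous_const.mul (Continuous.const_cpow (by fun_prop)
        (Or.inl (ofReal_ne_zero.2 (hN n).ne'))))
  simp only [dS, ← tsum_mul_left]
  rw [← integral_tsum_of_summable_integral_norm hi]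
  · refine tsum_congr fun n => ?_
    rw [h2 _ (mul_pos hc (hN n)), ← integral_const_mul]
    congr 1
    funext u
    rw [ofReal_mul, mul_cpow_ofReal_nonneg hc.le (hN n).le]
    ring
  · simp only [norm_mul (Kr _ _), hn, integral_mul_const]
    exact (hb.mul_left _).mul_left _

/-- The Mellin transform of `U1`. -/
def GG (w : ℂ) : ℂ := Gamma (w + 1 / 3) * Gamma (w + 2 / 3)

/-- The function whose line of integration is shifted. -/
def FF (r : ℕ) (L : ℂ → ℂ) (Y : ℝ) (s w : ℂ) : ℂ :=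
  Wm (w + s) * (Y : ℂ) ^ w * L w * ((Gamma (w + 1 / 3))⁻¹ * (Gamma (w + 2 / 3))⁻¹) ^ r

theorem FF_diff (r : ℕ) {L : ℂ → ℂ} {Y : ℝ} (hY : 0 < Y) (s : ℂ) {w : ℂ}
    (hL : DifferentiableAt ℂ L w) : DifferentiableAt ℂ (FF r L Y s) w := by
  have h1 := differentiable_Wm
  have h2 := Complex.differentiable_one_div_Gamma
  exact ((((h1 _).comp w (by fun_prop : DifferentiableAt ℂ (fun w => w + s) w)).mul
    (differentiableAt_id.const_cpow (Or.inl (ofReal_ne_zero.2 hY.ne')))).mul hL).mul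
    ((((h2 _).comp w (by fun_prop : DifferentiableAt ℂ (fun w => w + 1 / 3) w)).mul
    ((h2 _).comp w (by fun_prop : DifferentiableAt ℂ (fun w => w + 2 / 3) w))).pow r)

theorem FF_le (r : ℕ) {L : ℂ → ℂ} {Y K C : ℝ} (hY : 0 < Y) (s : ℂ)
    (hG : ∀ z : ℂ, -2 ≤ z.re → z.re ≤ 4 → ‖(Gamma z)⁻¹‖ ≤ C * Real.exp (4 * |z.im|))
    {w : ℂ} (h1 : -2 ≤ w.re) (h2 : w.re ≤ 3) (hL : ‖L w‖ ≤ K) :
    ‖FF r L Y s w‖ ≤ Real.sqrt Real.pi * Real.exp ((3 + |s.re|) ^ 2 / 4 + (8 * r + 1) ^ 2 +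
      (8 * r + 1) * |s.im|) * (Y ^ (-2 : ℝ) + Y ^ (3 : ℝ)) * K * (C * C) ^ r *
        Real.exp (-1 * |w.im|) := by
  have hr := Nat.cast_nonneg (α := ℝ) r
  have g1 := hG (w + 1 / 3) (by norm_num; linarith) (by norm_num; linarith)
  have g2 := hG (w + 2 / 3) (by norm_num; linarith) (by norm_num; linarith)
  have hC : 0 ≤ C := (mul_nonneg_iff_of_pos_right (Real.exp_pos _)).1 ((norm_nonneg _).trans g1)
  have hK : 0 ≤ K := (norm_nonneg _).trans hL
  rw [show (w + 1 / 3).im = w.im by norm_num] at g1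
  rw [show (w + 2 / 3).im = w.im by norm_num] at g2
  have g3 : ‖(Y : ℂ) ^ w‖ ≤ Y ^ (-2 : ℝ) + Y ^ (3 : ℝ) := by
    rw [Complex.norm_cpow_eq_rpow_re_of_pos hY]
    exact MelN2.rpow_le_add hY h1 h2
  have g4 : ‖Wm (w + s)‖ ≤ Real.sqrt Real.pi *
      Real.exp ((3 + |s.re|) ^ 2 / 4 + (8 * r + 1) ^ 2 + (8 * r + 1) * |s.im| +
        -(8 * r + 1) * |w.im|) := by
    rw [norm_Wm, add_re, add_im]
    refine mul_le_mul_of_nonneg_left (Real.exp_le_exp.2 ?_) (Real.sqrt_nonneg _)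
    have e1 : (w.re + s.re) ^ 2 ≤ (3 + |s.re|) ^ 2 :=
      sq_le_sq' (by linarith [neg_abs_le s.re]) (by linarith [le_abs_self s.re])
    have e2 : |w.im| ≤ |w.im + s.im| + |s.im| := by
      simpa using abs_sub (w.im + s.im) s.im
    have e3 : (8 * r + 1) * |w.im| ≤ (8 * r + 1) * (|w.im + s.im| + |s.im|) :=
      mul_le_mul_of_nonneg_left e2 (by positivity)
    nlinarith [sq_nonneg (|w.im + s.im| / 2 - (8 * r + 1)), sq_abs (w.im + s.im)]
  have g5 : ‖((Gamma (w + 1 / 3))⁻¹ * (Gamma (w + 2 / 3))⁻¹) ^ r‖ ≤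
      (C * C) ^ r * Real.exp (8 * r * |w.im|) := by
    rw [norm_pow, show 8 * (r : ℝ) * |w.im| = r * (4 * |w.im| + 4 * |w.im|) by ring,
      Real.exp_nat_mul, ← mul_pow, norm_mul, Real.exp_add, mul_mul_mul_comm]
    exact pow_le_pow_left₀ (by positivity) (mul_le_mul g1 g2 (norm_nonneg _) (by positivity)) r
  rw [FF, norm_mul, norm_mul, norm_mul]
  refine (mul_le_mul (mul_le_mul (mul_le_mul g4 g3 (norm_nonneg _) (by positivity)) hL
    (norm_nonneg _) (by positivity)) g5 (norm_nonneg _) (by positivity)).trans (le_of_eq ?_)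
  rw [show -1 * |w.im| = -(8 * r + 1) * |w.im| + 8 * r * |w.im| by ring]
  simp only [Real.exp_add]
  ring

/-- **Contour shift.**  `L` is the completed Dirichlet series. -/
theorem transfer_core [Countable ι] [Countable κ] (r : ℕ) {a : ι → ℂ} {N : ι → ℝ} {b : κ → ℂ}
    {N' : κ → ℝ} (hN : ∀ i, 0 < N i) (hN' : ∀ k, 0 < N' k)
    (ha : Summable fun i => ‖a i‖ * N i ^ (-3 : ℝ)) (hb : Summable fun k => ‖b k‖ * N' k ^ (-3 : ℝ))
    {L : ℂ → ℂ} {K : ℝ} {ω : ℂ}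
    (hL : ∀ w : ℂ, -2 ≤ w.re → w.re ≤ 3 → DifferentiableAt ℂ L w ∧ ‖L w‖ ≤ K)
    (hLa : ∀ w : ℂ, w.re = 3 → L w = GG w ^ r * dS a N w)
    (hLb : ∀ t : ℂ, t.re = 3 → L (1 - t) = ω * (GG t ^ r * dS b N' t))
    {X : ℝ} (hX : 0 < X) (s : ℂ) :
    ∑' i, a i * Wc (N i / X) s = ω * (X : ℂ) * ∑' k, b k * VR r (X * N' k) s := by
  obtain ⟨C, -, hG⟩ := norm_inv_Gamma_le (-2) 4
  have h3 := RMA.integral_vertical_shift (F := FF r L X s) (a := -2) (b := 3) (by norm_num)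
    (fun w hw => (FF_diff r hX s (hL w hw.1 hw.2).1).differentiableWithinAt) one_pos
    fun w hw hw' => FF_le r hX s hG hw hw' (hL w hw hw').2
  have h4 : ∀ u : ℝ, Wm ((3 : ℝ) + u * I + s) * (X : ℂ) ^ (((3 : ℝ) : ℂ) + u * I) *
      dS a N ((3 : ℝ) + u * I) = FF r L X s ((3 : ℝ) + u * I) := by
    intro u
    have e : (((3 : ℝ) : ℂ) + u * I).re = 3 := by simp
    generalize ((3 : ℝ) : ℂ) + u * I = w at e
    have g1 : Gamma (w + 1 / 3) ≠ 0 := Gamma_ne_zero_of_re_pos (by norm_num [e])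
    have g2 : Gamma (w + 2 / 3) ≠ 0 := Gamma_ne_zero_of_re_pos (by norm_num [e])
    have g3 : GG w ^ r * ((Gamma (w + 1 / 3))⁻¹ * (Gamma (w + 2 / 3))⁻¹) ^ r = 1 := by
      rw [← mul_pow, GG, ← mul_inv, mul_inv_cancel₀ (mul_ne_zero g1 g2), one_pow]
    rw [FF, hLa w e]
    linear_combination (-(Wm (w + s) * (X : ℂ) ^ w * dS a N w)) * g3
  have h5 : ∀ u : ℝ, (1 / (2 * Real.pi) : ℂ) * FF r L X s ((-2 : ℝ) + (-u : ℝ) * I) =
      ω * (X : ℂ) * (KrR r (3 + u * I) s *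
        ((X : ℂ) ^ (-(3 + (u : ℂ) * I)) * dS b N' (3 + u * I))) := by
    intro u
    have e : ((3 : ℂ) + u * I).re = 3 := by simp
    rw [show (((-2 : ℝ) : ℂ) + (-u : ℝ) * I) = 1 - (3 + u * I) by push_cast; ring]
    generalize (3 : ℂ) + u * I = t at e
    have g : gamF t ^ r = GG t ^ r * ((Gamma (4 / 3 - t))⁻¹ * (Gamma (5 / 3 - t))⁻¹) ^ r := by
      rw [← mul_pow, gamF, GG, div_eq_mul_inv, mul_inv, add_comm t, add_comm t]
    rw [FF, hLb t e, KrR, g, show 1 - t + 1 / 3 = 4 / 3 - t by ring,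
      show 1 - t + 2 / 3 = 5 / 3 - t by ring, sub_eq_add_neg 1 t,
      cpow_add _ _ (ofReal_ne_zero.2 hX.ne'), cpow_one]
    ring
  rw [tsum_Wc_eq hN ha hX, tsum_kernel (kernelOK_R r) hN' hb hX, ← integral_const_mul (ω * (X : ℂ))]
  simp only [← h5]
  rw [integral_const_mul, integral_neg_eq_self
    (fun u : ℝ => FF r L X s ((-2 : ℝ) + u * I)), h3]
  simp only [← h4]

end core

end Crest.Agent.T27.Mel
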