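import Crest.Agent.T27.Basic_55

/-!
# Row 27 frame: calculus of the log-Gaussian weight `Wc` (port of `PVc/R17/Weight.lean`)

Differences with `R17`: `PolyB` has a third field `supp` (the coefficients vanish off the rows
`Rep`).  The namespace `PW` contains the elementary sums over rows used here and in `Poisson_23`.
-/

set_option autoImplicit false
set_option linter.unusedSectionVars false

noncomputable section

namespace Crest.Agent.T27

open scoped ComplexConjugate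
open MeasureTheory

namespace PW

open Finset

variable [Fr0]

theorem card_erase_le (X : ℕ) : (((ball X).erase 0).card : ℝ) ≤ c7 * X := by
  have h1 := card_ball_le X
  rw [card_erase_of_mem (zero_mem_ball X)]
  exact_mod_cast (by omega : (ball X).card - 1 ≤ (kk + 7) * X)

theorem mem_erase_ball {X : ℕ} {z : O} :
    z ∈ (ball X).erase 0 ↔ (z ≠ 0 ∧ Rep z) ∧ nm z ≤ X := by
  rw [mem_erase, mem_ball, and_assoc]

/-- Abel summation against the bound `#{0 < N n ≤ X} ≤ c7 X`. -/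
theorem abel (g : ℕ → ℝ) (h0 : ∀ k, 0 ≤ g k) (hg : ∀ k, 1 ≤ k → g (k + 1) ≤ g k) (X : ℕ) :
    ∑ n ∈ (ball X).erase 0, g (nm n) ≤ c7 * ∑ k ∈ range X, g (k + 1) := by
  have key : ∀ X : ℕ, ∑ n ∈ (ball X).erase 0, g (nm n) +
      (c7 * X - (((ball X).erase 0).card : ℝ)) * g X ≤ c7 * ∑ k ∈ range X, g (k + 1) := by
    intro X
    induction X with
    | zero =>
      have : (ball 0).erase 0 = ∅ := eq_empty_of_forall_notMem fun z hz => by
        rw [mem_erase_ball] at hz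
        exact hz.1.1 (nm_eq_zero.1 (by omega))
      simp [this]
    | succ X ih =>
      have hs : (ball X).erase 0 ⊆ (ball (X + 1)).erase 0 := fun z hz => by
        rw [mem_erase_ball] at hz ⊢
        exact ⟨hz.1, by omega⟩
      have h1 : ∑ n ∈ (ball (X + 1)).erase 0 \ (ball X).erase 0, g (nm n) =
          ((((ball (X + 1)).erase 0).card : ℝ) - ((ball X).erase 0).card) * g (X + 1) := by
        rw [sum_congr rfl (g := fun _ => g (X + 1)), sum_const, card_sdiff_of_subset hs,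
          nsmul_eq_mul, Nat.cast_sub (card_le_card hs)]
        intro z hz
        rw [mem_sdiff, mem_erase_ball, mem_erase_ball] at hz
        congr 1
        have h3 : ¬ nm z ≤ X := fun h => hz.2 ⟨hz.1.1, h⟩
        have h4 := hz.1.2
        omega
      have h2 : (c7 * X - (((ball X).erase 0).card : ℝ)) * g (X + 1) ≤
          (c7 * X - (((ball X).erase 0).card : ℝ)) * g X := by
        have h3 := card_erase_le X
        rcases Nat.eq_zero_or_pos X with rfl | hX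
        · have h4 : (0 : ℝ) ≤ (((ball 0).erase 0).card : ℝ) := Nat.cast_nonneg _
          have h5 : (c7 * ((0 : ℕ) : ℝ) - (((ball 0).erase 0).card : ℝ)) = 0 := by
            simp only [Nat.cast_zero] at h3 ⊢
            linarith
          rw [h5, zero_mul, zero_mul]
        · exact mul_le_mul_of_nonneg_left (hg X hX) (by linarith)
      rw [← sum_sdiff hs, h1, sum_range_succ]
      push_cast
      linarith
  have h1 := key X
  have h2 := mul_nonneg (sub_nonneg.2 (card_erase_le X)) (h0 X)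
  linarith

theorem rpow_step_ge {p : ℝ} (hp : 0 ≤ p) {x : ℝ} (hx : 0 < x) :
    p * (x + 1) ^ (-(p + 1)) ≤ x ^ (-p) - (x + 1) ^ (-p) := by
  have hx1 : 0 < x + 1 := by linarith
  have h1 := Real.one_sub_inv_le_log_of_pos (div_pos hx1 hx)
  have h2 : 1 - ((x + 1) / x)⁻¹ = (x + 1)⁻¹ := by
    field_simp
    ring
  have h3 : 1 + p * (x + 1)⁻¹ ≤ ((x + 1) / x) ^ p := by
    rw [Real.rpow_def_of_pos (div_pos hx1 hx)]
    have := Real.add_one_le_exp (Real.log ((x + 1) / x) * p)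
    have h4 := mul_le_mul_of_nonneg_left h1 hp
    rw [h2] at h4
    linarith
  have h5 : x ^ (-p) = ((x + 1) / x) ^ p * (x + 1) ^ (-p) := by
    rw [Real.div_rpow hx1.le hx.le, Real.rpow_neg hx.le, Real.rpow_neg hx1.le]
    have := Real.rpow_pos_of_pos hx1 p
    field_simp
  rw [h5, neg_add, Real.rpow_add hx1, Real.rpow_neg_one]
  have h6 := mul_le_mul_of_nonneg_right h3 (Real.rpow_pos_of_pos hx1 (-p)).le
  linarith

theorem sum_tail {σ : ℝ} (hσ : 1 < σ) :
    ∃ C : ℝ, 0 < C ∧ ∀ (X : ℝ) (S : Finset O), 1 ≤ X → (∀ n ∈ S, Rep n) → (∀ n ∈ S, X ≤ nr n) →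
      ∑ n ∈ S, nr n ^ (-σ) ≤ C * X ^ (1 - σ) := by
  have hp : 0 < σ - 1 := by linarith
  have h7 := c7_pos
  refine ⟨c7 * (2 + (σ - 1)⁻¹), by positivity, fun X S hX hR hS => ?_⟩
  have hX0 : 0 < X := by linarith
  have hm : ∀ k : ℕ, 0 < max (k : ℝ) X := fun k => lt_max_of_lt_right hX0
  have hmono : ∀ k : ℕ, max (k : ℝ) X ≤ max ((k + 1 : ℕ) : ℝ) X := fun k =>
    max_le_max_right _ (by simp)
  have h1 : S ⊆ (ball (S.sup nm)).erase 0 := fun z hz => mem_erase_ball.2 ⟨⟨by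
    rintro rfl
    have := hS 0 hz
    rw [nr, nm_eq_zero.2 rfl, Nat.cast_zero] at this
    linarith, hR z hz⟩, le_sup (f := nm) hz⟩
  have h2 : ∀ Y : ℕ, ∑ k ∈ range Y, (max ((k + 1 : ℕ) : ℝ) X) ^ (-σ) ≤
      min (Y : ℝ) (X + 1) * X ^ (-σ) + (σ - 1)⁻¹ * (X ^ (1 - σ) - (max (Y : ℝ) X) ^ (1 - σ)) := by
    intro Y
    induction Y with
    | zero => simp [hX0.le, min_eq_left (by linarith : (0 : ℝ) ≤ X + 1)]
    | succ Y ih =>
      rw [sum_range_succ]
      have h3 : 0 < X ^ (-σ) := Real.rpow_pos_of_pos hX0 _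
      rcases lt_or_ge (Y : ℝ) X with h | h
      · have h4 : (max ((Y + 1 : ℕ) : ℝ) X) ^ (-σ) ≤ X ^ (-σ) :=
          Real.rpow_le_rpow_of_nonpos hX0 (le_max_right _ _) (by linarith)
        have h5 : (max ((Y + 1 : ℕ) : ℝ) X) ^ (1 - σ) ≤ (max (Y : ℝ) X) ^ (1 - σ) :=
          Real.rpow_le_rpow_of_nonpos (hm Y) (hmono Y) (by linarith)
        have h6 := mul_le_mul_of_nonneg_left h5 (inv_pos.2 hp).le
        rw [min_eq_left (by linarith)] at ih
        rw [min_eq_left (by push_cast; linarith)]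
        push_cast at *
        linarith
      · have h4 := rpow_step_ge hp.le (hX0.trans_le h)
        rw [show -(σ - 1 + 1) = -σ by ring, show -(σ - 1) = 1 - σ by ring,
          ← le_inv_mul_iff₀ hp] at h4
        have h5 : min (Y : ℝ) (X + 1) ≤ min ((Y + 1 : ℕ) : ℝ) (X + 1) :=
          min_le_min_right _ (by simp)
        have h6 := mul_le_mul_of_nonneg_right h5 h3.le
        rw [max_eq_left h] at ih
        rw [max_eq_left (by push_cast; linarith)]
        push_cast at *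
        linarith
  calc ∑ n ∈ S, nr n ^ (-σ) = ∑ n ∈ S, (max (nm n : ℝ) X) ^ (-σ) :=
        sum_congr rfl fun n hn => by rw [max_eq_left (hS n hn)]
    _ ≤ ∑ n ∈ (ball (S.sup nm)).erase 0, (max (nm n : ℝ) X) ^ (-σ) :=
        sum_le_sum_of_subset_of_nonneg h1 fun n _ _ => (Real.rpow_pos_of_pos (hm _) _).le
    _ ≤ c7 * ∑ k ∈ range (S.sup nm), (max ((k + 1 : ℕ) : ℝ) X) ^ (-σ) :=
        abel (fun k => (max (k : ℝ) X) ^ (-σ)) (fun k => (Real.rpow_pos_of_pos (hm _) _).le)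
          (fun k _ => Real.rpow_le_rpow_of_nonpos (hm k) (hmono k) (by linarith)) _
    _ ≤ _ := by
        have h3 := h2 (S.sup nm)
        have h4 : min ((S.sup nm : ℕ) : ℝ) (X + 1) * X ^ (-σ) ≤ (2 * X) * X ^ (-σ) :=
          mul_le_mul_of_nonneg_right ((min_le_right _ _).trans (by linarith))
            (Real.rpow_pos_of_pos hX0 _).le
        have h5 : X ^ (1 - σ) = X * X ^ (-σ) := by
          rw [sub_eq_add_neg, Real.rpow_add hX0, Real.rpow_one]
        have h6 := mul_nonneg (inv_pos.2 hp).le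
          (Real.rpow_pos_of_pos (hm (S.sup nm)) (1 - σ)).le
        rw [h5] at h3 ⊢
        rw [mul_assoc]
        exact mul_le_mul_of_nonneg_left (by linarith) h7.le

theorem sum_all {σ : ℝ} (hσ : 1 < σ) :
    ∃ C : ℝ, 0 < C ∧ ∀ S : Finset O, (∀ n ∈ S, Rep n) → ∑ n ∈ S, nr n ^ (-σ) ≤ C := by
  obtain ⟨C, hC, h⟩ := sum_tail hσ
  refine ⟨C, hC, fun S hS => ?_⟩
  rw [← sum_erase S (a := 0) (by
    rw [nr, nm_eq_zero.2 rfl, Nat.cast_zero, Real.zero_rpow (by linarith)])]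
  simpa using h 1 (S.erase 0) le_rfl (fun n hn => hS n (mem_of_mem_erase hn))
    fun n hn => one_le_nr (ne_of_mem_erase hn)

open Classical in
/-- `N(n)^{-σ}` restricted to the rows. -/
def rp (σ : ℝ) (n : O) : ℝ := if Rep n then nr n ^ (-σ) else 0

theorem rp_nonneg (σ : ℝ) (n : O) : 0 ≤ rp σ n := by
  unfold rp
  split_ifs
  · positivity
  · exact le_rfl

theorem rp_of_rep {σ : ℝ} {n : O} (h : Rep n) : rp σ n = nr n ^ (-σ) := if_pos h

theorem rp_of_not {σ : ℝ} {n : O} (h : ¬ Rep n) : rp σ n = 0 := if_neg h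

theorem sum_rp (σ : ℝ) (S : Finset O) [DecidablePred (Rep : O → Prop)] :
    ∑ n ∈ S, rp σ n = ∑ n ∈ S.filter Rep, nr n ^ (-σ) := by
  rw [sum_filter]
  refine sum_congr rfl fun n _ => ?_
  split_ifs with h
  exacts [rp_of_rep h, rp_of_not h]

theorem summable_rp {σ : ℝ} (hσ : 1 < σ) : Summable (rp σ) := by
  classical
  obtain ⟨C, -, h⟩ := sum_all hσ
  refine summable_of_sum_le (c := C) (rp_nonneg σ) fun S => ?_
  rw [sum_rp]
  exact h _ fun n hn => (mem_filter.1 hn).2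

theorem sum_rp_tail {σ : ℝ} (hσ : 1 < σ) :
    ∃ C : ℝ, 0 < C ∧ ∀ (X : ℝ) (S : Finset O), 1 ≤ X → (∀ n ∈ S, X ≤ nr n) →
      ∑ n ∈ S, rp σ n ≤ C * X ^ (1 - σ) := by
  classical
  obtain ⟨C, hC, h⟩ := sum_tail hσ
  refine ⟨C, hC, fun X S hX hS => ?_⟩
  rw [sum_rp]
  exact h X _ hX (fun n hn => (mem_filter.1 hn).2) fun n hn => hS n (mem_filter.1 hn).1

end PW

namespace WA

theorem norm_Wc {y : ℝ} (s : ℂ) :
    ‖Wc y s‖ = Real.exp (-(Real.log y) ^ 2 + s.re * Real.log y) := by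
  rw [Wc, Complex.norm_exp]
  congr 1
  generalize Real.log y = L
  simp [sq]

theorem norm_Wc_le (y : ℝ) (s : ℂ) : ‖Wc y s‖ ≤ Real.exp (s.re ^ 2 / 4) := by
  rw [norm_Wc]
  exact Real.exp_le_exp.2 (by nlinarith [sq_nonneg (Real.log y - s.re / 2)])

theorem cpow_eq {y : ℝ} (hy : 0 < y) (t : ℂ) :
    (y : ℂ) ^ t = Complex.exp (t * (Real.log y : ℂ)) := by
  rw [Complex.cpow_def_of_ne_zero (by exact_mod_cast hy.ne'), Complex.ofReal_log hy.le, mul_comm]

theorem Wc_add {y : ℝ} (hy : 0 < y) (s t : ℂ) : Wc y (s + t) = Wc y s * (y : ℂ) ^ t := by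
  rw [cpow_eq hy, Wc, Wc, ← Complex.exp_add]
  congr 1
  ring

theorem conj_Wc (y : ℝ) (s : ℂ) : conj (Wc y s) = Wc y (conj s) := by
  rw [Wc, Wc, ← Complex.exp_conj]
  generalize Real.log y = L
  simp

theorem Wc_shift {y : ℝ} (hy : 0 < y) (s : ℂ) (σ : ℝ) :
    Wc y (s + σ) = Complex.exp ((σ : ℂ) ^ 2 / 4 + s * σ / 2) * Wc (y / Real.exp (σ / 2)) s := by
  rw [Wc, Wc, ← Complex.exp_add, Real.log_div hy.ne' (Real.exp_pos _).ne', Real.log_exp]
  congr 1
  generalize Real.log y = L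
  push_cast
  ring

theorem norm_Wc_le_rpow (A B : ℝ) : ∃ C : ℝ, 0 < C ∧ ∀ (y : ℝ) (s : ℂ), 0 < y → |s.re| ≤ B →
    ‖Wc y s‖ ≤ C * y ^ A := by
  refine ⟨Real.exp ((B + |A|) ^ 2 / 4), Real.exp_pos _, fun y s hy hs => ?_⟩
  rw [norm_Wc, Real.rpow_def_of_pos hy, ← Real.exp_add]
  refine Real.exp_le_exp.2 ?_
  have h1 : |s.re - A| ≤ B + |A| := (abs_sub _ _).trans (by linarith)
  have h2 : (s.re - A) ^ 2 ≤ (B + |A|) ^ 2 := by
    rw [← sq_abs (s.re - A)]
    exact pow_le_pow_left₀ (abs_nonneg _) h1 2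
  nlinarith [sq_nonneg (Real.log y - (s.re - A) / 2)]

theorem cpow_half {x : ℝ} (hx : 0 ≤ x) : (x : ℂ) ^ (1 / 2 : ℂ) = (Real.sqrt x : ℂ) := by
  rw [Real.sqrt_eq_rpow, Complex.ofReal_cpow hx]
  norm_num

theorem gauss_one (c d : ℂ) : ∫ x : ℝ, Complex.exp (-1 * (x : ℂ) ^ 2 + c * x + d) =
    (Real.sqrt Real.pi : ℂ) * Complex.exp (d + c ^ 2 / 4) := by
  rw [integral_cexp_quadratic (by simp), neg_neg, div_one, cpow_half Real.pi_pos.le]
  congr 2
  ring

theorem mellin_Wc (s t : ℂ) :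
    ∫ y in Set.Ioi (0 : ℝ), Wc y t * (y : ℂ) ^ (s - 1) = Wm (s + t) := by
  rw [← Real.range_exp, ← Set.image_univ, integral_image_eq_integral_abs_deriv_smul
    MeasurableSet.univ (fun x _ => (Real.hasDerivAt_exp x).hasDerivWithinAt)
    Real.exp_injective.injOn, Measure.restrict_univ]
  have h : ∀ x : ℝ, |Real.exp x| • (Wc (Real.exp x) t * ((Real.exp x : ℝ) : ℂ) ^ (s - 1)) =
      Complex.exp (-1 * (x : ℂ) ^ 2 + (s + t) * x + 0) := by
    intro x
    rw [abs_of_pos (Real.exp_pos x), cpow_eq (Real.exp_pos x), Wc, Real.log_exp,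
      Complex.real_smul, Complex.ofReal_exp, ← Complex.exp_add, ← Complex.exp_add]
    congr 1
    ring
  simp_rw [h]
  rw [gauss_one, zero_add, Wm]

theorem Wc_eq_integral {y : ℝ} (hy : 0 < y) (σ : ℝ) (t : ℂ) :
    Wc y t = (1 / (2 * Real.pi) : ℂ) *
      ∫ u : ℝ, Wm (σ + u * Complex.I + t) * (y : ℂ) ^ (-(σ + u * Complex.I)) := by
  have h : ∀ u : ℝ, Wm (σ + u * Complex.I + t) * (y : ℂ) ^ (-(σ + u * Complex.I)) =
      (Real.sqrt Real.pi : ℂ) * Complex.exp (-(1 / 4) * (u : ℂ) ^ 2 +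
        (Complex.I * ((σ + t) / 2 - Real.log y)) * u + ((σ + t) ^ 2 / 4 - σ * Real.log y)) := by
    intro u
    rw [cpow_eq hy, Wm, mul_assoc, ← Complex.exp_add]
    congr 2
    linear_combination ((u : ℂ) ^ 2 / 4) * Complex.I_sq
  simp_rw [h]
  rw [integral_const_mul, integral_cexp_quadratic (by norm_num)]
  have h1 : ((Real.pi : ℂ) / -(-(1 / 4))) = ((4 * Real.pi : ℝ) : ℂ) := by
    push_cast; ring
  have h2 : Real.sqrt (4 * Real.pi) = 2 * Real.sqrt Real.pi := by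
    rw [Real.sqrt_mul (by norm_num), show (4 : ℝ) = 2 ^ 2 by norm_num, Real.sqrt_sq (by norm_num)]
  have h3 : (Real.sqrt Real.pi : ℂ) * Real.sqrt Real.pi = Real.pi := by
    exact_mod_cast Real.mul_self_sqrt Real.pi_pos.le
  have h4 : (Real.pi : ℂ) ≠ 0 := by exact_mod_cast Real.pi_ne_zero
  have h5 : ((σ : ℂ) + t) ^ 2 / 4 - σ * Real.log y -
      (Complex.I * ((σ + t) / 2 - Real.log y)) ^ 2 / (4 * -(1 / 4)) =
      -((Real.log y : ℂ)) ^ 2 + t * (Real.log y : ℂ) := by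
    rw [mul_pow, Complex.I_sq]
    ring
  rw [h1, cpow_half (by positivity), h2, h5, Wc]
  push_cast
  field_simp
  linear_combination -h3

theorem norm_Wm (s : ℂ) :
    ‖Wm s‖ = Real.sqrt Real.pi * Real.exp ((s.re ^ 2 - s.im ^ 2) / 4) := by
  rw [Wm, norm_mul, Complex.norm_exp, Complex.norm_real, Real.norm_of_nonneg (Real.sqrt_nonneg _)]
  congr 2
  simp [sq]

theorem Wm_ne_zero (s : ℂ) : Wm s ≠ 0 :=
  mul_ne_zero (by exact_mod_cast (Real.sqrt_pos.2 Real.pi_pos).ne') (Complex.exp_ne_zero _)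

theorem differentiable_Wm : Differentiable ℂ Wm := by
  unfold Wm
  fun_prop

theorem integral_Wc_scale {y : ℝ} (hy : 0 < y) :
    ∫ v : ℝ, Wc (y / Real.exp v) 0 = (Real.sqrt Real.pi : ℂ) := by
  have h : ∀ v : ℝ, Wc (y / Real.exp v) 0 = Complex.exp (-1 * (v : ℂ) ^ 2 +
      (2 * Real.log y) * v + -(Real.log y : ℂ) ^ 2) := by
    intro v
    rw [Wc, Real.log_div hy.ne' (Real.exp_pos _).ne', Real.log_exp]
    congr 1
    generalize Real.log y = L
    push_cast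
    ring
  simp_rw [h]
  rw [gauss_one, show -(Real.log y : ℂ) ^ 2 + (2 * Real.log y) ^ 2 / 4 = 0 by ring,
    Complex.exp_zero, mul_one]

theorem norm_Gamma_le {s : ℂ} (hs : 0 < s.re) : ‖Complex.Gamma s‖ ≤ Real.Gamma s.re := by
  rw [Complex.Gamma_eq_integral hs, Real.Gamma_eq_integral hs, Complex.GammaIntegral]
  refine (norm_integral_le_integral_norm _).trans (le_of_eq ?_)
  refine setIntegral_congr_fun measurableSet_Ioi fun x hx => ?_
  have hx' : 0 < x := hx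
  simp only [norm_mul, Complex.norm_real, Real.norm_of_nonneg (Real.exp_pos _).le,
    Complex.norm_cpow_eq_rpow_re_of_pos hx', Complex.sub_re, Complex.one_re]

theorem norm_Gamma_mul_pow_le {s : ℂ} (hs : 0 < s.re) (n : ℕ) :
    ‖Complex.Gamma s‖ * ‖s‖ ^ n ≤ ‖Complex.Gamma (s + n)‖ := by
  induction n with
  | zero => simp
  | succ n ih =>
    have hre : 0 < (s + n).re := by simp; positivity
    have hne : s + n ≠ 0 := fun h => by rw [h] at hre; simp at hre
    have h1 : ‖s‖ ≤ ‖s + n‖ := by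
      rw [← sq_le_sq₀ (norm_nonneg _) (norm_nonneg _), Complex.sq_norm, Complex.sq_norm,
        Complex.normSq_apply, Complex.normSq_apply]
      simp only [Complex.add_re, Complex.natCast_re, Complex.add_im, Complex.natCast_im, add_zero]
      have : (0 : ℝ) ≤ n := n.cast_nonneg
      nlinarith
    rw [Nat.cast_succ, ← add_assoc, Complex.Gamma_add_one _ hne, norm_mul, pow_succ, ← mul_assoc,
      mul_comm ‖s + n‖]
    exact mul_le_mul ih h1 (norm_nonneg _) (norm_nonneg _)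

theorem continuous_Gamma_line {σ : ℝ} (hσ : 0 < σ) :
    Continuous fun u : ℝ => Complex.Gamma (σ + u * Complex.I) := by
  rw [continuous_iff_continuousAt]
  intro u
  refine ContinuousAt.comp (f := fun u : ℝ => (σ : ℂ) + u * Complex.I)
    (Complex.continuousAt_Gamma _ fun m h => ?_) (by fun_prop)
  have := congrArg Complex.re h
  simp at this
  have : (0 : ℝ) ≤ m := m.cast_nonneg
  linarith

theorem integrable_Gamma_mul_pow {σ : ℝ} (hσ : 0 < σ) (J : ℕ) :
    Integrable (fun u : ℝ => ‖Complex.Gamma (σ + u * Complex.I)‖ * (1 + |u|) ^ J) := by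
  set c : ℝ := 1 / σ + 1 with hc
  have hc0 : 0 < c := by positivity
  refine (integrable_inv_one_add_sq.const_mul
    (Real.Gamma (σ + (J + 2 : ℕ)) * c ^ (J + 2))).mono' ?_ (Filter.Eventually.of_forall fun u => ?_)
  · exact ((continuous_Gamma_line hσ).norm.mul (by fun_prop)).aestronglyMeasurable
  · set s : ℂ := σ + u * Complex.I with hs
    have hre : s.re = σ := by simp [hs]
    have him : s.im = u := by simp [hs]
    have h1 : σ ≤ ‖s‖ := hre ▸ Complex.re_le_norm s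
    have h2 : |u| ≤ ‖s‖ := him ▸ Complex.abs_im_le_norm s
    have h3 : 1 + |u| ≤ c * ‖s‖ := by
      have : 1 ≤ 1 / σ * ‖s‖ := by
        rw [one_div, ← div_eq_inv_mul, le_div_iff₀ hσ]; linarith
      rw [hc]; linarith
    have h4 := (norm_Gamma_mul_pow_le (s := s) (by rw [hre]; exact hσ) (J + 2)).trans
      (norm_Gamma_le (by simp [hre]; positivity))
    have h5 : (s + ((J + 2 : ℕ) : ℂ)).re = σ + (J + 2 : ℕ) := by simp [hre]
    rw [h5] at h4
    have h6 : (1 + |u|) ^ (J + 2) ≤ c ^ (J + 2) * ‖s‖ ^ (J + 2) := by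
      rw [← mul_pow]
      exact pow_le_pow_left₀ (by positivity) h3 _
    have h7 : 1 + u ^ 2 ≤ (1 + |u|) ^ 2 := by
      rw [← sq_abs u]; nlinarith [abs_nonneg u]
    rw [Real.norm_of_nonneg (by positivity), ← div_eq_mul_inv, le_div_iff₀ (by positivity)]
    calc ‖Complex.Gamma s‖ * (1 + |u|) ^ J * (1 + u ^ 2)
        ≤ ‖Complex.Gamma s‖ * (1 + |u|) ^ J * (1 + |u|) ^ 2 := by gcongr
      _ = ‖Complex.Gamma s‖ * (1 + |u|) ^ (J + 2) := by ring
      _ ≤ ‖Complex.Gamma s‖ * (c ^ (J + 2) * ‖s‖ ^ (J + 2)) := by gcongr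
      _ = ‖Complex.Gamma s‖ * ‖s‖ ^ (J + 2) * c ^ (J + 2) := by ring
      _ ≤ Real.Gamma (σ + (J + 2 : ℕ)) * c ^ (J + 2) := by gcongr

theorem integrable_Wm_mul_pow (σ : ℝ) (J : ℕ) :
    Integrable (fun u : ℝ => ‖Wm (σ + u * Complex.I)‖ * (1 + |u|) ^ J) := by
  refine ((integrable_exp_neg_mul_sq (b := 1 / 8) (by norm_num)).const_mul
    (Real.sqrt Real.pi * Real.exp (σ ^ 2 / 4 + 2 * J ^ 2))).mono' ?_
    (Filter.Eventually.of_forall fun u => ?_)
  · exact ((differentiable_Wm.continuous.comp (by fun_prop)).norm.mul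
      (by fun_prop)).aestronglyMeasurable
  · rw [Real.norm_of_nonneg (by positivity), norm_Wm]
    have hre : ((σ : ℂ) + u * Complex.I).re = σ := by simp
    have him : ((σ : ℂ) + u * Complex.I).im = u := by simp
    have h1 : (1 + |u|) ^ J ≤ Real.exp (J * |u|) := by
      rw [Real.exp_nat_mul]
      exact pow_le_pow_left₀ (by positivity) (by linarith [Real.add_one_le_exp |u|]) _
    rw [hre, him, mul_assoc, mul_assoc, ← Real.exp_add]
    refine mul_le_mul_of_nonneg_left ?_ (Real.sqrt_nonneg _)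
    refine (mul_le_mul_of_nonneg_left h1 (Real.exp_pos _).le).trans ?_
    rw [← Real.exp_add, Real.exp_le_exp, ← sq_abs u]
    nlinarith [sq_nonneg (|u| - 4 * J)]

end WA

theorem norm_Wc {y : ℝ} (s : ℂ) :
    ‖Wc y s‖ = Real.exp (-(Real.log y) ^ 2 + s.re * Real.log y) :=
  WA.norm_Wc s
theorem norm_Wc_le (y : ℝ) (s : ℂ) : ‖Wc y s‖ ≤ Real.exp (s.re ^ 2 / 4) :=
  WA.norm_Wc_le y s
theorem Wc_add {y : ℝ} (hy : 0 < y) (s t : ℂ) : Wc y (s + t) = Wc y s * (y : ℂ) ^ t :=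
  WA.Wc_add hy s t
theorem conj_Wc (y : ℝ) (s : ℂ) : conj (Wc y s) = Wc y (conj s) :=
  WA.conj_Wc y s
/-- A real shift of the exponent is a dilation. -/
theorem Wc_shift {y : ℝ} (hy : 0 < y) (s : ℂ) (σ : ℝ) :
    Wc y (s + σ) = Complex.exp ((σ : ℂ) ^ 2 / 4 + s * σ / 2) * Wc (y / Real.exp (σ / 2)) s :=
  WA.Wc_shift hy s σ
/-- Super-polynomial decay at `0` and at `∞`. -/
theorem norm_Wc_le_rpow (A B : ℝ) : ∃ C : ℝ, 0 < C ∧ ∀ (y : ℝ) (s : ℂ), 0 < y → |s.re| ≤ B →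
    ‖Wc y s‖ ≤ C * y ^ A :=
  WA.norm_Wc_le_rpow A B
/-- Mellin transform and Mellin inversion. -/
theorem mellin_Wc (s t : ℂ) :
    ∫ y in Set.Ioi (0 : ℝ), Wc y t * (y : ℂ) ^ (s - 1) = Wm (s + t) :=
  WA.mellin_Wc s t
theorem Wc_eq_integral {y : ℝ} (hy : 0 < y) (σ : ℝ) (t : ℂ) :
    Wc y t = (1 / (2 * Real.pi) : ℂ) *
      ∫ u : ℝ, Wm (σ + u * Complex.I + t) * (y : ℂ) ^ (-(σ + u * Complex.I)) :=
  WA.Wc_eq_integral hy σ t
theorem norm_Wm (s : ℂ) :
    ‖Wm s‖ = Real.sqrt Real.pi * Real.exp ((s.re ^ 2 - s.im ^ 2) / 4) :=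
  WA.norm_Wm s
theorem Wm_ne_zero (s : ℂ) : Wm s ≠ 0 :=
  WA.Wm_ne_zero s
theorem differentiable_Wm : Differentiable ℂ Wm :=
  WA.differentiable_Wm
/-- Continuous partition of unity. -/
theorem integral_Wc_scale {y : ℝ} (hy : 0 < y) :
    ∫ v : ℝ, Wc (y / Real.exp v) 0 = (Real.sqrt Real.pi : ℂ) :=
  WA.integral_Wc_scale hy

theorem integrable_Gamma_mul_pow {σ : ℝ} (hσ : 0 < σ) (J : ℕ) :
    Integrable (fun u : ℝ => ‖Complex.Gamma (σ + u * Complex.I)‖ * (1 + |u|) ^ J) :=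
  WA.integrable_Gamma_mul_pow hσ J
theorem integrable_Wm_mul_pow (σ : ℝ) (J : ℕ) :
    Integrable (fun u : ℝ => ‖Wm (σ + u * Complex.I)‖ * (1 + |u|) ^ J) :=
  WA.integrable_Wm_mul_pow σ J

variable [Fr0]

/-- Smooth sums. -/
def Sm (b : O → ℂ) (X : ℝ) (s : ℂ) : ℂ := ∑' n : O, b n * Wc (nr n / X) s

/-- `b` vanishes at `0` and off the rows, and is bounded by `H · N(n)^B`. -/
structure PolyB (b : O → ℂ) (H B : ℝ) : Prop where
  left : b 0 = 0
  right : ∀ n, ‖b n‖ ≤ H * nr n ^ B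
  supp : ∀ n, ¬ Rep n → b n = 0

namespace WeightB

theorem H_nonneg {b : O → ℂ} {H B : ℝ} (hb : PolyB b H B) : 0 ≤ H := by
  have := (norm_nonneg _).trans (hb.2 1)
  simpa [nr] using this

open Classical in
/-- the majorant -/
def g (X : ℝ) (n : O) : ℝ := if n = 0 ∨ ¬ Rep n then 0 else min 1 ((nr n / X) ^ (-2 : ℝ))

theorem g_nonneg {X : ℝ} (hX : 0 < X) (n : O) : 0 ≤ g X n := by
  unfold g
  split_ifs
  · exact le_rfl
  · exact le_min zero_le_one (by positivity)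

theorem g_le_one (X : ℝ) (n : O) : g X n ≤ 1 := by
  unfold g
  split_ifs
  · exact zero_le_one
  · exact min_le_left _ _

theorem g_le {X : ℝ} (hX : 0 < X) (n : O) : g X n ≤ X ^ 2 * PW.rp 2 n := by
  unfold g
  split_ifs with h
  · exact mul_nonneg (by positivity) (PW.rp_nonneg _ _)
  · refine (min_le_right _ _).trans_eq ?_
    rw [PW.rp_of_rep (not_not.1 (not_or.1 h).2), Real.div_rpow (by positivity) hX.le, Real.rpow_neg hX.le, div_inv_eq_mul, mul_comm,
      Real.rpow_two]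

theorem summable_g {X : ℝ} (hX : 0 < X) : Summable (g X) :=
  Summable.of_nonneg_of_le (g_nonneg hX) (g_le hX)
    ((PW.summable_rp one_lt_two).mul_left _)

theorem tsum_g_le : ∃ C : ℝ, 0 < C ∧ ∀ X : ℝ, 0 < X → ∑' n, g X n ≤ C * X := by
  classical
  obtain ⟨C, hC, h⟩ := PW.sum_rp_tail one_lt_two
  have hZ : 0 ≤ ∑' n : O, PW.rp 2 n := tsum_nonneg fun n => PW.rp_nonneg _ _
  have h7 := c7_pos
  refine ⟨c7 + C + ∑' n : O, PW.rp 2 n, by positivity, fun X hX => ?_⟩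
  rcases le_total X 1 with h1 | h1
  · refine ((summable_g hX).tsum_le_tsum (g_le hX)
      ((PW.summable_rp one_lt_two).mul_left _)).trans ?_
    rw [tsum_mul_left]
    nlinarith [mul_nonneg hZ hX.le, mul_nonneg (mul_nonneg hZ hX.le) (sub_nonneg.2 h1),
      mul_pos h7 hX, mul_pos hC hX]
  · refine Real.tsum_le_of_sum_le (g_nonneg hX) fun S => ?_
    rw [← Finset.sum_filter_add_sum_filter_not S fun n => X ≤ nr n]
    have h2 : ∑ n ∈ S.filter fun n => X ≤ nr n, g X n ≤ C * X := by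
      refine (Finset.sum_le_sum fun n _ => g_le hX n).trans ?_
      rw [← Finset.mul_sum]
      refine (mul_le_mul_of_nonneg_left (h X _ h1 fun n hn => (Finset.mem_filter.1 hn).2)
        (by positivity)).trans_eq ?_
      rw [show (1 : ℝ) - 2 = -1 by norm_num, Real.rpow_neg_one]
      field_simp
    have h3 : ∑ n ∈ S.filter fun n => ¬ X ≤ nr n, g X n ≤ c7 * X := by
      have h4 : ∑ n ∈ S.filter fun n => ¬ X ≤ nr n, g X n ≤ ∑ n ∈ (ball ⌊X⌋₊).erase 0, g X n := by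
        rw [← Finset.sum_filter_ne_zero]
        refine Finset.sum_le_sum_of_subset_of_nonneg (fun n hn' => ?_)
          fun n _ _ => g_nonneg hX n
        obtain ⟨hn, h0⟩ := Finset.mem_filter.1 hn'
        have h5 : ¬ (n = 0 ∨ ¬ Rep n) := fun h => h0 (if_pos h)
        exact PW.mem_erase_ball.2 ⟨⟨(not_or.1 h5).1, not_not.1 (not_or.1 h5).2⟩,
          Nat.le_floor (not_le.1 (Finset.mem_filter.1 hn).2).le⟩
      refine h4.trans ((Finset.sum_le_card_nsmul _ _ 1 fun n _ => g_le_one X n).trans ?_)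
      rw [nsmul_eq_mul, mul_one]
      exact (PW.card_erase_le _).trans (mul_le_mul_of_nonneg_left (Nat.floor_le hX.le) h7.le)
    nlinarith [mul_nonneg hZ hX.le]

theorem pt (A B σ : ℝ) (hA : 0 ≤ A) : ∃ C : ℝ, 0 < C ∧ ∀ (y L : ℝ) (s : ℂ), 0 < y → 1 ≤ L →
    |s.re| ≤ σ → (L ≤ y ∨ y ≤ L⁻¹) →
      y ^ B * ‖Wc y s‖ ≤ C * L ^ (-A) * min 1 (y ^ (-2 : ℝ)) := by
  obtain ⟨C₁, h₁, H₁⟩ := norm_Wc_le_rpow (-(B + 2 + A)) σ
  obtain ⟨C₂, h₂, H₂⟩ := norm_Wc_le_rpow (A - B) σ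
  refine ⟨C₁ + C₂, by positivity, fun y L s hy hL hs h => ?_⟩
  have hL0 : 0 < L := by linarith
  have hLA : 0 < L ^ (-A) := by positivity
  rcases h with h | h
  · have h3 : y ^ (-A) ≤ L ^ (-A) := Real.rpow_le_rpow_of_nonpos hL0 h (by linarith)
    rw [min_eq_right (Real.rpow_le_one_of_one_le_of_nonpos (hL.trans h) (by norm_num))]
    calc y ^ B * ‖Wc y s‖ ≤ y ^ B * (C₁ * y ^ (-(B + 2 + A))) := by gcongr; exact H₁ y s hy hs
      _ = C₁ * y ^ (-A) * y ^ (-2 : ℝ) := by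
        rw [mul_left_comm, mul_assoc, ← Real.rpow_add hy, ← Real.rpow_add hy]
        congr 2
        ring
      _ ≤ (C₁ + C₂) * L ^ (-A) * y ^ (-2 : ℝ) := by gcongr; linarith
  · have h3 : y ^ A ≤ L ^ (-A) := by
      rw [Real.rpow_neg hL0.le, ← Real.inv_rpow hL0.le]
      exact Real.rpow_le_rpow hy.le h hA
    rw [min_eq_left (Real.one_le_rpow_of_pos_of_le_one_of_nonpos hy
      (h.trans (inv_le_one_of_one_le₀ hL)) (by norm_num)), mul_one]
    calc y ^ B * ‖Wc y s‖ ≤ y ^ B * (C₂ * y ^ (A - B)) := by gcongr; exact H₂ y s hy hs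
      _ = C₂ * y ^ A := by
        rw [mul_left_comm, ← Real.rpow_add hy]
        congr 2
        ring
      _ ≤ (C₁ + C₂) * L ^ (-A) := by gcongr; linarith

theorem term_le (A B σ : ℝ) (hA : 0 ≤ A) : ∃ C : ℝ, 0 < C ∧
    ∀ (b : O → ℂ) (H X L : ℝ) (s : ℂ), PolyB b H B → 0 < X → 1 ≤ L → |s.re| ≤ σ → ∀ n : O,
      (n ≠ 0 → L ≤ nr n / X ∨ nr n / X ≤ L⁻¹) →
      ‖b n * Wc (nr n / X) s‖ ≤ C * H * X ^ B * L ^ (-A) * g X n := by
  obtain ⟨C, hC, h⟩ := pt A B σ hA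
  refine ⟨C, hC, fun b H X L s hb hX hL hs n hn => ?_⟩
  by_cases h0 : n = 0
  · simp [h0, hb.1, g]
  by_cases hr : Rep n
  swap
  · simp [hr, hb.supp n hr, g]
  have hH := H_nonneg hb
  have hy : 0 < nr n / X := div_pos (nr_pos h0) hX
  have h1 := h _ L s hy hL hs (hn h0)
  rw [norm_mul, g, if_neg (not_or.2 ⟨h0, not_not.2 hr⟩)]
  calc ‖b n‖ * ‖Wc (nr n / X) s‖ ≤ H * nr n ^ B * ‖Wc (nr n / X) s‖ := by gcongr; exact hb.2 n
    _ = H * X ^ B * ((nr n / X) ^ B * ‖Wc (nr n / X) s‖) := by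
      rw [Real.div_rpow (by positivity) hX.le]
      field_simp
    _ ≤ H * X ^ B * (C * L ^ (-A) * min 1 ((nr n / X) ^ (-2 : ℝ))) := by gcongr
    _ = _ := by ring

theorem tsum_le : ∃ C : ℝ, 0 < C ∧ ∀ (f : O → ℝ) (K X : ℝ), 0 < X → 0 ≤ K → (∀ n, 0 ≤ f n) →
    (∀ n, f n ≤ K * g X n) → ∑' n, f n ≤ K * (C * X) := by
  obtain ⟨C, hC, h⟩ := tsum_g_le
  refine ⟨C, hC, fun f K X hX hK h0 h1 => ?_⟩
  have h2 := (summable_g hX).mul_left K
  refine ((Summable.of_nonneg_of_le h0 h1 h2).tsum_le_tsum h1 h2).trans ?_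
  rw [tsum_mul_left]
  exact mul_le_mul_of_nonneg_left (h X hX) hK

theorem one_or (y : ℝ) : 1 ≤ y ∨ y ≤ (1 : ℝ)⁻¹ := by
  rw [inv_one]
  exact le_total _ _

end WeightB

open WeightB

theorem summable_Sm {b : O → ℂ} {H B : ℝ} (hb : PolyB b H B) {X : ℝ} (hX : 0 < X) (s : ℂ) :
    Summable (fun n : O => ‖b n * Wc (nr n / X) s‖) := by
  obtain ⟨C, -, h⟩ := term_le 0 B |s.re| le_rfl
  exact Summable.of_nonneg_of_le (fun _ => norm_nonneg _)
    (fun n => h b H X 1 s hb hX le_rfl le_rfl n fun _ => one_or _) ((summable_g hX).mul_left _)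

/-- Trivial bound; for `X < 1` it decays faster than any power of `X`. -/
theorem tsum_norm_Sm_le (A B σ : ℝ) (hB : 0 ≤ B) : ∃ C : ℝ, 0 < C ∧
    ∀ (b : O → ℂ) (H X : ℝ) (s : ℂ), PolyB b H B → 0 < X → |s.re| ≤ σ →
      ∑' n : O, ‖b n * Wc (nr n / X) s‖ ≤ C * H * min (X ^ (B + 1)) (X ^ (B + 1 + |A|)) := by
  have _ := hB
  obtain ⟨C, hC, h⟩ := term_le |A| B σ (abs_nonneg A)
  obtain ⟨C', hC', h'⟩ := tsum_le
  refine ⟨C * C', by positivity, fun b H X s hb hX hs => ?_⟩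
  have hH := H_nonneg hb
  rcases le_total 1 X with h1 | h1
  · rw [min_eq_left (Real.rpow_le_rpow_of_exponent_le h1 (by linarith [abs_nonneg A]))]
    refine (h' _ _ X hX (by positivity) (fun _ => norm_nonneg _)
      fun n => h b H X 1 s hb hX le_rfl hs n fun _ => one_or _).trans_eq ?_
    rw [Real.one_rpow, Real.rpow_add_one hX.ne']
    ring
  · rw [min_eq_right (Real.rpow_le_rpow_of_exponent_ge hX h1 (by linarith [abs_nonneg A]))]
    refine (h' _ _ X hX (by positivity) (fun _ => norm_nonneg _)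
      fun n => h b H X X⁻¹ s hb hX ((one_le_inv₀ hX).2 h1) hs n fun hn => Or.inl ?_).trans_eq ?_
    · rw [← one_div]
      exact div_le_div_of_nonneg_right (one_le_nr hn) hX.le
    · rw [Real.inv_rpow hX.le, Real.rpow_neg hX.le, inv_inv, Real.rpow_add hX,
        Real.rpow_add_one hX.ne']
      ring

/-- Truncation to the window `[X/L, X L]` costs a negligible error. -/
theorem tsum_norm_Sm_tail_le (A B σ : ℝ) (hB : 0 ≤ B) : ∃ C : ℝ, 0 < C ∧
    ∀ (b : O → ℂ) (H X L : ℝ) (s : ℂ), PolyB b H B → 0 < X → 1 ≤ L → |s.re| ≤ σ →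
      ∑' n : O, (if X / L ≤ nr n ∧ nr n ≤ X * L then 0 else ‖b n * Wc (nr n / X) s‖)
        ≤ C * H * X ^ (B + 1) * L ^ (-A) := by
  have _ := hB
  obtain ⟨C, hC, h⟩ := term_le |A| B σ (abs_nonneg A)
  obtain ⟨C', hC', h'⟩ := tsum_le
  refine ⟨C * C', by positivity, fun b H X L s hb hX hL hs => ?_⟩
  have hH := H_nonneg hb
  have hL0 : 0 < L := by linarith
  refine (h' _ (C * H * X ^ B * L ^ (-|A|)) X hX (by positivity) (fun n => ?_) fun n => ?_).trans ?_
  · split_ifs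
    exacts [le_rfl, norm_nonneg _]
  · split_ifs with h1
    · have := g_nonneg hX n
      positivity
    · refine h b H X L s hb hX hL hs n fun _ => ?_
      rcases not_and_or.1 h1 with h2 | h2
      · right
        rw [div_le_iff₀ hX, inv_mul_eq_div]
        exact (not_le.1 h2).le
      · left
        rw [le_div_iff₀ hX, mul_comm]
        exact (not_le.1 h2).le
  · have h1 : L ^ (-|A|) ≤ L ^ (-A) :=
      Real.rpow_le_rpow_of_exponent_le hL (neg_le_neg (le_abs_self A))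
    rw [Real.rpow_add_one hX.ne']
    calc _ = C * C' * H * (X ^ B * X) * L ^ (-|A|) := by ring
      _ ≤ _ := by gcongr

theorem Sm_shift (b : O → ℂ) (hb : b 0 = 0) {X : ℝ} (hX : 0 < X) (s : ℂ) (σ : ℝ) :
    Sm b X (s + σ) = Complex.exp ((σ : ℂ) ^ 2 / 4 + s * σ / 2) * Sm b (X * Real.exp (σ / 2)) s := by
  rw [Sm, Sm, ← tsum_mul_left]
  refine tsum_congr fun n => ?_
  by_cases h0 : n = 0
  · simp [h0, hb]
  · rw [Wc_shift (div_pos (nr_pos h0) hX), div_div, mul_left_comm]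

/-- Mellin representation through the Dirichlet series. -/
theorem Sm_eq_integral {b : O → ℂ} {H B : ℝ} (hb : PolyB b H B) {X σ : ℝ} (hX : 0 < X)
    (hσ : B + 1 < σ) (t : ℂ) :
    Sm b X t = (1 / (2 * Real.pi) : ℂ) * ∫ u : ℝ, Wm (σ + u * Complex.I + t) *
      (X : ℂ) ^ (σ + u * Complex.I) * ∑' n : O, b n * (nr n : ℂ) ^ (-(σ + u * Complex.I)) := by
  have hH := H_nonneg hb
  have hX' : (X : ℂ) ≠ 0 := Complex.ofReal_ne_zero.2 hX.ne'
  have hW : Integrable fun u : ℝ => ‖Wm (σ + u * Complex.I + t)‖ := by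
    refine ((integrable_Wm_mul_pow (σ + t.re) 0).comp_add_right t.im).congr
      (Filter.Eventually.of_forall fun u => ?_)
    simp only [pow_zero, mul_one]
    congr 2
    conv_rhs => rw [← Complex.re_add_im t]
    push_cast
    ring
  have hn : ∀ (n : O) (u : ℝ), ‖Wm (σ + u * Complex.I + t) * (X : ℂ) ^ (σ + u * Complex.I) *
      (b n * (nr n : ℂ) ^ (-(σ + u * Complex.I)))‖ =
      X ^ σ * (‖b n‖ * nr n ^ (-σ)) * ‖Wm (σ + u * Complex.I + t)‖ := by
    intro n u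
    by_cases h0 : n = 0
    · simp [h0, hb.1]
    · rw [norm_mul, norm_mul, norm_mul, Complex.norm_cpow_eq_rpow_re_of_pos hX,
        Complex.norm_cpow_eq_rpow_re_of_pos (nr_pos h0)]
      simp only [Complex.add_re, Complex.neg_re, Complex.ofReal_re, Complex.mul_re, Complex.I_re,
        Complex.ofReal_im, Complex.I_im, mul_zero, zero_mul, sub_self, add_zero]
      ring
  have hi : ∀ n : O, Integrable fun u : ℝ => Wm (σ + u * Complex.I + t) *
      (X : ℂ) ^ (σ + u * Complex.I) * (b n * (nr n : ℂ) ^ (-(σ + u * Complex.I))) := by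
    intro n
    by_cases h0 : n = 0
    · simp [h0, hb.1]
    refine (hW.const_mul _).mono' (Continuous.aestronglyMeasurable ?_)
      (Filter.Eventually.of_forall fun u => (hn n u).le)
    refine ((differentiable_Wm.continuous.comp (by fun_prop)).mul
      (Continuous.const_cpow (by fun_prop) (Or.inl hX'))).mul (continuous_const.mul
      (Continuous.const_cpow (by fun_prop) (Or.inl ?_)))
    exact Complex.ofReal_ne_zero.2 (nr_pos h0).ne'
  have hs : Summable fun n : O => ‖b n‖ * nr n ^ (-σ) := by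
    refine Summable.of_nonneg_of_le (fun n => by positivity) (fun n => ?_)
      ((PW.summable_rp (σ := σ - B) (by linarith)).mul_left H)
    by_cases h0 : n = 0
    · rw [h0, hb.1, norm_zero, zero_mul]
      exact mul_nonneg hH (PW.rp_nonneg _ _)
    by_cases hr : Rep n
    swap
    · rw [hb.supp n hr, norm_zero, zero_mul]
      exact mul_nonneg hH (PW.rp_nonneg _ _)
    · rw [PW.rp_of_rep hr, show -(σ - B) = B + -σ by ring, Real.rpow_add (nr_pos h0), ← mul_assoc]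
      exact mul_le_mul_of_nonneg_right (hb.2 n) (by positivity)
  simp only [← tsum_mul_left]
  rw [← integral_tsum_of_summable_integral_norm hi, ← tsum_mul_left, Sm]
  · refine tsum_congr fun n => ?_
    by_cases h0 : n = 0
    · simp [h0, hb.1]
    rw [Wc_eq_integral (div_pos (nr_pos h0) hX) σ t, mul_left_comm, ← integral_const_mul]
    congr 2
    funext u
    rw [Complex.ofReal_div, Complex.div_cpow_ofReal_nonneg (nr_pos h0).le hX.le,
      Complex.cpow_neg (X : ℂ), div_inv_eq_mul]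
    ring
  · simp only [hn, integral_const_mul]
    exact (hs.mul_left _).mul_right _

namespace WeightB

theorem differentiable_Sm {b : O → ℂ} {H B : ℝ} (hb : PolyB b H B) {X : ℝ} (hX : 0 < X) :
    Differentiable ℂ (Sm b X) := by
  intro s
  obtain ⟨C, -, h⟩ := term_le 0 B (|s.re| + 1) le_rfl
  have hU : IsOpen {w : ℂ | |w.re| < |s.re| + 1} := isOpen_lt (by fun_prop) continuous_const
  refine (Complex.differentiableOn_tsum_of_summable_norm
    (F := fun n w => b n * Wc (nr n / X) w) ((summable_g hX).mul_left _)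
    (fun n => Differentiable.differentiableOn ?_) hU
    fun n w hw => h b H X 1 w hb hX le_rfl (le_of_lt hw) n fun _ => one_or _).differentiableAt
    (hU.mem_nhds (lt_add_one |s.re|))
  unfold Wc
  fun_prop

theorem Sm_eq (b : O → ℂ) (hb : b 0 = 0) {X : ℝ} (hX : 0 < X) (z : ℂ) :
    Sm b (X * Real.exp (z.re / 2)) (z.im * Complex.I) =
      Complex.exp (-((z.re : ℂ) ^ 2 / 4 + z.im * Complex.I * z.re / 2)) * Sm b X z := by
  have := Sm_shift b hb hX (z.im * Complex.I) z.re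
  rw [add_comm, Complex.re_add_im] at this
  rw [this, ← mul_assoc, ← Complex.exp_add, neg_add_cancel, Complex.exp_zero, one_mul]

theorem norm_Sm_eq (b : O → ℂ) (hb : b 0 = 0) {X : ℝ} (hX : 0 < X) (z : ℂ) :
    ‖Sm b X z‖ = Real.exp (z.re ^ 2 / 4) * ‖Sm b (X * Real.exp (z.re / 2)) (z.im * Complex.I)‖ := by
  have := Sm_shift b hb hX (z.im * Complex.I) z.re
  rw [add_comm, Complex.re_add_im] at this
  rw [this, norm_mul, Complex.norm_exp]
  congr 2
  rw [show (z.re : ℂ) ^ 2 / 4 + z.im * Complex.I * z.re / 2 =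
    ((z.re ^ 2 / 4 : ℝ) : ℂ) + ((z.im * z.re / 2 : ℝ) : ℂ) * Complex.I by push_cast; ring]
  simp only [Complex.add_re, Complex.ofReal_re, Complex.mul_re, Complex.I_re, Complex.ofReal_im,
    Complex.I_im, mul_zero, zero_mul, sub_self, add_zero]

/-- the circle of integration -/
def cz (t₀ u : ℝ) : ℂ := circleMap ⟨1, t₀ + 1 / 2⟩ (3 / 2) (2 * Real.pi * u)

theorem continuous_cz (t₀ : ℝ) : Continuous (cz t₀) :=
  (continuous_circleMap _ _).comp (by fun_prop)

theorem norm_cz (t₀ u : ℝ) : ‖cz t₀ u - ⟨1, t₀ + 1 / 2⟩‖ = 3 / 2 := by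
  rw [cz, circleMap_sub_center, norm_circleMap_zero, abs_of_pos (by norm_num)]

theorem cz_mem (t₀ u : ℝ) : |(cz t₀ u).re - 1| ≤ 3 / 2 ∧ |(cz t₀ u).im - (t₀ + 1 / 2)| ≤ 3 / 2 :=
  ⟨(Complex.abs_re_le_norm (cz t₀ u - ⟨1, t₀ + 1 / 2⟩)).trans_eq (norm_cz t₀ u),
    (Complex.abs_im_le_norm (cz t₀ u - ⟨1, t₀ + 1 / 2⟩)).trans_eq (norm_cz t₀ u)⟩

theorem cauchy {f : ℂ → ℂ} (hf : Differentiable ℂ f) (t₀ : ℝ) {w : ℂ}
    (hw : ‖w - ⟨1, t₀ + 1 / 2⟩‖ ≤ 5 / 4) : ‖f w‖ ≤ 6 * ∫ u in (0 : ℝ)..1, ‖f (cz t₀ u)‖ := by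
  have hpi := Real.pi_pos
  have h1 := (hf.differentiableOn (s := Metric.closedBall ⟨1, t₀ + 1 / 2⟩ (3 / 2))
    ).circleIntegral_sub_inv_smul (w := w) (by rw [mem_ball_iff_norm]; linarith)
  have h2 : ‖∮ z in C(⟨1, t₀ + 1 / 2⟩, 3 / 2), (z - w)⁻¹ • f z‖ ≤
      ∫ θ in (0 : ℝ)..2 * Real.pi, 6 * ‖f (circleMap ⟨1, t₀ + 1 / 2⟩ (3 / 2) θ)‖ := by
    refine intervalIntegral.norm_integral_le_of_norm_le (by positivity)
      (Filter.Eventually.of_forall fun θ _ => ?_) (Continuous.intervalIntegrable ?_ _ _)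
    · have h3 : 1 / 4 ≤ ‖circleMap ⟨1, t₀ + 1 / 2⟩ (3 / 2) θ - w‖ := by
        have h4 := norm_add_le (circleMap ⟨1, t₀ + 1 / 2⟩ (3 / 2) θ - w) (w - ⟨1, t₀ + 1 / 2⟩)
        rw [sub_add_sub_cancel, circleMap_sub_center, norm_circleMap_zero,
          abs_of_pos (by norm_num)] at h4
        linarith
      rw [norm_smul, norm_smul, deriv_circleMap, norm_mul, norm_circleMap_zero, Complex.norm_I,
        abs_of_pos (by norm_num), norm_inv, ← mul_assoc]
      refine mul_le_mul_of_nonneg_right ?_ (norm_nonneg _)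
      have h4 := inv_anti₀ (by norm_num) h3
      linarith
    · exact continuous_const.mul (hf.continuous.comp (continuous_circleMap _ _)).norm
  have h3 := intervalIntegral.smul_integral_comp_mul_left (a := 0) (b := 1)
    (fun θ => ‖f (circleMap ⟨1, t₀ + 1 / 2⟩ (3 / 2) θ)‖) (2 * Real.pi)
  rw [mul_zero, mul_one, smul_eq_mul] at h3
  rw [h1, intervalIntegral.integral_const_mul, ← h3, norm_smul, norm_mul, norm_mul,
    Complex.norm_I, Complex.norm_real, Complex.norm_two, Real.norm_of_nonneg hpi.le, mul_one,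
    mul_left_comm (6 : ℝ)] at h2
  exact le_of_mul_le_mul_left h2 (by positivity)

/-- the curve of scales and heights -/
def cv (X t₀ u : ℝ) : ℝ × ℝ := (X * Real.exp ((cz t₀ u).re / 2), (cz t₀ u).im)

theorem continuous_cv (X t₀ : ℝ) : Continuous (cv X t₀) := by
  have := continuous_cz t₀
  unfold cv
  fun_prop

theorem cv_mem {X : ℝ} (hX : 0 < X) (t₀ u : ℝ) :
    cv X t₀ u ∈ Set.Icc (X / 4) (8 * X) ×ˢ Set.Icc (t₀ - 1) (t₀ + 2) := by
  obtain ⟨h1, h2⟩ := cz_mem t₀ u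
  rw [abs_le] at h1 h2
  have h3 := Real.add_one_le_exp ((cz t₀ u).re / 2)
  have h4 : Real.exp ((cz t₀ u).re / 2) ≤ 8 := by
    have h5 := Real.exp_one_lt_d9
    have h6 := Real.exp_pos 1
    refine (Real.exp_le_exp.2 (show _ ≤ (1 : ℝ) + 1 by linarith)).trans ?_
    rw [Real.exp_add]
    nlinarith
  refine ⟨⟨?_, ?_⟩, ?_, ?_⟩ <;> simp only [cv] <;> nlinarith

theorem continuous_Sm_cv {b : O → ℂ} {H B : ℝ} (hb : PolyB b H B) {X : ℝ} (hX : 0 < X) (t₀ : ℝ) :
    Continuous fun u => Sm b (cv X t₀ u).1 ((cv X t₀ u).2 * Complex.I) := by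
  have h1 := continuous_cz t₀
  have h2 := (differentiable_Sm hb hX).continuous
  simp only [cv, Sm_eq b hb.1 hX]
  fun_prop

theorem sup_aux {b : O → ℂ} {H B : ℝ} (hb : PolyB b H B) {X : ℝ} (hX : 0 < X) (t₀ : ℝ) {Y t : ℝ}
    (hY : Y ∈ Set.Icc X (2 * X)) (ht : t ∈ Set.Icc t₀ (t₀ + 1)) :
    ‖Sm b Y (t * Complex.I)‖ ≤ 6 * Real.exp 2 *
      ∫ u in Set.Ioc (0 : ℝ) 1, ‖Sm b (cv X t₀ u).1 ((cv X t₀ u).2 * Complex.I)‖ := by
  have hY0 : 0 < Y / X := div_pos (hX.trans_le hY.1) hX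
  have h1 : 0 ≤ Real.log (Y / X) := Real.log_nonneg ((one_le_div hX).2 hY.1)
  have h2 : Real.log (Y / X) ≤ 1 := by
    have := Real.log_le_sub_one_of_pos hY0
    have h3 : Y / X ≤ 2 := (div_le_iff₀ hX).2 hY.2
    linarith
  have h3 := norm_Sm_eq b hb.1 hX ⟨2 * Real.log (Y / X), t⟩
  rw [mul_div_cancel_left₀ _ two_ne_zero, Real.exp_log hY0, mul_div_cancel₀ _ hX.ne'] at h3
  have h4 := cauchy (differentiable_Sm hb hX) t₀ (w := ⟨2 * Real.log (Y / X), t⟩) (by
    refine abs_le_of_sq_le_sq' ?_ (by norm_num) |>.2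
    rw [Complex.sq_norm, Complex.normSq_apply]
    simp only [Complex.sub_re, Complex.sub_im]
    nlinarith [ht.1, ht.2])
  have h5 : ∫ u in (0 : ℝ)..1, ‖Sm b X (cz t₀ u)‖ ≤ ∫ u in (0 : ℝ)..1,
      Real.exp 2 * ‖Sm b (cv X t₀ u).1 ((cv X t₀ u).2 * Complex.I)‖ := by
    refine intervalIntegral.integral_mono_on zero_le_one
      (((differentiable_Sm hb hX).continuous.comp (continuous_cz t₀)).norm.intervalIntegrable _ _)
      ((continuous_const.mul (continuous_Sm_cv hb hX t₀).norm).intervalIntegrable _ _)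
      fun u _ => ?_
    rw [norm_Sm_eq b hb.1 hX]
    refine mul_le_mul_of_nonneg_right (Real.exp_le_exp.2 ?_) (norm_nonneg _)
    have h6 := abs_le.1 (cz_mem t₀ u).1
    nlinarith [h6.1, h6.2]
  rw [intervalIntegral.integral_const_mul, intervalIntegral.integral_of_le zero_le_one
    (f := fun u => ‖Sm b (cv X t₀ u).1 ((cv X t₀ u).2 * Complex.I)‖)] at h5
  have h6 : ‖Sm b Y (t * Complex.I)‖ ≤ ‖Sm b X ⟨2 * Real.log (Y / X), t⟩‖ := by
    rw [h3]
    exact le_mul_of_one_le_left (norm_nonneg _) (Real.one_le_exp (by positivity))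
  linarith

instance probIoc : IsProbabilityMeasure (volume.restrict (Set.Ioc (0 : ℝ) 1)) := ⟨by simp⟩

theorem window (k : ℕ) {ρ : Type} (S : Finset ρ) {w : ρ → ℝ} {b : ρ → O → ℂ} {H B X E t₀ : ℝ}
    {Y t : ρ → ℝ} (hw : ∀ r, 0 ≤ w r) (hb : ∀ r, PolyB (b r) H B) (hX : 0 < X)
    (hY : ∀ r ∈ S, Y r ∈ Set.Icc X (2 * X)) (ht : ∀ r ∈ S, t r ∈ Set.Icc t₀ (t₀ + 1))
    (hE : ∀ Y' ∈ Set.Icc (X / 4) (8 * X), ∀ t' ∈ Set.Icc (t₀ - 1) (t₀ + 2),
      ∑ r ∈ S, w r * ‖Sm (b r) Y' (t' * Complex.I)‖ ^ k ≤ E) :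
    ∑ r ∈ S, w r * ‖Sm (b r) (Y r) (t r * Complex.I)‖ ^ k ≤ (6 * Real.exp 2) ^ k * E := by
  have hc := fun r => (continuous_Sm_cv (hb r) hX t₀).norm
  have hi : ∀ r, IntegrableOn (fun u => ‖Sm (b r) (cv X t₀ u).1 ((cv X t₀ u).2 * Complex.I)‖ ^ k)
      (Set.Ioc 0 1) := fun r => ((hc r).pow k).integrableOn_Ioc
  have h1 : ∀ r ∈ S, w r * ‖Sm (b r) (Y r) (t r * Complex.I)‖ ^ k ≤ (6 * Real.exp 2) ^ k *
      ∫ u in Set.Ioc (0 : ℝ) 1,
        w r * ‖Sm (b r) (cv X t₀ u).1 ((cv X t₀ u).2 * Complex.I)‖ ^ k := by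
    intro r hr
    rw [integral_const_mul, mul_left_comm]
    refine mul_le_mul_of_nonneg_left ?_ (hw r)
    refine (pow_le_pow_left₀ (norm_nonneg _) (sup_aux (hb r) hX t₀ (hY r hr) (ht r hr)) k).trans ?_
    rw [mul_pow]
    refine mul_le_mul_of_nonneg_left ?_ (by positivity)
    exact (convexOn_pow k).map_integral_le (continuous_pow k).continuousOn isClosed_Ici
      (Filter.Eventually.of_forall fun u => norm_nonneg _) (hc r).integrableOn_Ioc (hi r)
  refine (Finset.sum_le_sum h1).trans ?_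
  rw [← Finset.mul_sum, ← integral_finsetSum _ fun r _ => (hi r).const_mul _]
  refine mul_le_mul_of_nonneg_left ?_ (by positivity)
  refine (integral_mono (integrable_finsetSum _ fun r _ => (hi r).const_mul _)
    (integrable_const E) fun u => hE _ (cv_mem hX t₀ u).1 _ (cv_mem hX t₀ u).2).trans_eq ?_
  simp

end WeightB

/-- **Sup lemma** (Cauchy's formula for the entire function `F`).  There is an absolute constant
`C` such that for every dyadic range of scales `[X, 2X]` and every unit range of heights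
`[t₀, t₀ + 1]` there is a finite measure `μ` (independent of the coefficients) of mass
`≤ C (1 + |t₀|)²`, carried by `[X/4, 8X] × [t₀ - 1, t₀ + 2]`, which dominates the supremum. -/
theorem sup_lemma : ∃ C : ℝ, 0 < C ∧ ∀ (X t₀ : ℝ), 0 < X → ∃ μ : Measure (ℝ × ℝ),
    IsFiniteMeasure μ ∧ μ.real Set.univ ≤ C * (1 + |t₀|) ^ 2 ∧
    μ (Set.Icc (X / 4) (8 * X) ×ˢ Set.Icc (t₀ - 1) (t₀ + 2))ᶜ = 0 ∧
    ∀ (b : O → ℂ) (H B : ℝ), PolyB b H B →
      Integrable (fun v : ℝ × ℝ => Sm b v.1 (v.2 * Complex.I)) μ ∧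
      ∀ Y ∈ Set.Icc X (2 * X), ∀ t ∈ Set.Icc t₀ (t₀ + 1),
        ‖Sm b Y (t * Complex.I)‖ ≤ ∫ v, ‖Sm b v.1 (v.2 * Complex.I)‖ ∂μ := by
  have hK : (0 : ℝ) < 6 * Real.exp 2 := by positivity
  refine ⟨6 * Real.exp 2, hK, fun X t₀ hX => ?_⟩
  have hm := (continuous_cv X t₀).measurable
  have hS : MeasurableSet (Set.Icc (X / 4) (8 * X) ×ˢ Set.Icc (t₀ - 1) (t₀ + 2)) :=
    measurableSet_Icc.prod measurableSet_Icc
  have hae : ∀ᵐ v ∂((volume.restrict (Set.Ioc (0 : ℝ) 1)).map (cv X t₀)),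
      v ∈ Set.Icc (X / 4) (8 * X) ×ˢ Set.Icc (t₀ - 1) (t₀ + 2) :=
    (ae_map_iff hm.aemeasurable hS).2 (Filter.Eventually.of_forall (cv_mem hX t₀))
  have := Measure.isProbabilityMeasure_map (μ := volume.restrict (Set.Ioc (0 : ℝ) 1))
    hm.aemeasurable
  refine ⟨Real.toNNReal (6 * Real.exp 2) • (volume.restrict (Set.Ioc (0 : ℝ) 1)).map (cv X t₀),
    inferInstance, ?_, ?_, fun b H B hb => ?_⟩
  · rw [measureReal_nnreal_smul_apply, probReal_univ, mul_one, Real.coe_toNNReal _ hK.le]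
    exact le_mul_of_one_le_right hK.le (one_le_pow₀ (le_add_of_nonneg_right (abs_nonneg _)))
  · rw [Measure.coe_nnreal_smul_apply]
    exact mul_eq_zero_of_right _ (mem_ae_iff.1 hae)
  have hc := (differentiable_Sm hb hX).continuous.measurable
  have hM : AEStronglyMeasurable (fun v : ℝ × ℝ => Sm b v.1 (v.2 * Complex.I))
      ((volume.restrict (Set.Ioc (0 : ℝ) 1)).map (cv X t₀)) := by
    refine (Measurable.aestronglyMeasurable (f := fun v : ℝ × ℝ =>
      Complex.exp (-(((2 * Real.log (v.1 / X) : ℝ) : ℂ) ^ 2 / 4 +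
        v.2 * Complex.I * ((2 * Real.log (v.1 / X) : ℝ) : ℂ) / 2)) *
        Sm b X (((2 * Real.log (v.1 / X) : ℝ) : ℂ) + v.2 * Complex.I)) (by fun_prop)).congr ?_
    filter_upwards [hae] with v hv
    have h1 : 0 < v.1 / X := div_pos (lt_of_lt_of_le (by positivity) hv.1.1) hX
    have h2 := Sm_eq b hb.1 hX ⟨2 * Real.log (v.1 / X), v.2⟩
    dsimp only at h2
    rw [mul_div_cancel_left₀ _ two_ne_zero, Real.exp_log h1, mul_div_cancel₀ _ hX.ne',
      Complex.mk_eq_add_mul_I] at h2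
    exact h2.symm
  refine ⟨Integrable.smul_measure_nnreal ((integrable_map_measure hM hm.aemeasurable).2
    (continuous_Sm_cv hb hX t₀).integrableOn_Ioc), fun Y hY t ht => ?_⟩
  rw [integral_smul_nnreal_measure, integral_map hm.aemeasurable hM.norm, NNReal.smul_def,
    Real.coe_toNNReal _ hK.le, smul_eq_mul]
  exact sup_aux hb hX t₀ hY ht

/-- Consequence for moments: a bound for a `k`-th moment at every fixed scale and height implies
the same bound when scale and height depend on the row (within a dyadic range / a window). -/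
theorem sup_moment (k : ℕ) : ∃ C : ℝ, 0 < C ∧ ∀ {ρ : Type} (S : Finset ρ) (w : ρ → ℝ)
    (b : ρ → O → ℂ) (H B X T E : ℝ) (Y t : ρ → ℝ), (∀ r, 0 ≤ w r) → (∀ r, PolyB (b r) H B) →
    0 < X → 0 ≤ T → (∀ r ∈ S, Y r ∈ Set.Icc X (2 * X)) → (∀ r ∈ S, |t r| ≤ T) →
    (∀ Y' ∈ Set.Icc (X / 4) (8 * X), ∀ t' : ℝ, |t'| ≤ T + 3 →
      ∑ r ∈ S, w r * ‖Sm (b r) Y' (t' * Complex.I)‖ ^ k ≤ E) →
    ∑ r ∈ S, w r * ‖Sm (b r) (Y r) (t r * Complex.I)‖ ^ k ≤ C * (1 + T) ^ (2 * k + 1) * E := by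
  classical
  refine ⟨3 * (6 * Real.exp 2) ^ k, by positivity, ?_⟩
  intro ρ S w b H B X T E Y t hw hb hX hT hY ht hE
  have hE0 : 0 ≤ E := (Finset.sum_nonneg fun r _ => mul_nonneg (hw r) (by positivity)).trans
    (hE X ⟨by linarith, by linarith⟩ 0 (by rw [abs_zero]; linarith))
  have hfl := Nat.floor_le hT
  rw [← Finset.sum_fiberwise_of_maps_to (t := Finset.Icc (-(⌊T⌋₊ : ℤ) - 1) ⌊T⌋₊)
    (g := fun r => ⌊t r⌋) fun r hr => ?_]
  · refine (Finset.sum_le_card_nsmul _ _ ((6 * Real.exp 2) ^ k * E) fun j hj => ?_).trans ?_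
    · rw [Finset.mem_Icc] at hj
      have h1 : -(⌊T⌋₊ : ℝ) - 1 ≤ j := by exact_mod_cast hj.1
      have h2 : (j : ℝ) ≤ ⌊T⌋₊ := by exact_mod_cast hj.2
      refine window k _ (t₀ := j) hw hb hX (fun r hr => hY r (Finset.mem_filter.1 hr).1)
        (fun r hr => ?_) fun Y' hY' t' ht' => le_trans ?_ (hE Y' hY' t' ?_)
      · rw [← (Finset.mem_filter.1 hr).2]
        exact ⟨Int.floor_le _, (Int.lt_floor_add_one _).le⟩
      · exact Finset.sum_le_sum_of_subset_of_nonneg (Finset.filter_subset _ _)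
          fun r _ _ => mul_nonneg (hw r) (by positivity)
      · rw [abs_le]
        constructor <;> linarith [ht'.1, ht'.2]
    · have h1 : (Finset.Icc (-(⌊T⌋₊ : ℤ) - 1) ⌊T⌋₊).card = 2 * ⌊T⌋₊ + 2 := by
        rw [Int.card_Icc]
        omega
      have h2 : 1 + T ≤ (1 + T) ^ (2 * k + 1) := le_self_pow₀ (by linarith) (by omega)
      rw [h1, nsmul_eq_mul]
      push_cast
      calc _ ≤ 3 * (1 + T) ^ (2 * k + 1) * ((6 * Real.exp 2) ^ k * E) := by
            gcongr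
            linarith
        _ = _ := by ring
  · have h1 := abs_le.1 (ht r hr)
    have h2 := Nat.lt_floor_add_one T
    rw [Finset.mem_Icc, Int.le_floor, ← Int.lt_add_one_iff, Int.floor_lt]
    push_cast
    constructor <;> linarith [h1.1, h1.2]

end Crest.Agent.T27
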