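import Crest.Agent.T27.RfA_59
import Crest.Agent.T27.Recip_55
import Crest.Agent.T27.Weight_23
import Crest.Agent.T27.ReflDefs_56
import Crest.Agent.T27.MelA_71

/-!
# Row 27 (helper59): the reflection formula on the frame, `refl_59 : Rf.VorFr → ReflStmt`
-/

set_option autoImplicit false
set_option linter.unusedSectionVars false

noncomputable section

namespace Crest.Agent.T27.Rf

open scoped ComplexConjugate

section A

variable [Fr0]

theorem th_of_not {n : O} (hn : ¬ Primary n) : th n = 0 := if_neg fun h => hn h.1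

theorem norm_th_le (n : O) : ‖th n‖ ≤ nr n ^ (1 / 2 : ℝ) := by
  by_cases h : Primary n ∧ ∀ p ∈ pf n, vp p n % 3 ≠ 2
  · obtain ⟨e, h1, h2, h3⟩ := eq_sq1_mul_cu h.1 h.2
    have hd : cu n ∣ n := ⟨sq1 n * cu n ^ 2, by
      conv_lhs => rw [e]
      ring⟩
    rw [show th n = _ from if_pos h, norm_mul, norm_mul, norm_div, norm_gc h1 h2, Complex.norm_real,
      Complex.norm_real, Real.norm_of_nonneg (Real.sqrt_nonneg _),
      Real.norm_of_nonneg (Real.sqrt_nonneg _), div_self (Real.sqrt_pos.2 (nr_pos h1.ne_zero)).ne',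
      Complex.norm_conj, norm_arg h.1.ne_zero, one_mul, mul_one, ← Real.sqrt_eq_rpow]
    exact Real.sqrt_le_sqrt (by exact_mod_cast nm_le_of_dvd hd h.1.ne_zero)
  · rw [show th n = 0 from if_neg h, norm_zero]
    positivity

theorem summable_th {f : O → ℂ} {B : ℝ} (hf : ∀ x, ‖f x‖ ≤ B) {X : ℝ} (hX : 0 < X) (s : ℂ) :
    Summable fun x : O => th x * f x * Wc (nr x / X) s := by
  have hB : 0 ≤ B := (norm_nonneg _).trans (hf 0)
  have : PolyB (fun x => th x * f x) B (1 / 2) := by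
    refine ⟨?_, fun n => ?_, fun n hn => ?_⟩
    · rw [th_of_not fun h => h.ne_zero rfl, zero_mul]
    · rw [norm_mul, mul_comm]
      exact mul_le_mul (hf n) (norm_th_le n) (norm_nonneg _) hB
    · rw [th_of_not fun h => hn h.rep, zero_mul]
  exact (summable_Sm this hX s).of_norm

theorem norm_ft_le (q : O) {f : O → ℂ} (hf : ∀ x, ‖f x‖ ≤ 1) (k : O) :
    ‖ft q f k‖ ≤ (res q).card := by
  unfold ft
  refine (norm_sum_le _ _).trans ?_
  calc ∑ x ∈ res q, ‖f x * eq (k * x) q‖ ≤ ∑ _x ∈ res q, (1 : ℝ) :=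
        Finset.sum_le_sum fun x _ => by rw [norm_mul, norm_eq, mul_one]; exact hf _
    _ = _ := by simp

/-- Absolute convergence of the dual double series. -/
theorem summable_dual {I : Type} {a : I → ℝ} (ha : IdxOK a) {Kr : ℂ → ℂ → ℂ} {V : ℝ → ℂ → ℂ}
    (hK : R17.KernelOK Kr V) {C : ℝ} {B : I → O → ℂ}
    (hB : ∀ i ν, B i ν ≠ 0 → ∃ n d, Primary n ∧ Squarefree n ∧ Primary d ∧ ν = n * d ^ 3 ∧
      ‖B i ν‖ ≤ C * Real.sqrt (a i) * Real.sqrt (nr d))
    {f : I × O → ℂ} {M : ℝ} (hM : 0 ≤ M) (hf : ∀ p, ‖f p‖ ≤ M) {X Y : ℝ} (hX : 0 < X) (hY : 0 < Y)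
    (s : ℂ) : Summable fun p : I × O => B p.1 p.2 * f p * V (a p.1 * nr p.2 * X / Y) s := by
  obtain ⟨⟨c₀, hc₀, hc⟩, hs⟩ := ha
  have hpos : ∀ i, 0 < a i := fun i => hc₀.trans_le (hc i)
  have hN : ∀ p : I × O, 0 < a p.1 * max 1 (nr p.2) := fun p =>
    mul_pos (hpos _) (lt_max_of_lt_left one_pos)
  have h1 : Summable fun p : I × O => a p.1 ^ (-(5 / 2 : ℝ)) * PW.rp 2 p.2 :=
    (hs (5 / 2) (by norm_num)).mul_of_nonneg (PW.summable_rp (by norm_num))
      (fun i => Real.rpow_nonneg (hpos i).le _) (PW.rp_nonneg 2)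
  have hb : Summable fun p : I × O =>
      ‖B p.1 p.2 * f p‖ * (a p.1 * max 1 (nr p.2)) ^ (-((3 : ℕ) : ℝ)) := by
    refine Summable.of_nonneg_of_le (fun p => mul_nonneg (norm_nonneg _)
      (Real.rpow_nonneg (hN p).le _)) (fun p => ?_) (h1.mul_left (|C| * M))
    have hr := PW.rp_nonneg 2 p.2
    have ha0 := hpos p.1
    by_cases h0 : B p.1 p.2 = 0
    · rw [h0, zero_mul, norm_zero, zero_mul]
      positivity
    obtain ⟨n, d, hn, -, hd, e, hbd⟩ := hB _ _ h0
    have hν : Primary p.2 := e ▸ hn.mul (hd.pow 3)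
    have h2 := one_le_nr hν.ne_zero
    have h3 : Real.sqrt (nr d) ≤ nr p.2 := by
      have h4 := one_le_nr hd.ne_zero
      have h5 : nr d ≤ nr p.2 := by
        have : d ∣ p.2 := ⟨n * d ^ 2, by rw [e]; ring⟩
        exact_mod_cast nm_le_of_dvd this hν.ne_zero
      exact (Real.sqrt_le_iff.2 ⟨by linarith, by nlinarith⟩).trans h5
    rw [max_eq_right h2, PW.rp_of_rep hν.rep, Real.mul_rpow ha0.le (by linarith), norm_mul]
    have h6 : ‖B p.1 p.2‖ ≤ |C| * Real.sqrt (a p.1) * nr p.2 :=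
      hbd.trans (by gcongr; exact le_abs_self C)
    have h7 : Real.sqrt (a p.1) * a p.1 ^ (-((3 : ℕ) : ℝ)) = a p.1 ^ (-(5 / 2 : ℝ)) := by
      rw [Real.sqrt_eq_rpow, ← Real.rpow_add ha0]
      norm_num
    have h8 : nr p.2 * nr p.2 ^ (-((3 : ℕ) : ℝ)) = nr p.2 ^ (-(2 : ℝ)) := by
      rw [mul_comm, ← Real.rpow_add_one (by linarith)]
      norm_num
    calc _ ≤ (|C| * Real.sqrt (a p.1) * nr p.2) * M *
          (a p.1 ^ (-((3 : ℕ) : ℝ)) * nr p.2 ^ (-((3 : ℕ) : ℝ))) := by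
          have := hf p
          gcongr
      _ = _ := by rw [← h7, ← h8]; ring
  refine (Mel.summable_mul_V hK hN hb (div_pos hX hY) s).of_norm.congr fun p => ?_
  by_cases h0 : B p.1 p.2 = 0
  · simp [h0]
  obtain ⟨n, d, hn, -, hd, e, -⟩ := hB _ _ h0
  have hν : Primary p.2 := e ▸ hn.mul (hd.pow 3)
  rw [max_eq_right (one_le_nr hν.ne_zero)]
  congr 2
  ring

open Classical in
/-- Separation of the generic modulus `k` from the active modulus `r`. -/
theorem core {I : Type} {a : I → ℝ} {t : I → O} {V : ℝ → ℂ → ℂ} {B : I → O → ℂ} {w : ℂ}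
    {c : WithZero Cl} {k r h : O} (hk : Primary k) (hks : Squarefree k) (hr : Primary r)
    (hkr : IsCoprime k r) {X : ℝ} {s : ℂ}
    (hV : (∑' n : O, if cls n = c then
        th n * ft (k * r) (fun x => sym k x ^ 5 * psiH h r x) n * Wc (nr n / X) s else 0) =
      w * ((X / nr (k * r) : ℝ) : ℂ) * ∑' p : I × O, B p.1 p.2 *
        ft (k * r) (dualChr (k * r) fun x => sym k x ^ 5 * psiH h r x) (-(t p.1 * p.2)) *
          V (a p.1 * nr p.2 * X / nr (k * r) ^ 2) s) :
    ∃ ρ : ℂ, ‖ρ‖ ≤ 1 ∧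
      (∑' n : O, if cls n = c then th n * (sym k n * ft r (psiH h r) n) * Wc (nr n / X) s else 0) =
        ρ * w * ((X / (nr k * nr r) : ℝ) : ℂ) * ∑' p : I × O,
          B p.1 p.2 * ft r (dualChr r (psiH h r)) (-(t p.1 * p.2)) * quad k (t p.1) * quad k p.2 *
            V (a p.1 * nr p.2 * X / (nr k * nr r) ^ 2) s := by
  have hk0 := hk.ne_zero
  have hr0 := hr.ne_zero
  have h1 := isChr_sym_pow hk.po (j := 5) (by norm_num)
  have h2 := isChr_psiH h hr.po
  have d1 := h1.dual hk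
  have d2 := h2.dual hr
  have n1 : ‖sym k r ^ 5‖ = 1 := h1.norm r hkr.symm
  have n2 : ‖psiH h r k‖ = 1 := h2.norm k hkr
  have sa : 0 < Real.sqrt (nr k) := Real.sqrt_pos.2 (nr_pos hk0)
  have g3 := Gauss_norm_gs (j := 3) (by norm_num) hk.po hks
  have g5 := Gauss_norm_gs (j := 5) (by norm_num) hk.po hks
  have ne : ∀ {z : ℂ}, ‖z‖ = 1 → z ≠ 0 := fun hw => norm_ne_zero_iff.1 (hw ▸ one_ne_zero)
  have e1 := ne n1
  have e2 := ne n2
  have e5 : gs 5 k 1 ≠ 0 := norm_ne_zero_iff.1 (g5 ▸ sa.ne')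
  refine ⟨dualChr k (fun x => sym k x ^ 5) r / sym k r ^ 5 * (dualChr r (psiH h r) k / psiH h r k) *
    quad k (-1) * (gs 3 k 1 / gs 5 k 1), O3_mul_le (O3_mul_le (O3_mul_le
      (O3_div_le (O3_norm_le d1 _) n1) (O3_div_le (O3_norm_le d2 _) n2)) (norm_quad_le _ _))
      (by rw [norm_div, g3, g5, div_self sa.ne']), ?_⟩
  rw [O3_dual_mul hk0 hr0] at hV
  simp only [h1.ft_mul hk0 hr0 hkr h2, d1.ft_mul hk0 hr0 hkr d2, ← sym_eq_ft hk.po hks,
    ft_dual_five hk.po hks, nr_mul, quad_mul_right' k (t _)] at hV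
  have a1 : (∑' n : O, if cls n = c then th n * (sym k r ^ 5 * psiH h r k * (sym k n * gs 5 k 1) *
      ft r (psiH h r) n) * Wc (nr n / X) s else 0) = sym k r ^ 5 * psiH h r k * gs 5 k 1 *
      ∑' n : O, if cls n = c then th n * (sym k n * ft r (psiH h r) n) * Wc (nr n / X) s else 0 := by
    rw [← tsum_mul_left]
    refine tsum_congr fun n => ?_
    split_ifs
    · ring
    · rw [mul_zero]
  have a2 : (∑' p : I × O, B p.1 p.2 * (dualChr k (fun x => sym k x ^ 5) r * dualChr r (psiH h r) k *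
      (quad k (-1) * gs 3 k 1 * (quad k (t p.1) * quad k p.2)) *
        ft r (dualChr r (psiH h r)) (-(t p.1 * p.2))) *
          V (a p.1 * nr p.2 * X / (nr k * nr r) ^ 2) s) =
      dualChr k (fun x => sym k x ^ 5) r * dualChr r (psiH h r) k * quad k (-1) * gs 3 k 1 *
        ∑' p : I × O, B p.1 p.2 * ft r (dualChr r (psiH h r)) (-(t p.1 * p.2)) * quad k (t p.1) *
          quad k p.2 * V (a p.1 * nr p.2 * X / (nr k * nr r) ^ 2) s := by
    rw [← tsum_mul_left]
    exact tsum_congr fun p => by ring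
  rw [a1, a2] at hV
  refine mul_left_cancel₀ (mul_ne_zero (mul_ne_zero e1 e2) e5) (hV.trans ?_)
  generalize sym k r ^ 5 = y at e1 ⊢
  field_simp

end A

section B

variable [Fr]

open Classical in
/-- Splitting into classes of columns and active parts. -/
theorem split [Fintype Cl] {rep : Cl → O} (hrep : ∀ c, cls (rep c) = (c : WithZero Cl)) {φ : O → ℂ}
    (hφ : ClsB φ) {k h : O} (hk : Primary k) (hh : Primary h) {coef : O → ℂ}
    (hcoef : ∀ x, sym h x = ∑ r ∈ pdiv (rad h), coef r * ft r (psiH h r) x) {X : ℝ} (hX : 0 < X)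
    (s : ℂ) : TT φ X s (k * h) = ∑ c : Cl, ∑ r ∈ pdiv (rad h),
      φ (rep c) * Rs (rep c) (k * h) * coef r * ∑' n : O, if cls n = (c : WithZero Cl) then
        th n * (sym k n * ft r (psiH h r) n) * Wc (nr n / X) s else 0 := by
  have hsum : ∀ c : Cl, ∀ r ∈ pdiv (rad h), Summable fun n : O =>
      φ (rep c) * Rs (rep c) (k * h) * coef r * if cls n = (c : WithZero Cl) then
        th n * (sym k n * ft r (psiH h r) n) * Wc (nr n / X) s else 0 := by
    intro c r hr
    refine Summable.mul_left _ ?_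
    have hr' := (mem_pdiv (primary_rad h).ne_zero).1 hr
    have := summable_th (f := fun n => if cls n = (c : WithZero Cl) then
      sym k n * ft r (psiH h r) n else 0) (B := 1 * (res r).card) (fun n => by
        split_ifs
        · rw [norm_mul]
          have a1 := norm_sym_le k n
          have a2 := norm_ft_le r (O3_norm_le (isChr_psiH h hr'.1.po)) n
          gcongr
        · rw [norm_zero]
          positivity) hX s
    refine this.congr fun n => ?_
    split_ifs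
    · rfl
    · rw [mul_zero, zero_mul]
  simp_rw [← tsum_mul_left]
  rw [Finset.sum_congr rfl fun c _ => (Summable.tsum_finsetSum (hsum c)).symm,
    ← Summable.tsum_finsetSum fun c _ => summable_sum (hsum c)]
  refine tsum_congr fun n => ?_
  by_cases hn : Primary n
  · obtain ⟨c₀, hc₀⟩ := WithZero.ne_zero_iff_exists.1 (cls_ne_zero hn.ne_zero)
    rw [Finset.sum_eq_single c₀]
    · simp only [if_pos hc₀.symm]
      have e : cls n = cls (rep c₀) := by rw [hrep, hc₀]
      rw [hφ.2 n _ e, sym_recip' hn.ne_zero (hk.mul hh).ne_zero, Rs_congr e rfl,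
        sym_mul_left hk.ne_zero hh.ne_zero, hcoef n]
      simp only [Finset.mul_sum, Finset.sum_mul]
      exact Finset.sum_congr rfl fun r _ => by ring
    · intro c _ hc
      refine Finset.sum_eq_zero fun r _ => ?_
      rw [if_neg, mul_zero]
      intro e
      exact hc (WithZero.coe_inj.1 (e.symm.trans hc₀.symm))
    · simp
  · simp [th_of_not hn]

/-- **Reflection.** -/
theorem refl_59 (hV : VorFr) : ReflStmt := by
  classical
  obtain ⟨I, a, t, C, Kr, V, Γ, hΓ, γ, B, ω, ha0, ha, hK, ht, hγ, hω, hB, hV⟩ := hV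
  let _ : Fintype Cl := Fintype.ofFinite _
  let _ : Fintype Γ := Fintype.ofFinite _
  have hI : IdxOK a := ⟨ha0, ha⟩
  choose rep hrep using fun c : Cl => cls_surjective (c : WithZero Cl)
  have hrep0 : ∀ c, rep c ≠ 0 := fun c h0 => by
    have := hrep c
    rw [h0, map_zero] at this
    exact WithZero.zero_ne_coe this
  have hG : ∀ g : Γ, ∃ x : O, ∀ y, Primary y → γ y = g → Primary x ∧ γ x = g := fun g => by
    by_cases hg : ∃ y, Primary y ∧ γ y = g
    · obtain ⟨y, hy⟩ := hg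
      exact ⟨y, fun _ _ _ => hy⟩
    · exact ⟨0, fun y h1 h2 => absurd ⟨y, h1, h2⟩ hg⟩
  choose rG hrG using hG
  refine ⟨Cl × Γ × Cl, inferInstance, fun _ => I, fun _ => a, C, Kr, V, fun _ => hI, hK, ?_⟩
  intro φ hφ h hh
  obtain ⟨coef, hcoef, hcb⟩ := sym_eq_sum hh.po
  refine ⟨fun i r p => B i.1 (γ (rG i.2.1 * r)) p.1 p.2 *
    (coef r * ft r (dualChr r (psiH h r)) (-(t p.1 * p.2))) * quad (rep i.2.2) (t p.1), ?_, ?_⟩
  · intro i r hr j ν hν
    beta_reduce at hν ⊢
    obtain ⟨n, d, hn, hns, hd, e, hbd⟩ := hB _ _ _ _ (left_ne_zero_of_mul (left_ne_zero_of_mul hν))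
    refine ⟨n, d, hn, hns, hd, e, ?_⟩
    have a1 := hcb r hr (t j * ν)
    simp only [(ht j).dvd_mul_left] at a1
    have a2 := norm_quad_le (rep i.2.2) (t j)
    have a3 := (norm_nonneg _).trans hbd
    have a4 := (norm_nonneg _).trans a1
    rw [norm_mul, norm_mul]
    calc _ ≤ (C * Real.sqrt (a j) * Real.sqrt (nr d)) * (∏ p ∈ (pf r).filter (fun p => vp p h % 6 = 4),
          ((Real.sqrt (nr p))⁻¹ + if p ∣ ν then Real.sqrt (nr p) else 0)) * 1 := by gcongr
      _ = _ := mul_one _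
  intro k hk X hX s
  obtain ⟨hk1, hks, hkh⟩ := hk
  have hcore : ∀ (c : Cl) (r : O), ∃ ρ : ℂ, ‖ρ‖ ≤ 1 ∧ (r ∈ pdiv (rad h) →
      (∑' n : O, if cls n = (c : WithZero Cl) then
        th n * (sym k n * ft r (psiH h r) n) * Wc (nr n / X) s else 0) =
        ρ * ω c (k * r) * ((X / (nr k * nr r) : ℝ) : ℂ) * ∑' p : I × O,
          B c (γ (k * r)) p.1 p.2 * ft r (dualChr r (psiH h r)) (-(t p.1 * p.2)) * quad k (t p.1) *
            quad k p.2 * V (a p.1 * nr p.2 * X / (nr k * nr r) ^ 2) s) := by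
    intro c r
    by_cases hr : r ∈ pdiv (rad h)
    swap
    · exact ⟨0, by simp, fun h' => absurd h' hr⟩
    have hr' := (mem_pdiv (primary_rad h).ne_zero).1 hr
    have hkr : IsCoprime k r := hkh.of_isCoprime_of_dvd_right (hr'.2.trans (rad_dvd h))
    have hD := hk1.mul hr'.1
    have hψ := (isChr_sym_pow hk1.po (j := 5) (by norm_num)).mul_mul (isChr_psiH h hr'.1.po)
    have h1 := hV c (k * r) _ hD hψ (fun v hv hv1 => by
      rw [psiH, sym_of_cls_one hv hv1, one_pow, one_mul]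
      exact Finset.prod_eq_one fun p _ => by rw [sym_of_cls_one hv hv1, one_pow]) X hX s
    have h2 := summable_dual hI hK (hB c (γ (k * r)))
      (f := fun p => ft (k * r) (dualChr (k * r) fun x => sym k x ^ 5 * psiH h r x) (-(t p.1 * p.2)))
      (Nat.cast_nonneg _) (fun p => norm_ft_le _ (O3_norm_le (hψ.dual hD)) _) hX
      (pow_pos (nr_pos hD.ne_zero) 2) s
    rw [← h2.tsum_prod] at h1
    obtain ⟨ρ, hρ, h3⟩ := core (c := (c : WithZero Cl)) (h := h) (a := a) (t := t) (V := V)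
      (B := B c (γ (k * r))) (w := ω c (k * r)) (X := X) (s := s) hk1 hks hr'.1 hkr
      (by convert h1)
    exact ⟨ρ, hρ, fun _ => h3⟩
  choose ρ hρ hcore using hcore
  obtain ⟨ck, hck⟩ := WithZero.ne_zero_iff_exists.1 (cls_ne_zero hk1.ne_zero)
  refine ⟨fun i r => if i.2 = (γ k, ck) then
    φ (rep i.1) * Rs (rep i.1) (k * h) * ρ i.1 r * ω i.1 (k * r) else 0, fun i r => ?_, ?_⟩
  · beta_reduce
    split_ifs
    · exact O3_mul_le (O3_mul_le (O3_mul_le (hφ.1 _)
        (norm_Rs (hrep0 _) (hk1.mul hh).ne_zero).le) (hρ _ _)) (hω _ _)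
    · simp
  rw [split hrep hφ hk1 hh hcoef hX s, Fintype.sum_prod_type]
  refine Finset.sum_congr rfl fun c _ => ?_
  rw [Finset.sum_eq_single (γ k, ck)]
  · refine Finset.sum_congr rfl fun r hr => ?_
    have hr' := (mem_pdiv (primary_rad h).ne_zero).1 hr
    obtain ⟨g1, g2⟩ := hrG (γ k) k hk1 rfl
    have hq : ∀ j, quad (rep ck) (t j) = quad k (t j) := fun j =>
      quad_unit_congr (hrep0 ck) ((hrep ck).trans hck) (ht j)
    simp only [if_true, hγ _ _ r g1 hk1 hr'.1 g2, hq]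
    rw [hcore c r hr]
    have : (∑' p : I × O, B c (γ (k * r)) p.1 p.2 *
        (coef r * ft r (dualChr r (psiH h r)) (-(t p.1 * p.2))) * quad k (t p.1) * quad k p.2 *
          V (a p.1 * nr p.2 * X / (nr k * nr r) ^ 2) s) = coef r * ∑' p : I × O,
        B c (γ (k * r)) p.1 p.2 * ft r (dualChr r (psiH h r)) (-(t p.1 * p.2)) * quad k (t p.1) *
          quad k p.2 * V (a p.1 * nr p.2 * X / (nr k * nr r) ^ 2) s := by
      rw [← tsum_mul_left]
      exact tsum_congr fun p => by ring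
    rw [this]
    ring
  · intro x _ hx
    exact Finset.sum_eq_zero fun r _ => by simp [if_neg hx]
  · simp

end B

end Crest.Agent.T27.Rf
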