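import Crest.Agent.T27.PsdP_51
import Crest.Agent.T27.DomA_91
import Crest.Agent.T27.P4S_17
import Crest.Agent.T27.Amp_84
import Crest.Agent.T27.En_56
import Crest.Agent.T27.Refl_59
import Crest.Agent.T27.Refl2_59

/-!
# Row 27: the analytic core on the frame (glue, helper51)

`LS2Stmt → Rf.VorFr → MobFr`.
-/

set_option autoImplicit false

noncomputable section

namespace Crest.Agent.T27

/-- The analytic core: the quadratic large sieve and the twisted Voronoi formula give the power
saving for the Möbius function of the frame. -/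
theorem mobFr_of_ls2_51 [Fr] (hL : LS2Stmt) (hV : Rf.VorFr) : MobFr :=
  mobFr_84 (sStmt_17 (psd_51 dom_91) (enAll_56 hL (Rf.refl_59 hV)))

/-- The same from the reflection statement. -/
theorem mobFr_of_refl_51 [Fr] (hL : LS2Stmt) (hR : ReflStmt) : MobFr :=
  mobFr_84 (sStmt_17 (psd_51 dom_91) (enAll_56 hL hR))

/-- The same from the weaker Voronoi interface. -/
theorem mobFr_of_vor2_51 [Fr] (hL : LS2Stmt) (hV : Rf.VorFr2) : MobFr :=
  mobFr_of_refl_51 hL (Rf.refl2_59 hV)

end Crest.Agent.T27
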