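import Crest.Agent.T27.ThB_54

/-!
# Row 27, theta leaf B4 (helper78): constant terms at all cusps
-/

set_option autoImplicit false
set_option linter.unusedSectionVars false

noncomputable section

namespace Crest.Agent.T27.TH.Cusp78

open scoped ComplexConjugate
open NumberField

variable {F : Type} [Field F] [NumberField F] [Emb F] [Ar F]

omit [Ar F] in
theorem eF_zero : eF (0 : F) = 1 := by simp [eF, eV, em]

omit [Ar F] in
theorem nF_mul (x y : F) : nF (x * y) = nF x * nF y := by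
  simp only [nF, em, map_mul, norm_mul, mul_pow, Finset.prod_mul_distrib]

omit [Ar F] in
theorem nF_pos {x : F} (hx : x ≠ 0) : 0 < nF x :=
  Finset.prod_pos fun _ _ => pow_pos (norm_pos_iff.2 ((map_ne_zero _).2 hx)) 2

omit [Ar F] in
theorem nF_one : nF (1 : F) = 1 := by simp [nF, em]

theorem N_ne : (Ar.N F : F) ≠ 0 := by
  have := Ar.two_le (F := F)
  exact Nat.cast_ne_zero.2 (by omega)

theorem test_zero {f : F × F → ℂ} (h : Test f) : f 0 = 0 := by
  obtain ⟨j, h⟩ := h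
  by_contra h0
  obtain ⟨-, -, a, -, b, -, hab⟩ := h.supp 0 h0
  simp only [Prod.fst_zero, Prod.snd_zero, mul_zero, add_zero] at hab
  exact pow_ne_zero j N_ne hab.symm

theorem det_tri {ρ b e : F} (hρ : ρ ≠ 0) (he : e ≠ 0) : (!![ρ, b; 0, e] : Mat F).det ≠ 0 := by
  rw [Matrix.det_fin_two_of, mul_zero, sub_zero]
  exact mul_ne_zero hρ he

theorem det_gam (α : F) {β : F} (hβ : β ≠ 0) : (gam α β).det = 1 := by
  rw [gam, Matrix.det_fin_two_of]
  field_simp
  ring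

section

variable (hO : OpStmt F) (hD : DensStmt F) (hR : RowStmt F) {κ₀ : ℝ}
  (hκ : ∀ f : F × F → ℂ, Test f → WDk (mf (xiF f) 0) k0 ((κ₀ : ℂ) * LamF f))

include hO hD hR hκ in
/-- The density of the constant term at the cusp given by a Hermite decomposition. -/
theorem wdk_tri {f : F × F → ℂ} (h : Test f) {ρ b e : F} {σ : Mat F} (hρ : ρ ≠ 0) (he : e ≠ 0)
    (hσ : σ.det = 1) (hσR : InR σ) :
    WDk (mf (tr (xiF f) (!![ρ, b; 0, e] * σ)) 0) k0
      ((nF e : ℂ) * (((nF ρ ^ (1 / 3 : ℝ) : ℝ) : ℂ) *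
        (syR (σ 1 0, σ 1 1) * ((κ₀ : ℂ) * LamF (rho σ f))))) := by
  have h1 := hO.test_rho f σ hσ h
  have h2 := hO.adm _ h1
  have h3 := hD.smulk (syR (σ 1 0, σ 1 1)) _ _ _ (hκ _ h1)
  have h4 := hD.scalek _ _ _ ρ hρ (fun c hc h0 => hc (by simp [mf, h0])) h3
  have h5 := hD.smulk (nF e : ℂ) _ _ _ h4
  convert h5 using 1
  funext c
  rw [tr_mul, hO.master f σ hσ hσR, hR.mf_tri _ (hR.adm_smul _ _ h2) ρ b e 0 c hρ he,
    hR.mf_smul _ _ h2]
  simp only [zero_mul, zero_div, neg_zero, eF_zero, mul_one]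

include hO hD hR hκ in
theorem good {f : F × F → ℂ} (h : Test f) : Good (xiF f) := by
  refine ⟨hO.adm f h, fun γ => ?_⟩
  obtain ⟨ρ, b, e, σ, hρ, he, hσ, hσR, hγ⟩ := hO.hermite (γ : Mat F) (by
    rw [γ.det_coe]; exact one_ne_zero)
  rw [hγ]
  exact ⟨_, wdk_tri hO hD hR hκ h hρ he hσ hσR⟩

include hO hD hR hκ in
theorem tau_herm (hT : TauStmt F) {f : F × F → ℂ} (h : Test f) {ρ b e : F} {σ : Mat F} (hρ : ρ ≠ 0)
    (he : e ≠ 0) (hσ : σ.det = 1) (hσR : InR σ) :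
    tau (tr (xiF f) (!![ρ, b; 0, e] * σ)) 0 =
      (nF e : ℂ) * (((nF ρ ^ (1 / 3 : ℝ) : ℝ) : ℂ) *
        (syR (σ 1 0, σ 1 1) * ((κ₀ : ℂ) * LamF (rho σ f)))) :=
  hT.tau_ct _ _ (hT.good_tr _ _ (good hO hD hR hκ h) (by
    rw [Matrix.det_mul, hσ, mul_one]; exact det_tri hρ he)) (wdk_tri hO hD hR hκ h hρ he hσ hσR)

include hO hD hR hκ in
theorem tau_cusp (hT : TauStmt F) (hI : IntStmt F) {f : F × F → ℂ} (h : Test f) {g : Mat F}
    {ρ α β : F} (hg : g.det ≠ 0) (hρ : ρ ≠ 0) (hβ : β ≠ 0) (hc : Cop α β)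
    (h0 : g 1 0 = -(ρ * β)) (h1 : g 1 1 = ρ * α) :
    tau (tr (xiF f) g) 0 =
      ((nF ρ ^ (2 / 3 : ℝ) * nF g.det ^ (1 / 3 : ℝ) : ℝ) : ℂ) * (κ₀ * Ar.sy α β * CF f α β) := by
  obtain ⟨hα, hβR, a, ha, b, hb, hab⟩ := hc
  set σ : Mat F := !![a, b; -β, α] with hσ
  have hσ1 : σ.det = 1 := by
    rw [hσ, Matrix.det_fin_two_of]
    linear_combination hab
  have hσR : InR σ := by
    intro i j
    fin_cases i <;> fin_cases j
    · exact ha
    · exact hb
    · exact neg_mem hβR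
    · exact hα
  have hdet : g.det = ρ * (g 0 0 * α + g 0 1 * β) := by
    rw [Matrix.det_fin_two, h0, h1]
    ring
  set ρ' := g 0 0 * α + g 0 1 * β with hρ'
  have hρ0 : ρ' ≠ 0 := fun h => hg (by rw [hdet, h, mul_zero])
  have hgσ : g = !![ρ', g 0 1 * a - g 0 0 * b; 0, ρ] * σ := by
    rw [hσ, Matrix.mul_fin_two]
    ext i j
    fin_cases i <;> fin_cases j
    · change g 0 0 = ρ' * a + (g 0 1 * a - g 0 0 * b) * -β
      rw [hρ']
      linear_combination (-g 0 0) * hab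
    · change g 0 1 = ρ' * b + (g 0 1 * a - g 0 0 * b) * α
      rw [hρ']
      linear_combination (-g 0 1) * hab
    · change g 1 0 = 0 * a + ρ * -β
      rw [h0]
      ring
    · change g 1 1 = 0 * b + ρ * α
      rw [h1]
      ring
  have e1 : syR (σ 1 0, σ 1 1) = Ar.sy α β := by
    change syR (-β, α) = _
    rw [syR, if_neg (neg_ne_zero.2 hβ)]
    change Ar.sy α (-β) = _
    have hm : (-1 : F) ∈ (Ar.R : Subring F) := neg_mem (one_mem _)
    rw [← neg_one_mul, Ar.sy_mul_right α hα (-1) hm β hβR (by simp) hβ,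
      Ar.sy_unit α hα (-1) hm (by simp) (by rw [inv_neg, inv_one]; exact hm), one_mul]
  have e2 : σ = ((nT (-a / β) : SL F) : Mat F) * gam α β := by
    change σ = !![1, -a / β; 0, 1] * gam α β
    rw [hσ, gam, Matrix.mul_fin_two]
    ext i j
    fin_cases i <;> fin_cases j
    · change a = 1 * 0 + -a / β * -β
      field_simp
      ring
    · change b = 1 * β⁻¹ + -a / β * α
      field_simp
      linear_combination hab
    · change -β = 0 * 0 + 1 * -β
      ring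
    · change α = 0 * β⁻¹ + 1 * α
      ring
  have e3 : LamF (rho σ f) = CF f α β := by
    rw [e2, hO.rho_nT_mul f _ _ (det_gam α hβ) (test_zero h),
      hI.lam_nT _ _ (hO.test_rho f _ (det_gam α hβ) h), CF]
  have e4 : nF ρ ^ (2 / 3 : ℝ) * nF g.det ^ (1 / 3 : ℝ) = nF ρ * nF ρ' ^ (1 / 3 : ℝ) := by
    have p1 := nF_pos hρ
    rw [hdet, nF_mul, Real.mul_rpow p1.le (nF_pos hρ0).le, ← mul_assoc, ← Real.rpow_add p1]
    norm_num
  rw [e4]
  conv_lhs => rw [hgσ]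
  rw [tau_herm hO hD hR hκ hT h hρ0 hρ hσ1 hσR, e1, e3]
  push_cast
  ring

include hO hD hR hκ in
theorem tau_opS (hT : TauStmt F) (hI : IntStmt F) (hΘ : ThetaStmt F) {f : F × F → ℂ} (h : Test f)
    {m : F} (hm : m ≠ 0) (r : F) :
    tau (xiF (opS m f)) r = ((absS m ^ 4)⁻¹ : ℝ) * tau (xiF f) r := by
  set a : ℂ := -(((absS m ^ 4)⁻¹ : ℝ) : ℂ) with ha
  have hS := hO.test_opS f m hm h
  have g1 := good hO hD hR hκ hS
  have g2 := good hO hD hR hκ h
  have g3 := hT.good_smul a _ g2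
  have h1 := hΘ.vanish _ (hT.good_add _ _ g1 g3) (fun γ => by
    have hγ0 : (γ : Mat F).det ≠ 0 := by rw [γ.det_coe]; exact one_ne_zero
    have e1 : tr (xiF (opS m f) + fun u => a * xiF f u) (γ : Mat F) =
        tr (xiF (opS m f)) (γ : Mat F) + fun u => a * tr (xiF f) (γ : Mat F) u := rfl
    have g4 := hT.good_tr _ _ g2 hγ0
    rw [e1, hT.tau_add _ _ (hT.good_tr _ _ g1 hγ0) (hT.good_smul a _ g4), hT.tau_smul a _ g4]
    obtain ⟨ρ, b, e, σ, hρ, he, hσ, hσR, hγ⟩ := hO.hermite (γ : Mat F) hγ0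
    rw [hγ, tau_herm hO hD hR hκ hT hS hρ he hσ hσR, tau_herm hO hD hR hκ hT h hρ he hσ hσR,
      hO.rho_opS f σ m hσ hm, hI.lam_opS _ m (hO.test_rho f σ hσ h) hm, ha]
    ring) r
  rw [hT.tau_add _ _ g1 g3, hT.tau_smul a _ g2, ha] at h1
  linear_combination h1

theorem mem_R_of_int {x : F} (hx : IsIntegral ℤ x) : x ∈ (Ar.R : Subring F) :=
  (Ar.mem_R x).2 ⟨0, by simpa using hx⟩

theorem mem_R_of_pow {x : F} {k : ℕ} (hx : (Ar.N F : F) ^ k * x ∈ (Ar.R : Subring F)) :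
    x ∈ (Ar.R : Subring F) := by
  obtain ⟨i, hi⟩ := (Ar.mem_R _).1 hx
  exact (Ar.mem_R x).2 ⟨i + k, by rwa [pow_add, mul_assoc]⟩

include hO hD hR hκ in
theorem tau_mem (hT : TauStmt F) {f : F × F → ℂ} (h : Test f) {r : F} (hr : tau (xiF f) r ≠ 0) :
    r ∈ (Ar.R : Subring F) := by
  have g := good hO hD hR hκ h
  obtain ⟨j, hj⟩ := h
  have key : ∀ t ∈ (Ar.R : Subring F), Deep j t → eF (-(r * t)) = 1 := by
    intro t ht hd
    have h0 : Deep j (0 : F) := ⟨0, zero_mem _, by simp⟩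
    have hK : KJ j (nT t) := by
      intro i i'
      fin_cases i <;> fin_cases i'
      · simpa [nT, mkSL] using h0
      · simpa [nT, mkSL] using hd
      · simpa [nT, mkSL] using h0
      · simpa [nT, mkSL] using h0
    have hin : InR (!![1, t; 0, 1] : Mat F) := by
      intro i i'
      fin_cases i <;> fin_cases i'
      · exact one_mem _
      · exact ht
      · exact zero_mem _
      · exact one_mem _
    have e1 : tr (xiF f) !![1, t; 0, 1] = xiF f := by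
      have e2 : rho !![1, t; 0, 1] f = f := hj.inv (nT t) hK
      rw [hO.master f _ (by simp) hin, e2]
      funext u
      simp [syR]
    have e3 := hT.tau_tri _ g 1 t 1 r one_ne_zero one_ne_zero
    rw [e1] at e3
    simp only [nF_one, Real.one_rpow, mul_one, div_one, Complex.ofReal_one, one_mul] at e3
    exact (mul_eq_right₀ hr).1 e3.symm
  obtain ⟨k, hk⟩ := Ar.pow_mem_L r
  have hN : ((Ar.N F : ℕ) : F) ∈ (Ar.L : Subring F) := natCast_mem _ _
  have hr' : (Ar.N F : F) ^ (j + k) * r ∈ (Ar.L : Subring F) := by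
    rw [pow_add, mul_assoc]
    exact mul_mem (pow_mem hN j) hk
  refine mem_R_of_pow (k := j + k) (Ar.psi_prim _ fun y hy => ?_)
  obtain ⟨m, hm, hm'⟩ := (Ar.mem_L _).1 hr'
  have hm0 : (m : F) ≠ 0 := by
    refine Nat.cast_ne_zero.2 fun h0 => ?_
    have := Ar.two_le (F := F)
    rw [h0, Nat.coprime_zero_left] at hm
    omega
  obtain ⟨ρ, hρ, l, hl, e⟩ := Ar.approx (y / m) (m : F)⁻¹ (inv_ne_zero hm0)
  have e1 : l = y - m * ρ := by
    field_simp at e
    linear_combination -e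
  have hlR : l ∈ (Ar.R : Subring F) := by
    rw [e1]
    exact sub_mem hy (mul_mem (natCast_mem _ _) hρ)
  have e2 : (Ar.N F : F) ^ (j + k) * r * y =
      (m * ((Ar.N F : F) ^ (j + k) * r)) * ρ + (Ar.N F : F) ^ (j + k) * r * l := by
    rw [e1]
    ring
  rw [e2, Ar.psi_add, Ar.psi_R _ (mul_mem (mem_R_of_int hm') hρ), one_mul,
    Ar.psi_L _ (mul_mem hr' hl)]
  have h1 := key (-((Ar.N F : F) ^ (j + k) * l))
    (neg_mem (mul_mem (pow_mem (natCast_mem _ _) _) hlR))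
    ⟨-((Ar.N F : F) ^ k * l), neg_mem (mul_mem (pow_mem hN k) hl), by ring⟩
  rw [← h1]
  congr 1
  ring

end

end Crest.Agent.T27.TH.Cusp78

namespace Crest.Agent.T27.TH

open Cusp78

/-- **Leaf B4.** -/
theorem cusp_78 (F : Type) [Field F] [NumberField F] [Emb F] [Ar F] (hO : OpStmt F) (hI : IntStmt F)
    (hΛ : LamStmt F) (hT : TauStmt F) (hΘ : ThetaStmt F) (hD : DensStmt F) (hR : RowStmt F) :
    CuspStmt F := by
  obtain ⟨κ₀, h0, hκ⟩ := hΛ
  exact ⟨κ₀, h0, fun f h => ⟨good hO hD hR hκ h, hT.tau_ct _ _ (good hO hD hR hκ h) (hκ f h),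
    fun g ρ α β hg hρ hβ hc h1 h2 => tau_cusp hO hD hR hκ hT hI h hg hρ hβ hc h1 h2,
    fun m hm r => tau_opS hO hD hR hκ hT hI hΘ h hm r, fun r hr => tau_mem hO hD hR hκ hT h hr⟩⟩

end Crest.Agent.T27.TH
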