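import Crest.Agent.PVc.R17.ThetaDens

/-!
# Row 27, theta module A4: weak densities on `ℝ₊^r` (real analysis only, logarithmic coordinates)

A family of points `ℓ c ∈ ι → ℝ` (`ℓ c j = log |c_j|²`) carries weights `G c`.  For a kernel `κ` on
`ι → ℝ` put `SS G ℓ κ η = ∑ G c κ(η + ℓ c)`.  `G` has weak density `t` if for some admissible kernel
`SS` is bounded on `∑ η ≤ 0` and tends to `t ∫ κ` along every ray `η₀ + x (1, …, 1)`, `x → -∞`.
Admissible kernels are stable under convolution, which is commutative: this gives uniqueness and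
the shape of the limit of the Fourier coefficients.
-/

set_option autoImplicit false
set_option linter.unusedSectionVars false

noncomputable section

namespace Crest.Agent.T27.D92

open scoped ComplexConjugate ENNReal Topology
open MeasureTheory Filter

variable {ι : Type} [Fintype ι] {α : Type}

/-- The point `η₀ + x (1, …, 1)`. -/
def ray (η₀ : ι → ℝ) (x : ℝ) : ι → ℝ := fun j => η₀ j + x

/-- Admissible kernels. -/
structure KC (κ : (ι → ℝ) → ℝ) : Prop where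
  meas : Measurable κ
  nonneg : ∀ u, 0 ≤ κ u
  pos : 0 < ∫ u, κ u
  bound : ∀ β : ι → ℝ, (∀ j, -(1 / 3) < β j) → ∃ C : ℝ, ∀ u, κ u ≤ C * Real.exp (-∑ j, β j * u j)

/-- The smoothed sum. -/
def SS (G : α → ℂ) (ℓ : α → ι → ℝ) (κ : (ι → ℝ) → ℝ) (η : ι → ℝ) : ℂ :=
  ∑' c, G c * (κ (η + ℓ c) : ℂ)

/-- The comparison function `exp (-β ∑ u_j - ∑ |u_j| / 6)`. -/
def Ew (β : ℝ) (u : ι → ℝ) : ℝ := Real.exp (-(β * ∑ j, u j) - (∑ j, |u j|) / 6)

/-- Polynomial growth of the weights (uniformly in the shape). -/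
def TB (G : α → ℂ) (ℓ : α → ι → ℝ) : Prop :=
  ∃ β H : ℝ, 0 ≤ β ∧ ∀ η : ι → ℝ, (Summable fun c => ‖G c‖ * Ew β (η + ℓ c)) ∧
    ∑' c, ‖G c‖ * Ew β (η + ℓ c) ≤ H * Real.exp (-(β * ∑ j, η j))

/-- Weak density. -/
def WD (G : α → ℂ) (ℓ : α → ι → ℝ) (t : ℂ) : Prop :=
  ∃ κ : (ι → ℝ) → ℝ, KC κ ∧ (∃ M : ℝ, ∀ η : ι → ℝ, ∑ j, η j ≤ 0 → ‖SS G ℓ κ η‖ ≤ M) ∧
    ∀ η₀, Tendsto (fun x => SS G ℓ κ (ray η₀ x)) atBot (𝓝 (t * ((∫ u, κ u : ℝ) : ℂ)))

/-- Convolution. -/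
def kconv (κ κ' : (ι → ℝ) → ℝ) (u : ι → ℝ) : ℝ := ∫ s, κ s * κ' (u - s)

theorem Ew_pos (β : ℝ) (u : ι → ℝ) : 0 < Ew β u := Real.exp_pos _

theorem kconv_comm (κ κ' : (ι → ℝ) → ℝ) (u : ι → ℝ) : kconv κ κ' u = kconv κ' κ u := by
  unfold kconv
  rw [← integral_sub_left_eq_self (fun s => κ s * κ' (u - s)) volume u]
  simp only [sub_sub_cancel, mul_comm]

/-- A bound valid for all exponent vectors gives a two-sided bound. -/
theorem two_sided {P : Type} {κ : P → (ι → ℝ) → ℝ}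
    (h : ∀ β : ι → ℝ, (∀ j, -(1 / 3) < β j) → ∃ C : ℝ, ∀ y u,
      κ y u ≤ C * Real.exp (-∑ j, β j * u j))
    (β : ι → ℝ) {ε : ℝ} (hε : 0 ≤ ε) (hβ : ∀ j, -(1 / 3) < β j - ε) :
    ∃ C : ℝ, 0 ≤ C ∧ ∀ y u, κ y u ≤ C * Real.exp (-(∑ j, β j * u j) - ε * ∑ j, |u j|) := by
  classical
  have h1 : ∀ s : ι → Bool, ∃ C : ℝ, ∀ y u,
      κ y u ≤ C * Real.exp (-∑ j, (β j + if s j then ε else -ε) * u j) := fun s =>
    h _ fun j => by
      have := hβ j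
      split_ifs <;> linarith
  choose C hC using h1
  refine ⟨∑ s, |C s|, Finset.sum_nonneg fun _ _ => abs_nonneg _, fun y u => ?_⟩
  have h2 := hC (fun j => decide (0 ≤ u j)) y u
  have e : -∑ j, (β j + if (decide (0 ≤ u j) : Bool) then ε else -ε) * u j =
      -(∑ j, β j * u j) - ε * ∑ j, |u j| := by
    rw [Finset.mul_sum, ← neg_add', ← Finset.sum_add_distrib]
    congr 1
    refine Finset.sum_congr rfl fun j _ => ?_
    by_cases hj : 0 ≤ u j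
    · simp only [hj, decide_true, if_true, abs_of_nonneg hj]; ring
    · simp only [hj, decide_false, Bool.false_eq_true, if_false, abs_of_neg (not_le.1 hj)]; ring
  rw [e] at h2
  refine h2.trans (mul_le_mul_of_nonneg_right ?_ (Real.exp_pos _).le)
  exact (le_abs_self _).trans
    (Finset.single_le_sum (f := fun s => |C s|) (fun _ _ => abs_nonneg _) (Finset.mem_univ _))

theorem KC.two_sided {κ : (ι → ℝ) → ℝ} (h : KC κ) (β : ι → ℝ) {ε : ℝ} (hε : 0 ≤ ε)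
    (hβ : ∀ j, -(1 / 3) < β j - ε) :
    ∃ C : ℝ, 0 ≤ C ∧ ∀ u, κ u ≤ C * Real.exp (-(∑ j, β j * u j) - ε * ∑ j, |u j|) := by
  obtain ⟨C, h0, hC⟩ := D92.two_sided (P := Unit) (κ := fun _ => κ)
    (fun β hβ => (h.bound β hβ).imp fun _ hC _ => hC) β hε hβ
  exact ⟨C, h0, hC ()⟩

theorem Ew_bound {P : Type} {κ : P → (ι → ℝ) → ℝ}
    (h : ∀ β : ι → ℝ, (∀ j, -(1 / 3) < β j) → ∃ C : ℝ, ∀ y u,
      κ y u ≤ C * Real.exp (-∑ j, β j * u j)) {β : ℝ} (hβ : 0 ≤ β) :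
    ∃ C : ℝ, 0 ≤ C ∧ ∀ y u, κ y u ≤ C * Ew β u := by
  obtain ⟨C, h0, hC⟩ := two_sided h (fun _ => β) (ε := 1 / 6) (by norm_num) fun _ => by linarith
  refine ⟨C, h0, fun y u => (hC y u).trans_eq ?_⟩
  unfold Ew
  rw [← Finset.mul_sum]
  congr 2
  ring

theorem KC.le_Ew {κ : (ι → ℝ) → ℝ} (h : KC κ) {β : ℝ} (hβ : 0 ≤ β) :
    ∃ C : ℝ, 0 ≤ C ∧ ∀ u, κ u ≤ C * Ew β u := by
  obtain ⟨C, h0, hC⟩ := Ew_bound (P := Unit) (κ := fun _ => κ)
    (fun β hβ => (h.bound β hβ).imp fun _ hC _ => hC) hβ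
  exact ⟨C, h0, hC ()⟩

theorem integrable_exp_neg_abs {ε : ℝ} (hε : 0 < ε) :
    Integrable fun x : ℝ => Real.exp (-(ε * |x|)) := by
  have h1 : IntegrableOn (fun x : ℝ => Real.exp (-(ε * |x|))) (Set.Ioi 0) :=
    (exp_neg_integrableOn_Ioi 0 hε).congr_fun (fun x (hx : 0 < x) => by
      simp only [abs_of_pos hx, neg_mul]) measurableSet_Ioi
  have h2 : IntegrableOn (fun x : ℝ => Real.exp (-(ε * |x|))) (Set.Iic 0) := by
    refine (integrableOn_exp_mul_Iic hε 0).congr_fun (fun x (hx : x ≤ 0) => ?_) measurableSet_Iic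
    simp only [abs_of_nonpos hx, mul_neg, neg_neg]
  rw [← integrableOn_univ, ← Set.Iic_union_Ioi (a := (0 : ℝ))]
  exact h2.union h1

theorem integrable_exp_neg_sum_abs {ε : ℝ} (hε : 0 < ε) :
    Integrable fun u : ι → ℝ => Real.exp (-(ε * ∑ j, |u j|)) := by
  have h := Integrable.fintype_prod (f := fun (_ : ι) (x : ℝ) => Real.exp (-(ε * |x|)))
    (μ := fun _ => volume) fun _ => integrable_exp_neg_abs hε
  refine h.congr (Eventually.of_forall fun u => ?_)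
  simp only [← Real.exp_sum, Finset.mul_sum, Finset.sum_neg_distrib]

theorem KC.integrable_mul_exp {κ : (ι → ℝ) → ℝ} (h : KC κ) {β : ι → ℝ}
    (hβ : ∀ j, -(1 / 3) < β j) : Integrable fun s => κ s * Real.exp (∑ j, β j * s j) := by
  obtain ⟨ε, hε, hε'⟩ : ∃ ε : ℝ, 0 < ε ∧ ∀ j, -(1 / 3) < β j - ε := by
    have : ∀ᶠ ε in 𝓝[>] (0 : ℝ), ∀ j, -(1 / 3) < β j - ε := by
      refine eventually_all.2 fun j => ?_
      have h1 : Tendsto (fun ε : ℝ => β j - ε) (𝓝 0) (𝓝 (β j - 0)) :=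
        tendsto_const_nhds.sub tendsto_id
      rw [sub_zero] at h1
      exact (h1.eventually (lt_mem_nhds (hβ j))).filter_mono nhdsWithin_le_nhds
    obtain ⟨ε, h1, h2⟩ := (this.and self_mem_nhdsWithin).exists
    exact ⟨ε, h2, h1⟩
  obtain ⟨C, h0, hC⟩ := h.two_sided β hε.le hε'
  have hm := h.meas
  refine ((integrable_exp_neg_sum_abs hε).const_mul C).mono'
    (Measurable.aestronglyMeasurable (by fun_prop)) (Eventually.of_forall fun s => ?_)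
  rw [Real.norm_of_nonneg (mul_nonneg (h.nonneg s) (Real.exp_pos _).le)]
  refine (mul_le_mul_of_nonneg_right (hC s) (Real.exp_pos _).le).trans_eq ?_
  rw [mul_assoc, ← Real.exp_add]
  congr 2
  ring

theorem KC.integrable {κ : (ι → ℝ) → ℝ} (h : KC κ) : Integrable κ :=
  Integrable.of_integral_ne_zero h.pos.ne'

theorem conv_le {κ κ' : (ι → ℝ) → ℝ} (h : KC κ) {β : ι → ℝ} {C : ℝ}
    (hC : ∀ u, κ' u ≤ C * Real.exp (-∑ j, β j * u j)) (u s : ι → ℝ) :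
    κ s * κ' (u - s) ≤ C * Real.exp (-∑ j, β j * u j) * (κ s * Real.exp (∑ j, β j * s j)) := by
  refine (mul_le_mul_of_nonneg_left (hC (u - s)) (h.nonneg s)).trans_eq ?_
  have e : -∑ j, β j * (u - s) j = (-∑ j, β j * u j) + ∑ j, β j * s j := by
    simp only [Pi.sub_apply, mul_sub, Finset.sum_sub_distrib]; ring
  rw [e, Real.exp_add]; ring

theorem integrable_conv {κ κ' : (ι → ℝ) → ℝ} (h : KC κ) (h' : KC κ') (u : ι → ℝ) :
    Integrable fun s => κ s * κ' (u - s) := by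
  obtain ⟨C, hC⟩ := h'.bound 0 fun _ => by norm_num
  have h1 := h.meas
  have h2 := h'.meas
  refine ((h.integrable_mul_exp (β := 0) fun _ => by norm_num).const_mul
    (C * Real.exp (-∑ j, (0 : ι → ℝ) j * u j))).mono' (Measurable.aestronglyMeasurable (by fun_prop)) (Eventually.of_forall fun s => ?_)
  rw [Real.norm_of_nonneg (mul_nonneg (h.nonneg s) (h'.nonneg _))]
  exact conv_le h hC u s

theorem integral_kconv {κ κ' : (ι → ℝ) → ℝ} (h : KC κ) (h' : KC κ') :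
    ∫ u, kconv κ κ' u = (∫ u, κ u) * ∫ u, κ' u := by
  have := integral_convolution (L := ContinuousLinearMap.mul ℝ ℝ) (μ := volume) (ν := volume)
    h.integrable h'.integrable
  simpa [convolution, kconv] using this

theorem KC.conv {κ κ' : (ι → ℝ) → ℝ} (h : KC κ) (h' : KC κ') : KC (kconv κ κ') := by
  have h1 := h.meas
  have h2 := h'.meas
  refine ⟨?_, fun u => integral_nonneg fun s => mul_nonneg (h.nonneg s) (h'.nonneg _), ?_, ?_⟩
  · have hm : Measurable fun p : (ι → ℝ) × (ι → ℝ) => κ p.2 * κ' (p.1 - p.2) := by fun_prop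
    exact (hm.stronglyMeasurable.integral_prod_right' (ν := volume)).measurable
  · rw [integral_kconv h h']; exact mul_pos h.pos h'.pos
  · intro β hβ
    obtain ⟨C, hC⟩ := h'.bound β hβ
    refine ⟨C * ∫ s, κ s * Real.exp (∑ j, β j * s j), fun u => ?_⟩
    calc kconv κ κ' u ≤ ∫ s, C * Real.exp (-∑ j, β j * u j) * (κ s * Real.exp (∑ j, β j * s j)) :=
          integral_mono (integrable_conv h h' u) ((h.integrable_mul_exp hβ).const_mul _)
            fun s => conv_le h hC u s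
      _ = _ := by rw [integral_const_mul]; ring

variable {G G' : α → ℂ} {ℓ : α → ι → ℝ}

/-- Summability and a bound, uniformly in a family of kernels. -/
theorem TB.family (hG : TB G ℓ) {P : Type} {κ : P → (ι → ℝ) → ℝ} (h0 : ∀ y u, 0 ≤ κ y u)
    (h : ∀ β : ι → ℝ, (∀ j, -(1 / 3) < β j) → ∃ C : ℝ, ∀ y u,
      κ y u ≤ C * Real.exp (-∑ j, β j * u j)) :
    ∃ (β H : ℝ) (B : (ι → ℝ) → α → ℝ), 0 ≤ β ∧ 0 ≤ H ∧ ∀ η, Summable (B η) ∧
      ∑' c, B η c ≤ H * Real.exp (-(β * ∑ j, η j)) ∧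
      ∀ y c, ‖G c * (κ y (η + ℓ c) : ℂ)‖ ≤ B η c := by
  obtain ⟨β, H, hβ, hH⟩ := hG
  obtain ⟨C, hC0, hC⟩ := Ew_bound h hβ
  have hH0 : 0 ≤ H := by
    have h1 := (tsum_nonneg fun c => mul_nonneg (norm_nonneg (G c)) (Ew_pos β _).le).trans (hH 0).2
    exact nonneg_of_mul_nonneg_left h1 (Real.exp_pos _)
  refine ⟨β, C * H, fun η c => C * (‖G c‖ * Ew β (η + ℓ c)), hβ, mul_nonneg hC0 hH0, fun η =>
    ⟨(hH η).1.mul_left C, ?_, fun y c => ?_⟩⟩
  · rw [tsum_mul_left, mul_assoc]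
    exact mul_le_mul_of_nonneg_left (hH η).2 hC0
  · rw [norm_mul, Complex.norm_real, Real.norm_of_nonneg (h0 _ _)]
    exact (mul_le_mul_of_nonneg_left (hC y _) (norm_nonneg _)).trans_eq (mul_left_comm _ _ _)

theorem TB.single (hG : TB G ℓ) {κ : (ι → ℝ) → ℝ} (h : KC κ) :
    ∃ β H : ℝ, 0 ≤ β ∧ 0 ≤ H ∧ ∀ η, (Summable fun c => ‖G c * (κ (η + ℓ c) : ℂ)‖) ∧
      ‖SS G ℓ κ η‖ ≤ H * Real.exp (-(β * ∑ j, η j)) := by
  obtain ⟨β, H, B, hβ, hH, hB⟩ := hG.family (P := Unit) (κ := fun _ => κ) (fun _ => h.nonneg)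
    (fun β hβ => (h.bound β hβ).imp fun _ hC _ => hC)
  refine ⟨β, H, hβ, hH, fun η => ⟨Summable.of_nonneg_of_le (fun _ => norm_nonneg _)
    ((hB η).2.2 ()) (hB η).1, ?_⟩⟩
  exact (tsum_of_norm_bounded (hB η).1.hasSum ((hB η).2.2 ())).trans (hB η).2.1

theorem summable_SS (hG : TB G ℓ) {κ : (ι → ℝ) → ℝ} (h : KC κ) (η : ι → ℝ) :
    Summable fun c => ‖G c * (κ (η + ℓ c) : ℂ)‖ := by
  obtain ⟨β, H, -, -, hB⟩ := hG.single h
  exact (hB η).1

theorem norm_SS_le (hG : TB G ℓ) {κ : (ι → ℝ) → ℝ} (h : KC κ) :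
    ∃ H : ℝ, ∀ η : ι → ℝ, 0 ≤ ∑ j, η j → ‖SS G ℓ κ η‖ ≤ H := by
  obtain ⟨β, H, hβ, hH, hB⟩ := hG.single h
  refine ⟨H, fun η hη => (hB η).2.trans (mul_le_of_le_one_right hH ?_)⟩
  exact Real.exp_le_one_iff.2 (neg_nonpos.2 (mul_nonneg hβ hη))

theorem measurable_SS [Countable α] (G : α → ℂ) (ℓ : α → ι → ℝ) {κ : (ι → ℝ) → ℝ}
    (h : Measurable κ) : Measurable (SS G ℓ κ) := by
  unfold SS
  refine Measurable.tsum fun c => ?_
  fun_prop

theorem SS_kconv [Countable α] (hG : TB G ℓ) {κ κ' : (ι → ℝ) → ℝ} (h : KC κ) (h' : KC κ')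
    (η : ι → ℝ) : SS G ℓ (kconv κ κ') η = ∫ s, (κ s : ℂ) * SS G ℓ κ' (η - s) := by
  set F : α → (ι → ℝ) → ℂ := fun c s => G c * ((κ s * κ' (η + ℓ c - s) : ℝ) : ℂ) with hF
  have hFi : ∀ c, Integrable (F c) := fun c => (integrable_conv h h' _).ofReal.const_mul _
  have hFs : Summable fun c => ∫ s, ‖F c s‖ := by
    refine (summable_SS hG (h.conv h') η).congr fun c => ?_
    rw [norm_mul, Complex.norm_real, Real.norm_of_nonneg ((h.conv h').nonneg _), kconv,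
      ← integral_const_mul]
    refine integral_congr_ae (Eventually.of_forall fun s => ?_)
    simp only [hF]
    rw [norm_mul, Complex.norm_real, Real.norm_of_nonneg (mul_nonneg (h.nonneg s) (h'.nonneg _))]
  have h1 : SS G ℓ (kconv κ κ') η = ∑' c, ∫ s, F c s := by
    refine tsum_congr fun c => ?_
    simp only [hF]
    rw [integral_const_mul, integral_complex_ofReal]
    rfl
  rw [h1, integral_tsum_of_summable_integral_norm hFi hFs]
  refine integral_congr_ae (Eventually.of_forall fun s => ?_)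
  simp only [hF, SS]
  rw [← tsum_mul_left]
  refine tsum_congr fun c => ?_
  rw [sub_add_eq_add_sub]
  push_cast
  ring

theorem ray_sub (η₀ s : ι → ℝ) (x : ℝ) : ray η₀ x - s = ray (η₀ - s) x := by
  funext j; simp only [ray, Pi.sub_apply]; ring

theorem ray_add (η₀ s : ι → ℝ) (x : ℝ) : ray η₀ x + s = ray (η₀ + s) x := by
  funext j; simp only [ray, Pi.add_apply]; ring

/-- The data of a weak limit for a fixed kernel. -/
def WL (G : α → ℂ) (ℓ : α → ι → ℝ) (κ : (ι → ℝ) → ℝ) (l : ℂ) : Prop :=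
  (∃ M : ℝ, ∀ η : ι → ℝ, ∑ j, η j ≤ 0 → ‖SS G ℓ κ η‖ ≤ M) ∧
    ∀ η₀, Tendsto (fun x => SS G ℓ κ (ray η₀ x)) atBot (𝓝 l)

theorem WL.conv_right [Countable α] (hG : TB G ℓ) {κ κ' : (ι → ℝ) → ℝ} (h : KC κ) (h' : KC κ')
    {l : ℂ} (hl : WL G ℓ κ' l) : WL G ℓ (kconv κ κ') (((∫ u, κ u : ℝ) : ℂ) * l) := by
  obtain ⟨⟨M₁, hM₁⟩, hl⟩ := hl
  obtain ⟨M₂, hM₂⟩ := norm_SS_le hG h'
  have hM : ∀ η, ‖SS G ℓ κ' η‖ ≤ max M₁ M₂ := fun η => by
    rcases le_total (∑ j, η j) 0 with h1 | h1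
    · exact (hM₁ η h1).trans (le_max_left _ _)
    · exact (hM₂ η h1).trans (le_max_right _ _)
  have hb : ∀ η s, ‖(κ s : ℂ) * SS G ℓ κ' (η - s)‖ ≤ κ s * max M₁ M₂ := fun η s => by
    rw [norm_mul, Complex.norm_real, Real.norm_of_nonneg (h.nonneg s)]
    exact mul_le_mul_of_nonneg_left (hM _) (h.nonneg s)
  refine ⟨⟨∫ s, κ s * max M₁ M₂, fun η _ => ?_⟩, fun η₀ => ?_⟩
  · rw [SS_kconv hG h h']
    exact norm_integral_le_of_norm_le (h.integrable.mul_const _) (Eventually.of_forall (hb η))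
  · have hlim : Tendsto (fun x : ℝ => ∫ s, (κ s : ℂ) * SS G ℓ κ' (ray η₀ x - s)) atBot
        (𝓝 (∫ s, (κ s : ℂ) * l)) := by
      refine tendsto_integral_filter_of_dominated_convergence (fun s => κ s * max M₁ M₂) ?_ ?_
        (h.integrable.mul_const _) ?_
      · refine Eventually.of_forall fun x => Measurable.aestronglyMeasurable ?_
        exact (Complex.measurable_ofReal.comp h.meas).mul
          ((measurable_SS G ℓ h'.meas).comp (measurable_const.sub measurable_id))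
      · exact Eventually.of_forall fun x => Eventually.of_forall (hb _)
      · refine Eventually.of_forall fun s => Tendsto.const_mul _ ?_
        simp only [ray_sub]
        exact hl _
    rw [integral_mul_const, integral_complex_ofReal] at hlim
    exact hlim.congr fun x => (SS_kconv hG h h' _).symm

theorem WL.conv_left [Countable α] (hG : TB G ℓ) {κ κ' : (ι → ℝ) → ℝ} (h : KC κ) (h' : KC κ')
    {l : ℂ} (hl : WL G ℓ κ l) : WL G ℓ (kconv κ κ') (((∫ u, κ' u : ℝ) : ℂ) * l) := by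
  have e : kconv κ κ' = kconv κ' κ := funext (kconv_comm κ κ')
  rw [e]
  exact hl.conv_right hG h' h

theorem WD.unique [Countable α] (hG : TB G ℓ) {t t' : ℂ} (h : WD G ℓ t) (h' : WD G ℓ t') :
    t = t' := by
  obtain ⟨κ, hκ, h⟩ := h
  obtain ⟨κ', hκ', h'⟩ := h'
  have e := tendsto_nhds_unique ((WL.conv_left hG hκ hκ' h).2 0) ((WL.conv_right hG hκ hκ' h').2 0)
  have h1 : ((∫ u, κ u : ℝ) : ℂ) ≠ 0 := by exact_mod_cast hκ.pos.ne'
  have h2 : ((∫ u, κ' u : ℝ) : ℂ) ≠ 0 := by exact_mod_cast hκ'.pos.ne'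
  apply mul_left_cancel₀ (mul_ne_zero h1 h2)
  linear_combination e

/-! ## the shape of the limit -/

section
variable {P : Type} [MeasurableSpace P] {ν : Measure P} [IsFiniteMeasure ν]
  {κ : P → (ι → ℝ) → ℝ}

/-- A family of kernels with uniform bounds. -/
structure KF {P : Type} [MeasurableSpace P] (κ : P → (ι → ℝ) → ℝ) : Prop where
  meas : Measurable fun p : P × (ι → ℝ) => κ p.1 p.2
  nonneg : ∀ y u, 0 ≤ κ y u
  pos : ∀ y, 0 < ∫ u, κ y u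
  bound : ∀ β : ι → ℝ, (∀ j, -(1 / 3) < β j) → ∃ C : ℝ, ∀ y u,
    κ y u ≤ C * Real.exp (-∑ j, β j * u j)

theorem KF.kc (h : KF κ) (y : P) : KC (κ y) :=
  ⟨h.meas.comp measurable_prodMk_left, h.nonneg y, h.pos y,
    fun β hβ => (h.bound β hβ).imp fun _ hC => hC y⟩

theorem KF.integrable_prod (h : KF κ) (ν : Measure P) [IsFiniteMeasure ν] :
    Integrable (Function.uncurry κ) (ν.prod volume) := by
  obtain ⟨C, h0, hC⟩ := two_sided h.bound 0 (ε := 1 / 6) (by norm_num) fun _ => by norm_num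
  have h1 : Integrable (fun p : P × (ι → ℝ) => (1 : ℝ) * (C * Real.exp (-(1 / 6 * ∑ j, |p.2 j|))))
      (ν.prod volume) :=
    Integrable.mul_prod (integrable_const _)
      ((integrable_exp_neg_sum_abs (by norm_num)).const_mul C)
  refine h1.mono' h.meas.aestronglyMeasurable (Eventually.of_forall fun p => ?_)
  rw [Function.uncurry, Real.norm_of_nonneg (h.nonneg _ _), one_mul]
  simpa using hC p.1 p.2

theorem KF.integrable_Mo (h : KF κ) (ν : Measure P) [IsFiniteMeasure ν] :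
    Integrable (fun y => ∫ u, κ y u) ν := (h.integrable_prod ν).integral_prod_left

theorem KF.avg_pos (h : KF κ) (ν : Measure P) [IsFiniteMeasure ν] (h0 : ν ≠ 0) :
    0 < ∫ y, (∫ u, κ y u) ∂ν := by
  rw [integral_pos_iff_support_of_nonneg (fun y => (h.pos y).le) (h.integrable_Mo ν)]
  have : (Function.support fun y => ∫ u, κ y u) = Set.univ :=
    Set.eq_univ_of_forall fun y => (h.pos y).ne'
  rw [this]
  exact Measure.measure_univ_pos.2 h0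

theorem KF.avg_int (h : KF κ) (ν : Measure P) [IsFiniteMeasure ν] :
    ∫ u, ∫ y, κ y u ∂ν = ∫ y, (∫ u, κ y u) ∂ν :=
  (integral_integral_swap (h.integrable_prod ν)).symm

theorem KF.avg (h : KF κ) (ν : Measure P) [IsFiniteMeasure ν] (h0 : ν ≠ 0) :
    KC fun u => ∫ y, κ y u ∂ν := by
  refine ⟨(h.meas.stronglyMeasurable.integral_prod_left' (μ := ν)).measurable,
    fun u => integral_nonneg fun y => h.nonneg y u, ?_, fun β hβ => ?_⟩
  · rw [h.avg_int ν]; exact h.avg_pos ν h0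
  · obtain ⟨C, hC⟩ := h.bound β hβ
    refine ⟨C * ν.real Set.univ, fun u => ?_⟩
    have h1 : ‖∫ y, κ y u ∂ν‖ ≤ C * Real.exp (-∑ j, β j * u j) * ν.real Set.univ :=
      norm_integral_le_of_norm_le_const (Eventually.of_forall fun y => by
        rw [Real.norm_of_nonneg (h.nonneg _ _)]; exact hC y u)
    exact (le_abs_self _).trans (h1.trans_eq (by ring))

theorem measurable_SS_fam [Countable α] (G : α → ℂ) (ℓ : α → ι → ℝ) (h : KF κ) (η : ι → ℝ) :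
    Measurable fun y => SS G ℓ (κ y) η := by
  unfold SS
  refine Measurable.tsum fun c => measurable_const.mul (Complex.measurable_ofReal.comp ?_)
  exact h.meas.comp measurable_prodMk_right

theorem SS_avg [Countable α] (hG : TB G ℓ) (h : KF κ) (ν : Measure P) [IsFiniteMeasure ν]
    (η : ι → ℝ) : SS G ℓ (fun u => ∫ y, κ y u ∂ν) η = ∫ y, SS G ℓ (κ y) η ∂ν := by
  obtain ⟨β, H, B, -, -, hB⟩ := hG.family h.nonneg h.bound
  obtain ⟨h1, -, h2⟩ := hB η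
  have hint : ∀ c, Integrable (fun y => G c * (κ y (η + ℓ c) : ℂ)) ν := fun c =>
    Integrable.of_bound (Measurable.aestronglyMeasurable (measurable_const.mul
      (Complex.measurable_ofReal.comp (h.meas.comp measurable_prodMk_right)))) _
      (Eventually.of_forall fun y => h2 y c)
  unfold SS
  rw [← integral_tsum_of_summable_integral_norm hint]
  · refine tsum_congr fun c => ?_
    rw [integral_const_mul, integral_complex_ofReal]
  · refine Summable.of_nonneg_of_le (fun c => integral_nonneg fun y => norm_nonneg _) (fun c => ?_)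
      (h1.mul_right (ν.real Set.univ))
    refine le_trans (Real.le_norm_self _) (norm_integral_le_of_norm_le_const ?_)
    exact Eventually.of_forall fun y => by rw [norm_norm]; exact h2 y c

theorem memLp_SS [Countable α] (hG : TB G ℓ) (h : KF κ) (ν : Measure P) [IsFiniteMeasure ν]
    (η : ι → ℝ) : MemLp (fun y => SS G ℓ (κ y) η) 2 ν := by
  obtain ⟨β, H, B, -, -, hB⟩ := hG.family h.nonneg h.bound
  exact MemLp.of_bound (measurable_SS_fam G ℓ h η).aestronglyMeasurable (∑' c, B η c)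
    (Eventually.of_forall fun y => tsum_of_norm_bounded (hB η).1.hasSum ((hB η).2.2 y))

theorem lint_sq {P : Type} [MeasurableSpace P] (f : P → ℂ) (μ : Measure P) :
    ∫⁻ y, ‖f y‖ₑ ^ 2 ∂μ = eLpNorm f 2 μ ^ 2 := by
  have := eLpNorm_nnreal_pow_eq_lintegral (f := f) (μ := μ) (p := 2) two_ne_zero
  simpa using this.symm

/-- Completeness along all the rays. -/
theorem exists_lim_rays {X : Type*} [EMetricSpace X] [CompleteSpace X] (V : (ι → ℝ) → X)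
    (hd : ∀ η₀ η₁ : ι → ℝ, Tendsto (fun p : ℝ × ℝ => edist (V (ray η₀ p.1)) (V (ray η₁ p.2)))
      (atBot ×ˢ atBot) (𝓝 0)) : ∃ F, ∀ η₀, Tendsto (fun x => V (ray η₀ x)) atBot (𝓝 F) := by
  have hc : Cauchy (Filter.map (fun x => V (ray 0 x)) atBot) := by
    refine (cauchy_map_iff' ).2 ?_
    rw [uniformity_pseudoedist]
    refine tendsto_iInf.2 fun ε => tendsto_iInf.2 fun hε => tendsto_principal.2 ?_
    exact (hd 0 0).eventually (gt_mem_nhds hε)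
  obtain ⟨F, hF⟩ := cauchy_map_iff_exists_tendsto.1 hc
  refine ⟨F, fun η₀ => tendsto_iff_edist_tendsto_0.2 ?_⟩
  have h1 : Tendsto (fun x => edist (V (ray η₀ x)) (V (ray 0 x))) atBot (𝓝 0) :=
    (hd η₀ 0).comp (tendsto_id.prodMk tendsto_id)
  have h2 := h1.add (tendsto_iff_edist_tendsto_0.1 hF)
  rw [add_zero] at h2
  exact tendsto_of_tendsto_of_tendsto_of_le_of_le tendsto_const_nhds h2 (fun _ => zero_le)
    fun x => edist_triangle _ _ _

theorem tendsto_of_sq {β : Type*} {l : Filter β} {u : β → ℝ≥0∞}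
    (h : Tendsto (fun x => u x ^ 2) l (𝓝 0)) : Tendsto u l (𝓝 0) := by
  have h2 : ContinuousAt (fun a : ℝ≥0∞ => a ^ (1 / 2 : ℝ)) 0 :=
    ENNReal.continuous_rpow_const.continuousAt
  have h3 := h2.tendsto.comp h
  rw [ENNReal.zero_rpow_of_pos (by norm_num)] at h3
  refine h3.congr fun p => ?_
  simp only [Function.comp]
  rw [← ENNReal.rpow_natCast, ← ENNReal.rpow_mul]
  norm_num

/-- An abstract form of the limit in `L²`. -/
theorem l2_limit_abs {S : (ι → ℝ) → P → ℂ} (hS : ∀ η, MemLp (S η) 2 ν)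
    (hB : ∃ M : ℝ≥0∞, M ≠ ⊤ ∧ ∀ η : ι → ℝ, ∑ j, η j ≤ 0 → ∫⁻ y, ‖S η y‖ₑ ^ 2 ∂ν ≤ M)
    (hC : ∀ η₀ η₁ : ι → ℝ, Tendsto (fun p : ℝ × ℝ =>
      ∫⁻ y, ‖S (ray η₀ p.1) y - S (ray η₁ p.2) y‖ₑ ^ 2 ∂ν) (atBot ×ˢ atBot) (𝓝 0)) :
    ∃ f : P → ℂ, MemLp f 2 ν ∧
      (∀ η₀, Tendsto (fun x => eLpNorm (S (ray η₀ x) - f) 2 ν) atBot (𝓝 0)) ∧
      ∀ E : Set P, MeasurableSet E →
        (∃ M : ℝ, ∀ η : ι → ℝ, ∑ j, η j ≤ 0 → ‖∫ y in E, S η y ∂ν‖ ≤ M) ∧
        ∀ η₀, Tendsto (fun x => ∫ y in E, S (ray η₀ x) y ∂ν) atBot (𝓝 (∫ y in E, f y ∂ν)) := by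
  obtain ⟨V, hV⟩ : ∃ V : (ι → ℝ) → Lp ℂ 2 ν, ∀ η, V η = (hS η).toLp _ := ⟨_, fun _ => rfl⟩
  have hV' : ∀ η, V η =ᵐ[ν] S η := fun η => by rw [hV]; exact MemLp.coeFn_toLp _
  obtain ⟨F, hF⟩ := exists_lim_rays V fun η₀ η₁ => by
    refine tendsto_of_sq ((hC η₀ η₁).congr fun p => ?_)
    rw [lint_sq (fun y => S (ray η₀ p.1) y - S (ray η₁ p.2) y), Lp.edist_def]
    congr 1
    exact eLpNorm_congr_ae ((hV' _).sub (hV' _)).symm
  refine ⟨F, Lp.memLp F, fun η₀ => ?_, fun E hE => ?_⟩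
  · refine (tendsto_iff_edist_tendsto_0.1 (hF η₀)).congr fun x => ?_
    rw [Lp.edist_def]
    exact eLpNorm_congr_ae ((hV' _).sub EventuallyEq.rfl)
  have hEν : ν E ≠ ∞ := measure_ne_top _ _
  obtain ⟨I, hI⟩ : ∃ I : Lp ℂ 2 ν, ∀ W : Lp ℂ 2 ν, inner ℂ I W = ∫ y in E, W y ∂ν :=
    ⟨indicatorConstLp 2 hE hEν (1 : ℂ), fun W => L2.inner_indicatorConstLp_one hE hEν W⟩
  have key : ∀ η, ∫ y in E, S η y ∂ν = inner ℂ I (V η) := fun η => by
    rw [hI]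
    exact (integral_congr_ae (ae_restrict_of_ae (hV' η))).symm
  refine ⟨?_, fun η₀ => ?_⟩
  · obtain ⟨M, hM, hB⟩ := hB
    refine ⟨‖I‖ * (1 + M.toReal), fun η hη => ?_⟩
    rw [key]
    refine (norm_inner_le_norm _ _).trans (mul_le_mul_of_nonneg_left ?_ (norm_nonneg _))
    have h1 := hB η hη
    rw [lint_sq (S η)] at h1
    have h2 := ENNReal.toReal_mono hM h1
    rw [ENNReal.toReal_pow] at h2
    have h3 : ‖V η‖ = (eLpNorm (S η) 2 ν).toReal := by rw [hV]; exact Lp.norm_toLp _ _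
    rw [h3]
    nlinarith [sq_nonneg ((eLpNorm (S η) 2 ν).toReal - 1), ENNReal.toReal_nonneg (a := M)]
  · have h3 := (tendsto_const_nhds (x := I)).inner (𝕜 := ℂ) (hF η₀)
    rw [hI] at h3
    exact h3.congr fun x => (key _).symm

/-- The limit in `L²`. -/
theorem l2_limit [Countable α] (hG : TB G ℓ) (h : KF κ)
    (hB : ∃ M : ℝ≥0∞, M ≠ ⊤ ∧ ∀ η : ι → ℝ, ∑ j, η j ≤ 0 → ∫⁻ y, ‖SS G ℓ (κ y) η‖ₑ ^ 2 ∂ν ≤ M)
    (hC : ∀ η₀ η₁ : ι → ℝ, Tendsto (fun p : ℝ × ℝ =>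
      ∫⁻ y, ‖SS G ℓ (κ y) (ray η₀ p.1) - SS G ℓ (κ y) (ray η₁ p.2)‖ₑ ^ 2 ∂ν)
      (atBot ×ˢ atBot) (𝓝 0)) :
    ∃ f : P → ℂ, MemLp f 2 ν ∧
      (∀ η₀, Tendsto (fun x => eLpNorm ((fun y => SS G ℓ (κ y) (ray η₀ x)) - f) 2 ν)
        atBot (𝓝 0)) ∧
      ∀ E : Set P, MeasurableSet E →
        WL G ℓ (fun u => ∫ y in E, κ y u ∂ν) (∫ y in E, f y ∂ν) := by
  obtain ⟨f, h1, h2, h3⟩ := l2_limit_abs (S := fun η y => SS G ℓ (κ y) η)
    (memLp_SS hG h ν) hB hC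
  refine ⟨f, h1, h2, fun E hE => ?_⟩
  unfold WL
  simp only [SS_avg hG h]
  exact h3 E hE

theorem WL.wd_avg (h : KF κ) {ν : Measure P} [IsFiniteMeasure ν] (h0 : ν ≠ 0) {l : ℂ}
    (hl : WL G ℓ (fun u => ∫ y, κ y u ∂ν) l) :
    WD G ℓ (l / ((∫ y, (∫ u, κ y u) ∂ν : ℝ) : ℂ)) := by
  refine ⟨_, h.avg ν h0, ?_⟩
  rw [h.avg_int ν, div_mul_cancel₀ _ (Complex.ofReal_ne_zero.2 (h.avg_pos ν h0).ne')]
  exact hl

/-- If the functions `y ↦ SS G ℓ (κ y) η` are bounded and Cauchy in `L²(ν)`, then `G` has a weak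
density. -/
theorem exists_wd [Countable α] (hG : TB G ℓ) (h : KF κ) (h0 : ν ≠ 0)
    (hB : ∃ M : ℝ≥0∞, M ≠ ⊤ ∧ ∀ η : ι → ℝ, ∑ j, η j ≤ 0 → ∫⁻ y, ‖SS G ℓ (κ y) η‖ₑ ^ 2 ∂ν ≤ M)
    (hC : ∀ η₀ η₁ : ι → ℝ, Tendsto (fun p : ℝ × ℝ =>
      ∫⁻ y, ‖SS G ℓ (κ y) (ray η₀ p.1) - SS G ℓ (κ y) (ray η₁ p.2)‖ₑ ^ 2 ∂ν)
      (atBot ×ˢ atBot) (𝓝 0)) : ∃ t, WD G ℓ t := by
  obtain ⟨f, -, -, h3⟩ := l2_limit hG h hB hC
  have := h3 Set.univ MeasurableSet.univ
  rw [Measure.restrict_univ] at this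
  exact ⟨_, WL.wd_avg h h0 this⟩

/-- … and the limit is `t ∫ κ y`. -/
theorem tendsto_of_wd [Countable α] (hG : TB G ℓ) (h : KF κ)
    (hB : ∃ M : ℝ≥0∞, M ≠ ⊤ ∧ ∀ η : ι → ℝ, ∑ j, η j ≤ 0 → ∫⁻ y, ‖SS G ℓ (κ y) η‖ₑ ^ 2 ∂ν ≤ M)
    (hC : ∀ η₀ η₁ : ι → ℝ, Tendsto (fun p : ℝ × ℝ =>
      ∫⁻ y, ‖SS G ℓ (κ y) (ray η₀ p.1) - SS G ℓ (κ y) (ray η₁ p.2)‖ₑ ^ 2 ∂ν)
      (atBot ×ˢ atBot) (𝓝 0)) {t : ℂ} (ht : WD G ℓ t) (η₀ : ι → ℝ) :
    Tendsto (fun x => ∫⁻ y, ‖SS G ℓ (κ y) (ray η₀ x) - t * ((∫ u, κ y u : ℝ) : ℂ)‖ₑ ^ 2 ∂ν)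
      atBot (𝓝 0) := by
  obtain ⟨f, hf, h1, h2⟩ := l2_limit hG h hB hC
  have hM : Integrable (fun y => t * ((∫ u, κ y u : ℝ) : ℂ)) ν :=
    (h.integrable_Mo ν).ofReal.const_mul t
  have he : f =ᵐ[ν] fun y => t * ((∫ u, κ y u : ℝ) : ℂ) := by
    refine ae_eq_of_forall_setIntegral_eq_of_sigmaFinite
      (fun s _ _ => (hf.integrable one_le_two).integrableOn) (fun s _ _ => hM.integrableOn)
      fun s hs _ => ?_
    by_cases h0 : ν.restrict s = 0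
    · rw [h0]; simp
    · have h3 := WD.unique hG (WL.wd_avg h h0 (h2 s hs)) ht
      rw [div_eq_iff (Complex.ofReal_ne_zero.2 (h.avg_pos _ h0).ne')] at h3
      rw [h3, integral_const_mul, integral_complex_ofReal]
  have h4 := ENNReal.Tendsto.pow (n := 2) (h1 η₀)
  rw [zero_pow two_ne_zero] at h4
  refine h4.congr fun x => ?_
  rw [lint_sq (fun y => SS G ℓ (κ y) (ray η₀ x) - t * ((∫ u, κ y u : ℝ) : ℂ))]
  congr 1
  exact eLpNorm_congr_ae (EventuallyEq.rfl.sub he)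

end

end Crest.Agent.T27.D92
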