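import Crest.Agent.T27.ThA_54
import Crest.Agent.T27.Dens_92

/-!
# Row 27, theta leaf A4: `DensStmt`
-/

set_option autoImplicit false
set_option linter.unusedSectionVars false

noncomputable section

namespace Crest.Agent.T27.TH

open scoped ComplexConjugate ENNReal Topology
open MeasureTheory Filter NumberField

variable {F : Type} [Field F] [NumberField F] [Emb F]

/-- The normalised kernel. -/
def d92nk (k : (Pl F → ℝ) → ℝ) (x : Pl F → ℝ) : ℝ := k x * Real.exp ((∑ j, x j) / 3)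

/-- The normalised weights. -/
def d92ng (g : F → ℂ) (c : F) : ℂ := g c * (Real.exp (-((∑ j, lg c j) / 3)) : ℂ)

theorem d92_Sk (g : F → ℂ) (k : (Pl F → ℝ) → ℝ) (v : Pl F → ℝ) :
    Sk g k v = D92.SS (d92ng g) lg (d92nk k) v := by
  unfold Sk D92.SS d92ng d92nk
  rw [← tsum_mul_left]
  refine tsum_congr fun c => ?_
  have e : Real.exp ((∑ j, v j) / 3) =
      Real.exp (-((∑ j, lg c j) / 3)) * Real.exp ((∑ j, (v + lg c) j) / 3) := by
    rw [← Real.exp_add]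
    congr 1
    simp only [Pi.add_apply, Finset.sum_add_distrib]
    ring
  rw [e]
  push_cast
  ring

theorem d92_Mo (k : (Pl F → ℝ) → ℝ) : Mo k = ∫ x, d92nk k x := rfl

theorem d92_exp (β x : Pl F → ℝ) : Real.exp (-∑ j, (β j + 1 / 3) * x j) *
    Real.exp ((∑ j, x j) / 3) = Real.exp (-∑ j, β j * x j) := by
  rw [← Real.exp_add]
  congr 1
  simp only [add_mul, Finset.sum_add_distrib, ← Finset.mul_sum]
  ring

theorem d92_kc {k : (Pl F → ℝ) → ℝ} (h : KC k) : D92.KC (d92nk k) := by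
  obtain ⟨h1, h2, h3, h4⟩ := h
  refine ⟨by unfold d92nk; fun_prop, fun u => mul_nonneg (h2 u) (Real.exp_pos _).le, h3,
    fun β hβ => ?_⟩
  obtain ⟨C, hC⟩ := h4 (fun j => β j + 1 / 3) fun j => by have := hβ j; linarith
  refine ⟨C, fun u => (mul_le_mul_of_nonneg_right (hC u) (Real.exp_pos _).le).trans_eq ?_⟩
  rw [mul_assoc, d92_exp]

theorem d92_kc' {κ : (Pl F → ℝ) → ℝ} (h : D92.KC κ) : ∃ k : (Pl F → ℝ) → ℝ, KC k ∧ d92nk k = κ := by
  have e : d92nk (fun x => κ x * Real.exp (-((∑ j, x j) / 3))) = κ := by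
    funext x
    unfold d92nk
    rw [mul_assoc, ← Real.exp_add, neg_add_cancel, Real.exp_zero, mul_one]
  have h1 := h.meas
  refine ⟨_, ⟨by fun_prop, fun u => mul_nonneg (h.nonneg u) (Real.exp_pos _).le, ?_, fun A hA => ?_⟩,
    e⟩
  · rw [d92_Mo, e]; exact h.pos
  · obtain ⟨C, hC⟩ := h.bound (fun j => A j - 1 / 3) fun j => by have := hA j; linarith
    refine ⟨C, fun u => (mul_le_mul_of_nonneg_right (hC u) (Real.exp_pos _).le).trans_eq ?_⟩
    rw [mul_assoc, ← d92_exp, mul_assoc, ← Real.exp_add, add_neg_cancel, Real.exp_zero, mul_one]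
    simp only [sub_add_cancel]

theorem d92_min (u : ℝ) : Real.exp (-u - |u| / 6) =
    min (Real.exp (-(5 / 6) * u)) (Real.exp (-(7 / 6) * u)) := by
  rcases le_total 0 u with h | h
  · rw [abs_of_nonneg h, min_eq_right (Real.exp_le_exp.2 (by linarith))]
    congr 1; ring
  · rw [abs_of_nonpos h, min_eq_left (Real.exp_le_exp.2 (by linarith))]
    congr 1; ring

theorem d92_tb (hL : LatStmt F) {g : F → ℂ} (hg : BddL g) : D92.TB (d92ng g) (lg : F → Pl F → ℝ) := by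
  classical
  obtain ⟨M, B, hM, hB, hs⟩ := hg
  have hB0 : 0 ≤ B := (norm_nonneg _).trans (hB 0)
  obtain ⟨C, hC⟩ := hL.lsum M hM (5 / 6) (7 / 6) (by norm_num) (by norm_num)
  refine ⟨2 / 3, B * C, by norm_num, fun v => ?_⟩
  have key : ∀ S : Finset F, ∑ c ∈ S, ‖d92ng g c‖ * D92.Ew (2 / 3) (v + lg c) ≤
      B * C * Real.exp (-(2 / 3 * ∑ j, v j)) := fun S => by
    have h1 := hC v (S.filter fun c => g c ≠ 0) fun c hc => hs c (Finset.mem_filter.1 hc).2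
    have h2 : ∑ c ∈ S, ‖d92ng g c‖ * D92.Ew (2 / 3) (v + lg c) =
        ∑ c ∈ S.filter (fun c => g c ≠ 0), ‖d92ng g c‖ * D92.Ew (2 / 3) (v + lg c) := by
      refine (Finset.sum_filter_of_ne (p := fun c => g c ≠ 0) fun c _ hc h0 => hc ?_).symm
      simp [d92ng, h0]
    rw [h2]
    calc _ ≤ ∑ c ∈ S.filter (fun c => g c ≠ 0), B * Real.exp ((∑ j, v j) / 3) *
          ∏ j, min (Real.exp (-(5 / 6) * (v j + lg c j))) (Real.exp (-(7 / 6) * (v j + lg c j))) := by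
          refine Finset.sum_le_sum fun c _ => ?_
          simp only [← d92_min]
          rw [← Real.exp_sum, mul_assoc, ← Real.exp_add, d92ng, norm_mul, Complex.norm_real,
            Real.norm_of_nonneg (Real.exp_pos _).le, D92.Ew, mul_assoc, ← Real.exp_add]
          refine mul_le_mul (hB c) (le_of_eq ?_) (Real.exp_pos _).le hB0
          congr 1
          simp only [Pi.add_apply, Finset.sum_sub_distrib, Finset.sum_neg_distrib,
            Finset.sum_add_distrib, ← Finset.sum_div]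
          ring
      _ ≤ B * Real.exp ((∑ j, v j) / 3) * (C * Real.exp (-∑ j, v j)) := by
          rw [← Finset.mul_sum]
          exact mul_le_mul_of_nonneg_left h1 (mul_nonneg hB0 (Real.exp_pos _).le)
      _ = _ := by
          rw [mul_mul_mul_comm, ← Real.exp_add]
          congr 2; ring
  have h0 : ∀ c, 0 ≤ ‖d92ng g c‖ * D92.Ew (2 / 3) (v + lg c) := fun c =>
    mul_nonneg (norm_nonneg _) (D92.Ew_pos _ _).le
  exact ⟨summable_of_sum_le h0 key, Real.tsum_le_of_sum_le h0 key⟩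

theorem d92_ray (v : Pl F → ℝ) (s : ℝ) : ray v s = D92.ray v (-s) := by
  funext j; simp only [ray, D92.ray, sub_eq_add_neg]

theorem d92_ray' (v : Pl F → ℝ) (s : ℝ) : D92.ray v s = ray v (-s) := by
  rw [d92_ray, neg_neg]

theorem d92_wl {g : F → ℂ} {k : (Pl F → ℝ) → ℝ} {t : ℂ} (h : WDk g k t) :
    D92.WL (d92ng g) lg (d92nk k) (t * (Mo k : ℂ)) := by
  obtain ⟨⟨C, hC⟩, h⟩ := h
  refine ⟨⟨C, fun v _ => by rw [← d92_Sk]; exact hC v⟩, fun v => ?_⟩
  refine ((h v).comp tendsto_neg_atBot_atTop).congr fun x => ?_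
  simp only [Function.comp, d92_Sk, d92_ray']

theorem d92_wl' (hL : LatStmt F) {g : F → ℂ} (hg : BddL g) {k : (Pl F → ℝ) → ℝ} (hk : KC k) {t : ℂ}
    (h : D92.WL (d92ng g) lg (d92nk k) (t * (Mo k : ℂ))) : WDk g k t := by
  obtain ⟨⟨C, hC⟩, h⟩ := h
  obtain ⟨C', hC'⟩ := D92.norm_SS_le (d92_tb hL hg) (d92_kc hk)
  refine ⟨⟨max C C', fun v => ?_⟩, fun v => ?_⟩
  · rw [d92_Sk]
    rcases le_total (∑ j, v j) 0 with h1 | h1
    · exact (hC v h1).trans (le_max_left _ _)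
    · exact (hC' v h1).trans (le_max_right _ _)
  · refine ((h v).comp tendsto_neg_atTop_atBot).congr fun x => ?_
    simp only [Function.comp, d92_Sk, d92_ray]

theorem d92_wd {g : F → ℂ} {t : ℂ} (h : WD g t) : D92.WD (d92ng g) (lg : F → Pl F → ℝ) t := by
  obtain ⟨k, hk, h⟩ := h
  exact ⟨_, d92_kc hk, d92_wl h⟩

theorem d92_wd' (hL : LatStmt F) {g : F → ℂ} (hg : BddL g) {t : ℂ}
    (h : D92.WD (d92ng g) (lg : F → Pl F → ℝ) t) : WD g t := by
  obtain ⟨κ, hκ, h⟩ := h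
  obtain ⟨k, hk, rfl⟩ := d92_kc' hκ
  exact ⟨k, hk, d92_wl' hL hg hk h⟩

theorem d92_countable : Countable F := by
  have b := Module.finBasis ℚ F
  exact b.equivFun.toEquiv.countable_iff.2 inferInstance

theorem d92_summable (hL : LatStmt F) {g : F → ℂ} (hg : BddL g) {k : (Pl F → ℝ) → ℝ} (hk : KC k)
    (v : Pl F → ℝ) : Summable fun c : F => g c * (k (v + lg c) : ℂ) := by
  have h := (D92.summable_SS (d92_tb hL hg) (d92_kc hk) v).of_norm.mul_left
    (Real.exp (-((∑ j, v j) / 3)) : ℂ)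
  refine h.congr fun c => ?_
  have e : Real.exp (-((∑ j, v j) / 3)) * (Real.exp (-((∑ j, lg c j) / 3)) *
      Real.exp ((∑ j, (v + lg c) j) / 3)) = 1 := by
    rw [← Real.exp_add, ← Real.exp_add, ← Real.exp_zero]
    congr 1
    simp only [Pi.add_apply, Finset.sum_add_distrib]
    ring
  have e' := congrArg (fun x : ℝ => (x : ℂ)) e
  simp only [d92ng, d92nk, Complex.ofReal_mul, Complex.ofReal_one] at e' ⊢
  linear_combination g c * (k (v + lg c) : ℂ) * e'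

theorem d92_addk (hL : LatStmt F) {g g' : F → ℂ} {k : (Pl F → ℝ) → ℝ} {t t' : ℂ} (hg : BddL g)
    (hg' : BddL g') (hk : KC k) (h : WDk g k t) (h' : WDk g' k t') : WDk (g + g') k (t + t') := by
  have e : ∀ v, Sk (g + g') k v = Sk g k v + Sk g' k v := fun v => by
    unfold Sk
    rw [← mul_add, ← (d92_summable hL hg hk v).tsum_add (d92_summable hL hg' hk v)]
    simp only [Pi.add_apply, add_mul]
  obtain ⟨⟨C, hC⟩, h⟩ := h
  obtain ⟨⟨C', hC'⟩, h'⟩ := h'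
  refine ⟨⟨C + C', fun v => ?_⟩, fun v => ?_⟩
  · rw [e]; exact norm_add_le_of_le (hC v) (hC' v)
  · simp only [e, add_mul]; exact (h v).add (h' v)

theorem d92_smulk (a : ℂ) {g : F → ℂ} {k : (Pl F → ℝ) → ℝ} {t : ℂ} (h : WDk g k t) :
    WDk (fun c => a * g c) k (a * t) := by
  have e : ∀ v, Sk (fun c => a * g c) k v = a * Sk g k v := fun v => by
    unfold Sk
    simp only [mul_assoc, tsum_mul_left]
    ring
  obtain ⟨⟨C, hC⟩, h⟩ := h
  refine ⟨⟨‖a‖ * C, fun v => ?_⟩, fun v => ?_⟩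
  · rw [e, norm_mul]; exact mul_le_mul_of_nonneg_left (hC v) (norm_nonneg _)
  · simp only [e, mul_assoc]; exact (h v).const_mul a

theorem d92_add (hL : LatStmt F) {g g' : F → ℂ} {t t' : ℂ} (hg : BddL g) (hg' : BddL g')
    (h : WD g t) (h' : WD g' t') : WD (g + g') (t + t') := by
  have := d92_countable (F := F)
  obtain ⟨k, hk, h⟩ := h
  obtain ⟨k', hk', h'⟩ := h'
  obtain ⟨k'', hk'', e⟩ := d92_kc' ((d92_kc hk).conv (d92_kc hk'))
  have hM : Mo k'' = Mo k * Mo k' := by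
    rw [d92_Mo, e, D92.integral_kconv (d92_kc hk) (d92_kc hk')]; rfl
  have h1 := (d92_wl h).conv_left (d92_tb hL hg) (d92_kc hk) (d92_kc hk')
  have h2 := (d92_wl h').conv_right (d92_tb hL hg') (d92_kc hk) (d92_kc hk')
  rw [← e, ← d92_Mo] at h1 h2
  refine ⟨k'', hk'', d92_addk hL hg hg' hk'' (d92_wl' hL hg hk'' ?_) (d92_wl' hL hg' hk'' ?_)⟩
  · convert h1 using 1; rw [hM]; push_cast; ring
  · convert h2 using 1; rw [hM]; push_cast; ring

theorem d92_em_ne {x : F} (hx : x ≠ 0) (j : Pl F) : ‖em x j‖ ≠ 0 :=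
  norm_ne_zero_iff.2 ((map_ne_zero _).2 hx)

theorem d92_lg_mul {x y : F} (hx : x ≠ 0) (hy : y ≠ 0) : lg (x * y) = lg x + lg y := by
  funext j
  simp only [lg, em, map_mul, norm_mul, mul_pow, Pi.add_apply]
  exact Real.log_mul (pow_ne_zero _ (d92_em_ne hx j)) (pow_ne_zero _ (d92_em_ne hy j))

theorem d92_exp_lg {x : F} (hx : x ≠ 0) : Real.exp (∑ j, lg x j) = nF x := by
  rw [Real.exp_sum, nF]
  refine Finset.prod_congr rfl fun j _ => Real.exp_log ?_
  have := d92_em_ne hx j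
  positivity

theorem d92_scalek {g : F → ℂ} {k : (Pl F → ℝ) → ℝ} {t : ℂ} {ρ : F} (hρ : ρ ≠ 0)
    (hg : ∀ c, g c ≠ 0 → c ≠ 0) (h : WDk g k t) :
    WDk (fun c => g (c * ρ)) k (((nF ρ ^ (1 / 3 : ℝ) : ℝ) : ℂ) * t) := by
  have e : ∀ v, Sk (fun c => g (c * ρ)) k v =
      ((nF ρ ^ (1 / 3 : ℝ) : ℝ) : ℂ) * Sk g k (v - lg ρ) := fun v => by
    unfold Sk
    have e1 : ∑' c : F, g (c * ρ) * (k (v + lg c) : ℂ) =
        ∑' c : F, g c * (k (v - lg ρ + lg c) : ℂ) := by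
      rw [← (Equiv.mulRight₀ ρ hρ).tsum_eq fun c => g c * (k (v - lg ρ + lg c) : ℂ)]
      refine tsum_congr fun c => ?_
      simp only [Equiv.mulRight₀_apply]
      by_cases h0 : g (c * ρ) = 0
      · rw [h0, zero_mul, zero_mul]
      · rw [d92_lg_mul (left_ne_zero_of_mul (hg _ h0)) hρ]
        congr 3
        abel
    have e2 : Real.exp ((∑ j, v j) / 3) =
        nF ρ ^ (1 / 3 : ℝ) * Real.exp ((∑ j, (v - lg ρ) j) / 3) := by
      rw [← d92_exp_lg hρ, ← Real.exp_mul, ← Real.exp_add]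
      congr 1
      simp only [Pi.sub_apply, Finset.sum_sub_distrib]
      ring
    rw [e1, e2]
    push_cast
    ring
  obtain ⟨⟨C, hC⟩, h⟩ := h
  refine ⟨⟨‖((nF ρ ^ (1 / 3 : ℝ) : ℝ) : ℂ)‖ * C, fun v => ?_⟩, fun v => ?_⟩
  · rw [e, norm_mul]; exact mul_le_mul_of_nonneg_left (hC _) (norm_nonneg _)
  · rw [mul_assoc]
    refine ((h (v - lg ρ)).const_mul _).congr fun s => ?_
    rw [e]
    congr 2
    funext j
    simp only [ray, Pi.sub_apply]
    ring

/-! ## the kernels -/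

theorem d92_integral_exp (f : ℝ → ℝ) :
    ∫ X in Set.Ioi (0 : ℝ), f X = ∫ x : ℝ, Real.exp x * f (Real.exp x) := by
  have h := integral_image_eq_integral_abs_deriv_smul MeasurableSet.univ
    (fun x _ => (Real.hasDerivAt_exp x).hasDerivWithinAt) Real.exp_injective.injOn f
  rw [Set.image_univ, Real.range_exp, Measure.restrict_univ] at h
  rw [h]
  simp only [abs_of_pos (Real.exp_pos _), smul_eq_mul]

theorem d92_int1 (l : ℝ) {b : ℝ} (hb : 0 ≤ b) :
    ∫ x : ℝ, Real.exp l * Real.exp (-Real.exp l * (Real.exp x + b * Real.exp (-x))) *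
      Real.exp (x / 3) = R17.Mk (Real.exp l) b := by
  rw [← R17.Mo_Fk (Real.exp_pos l) hb, R17.Mo, d92_integral_exp]
  refine integral_congr_ae (Eventually.of_forall fun x => ?_)
  simp only [R17.Fk]
  rw [← Real.exp_mul, Real.exp_neg x, ← div_eq_mul_inv, mul_one_div]
  have := Real.exp_pos x
  field_simp

theorem d92_Mo_Fk (l : Pl F → ℝ) {b : Pl F → ℝ} (hb : ∀ j, 0 ≤ b j) : Mo (Fk l b) = MkV l b := by
  unfold Mo MkV Fk
  simp only [Finset.sum_div, Real.exp_sum, ← Finset.prod_mul_distrib]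
  rw [integral_fintype_prod_volume_eq_prod fun j (x : ℝ) => Real.exp (l j) *
    Real.exp (-Real.exp (l j) * (Real.exp x + b j * Real.exp (-x))) * Real.exp (x / 3)]
  exact Finset.prod_congr rfl fun j _ => d92_int1 _ (hb j)

theorem d92_MkV_pos (l : Pl F → ℝ) {b : Pl F → ℝ} (hb : ∀ j, 0 ≤ b j) : 0 < MkV l b :=
  Finset.prod_pos fun j _ => R17.Mk_pos (Real.exp_pos _) (hb j)

theorem d92_Fk_nonneg (l b x : Pl F → ℝ) : 0 ≤ Fk l b x :=
  Finset.prod_nonneg fun _ _ => by positivity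

theorem d92_Fk_le (a a' : Pl F → ℝ) {A : Pl F → ℝ} (hA : ∀ j, 0 < A j) : ∃ C : ℝ,
    ∀ l b x : Pl F → ℝ, (∀ j, a j ≤ l j ∧ l j ≤ a' j) → (∀ j, 0 ≤ b j) →
      Fk l b x ≤ C * Real.exp (-∑ j, A j * x j) := by
  choose C hC0 hC using fun j => R17.G1_exp_le (hA j).le
  refine ⟨∏ j, Real.exp (a' j) * (C j * Real.exp (-(A j * a j))), fun l b x hl hb => ?_⟩
  rw [← Finset.sum_neg_distrib, Real.exp_sum, ← Finset.prod_mul_distrib]
  refine Finset.prod_le_prod (fun _ _ => by positivity) fun j _ => ?_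
  have h1 := hC j (Real.exp (a j + x j)) (Real.exp_pos _)
  rw [← Real.exp_mul] at h1
  have h2 : Real.exp (-Real.exp (l j) * (Real.exp (x j) + b j * Real.exp (-x j))) ≤
      Real.exp (-Real.exp (a j + x j)) := by
    refine Real.exp_le_exp.2 ?_
    have h3 : Real.exp (a j) ≤ Real.exp (l j) := Real.exp_le_exp.2 (hl j).1
    have h4 : 0 ≤ Real.exp (l j) * (b j * Real.exp (-x j)) := by have := hb j; positivity
    have h5 := mul_le_mul_of_nonneg_right h3 (Real.exp_pos (x j)).le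
    rw [Real.exp_add]
    linarith
  have h6 := hC0 j
  calc _ ≤ Real.exp (a' j) * (C j * Real.exp ((a j + x j) * -A j)) :=
        mul_le_mul (Real.exp_le_exp.2 (hl j).2) (h2.trans h1) (Real.exp_pos _).le
          (Real.exp_pos _).le
    _ = _ := by
        rw [mul_assoc, mul_assoc, ← Real.exp_add]
        congr 3; ring

theorem d92_kc_Fk (l : Pl F → ℝ) {b : Pl F → ℝ} (hb : ∀ j, 0 ≤ b j) : KC (Fk l b) := by
  refine ⟨by unfold Fk; fun_prop, d92_Fk_nonneg l b, by rw [d92_Mo_Fk l hb]; exact d92_MkV_pos l hb,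
    fun A hA => ?_⟩
  obtain ⟨C, hC⟩ := d92_Fk_le l l hA
  exact ⟨C, fun x => hC l b x (fun _ => ⟨le_rfl, le_rfl⟩) hb⟩

theorem d92_Fk_zero : Fk (0 : Pl F → ℝ) 0 = k0 := by
  funext x
  simp [Fk, k0, Real.exp_neg, Real.exp_sum]

theorem d92_kc0 : KC (k0 : (Pl F → ℝ) → ℝ) := by
  rw [← d92_Fk_zero]; exact d92_kc_Fk 0 fun _ => le_rfl

/-- Projection on a box. -/
def d92cl (a : Pl F → ℝ) (L : ℝ) (l : Pl F → ℝ) : Pl F → ℝ :=
  fun j => max (a j) (min (l j) (a j + L))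

theorem d92_cl_eq {a : Pl F → ℝ} {L : ℝ} {l : Pl F → ℝ} (h : l ∈ box a L) : d92cl a L l = l := by
  funext j
  have := h j (Set.mem_univ j)
  rw [d92cl, min_eq_left this.2, max_eq_right this.1]

theorem d92_kf (a : Pl F → ℝ) (L : ℝ) {b : Pl F → ℝ} (hb : ∀ j, 0 ≤ b j) :
    D92.KF fun l => d92nk (Fk (d92cl a L l) b) := by
  refine ⟨by unfold d92nk Fk d92cl; fun_prop, fun l => (d92_kc (d92_kc_Fk _ hb)).nonneg,
    fun l => (d92_kc (d92_kc_Fk _ hb)).pos, fun β hβ => ?_⟩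
  obtain ⟨C, hC⟩ := d92_Fk_le a (fun j => max (a j) (a j + L)) (A := fun j => β j + 1 / 3)
    fun j => by have := hβ j; linarith
  refine ⟨C, fun l u => (mul_le_mul_of_nonneg_right (hC _ b u (fun j => ⟨le_max_left _ _,
    max_le_max le_rfl (min_le_right _ _)⟩) hb) (Real.exp_pos _).le).trans_eq ?_⟩
  rw [mul_assoc, d92_exp]

theorem d92_meas_box (a : Pl F → ℝ) (L : ℝ) : MeasurableSet (box a L) :=
  MeasurableSet.univ_pi fun _ => measurableSet_Icc

theorem d92_compact_box (a : Pl F → ℝ) (L : ℝ) : IsCompact (box a L) :=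
  isCompact_univ_pi fun _ => isCompact_Icc

theorem d92_fin_box (a : Pl F → ℝ) (L : ℝ) : IsFiniteMeasure (volume.restrict (box a L)) :=
  ⟨by rw [Measure.restrict_apply_univ]; exact (d92_compact_box a L).measure_lt_top⟩

theorem d92_box_ne (a : Pl F → ℝ) {L : ℝ} (hL : 0 < L) : volume.restrict (box a L) ≠ 0 := by
  rw [Ne, Measure.restrict_eq_zero, box, volume_pi_pi]
  refine Finset.prod_ne_zero_iff.2 fun j _ => ?_
  simp [hL]

theorem d92_limit (hL : LatStmt F) {g : F → ℂ} {b : Pl F → ℝ} (hg : BddL g) (hb : ∀ j, 0 ≤ b j)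
    (hB : ∀ (a : Pl F → ℝ) (L : ℝ), ∃ C : ℝ≥0∞, C ≠ ⊤ ∧ ∀ v : Pl F → ℝ, ∑ j, v j ≤ 0 →
      ∫⁻ l in box a L, ‖Sk g (Fk l b) v‖ₑ ^ 2 ≤ C)
    (hC : ∀ (a : Pl F → ℝ) (L : ℝ) (v v' : Pl F → ℝ) (ε : ℝ≥0∞), 0 < ε → ∃ s₀ : ℝ, ∀ s ≥ s₀,
      ∀ s' ≥ s₀,
      ∫⁻ l in box a L, ‖Sk g (Fk l b) (ray v s) - Sk g (Fk l b) (ray v' s')‖ₑ ^ 2 ≤ ε) :
    ∃ t : ℂ, WD g t ∧ ∀ (a : Pl F → ℝ) (L : ℝ) (v : Pl F → ℝ),
      Tendsto (fun s : ℝ => ∫⁻ l in box a L, ‖Sk g (Fk l b) (ray v s) - t * (MkV l b : ℂ)‖ₑ ^ 2)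
        atTop (𝓝 0) := by
  have := d92_countable (F := F)
  have hB' : ∀ (a : Pl F → ℝ) (L : ℝ), ∃ M : ℝ≥0∞, M ≠ ⊤ ∧ ∀ v : Pl F → ℝ, ∑ j, v j ≤ 0 →
      ∫⁻ l in box a L, ‖D92.SS (d92ng g) lg (d92nk (Fk (d92cl a L l) b)) v‖ₑ ^ 2 ≤ M := by
    intro a L
    obtain ⟨M, hM, h⟩ := hB a L
    refine ⟨M, hM, fun v hv => le_of_eq_of_le ?_ (h v hv)⟩
    refine setLIntegral_congr_fun (d92_meas_box a L) fun l hl => ?_
    simp only [d92_cl_eq hl, d92_Sk]
  have hC' : ∀ (a : Pl F → ℝ) (L : ℝ) (v v' : Pl F → ℝ), Tendsto (fun p : ℝ × ℝ =>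
      ∫⁻ l in box a L, ‖D92.SS (d92ng g) lg (d92nk (Fk (d92cl a L l) b)) (D92.ray v p.1) -
        D92.SS (d92ng g) lg (d92nk (Fk (d92cl a L l) b)) (D92.ray v' p.2)‖ₑ ^ 2)
      (atBot ×ˢ atBot) (𝓝 0) := by
    intro a L v v'
    refine ENNReal.tendsto_nhds_zero.2 fun ε hε => ?_
    obtain ⟨s₀, h⟩ := hC a L v v' ε hε
    filter_upwards [prod_mem_prod (Iic_mem_atBot (-s₀)) (Iic_mem_atBot (-s₀))] with p hp
    refine le_of_eq_of_le ?_ (h (-p.1) (le_neg.1 hp.1) (-p.2) (le_neg.1 hp.2))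
    refine setLIntegral_congr_fun (d92_meas_box a L) fun l hl => ?_
    simp only [d92_cl_eq hl, d92_Sk, d92_ray']
  have := d92_fin_box (F := F)
  obtain ⟨t, ht⟩ := D92.exists_wd (d92_tb hL hg) (d92_kf 0 1 hb) (d92_box_ne 0 one_pos)
    (hB' 0 1) (hC' 0 1)
  refine ⟨t, d92_wd' hL hg ht, fun a L v => ?_⟩
  have h1 := (D92.tendsto_of_wd (d92_tb hL hg) (d92_kf a L hb) (hB' a L) (hC' a L) ht v).comp
    tendsto_neg_atTop_atBot
  refine h1.congr fun s => setLIntegral_congr_fun (d92_meas_box a L) fun l hl => ?_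
  simp only [d92_cl_eq hl, d92_Sk, d92_ray, ← d92_Mo, d92_Mo_Fk l hb]

/-- **Leaf A4.** -/
theorem dens_92 (F : Type) [Field F] [NumberField F] [Emb F] (hL : LatStmt F) : DensStmt F where
  kc0 := d92_kc0
  unique _ _ _ hg h h' :=
    have := d92_countable (F := F)
    (d92_wd h).unique (d92_tb hL hg) (d92_wd h')
  add _ _ _ _ hg hg' h h' := d92_add hL hg hg' h h'
  smul a _ _ h := h.imp fun _ h => ⟨h.1, d92_smulk a h.2⟩
  addk _ _ _ _ _ hg hg' hk h h' := d92_addk hL hg hg' hk h h'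
  smulk a _ _ _ h := d92_smulk a h
  scalek _ _ _ _ hρ hg h := d92_scalek hρ hg h
  limit _ _ hg hb hB hC := d92_limit hL hg hb hB hC

end Crest.Agent.T27.TH
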