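import Crest.Agent.PVc.R27.Iface

/-!
# Row 27: the end of the chain with a general exponent (definitions only)

`ChebG` is the weakest form of the Chebotarev bound that the final assembly needs: the saving `d`
and the power `A` of `q` may depend on `a`.
-/

set_option autoImplicit false

namespace Crest.Agent.T27

open Finset Filter

/-- the Chebotarev bound with an arbitrary power saving -/
def ChebG : Prop :=
  ∀ a : ℤ, 2 ≤ |a| → ∃ (d C : ℝ) (A q₀ : ℕ), 0 < d ∧ 0 < C ∧ ∀ q N : ℕ, q.Prime → q₀ ≤ q → 2 ≤ N →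
    ((R27.spl a q N).card : ℝ) ≤
      C * (N / ((q : ℝ) ^ 2 * Real.log N) + (q : ℝ) ^ A * (N : ℝ) ^ (1 - d))

/-- the prime number theorem in progressions, qualitative form -/
def ThetaAP : Prop :=
  ∀ (M r : ℕ) (ε : ℝ), 1 ≤ M → r.Coprime M → 0 < ε → ∀ᶠ N : ℕ in atTop,
    |∑ p ∈ (Ioc 0 N).filter (fun p => p.Prime ∧ p ≡ r [MOD M]), Real.log p -
      N / (M.totient : ℝ)| ≤ ε * N

open Classical in
/-- the primes `p ∈ (2m, 3m]` of the class `r` such that `p - 1` has a prime factor `> m^{1-κ}` -/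
noncomputable def bigK (κ : ℝ) (M r m : ℕ) : Finset ℕ :=
  (Ioc (2 * m) (3 * m)).filter fun p => p.Prime ∧ p ≡ r [MOD M] ∧
    ∃ Q : ℕ, Q.Prime ∧ (m : ℝ) ^ (1 - κ) < Q ∧ Q ∣ p - 1

def BigK : Prop :=
  ∀ κ : ℝ, 0 < κ → κ < 1 / 2 → ∃ c : ℝ, 0 < c ∧ ∀ M r : ℕ, 1 ≤ M → r.Coprime M →
    ∀ᶠ m : ℕ in atTop, c / M.totient * (m / Real.log m) ≤ (bigK κ M r m).card

end Crest.Agent.T27
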