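import Crest.Agent.T27.Sar2_77
import Crest.Agent.T27.Basic_55

/-!
# Row 27, the number-field model of the frame `Fr0` (helper77)

`IsModel F N J j` says that the abstract frame `[Fr0]` is the ring `R = 𝓞_F[1/N]` (through
`j : O →+* F`) with the additive character `psiS` and the fine class group
`Fˣ / (U' P_J)`, `U' = Rˣ ∩ (Fˣ)⁶ P_J`.  All instance-level leaves can be stated as
`[Fr0] (h : IsModel F N J j) → …`; `exists_model` (file `Inst_77`) produces such a frame.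
-/

set_option autoImplicit false
set_option linter.unusedSectionVars false

noncomputable section

open NumberField

namespace Crest.Agent.T27

/-- The coarse subgroup `(Fˣ)⁶ P_J`. -/
def Co (F : Type*) [Field F] (N J : ℕ) : Subgroup Fˣ :=
  (powMonoidHom 6 : Fˣ →* Fˣ).range ⊔ PJ F N J

/-- `U' = Rˣ ∩ (Fˣ)⁶ P_J`, the units of trivial class. -/
def Up (F : Type*) [Field F] (N J : ℕ) : Subgroup Fˣ := UR F N ⊓ Co F N J

/-- The fine subgroup `U' P_J`. -/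
def Fi (F : Type*) [Field F] (N J : ℕ) : Subgroup Fˣ := Up F N J ⊔ PJ F N J

section groups

variable {F : Type*} [Field F] {N J : ℕ}

theorem mem_Co {x : Fˣ} : x ∈ Co F N J ↔ ∃ s : Fˣ, ∃ p ∈ PJ F N J, x = s ^ 6 * p := by
  rw [Co, Subgroup.mem_sup]
  constructor
  · rintro ⟨_, ⟨s, rfl⟩, p, hp, rfl⟩
    exact ⟨s, p, hp, rfl⟩
  · rintro ⟨s, p, hp, rfl⟩
    exact ⟨_, ⟨s, rfl⟩, p, hp, rfl⟩

theorem mem_Up {x : Fˣ} : x ∈ Up F N J ↔ x ∈ UR F N ∧ x ∈ Co F N J := Iff.rfl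

theorem mem_Fi {x : Fˣ} : x ∈ Fi F N J ↔ ∃ u ∈ Up F N J, ∃ p ∈ PJ F N J, x = u * p := by
  rw [Fi, Subgroup.mem_sup]
  exact ⟨fun ⟨u, hu, p, hp, h⟩ => ⟨u, hu, p, hp, h.symm⟩,
    fun ⟨u, hu, p, hp, h⟩ => ⟨u, hu, p, hp, h.symm⟩⟩

theorem PJ_le_Co : PJ F N J ≤ Co F N J := le_sup_right
theorem PJ_le_Fi : PJ F N J ≤ Fi F N J := le_sup_right
theorem Up_le_Fi : Up F N J ≤ Fi F N J := le_sup_left
theorem Up_le_UR : Up F N J ≤ UR F N := inf_le_left
theorem Up_le_Co : Up F N J ≤ Co F N J := inf_le_right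
theorem Fi_le_Co : Fi F N J ≤ Co F N J := sup_le Up_le_Co PJ_le_Co
theorem pow_six_mem_Co (s : Fˣ) : s ^ 6 ∈ Co F N J := mem_Co.2 ⟨s, 1, one_mem _, by simp⟩
theorem pow_six_mem_Up {u : Fˣ} (hu : u ∈ UR F N) : u ^ 6 ∈ Up F N J :=
  ⟨pow_mem hu 6, pow_six_mem_Co u⟩
theorem mem_Up_of_mem_Fi {u : Fˣ} (hu : u ∈ UR F N) (h : u ∈ Fi F N J) : u ∈ Up F N J :=
  ⟨hu, Fi_le_Co h⟩

end groups

/-- The frame `[Fr0]` is `𝓞_F[1/N]` with classes modulo `U' P_J`. -/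
structure IsModel [Fr0] (F : Type*) [Field F] [NumberField F] (N J : ℕ) (j : O →+* F) : Prop where
  good : SGood F N
  inj : Function.Injective j
  range : ∀ x, x ∈ j.range ↔ x ∈ RS F N
  eq_eq : ∀ x n, eq x n = psiS N (j x / j n)
  cls_iff : ∀ m n, m ≠ 0 → n ≠ 0 → (cls m = cls n ↔ ∃ t ∈ Fi F N J, j n = j m * t)

namespace IsModel

variable [Fr0] {F : Type*} [Field F] [NumberField F] {N J : ℕ} {j : O →+* F}
  (h : IsModel F N J j)

include h

theorem mem (x : O) : j x ∈ RS F N := (h.range _).1 ⟨x, rfl⟩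

theorem exists_eq {x : F} (hx : x ∈ RS F N) : ∃ a : O, j a = x := (h.range x).2 hx

theorem ne_zero {x : O} (hx : x ≠ 0) : j x ≠ 0 := fun h0 => hx (h.inj (h0.trans (map_zero j).symm))

/-- The ring isomorphism `O ≃ R`. -/
def equiv : O ≃+* RS F N :=
  RingEquiv.ofBijective (j.codRestrict (RS F N) h.mem)
    ⟨fun _ _ e => h.inj (congrArg Subtype.val e), fun x => by
      obtain ⟨a, ha⟩ := h.exists_eq x.2
      exact ⟨a, Subtype.ext ha⟩⟩

@[simp] theorem coe_equiv (x : O) : (h.equiv x : F) = j x := rfl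

@[simp] theorem j_symm (x : RS F N) : j (h.equiv.symm x) = x := by
  rw [← h.coe_equiv, RingEquiv.apply_symm_apply]

theorem isUnit_iff {x : O} : IsUnit x ↔ j x ≠ 0 ∧ (j x)⁻¹ ∈ RS F N := by
  rw [← MulEquiv.isUnit_map h.equiv, isUnit_iff_subring]; rfl

theorem isUnit_iff_UR {x : O} : IsUnit x ↔ ∃ u ∈ UR F N, j x = u := by
  rw [h.isUnit_iff]
  exact ⟨fun ⟨h0, h1⟩ => ⟨Units.mk0 _ h0, ⟨h.mem x, h1⟩, rfl⟩,
    fun ⟨u, hu, e⟩ => ⟨e ▸ u.ne_zero, e ▸ hu.2⟩⟩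

theorem exists_unit {u : Fˣ} (hu : u ∈ UR F N) : ∃ v : O, IsUnit v ∧ j v = u := by
  obtain ⟨v, hv⟩ := h.exists_eq hu.1
  exact ⟨v, h.isUnit_iff_UR.2 ⟨u, hu, hv⟩, hv⟩

theorem dvd_iff {x y : O} (hx : x ≠ 0) : x ∣ y ↔ j y / j x ∈ RS F N := by
  rw [← map_dvd_iff h.equiv, dvd_iff_subring (h.ne_zero hx)]; rfl

theorem nm_eq (n : O) : nm n = nmS (h.equiv n) :=
  Nat.card_congr (Ideal.quotientEquiv _ _ h.equiv (by simp [Ideal.map_span])).toEquiv

theorem nr_eq (n : O) : nr n = absS N (j n) * |((Algebra.norm ℚ (j n) : ℚ) : ℝ)| := by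
  have := h.good
  rw [nr, h.nm_eq, nmS_eq_absS]; rfl

theorem nr_eq_nmQ (n : O) : nr n = nmQ (Submonoid.powers N) (j n) := by
  have := h.good
  rw [nr, h.nm_eq, ← nmQ_coe (SGood.h0R F N)]; rfl

/-- The ideal of `𝓞 F` (coprime to `N`) generated by `n`. -/
def id (n : O) : Ideal (𝓞 F) := idS (h.equiv n)

theorem absNorm_id (n : O) : Ideal.absNorm (h.id n) = nm n := by
  have := h.good
  rw [h.nm_eq, nmS_eq (SGood.h0R F N)]; rfl

theorem id_mul (m n : O) : h.id (m * n) = h.id m * h.id n := by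
  have := h.good
  rw [id, map_mul, idS_mul (SGood.h0R F N)]; rfl

theorem id_one : h.id 1 = ⊤ := by rw [id, map_one, idS_one]

theorem id_zero : h.id 0 = ⊥ := by rw [id, map_zero, idS_zero]

theorem id_le_iff {m n : O} : h.id m ≤ h.id n ↔ n ∣ m := by
  have := h.good
  rw [id, id, idS_le_iff (SGood.h0R F N), map_dvd_iff]

theorem id_dvd_iff {m n : O} : h.id m ∣ h.id n ↔ m ∣ n := by
  rw [Ideal.dvd_iff_le, h.id_le_iff]

theorem id_eq_iff {m n : O} : h.id m = h.id n ↔ Associated m n := by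
  rw [← dvd_dvd_iff_associated, le_antisymm_iff, h.id_le_iff, h.id_le_iff, and_comm]

theorem id_ne_bot {n : O} (hn : n ≠ 0) : h.id n ≠ ⊥ := by
  have := h.good
  exact idS_ne_bot (SGood.h0R F N) (by simpa using hn)

theorem id_isCoprime {n : O} (hn : n ≠ 0) : IsCoprime (h.id n) (Ideal.span {(N : 𝓞 F)}) := by
  have := h.good
  exact idS_isCoprime_N (by simpa using hn)

theorem mem_id {n : O} (hn : n ≠ 0) {a : 𝓞 F} : a ∈ h.id n ↔ (a : F) / j n ∈ RS F N := by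
  rw [id, mem_idS, dvd_iff_subring (h.ne_zero hn)]; rfl

theorem id_inj {m n : O} (hm : Primary m) (hn : Primary n) (e : h.id m = h.id n) : m = n :=
  hm.eq_of_associated hn (h.id_eq_iff.1 e)

theorem exists_primary {I : Ideal (𝓞 F)} (hI : IsCoprime I (Ideal.span {(N : 𝓞 F)})) :
    ∃ n, Primary n ∧ h.id n = I := by
  have := h.good
  obtain ⟨n, hn, rfl⟩ := exists_idS_eq hI
  obtain ⟨u, hu, hp⟩ := exists_unit_primary (n := h.equiv.symm n) (by simpa using hn)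
  refine ⟨_, hp, ?_⟩
  rw [h.id_eq_iff.2 (associated_unit_mul_left _ _ hu), id, RingEquiv.apply_symm_apply]

/-- Primary elements are in bijection with the ideals of `𝓞 F` coprime to `N`. -/
theorem bijOn_id : Set.BijOn h.id {n | Primary n}
    {I | IsCoprime I (Ideal.span {(N : 𝓞 F)})} :=
  ⟨fun _ hn => h.id_isCoprime hn.ne_zero, fun _ hm _ hn e => h.id_inj hm hn e, fun _ hI => by
    obtain ⟨n, hn, e⟩ := h.exists_primary hI
    exact ⟨n, hn, e⟩⟩

theorem isUnit_id_iff {n : O} : IsUnit (h.id n) ↔ IsUnit n := by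
  rw [isUnit_iff_dvd_one, isUnit_iff_dvd_one, Ideal.one_eq_top, ← h.id_one, h.id_dvd_iff]

theorem isCoprime_of_dvd_id {n : O} (hn : n ≠ 0) {I : Ideal (𝓞 F)} (hI : I ∣ h.id n) :
    IsCoprime I (Ideal.span {(N : 𝓞 F)}) := (h.id_isCoprime hn).of_isCoprime_of_dvd_left hI

theorem prime_id_iff {n : O} (hn : n ≠ 0) : Prime (h.id n) ↔ Prime n := by
  rw [← UniqueFactorizationMonoid.irreducible_iff_prime,
    ← UniqueFactorizationMonoid.irreducible_iff_prime]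
  constructor
  · intro hi
    refine ⟨fun hu => hi.not_isUnit (h.isUnit_id_iff.2 hu), fun a b e => ?_⟩
    exact (hi.isUnit_or_isUnit (e ▸ h.id_mul a b)).imp h.isUnit_id_iff.1 h.isUnit_id_iff.1
  · intro hi
    refine ⟨fun hu => hi.not_isUnit (h.isUnit_id_iff.1 hu), fun A B e => ?_⟩
    obtain ⟨a, -, rfl⟩ := h.exists_primary (h.isCoprime_of_dvd_id hn ⟨B, e⟩)
    obtain ⟨b, -, rfl⟩ := h.exists_primary (h.isCoprime_of_dvd_id hn ⟨_, e.trans (mul_comm _ _)⟩)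
    rw [← h.id_mul, h.id_eq_iff] at e
    exact ((e.irreducible hi).isUnit_or_isUnit rfl).imp h.isUnit_id_iff.2 h.isUnit_id_iff.2

theorem squarefree_id_iff {n : O} (hn : n ≠ 0) : Squarefree (h.id n) ↔ Squarefree n := by
  constructor
  · intro hs x hx
    exact h.isUnit_id_iff.1 (hs _ (by rw [← h.id_mul, h.id_dvd_iff]; exact hx))
  · intro hs A hA
    obtain ⟨a, -, rfl⟩ := h.exists_primary (h.isCoprime_of_dvd_id hn ((dvd_mul_right A A).trans hA))
    rw [← h.id_mul, h.id_dvd_iff] at hA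
    exact h.isUnit_id_iff.2 (hs a hA)

theorem cls_eq_of_mem_PJ {m n : O} (hm : m ≠ 0) {p : Fˣ} (hp : p ∈ PJ F N J)
    (e : j n = j m * p) : cls m = cls n := by
  have hn : n ≠ 0 := by
    rintro rfl
    exact mul_ne_zero (h.ne_zero hm) p.ne_zero (e.symm.trans (map_zero j))
  exact (h.cls_iff m n hm hn).2 ⟨p, PJ_le_Fi hp, e⟩

/-- Elements of the same class differ by a sixth power and an element of `P_J`. -/
theorem exists_of_cls_eq {m n : O} (hm : m ≠ 0) (e : cls m = cls n) :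
    ∃ s : F, s ≠ 0 ∧ ∃ l ∈ LS F N, j n = j m * (1 + (N : F) ^ J * l) * s ^ 6 := by
  obtain ⟨t, ht, e⟩ := (h.cls_iff m n hm (ne_zero_of_cls_eq e.symm hm)).1 e
  obtain ⟨s, p, ⟨-, l, hl, hp⟩, rfl⟩ := mem_Co.1 (Fi_le_Co ht)
  exact ⟨s, s.ne_zero, l, hl, by rw [e, ← hp]; push_cast; ring⟩

/-- Elements of the same class differ by a unit of trivial class and an element of `P_J`. -/
theorem exists_unit_of_cls_eq {m n : O} (hm : m ≠ 0) (e : cls m = cls n) :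
    ∃ v : O, IsUnit v ∧ cls v = 1 ∧ ∃ p ∈ PJ F N J, j n = j v * j m * p := by
  obtain ⟨t, ht, e⟩ := (h.cls_iff m n hm (ne_zero_of_cls_eq e.symm hm)).1 e
  obtain ⟨u, hu, p, hp, rfl⟩ := mem_Fi.1 ht
  obtain ⟨v, hv, hj⟩ := h.exists_unit hu.1
  refine ⟨v, hv, ?_, p, hp, by rw [e, hj]; push_cast; ring⟩
  rw [← map_one cls, eq_comm]
  exact (h.cls_iff 1 v one_ne_zero hv.ne_zero).2 ⟨u, Up_le_Fi hu, by rw [hj, map_one, one_mul]⟩

theorem cls_eq_one_iff {v : O} (hv : v ≠ 0) : cls v = 1 ↔ ∃ t ∈ Fi F N J, j v = t := by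
  rw [← map_one cls, eq_comm, h.cls_iff 1 v one_ne_zero hv]
  simp only [map_one, one_mul]

/-- The units of trivial class are the elements of `U'`. -/
theorem unit_cls_iff {v : O} : IsUnit v ∧ cls v = 1 ↔ ∃ u ∈ Up F N J, j v = u := by
  constructor
  · rintro ⟨hv, h1⟩
    obtain ⟨t, ht, e⟩ := (h.cls_eq_one_iff hv.ne_zero).1 h1
    obtain ⟨u, hu, e'⟩ := h.isUnit_iff_UR.1 hv
    obtain rfl : u = t := Units.ext (e'.symm.trans e)
    exact ⟨u, mem_Up_of_mem_Fi hu ht, e⟩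
  · rintro ⟨u, hu, e⟩
    have hv := h.isUnit_iff_UR.2 ⟨u, hu.1, e⟩
    exact ⟨hv, (h.cls_eq_one_iff hv.ne_zero).2 ⟨u, Up_le_Fi hu, e⟩⟩

theorem om_sq : j om ^ 2 + j om + 1 = 0 := by
  simpa using congrArg j om_sq_add

end IsModel

/-- The statement proved in `Inst_77`. -/
def ModelStmt : Prop :=
  ∀ (F : Type) [Field F] [NumberField F] (N J : ℕ) [SGood F N] (w : F), w ^ 2 + w + 1 = 0 →
    ∃ (_ : Fr0) (j : O →+* F), IsModel F N J j ∧ j om = w

end Crest.Agent.T27
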