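import Crest.Agent.T27.Amp_84
import Crest.Agent.T27.Weight_23
import Crest.Agent.T27.Mdl_77
import Crest.Agent.T27.HeckeD_87

/-!
# Row 27: from the Möbius bound of the frame to `1 / ζ_F` (helper84)

`invZeta_model_84 : IsModel F N J j → MobFr → ∃ G, holomorphic on Re s > 11/12, G ζ_F = 1`.
-/

set_option autoImplicit false

noncomputable section

namespace Crest.Agent.T27

open MeasureTheory Set Filter Topology Asymptotics NumberField

namespace A84

section generic
variable [Fr0]

open Classical in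
theorem norm_dir_le {b : O → ℂ} (hb : ∀ n, ‖b n‖ ≤ 1) (s : ℂ) (n : O) :
    ‖if Primary n then b n * (nr n : ℂ) ^ (-s) else 0‖ ≤
      if Primary n then nr n ^ (-s.re) else 0 := by
  split_ifs with h
  · rw [norm_mul, Complex.norm_cpow_eq_rpow_re_of_pos (nr_pos h.ne_zero), Complex.neg_re]
    exact mul_le_of_le_one_left (by positivity) (hb n)
  · simp

open Classical in
theorem summable_norm_dir {b : O → ℂ} (hb : ∀ n, ‖b n‖ ≤ 1) {s : ℂ} (hs : 1 < s.re) :
    Summable fun n : O => ‖if Primary n then b n * (nr n : ℂ) ^ (-s) else 0‖ :=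
  Summable.of_nonneg_of_le (fun _ => norm_nonneg _) (norm_dir_le hb s) (summable_prim hs)

theorem nr_mul_cpow (m n : O) (s : ℂ) :
    (nr (m * n) : ℂ) ^ s = (nr m : ℂ) ^ s * (nr n : ℂ) ^ s := by
  rw [nr_mul, Complex.ofReal_mul,
    Complex.mul_cpow_ofReal_nonneg (Nat.cast_nonneg _) (Nat.cast_nonneg _)]

open Classical in
/-- Möbius inversion. -/
theorem mob_mul_zeta {s : ℂ} (hs : 1 < s.re) :
    (∑' n : O, if Primary n then mu n * (nr n : ℂ) ^ (-s) else 0) *
      (∑' n : O, if Primary n then (nr n : ℂ) ^ (-s) else 0) = 1 := by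
  have h1 := summable_norm_dir norm_mu_le hs
  have h2 := summable_norm_dir (b := fun _ => 1) (by simp) hs
  simp only [one_mul] at h2
  rw [tsum_mul_tsum_of_summable_norm h1 h2]
  have h3 := (summable_mul_of_summable_norm h1 h2).hasSum.tsum_fiberwise
    (fun x : O × O => x.1 * x.2)
  rw [← h3.tsum_eq, tsum_eq_single 1]
  · rw [tsum_eq_single ⟨(1, 1), by simp⟩]
    · simp [primary_one]
    · rintro ⟨⟨d, e⟩, h4⟩ h5
      have h6 : d * e = 1 := h4
      by_cases hd : Primary d
      · by_cases he : Primary e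
        · refine absurd (Subtype.ext (Prod.ext ?_ ?_)) h5
          · exact hd.eq_one_of_isUnit (IsUnit.of_mul_eq_one _ h6)
          · exact he.eq_one_of_isUnit (IsUnit.of_mul_eq_one_right _ h6)
        · simp [he]
      · simp [hd]
  · intro k hk
    by_cases hp : Primary k
    · rw [tsum_subtype ((fun x : O × O => x.1 * x.2) ⁻¹' {k}) (fun x : O × O =>
        (if Primary x.1 then mu x.1 * (nr x.1 : ℂ) ^ (-s) else 0) *
          if Primary x.2 then (nr x.2 : ℂ) ^ (-s) else 0),
        tsum_eq_sum (s := (pdiv k).image fun d => (d, k / d)),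
        Finset.sum_image fun d _ d' _ e => congrArg Prod.fst e]
      · have h4 : ∑ d ∈ pdiv k, mu d = 0 := by
          rw [sum_mu_pdiv hp.ne_zero, if_neg]
          exact fun h => hk (hp.eq_one_of_isUnit ((isUnit_iff_pf hp.ne_zero).2 h))
        rw [Finset.sum_congr rfl (g := fun d => mu d * (nr k : ℂ) ^ (-s)), ← Finset.sum_mul, h4,
          zero_mul]
        intro d hd
        obtain ⟨h5, h6⟩ := (mem_pdiv hp.ne_zero).1 hd
        have h7 : d * (k / d) = k := EuclideanDomain.mul_div_cancel' h5.ne_zero h6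
        rw [indicator_of_mem (by exact h7), if_pos h5, if_pos (h5.of_mul (h7.symm ▸ hp)),
          mul_assoc, ← nr_mul_cpow, h7]
      · rintro ⟨d, e⟩ h4
        by_cases h5 : d * e = k
        · rw [indicator_of_mem (by exact h5), if_neg, zero_mul]
          intro hd
          refine h4 (Finset.mem_image.2 ⟨d, (mem_pdiv hp.ne_zero).2 ⟨hd, e, h5.symm⟩, ?_⟩)
          rw [← h5, mul_div_cancel_left₀ _ hd.ne_zero]
        · exact indicator_of_notMem (by exact h5) _
    · refine (tsum_congr ?_).trans tsum_zero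
      rintro ⟨⟨d, e⟩, h4⟩
      have h6 : d * e = k := h4
      by_cases hd : Primary d
      · by_cases he : Primary e
        · exact absurd (h6 ▸ hd.mul he) hp
        · simp [he]
      · simp [hd]

omit [Fr0] in
theorem continuousOn_Wc {c : ℝ} (hc : 0 < c) :
    ContinuousOn (fun t : ℝ => Wc (c * t) 0) (Ioi 0) := by
  have h : ContinuousOn (fun t : ℝ => ((Real.log (c * t) : ℝ) : ℂ)) (Ioi 0) :=
    Complex.continuous_ofReal.comp_continuousOn
      ((continuousOn_const.mul continuousOn_id).log fun t ht => (mul_pos hc ht).ne')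
  exact ((h.pow 2).neg.add (continuousOn_const.mul h)).cexp

omit [Fr0] in
theorem mellinConv_Wc (s : ℂ) : MellinConvergent (fun t : ℝ => Wc t 0) s := by
  have h : ∀ (σ : ℝ) (l : Filter ℝ), (∀ᶠ t in l, 0 < t) →
      (fun t : ℝ => Wc t 0) =O[l] (· ^ (-σ)) := fun σ l hl =>
    IsBigO.of_bound (Real.exp (σ ^ 2 / 4)) (hl.mono fun t ht => by
      rw [Real.norm_of_nonneg (by positivity)]
      exact norm_Wc_zero_le ht σ)
  refine mellinConvergent_of_isBigO_rpow (a := s.re + 1) (b := s.re - 1) ?_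
    (h _ _ (eventually_gt_atTop 0)) (by linarith) (h _ _ self_mem_nhdsWithin) (by linarith)
  have := continuousOn_Wc one_pos
  simp only [one_mul] at this
  exact this.locallyIntegrableOn measurableSet_Ioi

omit [Fr0] in
theorem mellin_Wc_mul {c : ℝ} (hc : 0 < c) (s : ℂ) :
    mellin (fun t : ℝ => Wc (c * t) 0) s = (c : ℂ) ^ (-s) * Wm s := by
  rw [mellin_comp_mul_left (fun t : ℝ => Wc t 0) s hc, smul_eq_mul, mellin]
  congr 1
  have := mellin_Wc s 0
  rw [add_zero] at this
  rw [← this]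
  simp only [smul_eq_mul, mul_comm]

omit [Fr0] in
theorem integral_norm_Wc_mul {c : ℝ} (hc : 0 < c) (s : ℂ) :
    ∫ t in Ioi (0 : ℝ), ‖(t : ℂ) ^ (s - 1) • Wc (c * t) 0‖ = c ^ (-s.re) * ‖Wm s.re‖ := by
  have h1 := congrArg norm (mellin_Wc_mul hc s.re)
  rw [norm_mul, Complex.norm_cpow_eq_rpow_re_of_pos hc, Complex.neg_re, Complex.ofReal_re] at h1
  have h2 : mellin (fun t : ℝ => Wc (c * t) 0) s.re =
      ((∫ t in Ioi (0 : ℝ), ‖(t : ℂ) ^ (s - 1) • Wc (c * t) 0‖ : ℝ) : ℂ) := by
    rw [mellin, ← integral_complex_ofReal]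
    refine setIntegral_congr_fun measurableSet_Ioi fun t ht => ?_
    have h3 : Wc (c * t) 0 = ((Real.exp (-(Real.log (c * t)) ^ 2) : ℝ) : ℂ) := by simp [Wc]
    have ht' : (0 : ℝ) < t := ht
    simp only [smul_eq_mul, norm_mul, Complex.norm_cpow_eq_rpow_re_of_pos ht', h3,
      Complex.norm_real, Real.norm_of_nonneg (Real.exp_pos _).le, Complex.sub_re, Complex.one_re]
    rw [show ((s.re : ℂ) - 1) = ((s.re - 1 : ℝ) : ℂ) by push_cast; ring,
      ← Complex.ofReal_cpow ht'.le]
    norm_cast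
  rw [← h1, h2, Complex.norm_real, Real.norm_of_nonneg (integral_nonneg fun _ => norm_nonneg _)]

open Classical in
/-- The smooth sum with coefficients `b` at the scale `1 / t`. -/
def sm (b : O → ℂ) (t : ℝ) : ℂ := ∑' n : O, if Primary n then b n * Wc (nr n / t⁻¹) 0 else 0

open Classical in
theorem norm_sm_le {b : O → ℂ} (hb : ∀ n, ‖b n‖ ≤ 1) {σ : ℝ} (hσ : 1 < σ) :
    sm b =O[atTop] (· ^ (-σ)) := by
  refine IsBigO.of_bound (Real.exp (σ ^ 2 / 4) *
    ∑' n : O, if Primary n then nr n ^ (-σ) else 0) ((eventually_gt_atTop 0).mono fun t ht => ?_)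
  refine (tsum_of_norm_bounded ((summable_prim hσ).hasSum.mul_left _)
    (norm_term_le (fun _ h => h) hb (inv_pos.2 ht) σ)).trans (le_of_eq ?_)
  rw [Real.norm_of_nonneg (by positivity), Real.inv_rpow ht.le, Real.rpow_neg ht.le]
  ring

open Classical in
theorem continuousOn_sm {b : O → ℂ} (hb : ∀ n, ‖b n‖ ≤ 1) : ContinuousOn (sm b) (Ioi 0) := by
  intro t ht
  have ht' : (0 : ℝ) < t := ht
  have h1 : ContinuousOn (sm b) (Ioi (t / 2)) := by
    refine continuousOn_tsum (fun n => ?_) ((summable_prim one_lt_two).mul_left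
      (Real.exp (2 ^ 2 / 4) * (t / 2)⁻¹ ^ (2 : ℝ))) fun n x hx => ?_
    · by_cases hn : Primary n
      · simp only [if_pos hn, div_inv_eq_mul]
        exact continuousOn_const.mul ((continuousOn_Wc (nr_pos hn.ne_zero)).mono
          (Ioi_subset_Ioi (by linarith)))
      · simp only [if_neg hn]
        exact continuousOn_const
    · have hx' : t / 2 < x := hx
      have hx0 : 0 < x := by linarith
      refine (norm_term_le (fun _ h => h) hb (inv_pos.2 hx0) 2 n).trans ?_
      have h0 : 0 ≤ if Primary n then nr n ^ (-2 : ℝ) else 0 := by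
        split_ifs
        · positivity
        · exact le_rfl
      gcongr
  exact (h1.continuousAt (Ioi_mem_nhds (by linarith))).continuousWithinAt

open Classical in
theorem mellin_sm {b : O → ℂ} (hb : ∀ n, ‖b n‖ ≤ 1) {s : ℂ} (hs : 1 < s.re) :
    mellin (sm b) s = (∑' n : O, if Primary n then b n * (nr n : ℂ) ^ (-s) else 0) * Wm s := by
  have h1 := hasSum_integral_of_summable_integral_norm (μ := volume.restrict (Ioi (0 : ℝ)))
    (F := fun (n : O) (t : ℝ) =>
      (t : ℂ) ^ (s - 1) • if Primary n then b n * Wc (nr n / t⁻¹) 0 else 0) (fun n => ?_) ?_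
  · rw [mellin, ← tsum_mul_right]
    simp only [sm, smul_eq_mul, ← tsum_mul_left] at h1 ⊢
    rw [← h1.tsum_eq]
    refine tsum_congr fun n => ?_
    by_cases hn : Primary n
    · simp only [if_pos hn, div_inv_eq_mul]
      rw [mul_assoc, ← mellin_Wc_mul (nr_pos hn.ne_zero), mellin, ← integral_const_mul]
      simp only [smul_eq_mul, mul_left_comm]
    · simp [hn]
  · by_cases hn : Primary n
    · simp only [if_pos hn, div_inv_eq_mul, smul_eq_mul, mul_left_comm _ (b n)]
      exact Integrable.const_mul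
        ((MellinConvergent.comp_mul_left (nr_pos hn.ne_zero)).2 (mellinConv_Wc s)) _
    · simp [hn]
  · refine Summable.of_nonneg_of_le (fun n => integral_nonneg fun _ => norm_nonneg _) (fun n => ?_)
      ((summable_prim hs).mul_right ‖Wm s.re‖)
    by_cases hn : Primary n
    · simp only [if_pos hn, div_inv_eq_mul, smul_eq_mul, mul_left_comm _ (b n), norm_mul (b n)]
      rw [integral_const_mul, ← integral_norm_Wc_mul (nr_pos hn.ne_zero)]
      exact mul_le_of_le_one_left (integral_nonneg fun _ => norm_nonneg _) (hb n)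
    · simp [hn]

open Classical in
/-- A power saving for the smooth sums continues the Dirichlet series. -/
theorem exists_cont {b : O → ℂ} (hb : ∀ n, ‖b n‖ ≤ 1) {θ : ℝ}
    (h : ∀ ε : ℝ, 0 < ε → ∃ C : ℝ, 0 < C ∧ ∀ B : ℝ, 1 ≤ B →
      ‖∑' n : O, if Primary n then b n * Wc (nr n / B) 0 else 0‖ ≤ C * B ^ (θ + ε)) :
    ∃ G : ℂ → ℂ, DifferentiableOn ℂ G {s | θ < s.re} ∧
      ∀ s : ℂ, 1 < s.re → G s = ∑' n : O, if Primary n then b n * (nr n : ℂ) ^ (-s) else 0 := by
  refine ⟨fun s => mellin (sm b) s / Wm s, fun s hs => ?_, fun s hs => ?_⟩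
  · have hs' : θ < s.re := hs
    obtain ⟨C, -, hC⟩ := h ((s.re - θ) / 2) (by linarith)
    refine (DifferentiableAt.div ?_ (differentiable_Wm s) (Wm_ne_zero s)).differentiableWithinAt
    refine mellin_differentiableAt_of_isBigO_rpow (a := max s.re 1 + 1) (b := θ + (s.re - θ) / 2)
      ((continuousOn_sm hb).locallyIntegrableOn measurableSet_Ioi)
      (norm_sm_le hb (by linarith [le_max_right s.re 1])) (by linarith [le_max_left s.re 1])
      (IsBigO.of_bound C ?_) (by linarith)
    filter_upwards [Ioc_mem_nhdsGT (zero_lt_one' ℝ)] with t ht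
    rw [Real.norm_of_nonneg (Real.rpow_nonneg ht.1.le _), Real.rpow_neg ht.1.le,
      ← Real.inv_rpow ht.1.le]
    exact hC _ ((one_le_inv₀ ht.1).2 ht.2)
  · beta_reduce
    rw [mellin_sm hb hs, mul_div_cancel_right₀ _ (Wm_ne_zero s)]

end generic

section field
variable {F : Type*} [Field F] [NumberField F]

open Classical in
/-- Removal of finitely many Euler factors. -/
theorem tsum_free {s : ℂ} (hs : 1 < s.re) (T : Finset (Ideal (𝓞 F))) (hT : ∀ P ∈ T, Prime P) :
    (∑' I : Ideal (𝓞 F), if ∀ P ∈ T, ¬ P ∣ I then (Ideal.absNorm I : ℂ) ^ (-s) else 0) =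
      dedekindZeta F s * ∏ P ∈ T, (1 - (Ideal.absNorm P : ℂ) ^ (-s)) := by
  have hsum : ∀ (p : Ideal (𝓞 F) → Prop) [DecidablePred p],
      Summable fun I : Ideal (𝓞 F) => if p I then (Ideal.absNorm I : ℂ) ^ (-s) else 0 := by
    intro p _
    have := HeckeD87.summable_psi (K := F) (ψ := fun I => if p I then 1 else 0)
      (fun I => by split_ifs <;> simp) hs
    simpa only [ite_mul, one_mul, zero_mul] using this
  induction T using Finset.induction_on with
  | empty => simp [HeckeD87.dedekindZeta_eq hs]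
  | insert P T hP ih =>
    have hPp := hT P (Finset.mem_insert_self _ _)
    have hT' : ∀ Q ∈ T, Prime Q := fun Q hQ => hT Q (Finset.mem_insert_of_mem hQ)
    have h1 : (∑' I : Ideal (𝓞 F),
        if (∀ Q ∈ T, ¬ Q ∣ I) ∧ P ∣ I then (Ideal.absNorm I : ℂ) ^ (-s) else 0) =
        (Ideal.absNorm P : ℂ) ^ (-s) *
          ∑' I : Ideal (𝓞 F), if ∀ Q ∈ T, ¬ Q ∣ I then (Ideal.absNorm I : ℂ) ^ (-s) else 0 := by
      rw [← tsum_mul_left]
      refine ((mul_right_injective₀ hPp.ne_zero).tsum_eq ?_).symm.trans (tsum_congr fun I => ?_)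
      · intro I hI
        by_contra h
        exact hI (if_neg fun h' => h (by obtain ⟨J, hJ⟩ := h'.2; exact ⟨J, hJ.symm⟩))
      · have h2 : ((∀ Q ∈ T, ¬ Q ∣ P * I) ∧ P ∣ P * I) ↔ ∀ Q ∈ T, ¬ Q ∣ I := by
          refine ⟨fun h Q hQ h' => h.1 Q hQ (h'.mul_left _), fun h => ⟨fun Q hQ h' => ?_,
            dvd_mul_right _ _⟩⟩
          rcases (hT' Q hQ).dvd_or_dvd h' with h3 | h3
          · exact hP ((prime_dvd_prime_iff_eq (hT' Q hQ) hPp).1 h3 ▸ hQ)
          · exact h Q hQ h3
        by_cases h3 : ∀ Q ∈ T, ¬ Q ∣ I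
        · rw [if_pos (h2.2 h3), if_pos h3, map_mul, Nat.cast_mul, Complex.natCast_mul_natCast_cpow]
        · rw [if_neg fun h => h3 (h2.1 h), if_neg h3, mul_zero]
    rw [Finset.prod_insert hP, mul_left_comm, ← ih hT', sub_mul, one_mul, ← h1,
      ← (hsum _).tsum_sub (hsum _)]
    refine tsum_congr fun I => ?_
    simp only [Finset.forall_mem_insert]
    by_cases h3 : ∀ Q ∈ T, ¬ Q ∣ I
    · by_cases h4 : P ∣ I
      · rw [if_neg fun h => h.1 h4, if_pos h3, if_pos ⟨h3, h4⟩, sub_self]
      · rw [if_pos ⟨h4, h3⟩, if_pos h3, if_neg fun h => h4 h.2, sub_zero]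
    · rw [if_neg fun h => h3 h.2, if_neg h3, if_neg fun h => h3 h.1, sub_zero]

open Classical in
/-- The prime ideals above `N`. -/
def primesN (F : Type*) [Field F] [NumberField F] (N : ℕ) : Finset (Ideal (𝓞 F)) :=
  (UniqueFactorizationMonoid.normalizedFactors (Ideal.span {(N : 𝓞 F)})).toFinset

theorem prime_of_mem_primesN {N : ℕ} {P : Ideal (𝓞 F)} (h : P ∈ primesN F N) : Prime P := by
  classical
  exact UniqueFactorizationMonoid.prime_of_normalized_factor _ (Multiset.mem_toFinset.1 h)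

theorem isCoprime_iff_primesN {N : ℕ} (hN : N ≠ 0) {I : Ideal (𝓞 F)} :
    IsCoprime I (Ideal.span {(N : 𝓞 F)}) ↔ ∀ P ∈ primesN F N, ¬ P ∣ I := by
  classical
  have h0 : Ideal.span {(N : 𝓞 F)} ≠ ⊥ := by simpa using hN
  constructor
  · intro h P hP hI
    exact (prime_of_mem_primesN hP).not_isUnit (h.isUnit_of_dvd' hI
      (UniqueFactorizationMonoid.dvd_of_mem_normalizedFactors (Multiset.mem_toFinset.1 hP)))
  · intro h
    rw [Ideal.isCoprime_iff_sup_eq]
    by_contra h1
    obtain ⟨P, hP, h2⟩ := Ideal.exists_le_maximal _ h1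
    refine h P (Multiset.mem_toFinset.2 ?_) (Ideal.dvd_iff_le.2 (le_sup_left.trans h2))
    exact (Ideal.mem_normalizedFactors_iff h0).2 ⟨hP.isPrime, le_sup_right.trans h2⟩

/-- The Euler factors at `N`. -/
def eulN (F : Type*) [Field F] [NumberField F] (N : ℕ) (s : ℂ) : ℂ :=
  ∏ P ∈ primesN F N, (1 - (Ideal.absNorm P : ℂ) ^ (-s))

theorem absNorm_ne_zero_of_mem {N : ℕ} {P : Ideal (𝓞 F)} (h : P ∈ primesN F N) :
    Ideal.absNorm P ≠ 0 := fun h0 =>
  (prime_of_mem_primesN h).ne_zero (Ideal.absNorm_eq_zero_iff.1 h0)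

theorem differentiable_eulN (N : ℕ) : Differentiable ℂ (eulN F N) := by
  refine Differentiable.fun_finsetProd fun P hP => (differentiable_const _).sub ?_
  exact differentiable_neg.const_cpow (Or.inl (by exact_mod_cast absNorm_ne_zero_of_mem hP))

theorem norm_eulN_le (N : ℕ) {s : ℂ} (hs : 0 ≤ s.re) : ‖eulN F N s‖ ≤ 2 ^ (primesN F N).card := by
  rw [eulN, norm_prod, ← Finset.prod_const]
  refine Finset.prod_le_prod (fun _ _ => norm_nonneg _) fun P hP => (norm_sub_le _ _).trans ?_
  have h0 := Nat.pos_of_ne_zero (absNorm_ne_zero_of_mem hP)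
  rw [norm_one, Complex.norm_natCast_cpow_of_pos h0, Complex.neg_re]
  have := Real.rpow_le_one_of_one_le_of_nonpos (x := (Ideal.absNorm P : ℝ)) (z := -s.re)
    (by exact_mod_cast h0) (by linarith)
  linarith

open Classical in
/-- The zeta function of the frame, for any parametrisation of the ideals coprime to `N`. -/
theorem zeta_of_bij [Fr0] {N : ℕ} (hN : N ≠ 0) (ι : O → Ideal (𝓞 F))
    (hinj : ∀ m n, Primary m → Primary n → ι m = ι n → m = n)
    (hco : ∀ n, Primary n → IsCoprime (ι n) (Ideal.span {(N : 𝓞 F)}))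
    (hsurj : ∀ I, I ≠ ⊥ → IsCoprime I (Ideal.span {(N : 𝓞 F)}) → ∃ n, Primary n ∧ ι n = I)
    (hnm : ∀ n, Primary n → Ideal.absNorm (ι n) = nm n) {s : ℂ} (hs : 1 < s.re) :
    (∑' n : O, if Primary n then (nr n : ℂ) ^ (-s) else 0) = dedekindZeta F s * eulN F N s := by
  rw [eulN, ← tsum_free hs _ fun P => prime_of_mem_primesN]
  have h1 : (∑' n : O, if Primary n then (nr n : ℂ) ^ (-s) else 0) =
      ∑' n : {n : O | Primary n}, (nr n.1 : ℂ) ^ (-s) := by
    rw [tsum_subtype {n : O | Primary n} fun n => (nr n : ℂ) ^ (-s)]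
    exact tsum_congr fun n => by simp only [indicator_apply, mem_ofPred_eq]
  rw [h1]
  refine Eq.trans (tsum_congr fun n => ?_) (Function.Injective.tsum_eq
    (g := fun n : {n : O | Primary n} => ι n.1)
    (fun m n e => Subtype.ext (hinj _ _ m.2 n.2 e)) fun I hI => ?_)
  · rw [if_pos ((isCoprime_iff_primesN hN).1 (hco _ n.2)), hnm _ n.2]
    norm_cast
  · have h2 : ∀ P ∈ primesN F N, ¬ P ∣ I := by
      by_contra h
      exact hI (if_neg h)
    have h3 : I ≠ ⊥ := by
      rintro rfl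
      refine hI ?_
      have hs0 : -s ≠ 0 := by
        rw [neg_ne_zero]
        rintro rfl
        norm_num at hs
      simp [hs0]
    obtain ⟨n, hn, e⟩ := hsurj I h3 ((isCoprime_iff_primesN hN).2 h2)
    exact ⟨⟨n, hn⟩, e⟩

end field

end A84

open Classical in
/-- The zeta function of the model is `ζ_F` without the Euler factors at `N`. -/
theorem zeta_model_84 [Fr0] {F : Type*} [Field F] [NumberField F] {N J : ℕ} {j : O →+* F}
    (h : IsModel F N J j) {s : ℂ} (hs : 1 < s.re) :
    (∑' n : O, if Primary n then (nr n : ℂ) ^ (-s) else 0) =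
      dedekindZeta F s * A84.eulN F N s :=
  A84.zeta_of_bij h.good.ne h.id (fun _ _ => h.id_inj) (fun _ hn => h.id_isCoprime hn.ne_zero)
    (fun _ _ => h.exists_primary) (fun n _ => h.absNorm_id n) hs

open Classical in
/-- `1 / ζ_F` from the Möbius bound and the zeta identity. -/
theorem invZeta_of_zeta_84 [Fr] {F : Type*} [Field F] [NumberField F] {N : ℕ}
    (hz : ∀ s : ℂ, 1 < s.re → (∑' n : O, if Primary n then (nr n : ℂ) ^ (-s) else 0) =
      dedekindZeta F s * A84.eulN F N s) (h : MobFr) :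
    ∃ G : ℂ → ℂ, DifferentiableOn ℂ G {s | 11 / 12 < s.re} ∧
      ∀ s : ℂ, 1 < s.re → G s * dedekindZeta F s = 1 := by
  obtain ⟨G, h1, h2⟩ := A84.exists_cont norm_mu_le h
  refine ⟨fun s => G s * A84.eulN F N s, h1.mul (A84.differentiable_eulN N).differentiableOn,
    fun s hs => ?_⟩
  beta_reduce
  rw [← A84.mob_mul_zeta hs, hz s hs, h2 s hs]
  ring

/-- **End of the core**, for a model of the frame. -/
theorem invZeta_model_84 [Fr] {F : Type*} [Field F] [NumberField F] {N J : ℕ} {j : O →+* F}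
    (hm : IsModel F N J j) (h : MobFr) :
    ∃ G : ℂ → ℂ, DifferentiableOn ℂ G {s | 11 / 12 < s.re} ∧
      ∀ s : ℂ, 1 < s.re → G s * dedekindZeta F s = 1 :=
  invZeta_of_zeta_84 (N := N) (fun _ => zeta_model_84 hm) h

/-- **End of the core**, for any embedding with image `O_F[1/N]`. -/
theorem invZeta_of_mobFr_84 [Fr] {F : Type*} [Field F] [NumberField F] {N : ℕ} (hN : N ≠ 0)
    (j : O →+* F) (hj : Function.Injective j) (hr : ∀ x, x ∈ j.range ↔ x ∈ RS F N) (h : MobFr) :
    ∃ G : ℂ → ℂ, DifferentiableOn ℂ G {s | 11 / 12 < s.re} ∧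
      ∀ s : ℂ, 1 < s.re → G s * dedekindZeta F s = 1 := by
  have h0 := zero_notMem_powers hN
  let e : O ≃+* RS F N := RingEquiv.ofBijective
    (j.codRestrict (RS F N) fun x => (hr _).1 ⟨x, rfl⟩)
    ⟨fun _ _ e => hj (congrArg Subtype.val e), fun x => by
      obtain ⟨a, ha⟩ := (hr x).2 x.2
      exact ⟨a, Subtype.ext ha⟩⟩
  have hp : IsPrincipalIdealRing (RS F N) := IsPrincipalIdealRing.of_surjective e e.surjective
  refine invZeta_of_zeta_84 (N := N) (fun s => A84.zeta_of_bij hN (fun n => idS (e n))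
    (fun m n hm hn he => ?_) (fun n hn => ?_) (fun I hI hc => ?_) fun n _ => ?_) h
  · refine hm.eq_of_associated hn ?_
    have := ((idS_eq_iff h0).1 he).map e.symm
    simpa using this
  · exact idS_isCoprime h0 (by simpa using hn.ne_zero) (Submonoid.mem_powers N)
  · obtain ⟨n, hn⟩ :=
      (IsPrincipalIdealRing.principal (I.map (algebraMap (𝓞 F) (RS F N)))).principal
    have h1 : idS n = I := by
      rw [idS, ← Ideal.submodule_span_eq, ← hn]
      refine under_map_LocS h0 ?_
      rintro _ ⟨k, rfl⟩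
      simpa [← Ideal.span_singleton_pow] using hc.pow_right (n := k)
    have h2 : e.symm n ≠ 0 := by
      intro h3
      rw [map_eq_zero_iff _ e.symm.injective] at h3
      exact hI (by rw [← h1, h3, idS_zero])
    obtain ⟨u, hu, hp⟩ := exists_unit_primary h2
    refine ⟨_, hp, ?_⟩
    rw [← h1, idS_eq_iff h0, map_mul, e.apply_symm_apply]
    exact associated_unit_mul_left _ _ (hu.map e)
  · rw [← nmS_eq h0]
    exact (Nat.card_congr (Ideal.quotientEquiv _ _ e (by simp [Ideal.map_span])).toEquiv).symm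

end Crest.Agent.T27
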