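import Crest.Agent.T27.GsMod_58
import Crest.Agent.T27.Mdl_77

/-!
# Row 27: `GauAx` for the frame of a number field (interface `Mdl_77`)
-/

set_option autoImplicit false

noncomputable section

namespace Crest.Agent.T27

open NumberField

variable [Fr0] {F : Type} [Field F] [NumberField F] {N J : ℕ} {j : O →+* F}

theorem hQ_pow_58 (h : IsModel F N J j) {k : ℕ} (hk : k ≠ 0)
    (hd : 2 * discr F ∣ ((N ^ k : ℕ) : ℤ)) (hJ : 3 * k ≤ J) (n n' : O) (hn : n ≠ 0) (hn' : n' ≠ 0)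
    (e : cls n = cls n') : Qn n = Qn n' := by
  have := h.good
  obtain ⟨s, -, l, hl, e⟩ := h.exists_of_cls_eq hn' e.symm
  exact G58.Qn_class h.equiv h.coe_equiv h.eq_eq hk hd hJ hn (s := s ^ 3) hl (by rw [e]; ring)

/-- `GauAx` at level `J ≥ 6`, no extra hypothesis on `N`. -/
theorem gauAx_model_58 (h : IsModel F N J j) (hJ : 6 ≤ J) {R : O → O → ℂ} (hR : RecAx R) :
    GauAx R Qn :=
  have := h.good
  gauAx_of_82 hR (hQ_pow_58 h two_ne_zero G58.two_discr_dvd hJ)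

/-- `GauAx` at level `J ≥ 3` when `2 disc ∣ N`. -/
theorem gauAx_model_58' (h : IsModel F N J j) (hd : 2 * discr F ∣ (N : ℤ)) (hJ : 3 ≤ J)
    {R : O → O → ℂ} (hR : RecAx R) : GauAx R Qn :=
  gauAx_of_82 hR (hQ_pow_58 h one_ne_zero (by simpa using hd) hJ)

end Crest.Agent.T27
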