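import Mathlib
import Crest.Agent.T27.HeckeD_87

/-!
# Row 27, Hecke integral, part E (helper87): continuation of the partial Dirichlet series
-/

set_option autoImplicit false
set_option linter.unusedSectionVars false

noncomputable section

open MeasureTheory Complex Set Filter Topology NumberField Module
open NumberField.Units IsDedekindDomain
open scoped Real ComplexConjugate nonZeroDivisors
open Crest.Agent.T27.HeckeA87 Crest.Agent.T27.HeckeB87 Crest.Agent.T27.HeckeC87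
open Crest.Agent.T27.HeckeD87

namespace Crest.Agent.T27.HeckeE87

variable {K : Type*} [Field K] [NumberField K]

theorem zero_mem_el (J : FI K) : (0 : K) ∈ el J := FractionalIdeal.zero_mem _

theorem add_mem_el {J : FI K} {x y : K} (hx : x ∈ el J) (hy : y ∈ el J) : x + y ∈ el J :=
  (J.1 : Submodule (𝓞 K) K).add_mem hx hy

theorem sub_mem_el {J : FI K} {x y : K} (hx : x ∈ el J) (hy : y ∈ el J) : x - y ∈ el J :=
  (J.1 : Submodule (𝓞 K) K).sub_mem hx hy

theorem tsum_el (J : FI K) {f : K → ℂ} (hf : Summable fun x : el J => f x) :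
    ∑' x : el J, f x = f 0 + ∑' x : nz J, f x := by
  have h1 : el J = {0} ∪ nz J := by
    ext x
    simp only [mem_union, mem_singleton_iff, nz, mem_ofPred_eq]
    constructor
    · intro hx
      by_cases h : x = 0
      · exact Or.inl h
      · exact Or.inr ⟨hx, h⟩
    · rintro (rfl | h)
      · exact zero_mem_el J
      · exact h.1
  have h2 : Summable (f ∘ ((↑) : nz J → K)) :=
    hf.comp_injective (i := fun x : nz J => (⟨x.1, x.2.1⟩ : el J))
      fun x y h => Subtype.ext (congrArg (fun z : el J => (z : K)) h)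
  rw [tsum_congr_set_coe f h1, Summable.tsum_union_disjoint
    (disjoint_left.2 fun x h h' => h'.2 h) ((finite_singleton (0 : K)).summable f) h2,
    tsum_singleton]

/-- `R` is a system of representatives of `J / J'` -/
structure IsReps (J J' : FI K) (R : Finset K) : Prop where
  le : el J' ⊆ el J
  mem : ∀ r ∈ R, r ∈ el J
  uniq : ∀ x ∈ el J, ∃! r, r ∈ R ∧ x - r ∈ el J'

/-- decomposition into cosets -/
def repsEquiv {J J' : FI K} {R : Finset K} (h : IsReps J J' R) : R × el J' ≃ el J :=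
  Equiv.ofBijective (fun p => ⟨p.1.1 + p.2.1, add_mem_el (h.mem _ p.1.2) (h.le p.2.2)⟩)
    ⟨fun p q hpq => by
      have h1 : p.1.1 + p.2.1 = q.1.1 + q.2.1 := congrArg Subtype.val hpq
      have h2 : p.1.1 = q.1.1 :=
        (h.uniq _ (add_mem_el (h.mem _ p.1.2) (h.le p.2.2))).unique
          ⟨p.1.2, by rw [add_sub_cancel_left]; exact p.2.2⟩
          ⟨q.1.2, by rw [h1, add_sub_cancel_left]; exact q.2.2⟩
      rw [h2, add_right_inj] at h1
      exact Prod.ext (Subtype.ext h2) (Subtype.ext h1),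
    fun x => by
      obtain ⟨r, ⟨hr, hx⟩, -⟩ := h.uniq x.1 x.2
      exact ⟨(⟨r, hr⟩, ⟨x.1 - r, hx⟩), Subtype.ext (add_sub_cancel _ _)⟩⟩

theorem isReps_self (J : FI K) : IsReps J J {0} :=
  ⟨subset_rfl, fun r hr => by rw [Finset.mem_singleton.1 hr]; exact zero_mem_el J,
    fun x hx => ⟨0, ⟨Finset.mem_singleton_self _, by rwa [sub_zero]⟩,
      fun r hr => Finset.mem_singleton.1 hr.1⟩⟩

theorem exists_reps {J J' : FI K} (hle : el J' ⊆ el J) {N : ℕ} (hN : N ≠ 0)
    (h : ∀ x ∈ el J, (N : K) * x ∈ el J') : ∃ R, IsReps J J' R := by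
  classical
  let S : Submodule ℤ J.1 := ((J'.1 : Submodule (𝓞 K) K).restrictScalars ℤ).comap
    (((J.1 : Submodule (𝓞 K) K).subtype).restrictScalars ℤ)
  have hS : ∀ x : J.1, x ∈ S ↔ (x : K) ∈ el J' := fun x => Iff.rfl
  have hfin : Finite (J.1 ⧸ S) := by
    refine Module.finite_of_fg_torsion _ fun q => ?_
    obtain ⟨x, rfl⟩ := S.mkQ_surjective q
    refine ⟨⟨(N : ℤ), mem_nonZeroDivisors_of_ne_zero (by exact_mod_cast hN)⟩, ?_⟩
    rw [Submonoid.mk_smul, ← map_smul, Submodule.mkQ_apply, Submodule.Quotient.mk_eq_zero, hS]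
    have := h x.1 x.2
    simpa using this
  have : Fintype (J.1 ⧸ S) := Fintype.ofFinite _
  choose sec hsec using S.mkQ_surjective
  refine ⟨Finset.univ.image fun q => (sec q : K), hle, fun r hr => ?_, fun x hx => ?_⟩
  · obtain ⟨q, -, rfl⟩ := Finset.mem_image.1 hr
    exact (sec q).2
  · refine ⟨sec (S.mkQ ⟨x, hx⟩), ⟨Finset.mem_image_of_mem _ (Finset.mem_univ _), ?_⟩, ?_⟩
    · have h1 := (Submodule.Quotient.eq S).1 (hsec (S.mkQ ⟨x, hx⟩)).symm
      exact (hS _).1 h1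
    · rintro r ⟨hr, hxr⟩
      obtain ⟨q, -, rfl⟩ := Finset.mem_image.1 hr
      have h1 : S.mkQ ⟨x, hx⟩ = S.mkQ (sec q) :=
        (Submodule.Quotient.eq S).2 ((hS _).2 hxr)
      rw [h1, hsec]

theorem coset_bound (J : FI K) (c : X K) (z : K) :
    ‖∑' x : el J, ((gs (tt c) (z + x) : ℝ) : ℂ) - ((cov J)⁻¹ : ℝ) * cexp (-ll c)‖ ≤
      Real.exp (-ll c) * ((cov J)⁻¹ * thr (dl J) (-c)) := by
  have h1 := theta_coset J (tt_pos c) z
  rw [sqrt_prod_tt, ← tt_neg] at h1
  have h2 := tsum_el (dl J) (f := fun y => ((((cov J * Real.exp (ll c))⁻¹ *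
    gs (tt (-c)) y) : ℝ) : ℂ) * cexp (2 * π * I * ((Algebra.trace ℚ K (z * y) : ℚ) : ℂ)))
    h1.summable
  rw [← h1.tsum_eq, h2]
  have h3 : ((((cov J * Real.exp (ll c))⁻¹ * gs (tt (-c)) (0 : K)) : ℝ) : ℂ) *
      cexp (2 * π * I * ((Algebra.trace ℚ K (z * 0) : ℚ) : ℂ)) =
      ((cov J)⁻¹ : ℝ) * cexp (-ll c) := by
    rw [gs_zero, mul_zero, map_zero, Complex.exp_neg]
    push_cast
    simp [mul_comm]
  rw [h3, add_sub_cancel_left, ← mul_assoc, thr, ← tsum_mul_left]
  refine tsum_of_norm_bounded ((summable_nz (dl J) (-c)).mul_left _).hasSum fun y => ?_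
  have hc := cov_pos J
  have h4 := gs_pos (tt (-c)) (y : K)
  have h5 : ‖cexp (2 * π * I * ((Algebra.trace ℚ K (z * y) : ℚ) : ℂ))‖ = 1 := by
    rw [Complex.norm_exp, ← Complex.ofReal_ratCast]
    simp
  rw [norm_mul, h5, mul_one, Complex.norm_real, Real.norm_of_nonneg (by positivity), Real.exp_neg,
    mul_inv, mul_comm (cov J)⁻¹]

theorem theta_dec {J J' : FI K} {R : Finset K} (h : IsReps J J' R) {φ : K → ℂ}
    (hφ : ∀ x ∈ el J, ‖φ x‖ ≤ 1) (hp : ∀ x ∈ el J, ∀ y ∈ el J', φ (x + y) = φ x) (c : X K) :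
    ‖th J φ c + φ 0 - (((cov J')⁻¹ : ℝ) * ∑ r ∈ R, φ r) * cexp (-ll c)‖ ≤
      Real.exp (-ll c) * (R.card * (cov J')⁻¹ * thr (dl J') (-c)) := by
  have hs : Summable fun x : el J => φ x * ((gs (tt c) (x : K) : ℝ) : ℂ) := by
    have h1 := summable_gs J (tt_pos c) 0
    simp only [zero_add] at h1
    refine Summable.of_norm_bounded h1 fun x => ?_
    rw [norm_mul, Complex.norm_real, Real.norm_of_nonneg (gs_pos _ _).le]
    exact mul_le_of_le_one_left (gs_pos _ _).le (hφ _ x.2)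
  have h1 := tsum_el J (f := fun x => φ x * ((gs (tt c) x : ℝ) : ℂ)) hs
  rw [gs_zero, Complex.ofReal_one, mul_one] at h1
  have h2 : ∑' x : el J, φ x * ((gs (tt c) (x : K) : ℝ) : ℂ) =
      ∑ r ∈ R, φ r * ∑' y : el J', ((gs (tt c) (r + y) : ℝ) : ℂ) := by
    have h0 : Summable fun p : R × el J' => φ (repsEquiv h p : el J) *
        ((gs (tt c) ((repsEquiv h p : el J) : K) : ℝ) : ℂ) := (repsEquiv h).summable_iff.2 hs
    rw [← (repsEquiv h).tsum_eq, h0.tsum_prod, tsum_fintype, ← Finset.sum_coe_sort R]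
    refine Finset.sum_congr rfl fun r _ => ?_
    rw [← tsum_mul_left]
    refine tsum_congr fun y => ?_
    show φ (r.1 + y.1) * _ = _
    rw [hp _ (h.mem _ r.2) _ y.2]
    rfl
  have h3 : th J φ c + φ 0 - (((cov J')⁻¹ : ℝ) * ∑ r ∈ R, φ r) * cexp (-ll c) =
      ∑ r ∈ R, φ r * (∑' y : el J', ((gs (tt c) (r + y) : ℝ) : ℂ) -
        ((cov J')⁻¹ : ℝ) * cexp (-ll c)) := by
    simp only [mul_sub, Finset.sum_sub_distrib]
    rw [← h2, h1, th, ← Finset.sum_mul]
    ring
  rw [h3]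
  refine (norm_sum_le _ _).trans ((Finset.sum_le_card_nsmul _ _
    (Real.exp (-ll c) * ((cov J')⁻¹ * thr (dl J') (-c))) fun r hr => ?_).trans (le_of_eq ?_))
  · rw [norm_mul]
    exact (mul_le_of_le_one_left (norm_nonneg _) (hφ _ (h.mem r hr))).trans (coset_bound J' c r)
  · rw [nsmul_eq_mul]
    ring

theorem theta_lower (J : FI K) (c : X K) : (cov J)⁻¹ * Real.exp (-ll c) - 1 ≤ thr J c := by
  have h1 := theta_coset J (tt_pos c) 0
  rw [sqrt_prod_tt, ← tt_neg] at h1
  simp only [zero_mul, map_zero, Rat.cast_zero, mul_zero, Complex.exp_zero, mul_one,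
    zero_add] at h1
  have h2 := tsum_el (dl J) (f := fun y => ((((cov J * Real.exp (ll c))⁻¹ *
    gs (tt (-c)) y) : ℝ) : ℂ)) h1.summable
  have h0 := summable_gs J (tt_pos c) 0
  simp only [zero_add] at h0
  have h3 := tsum_el J (f := fun x => ((gs (tt c) x : ℝ) : ℂ)) (Complex.summable_ofReal.2 h0)
  rw [h1.tsum_eq, h3, gs_zero, gs_zero, ← Complex.ofReal_tsum, ← Complex.ofReal_tsum,
    ← Complex.ofReal_add, ← Complex.ofReal_add, Complex.ofReal_inj] at h2
  have hc := cov_pos J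
  have h4 : 0 ≤ ∑' y : nz (dl J), (cov J * Real.exp (ll c))⁻¹ * gs (tt (-c)) (y : K) :=
    tsum_nonneg fun y => mul_nonneg (by positivity) (gs_pos _ _).le
  have h5 : (cov J * Real.exp (ll c))⁻¹ * 1 = (cov J)⁻¹ * Real.exp (-ll c) := by
    rw [mul_one, mul_inv, Real.exp_neg]
  rw [h5] at h2
  unfold thr
  linarith

/-! ### the two halves of the integral -/

section halves

variable {D S : Set (X K)} {G : X K → ℝ} {η : ℝ}

theorem pointwise_le (hG0 : ∀ c, 0 ≤ G c) {σ τ : ℝ} (h : σ ≤ τ) {c : X K} (hc : η ≤ ll c) :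
    G c * Real.exp (σ * ll c) ≤ Real.exp ((σ - τ) * η) * (G c * Real.exp (τ * ll c)) := by
  rw [mul_left_comm, ← Real.exp_add]
  refine mul_le_mul_of_nonneg_left (Real.exp_le_exp.2 ?_) (hG0 c)
  nlinarith

theorem integrableOn_upper (hS : MeasurableSet S) (hSD : S ⊆ D) (hη : ∀ c ∈ S, η ≤ ll c)
    (hG : Measurable G) (hG0 : ∀ c, 0 ≤ G c)
    (hi : ∀ σ : ℝ, 1 < σ → IntegrableOn (fun c => G c * Real.exp (σ * ll c)) D) (σ : ℝ) :
    IntegrableOn (fun c => G c * Real.exp (σ * ll c)) S := by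
  have hl := measurable_ll (K := K)
  have h1 := ((hi (max σ 2) (lt_max_of_lt_right one_lt_two)).mono_set hSD).const_mul
    (Real.exp ((σ - max σ 2) * η))
  refine Integrable.mono' h1 (Measurable.aestronglyMeasurable (by fun_prop)) ?_
  refine (ae_restrict_iff' hS).2 (Eventually.of_forall fun c hc => ?_)
  rw [Real.norm_of_nonneg (mul_nonneg (hG0 c) (Real.exp_pos _).le)]
  exact pointwise_le hG0 (le_max_left _ _) (hη c hc)

theorem integral_upper_le (hS : MeasurableSet S) (hSD : S ⊆ D) (hη : ∀ c ∈ S, η ≤ ll c)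
    (hG : Measurable G) (hG0 : ∀ c, 0 ≤ G c)
    (hi : ∀ σ : ℝ, 1 < σ → IntegrableOn (fun c => G c * Real.exp (σ * ll c)) D) {σ : ℝ}
    (hσ : σ ≤ 2) :
    ∫ c in S, G c * Real.exp (σ * ll c) ≤
      Real.exp ((σ - 2) * η) * ∫ c in D, G c * Real.exp (2 * ll c) := by
  have h1 := hi 2 one_lt_two
  calc ∫ c in S, G c * Real.exp (σ * ll c)
      ≤ ∫ c in S, Real.exp ((σ - 2) * η) * (G c * Real.exp (2 * ll c)) :=
        setIntegral_mono_on (integrableOn_upper hS hSD hη hG hG0 hi σ)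
          ((h1.mono_set hSD).const_mul _) hS fun c hc => pointwise_le hG0 hσ (hη c hc)
    _ = Real.exp ((σ - 2) * η) * ∫ c in S, G c * Real.exp (2 * ll c) := integral_const_mul _ _
    _ ≤ _ := by
        refine mul_le_mul_of_nonneg_left ?_ (Real.exp_pos _).le
        exact setIntegral_mono_set h1
          (Eventually.of_forall fun c => mul_nonneg (hG0 c) (Real.exp_pos _).le)
          hSD.eventuallyLE

end halves

/-- the upper part of the fundamental domain -/
def S1 (η : ℝ) : Set (X K) := D0 K ∩ {c | ll c ≤ η}ᶜ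

/-- the lower part of the fundamental domain -/
def S2 (η : ℝ) : Set (X K) := D0 K ∩ {c | ll c ≤ η}

theorem measurableSet_le_ll (η : ℝ) : MeasurableSet {c : X K | ll c ≤ η} :=
  measurableSet_le measurable_ll measurable_const

theorem measurableSet_S1 (η : ℝ) : MeasurableSet (S1 (K := K) η) :=
  isFD_D0.meas.inter (measurableSet_le_ll η).compl

theorem measurableSet_S2 (η : ℝ) : MeasurableSet (S2 (K := K) η) :=
  isFD_D0.meas.inter (measurableSet_le_ll η)

theorem le_of_mem_S1 {η : ℝ} (c : X K) (hc : c ∈ S1 η) : η ≤ ll c := le_of_not_ge hc.2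

theorem le_of_mem_neg_S2 {η : ℝ} (c : X K) (hc : c ∈ -S2 η) : -η ≤ ll c := by
  have h1 : ll (-c) ≤ η := hc.2
  rw [ll_neg] at h1
  linarith

theorem neg_S2_subset (η : ℝ) : -S2 η ⊆ -D0 K := fun _ hc => hc.1

/-- the upper integral -/
def IA (F : X K → ℂ) (η : ℝ) (s : ℂ) : ℂ := ∫ c in S1 η, F c * cexp (s * ll c)

/-- the lower integral -/
def IB (F : X K → ℂ) (a b : ℂ) (η : ℝ) (s : ℂ) : ℂ :=
  ∫ c in S2 η, (F c + a - b * cexp (-ll c)) * cexp (s * ll c)

/-- the hypotheses of the continuation argument -/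
structure Hyp (F : X K → ℂ) (a b : ℂ) (G₁ G₂ : X K → ℝ) : Prop where
  mF : Measurable F
  m1 : Measurable G₁
  m2 : Measurable G₂
  p1 : ∀ c, 0 ≤ G₁ c
  p2 : ∀ c, 0 ≤ G₂ c
  b1 : ∀ c, ‖F c‖ ≤ G₁ c
  b2 : ∀ c, ‖F c + a - b * cexp (-ll c)‖ ≤ Real.exp (-ll c) * G₂ (-c)
  i1 : ∀ σ : ℝ, 1 < σ → IntegrableOn (fun c => G₁ c * Real.exp (σ * ll c)) (D0 K)
  i2 : ∀ σ : ℝ, 1 < σ → IntegrableOn (fun c => G₂ c * Real.exp (σ * ll c)) (-D0 K)

section core

variable {F : X K → ℂ} {a b : ℂ} {G₁ G₂ : X K → ℝ} (h : Hyp F a b G₁ G₂) (η : ℝ)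
include h

theorem Hyp.mF' : Measurable fun c => F c + a - b * cexp (-ll c) := by
  have h1 := h.mF
  have hl := measurable_ll (K := K)
  fun_prop

theorem Hyp.intA (σ : ℝ) : IntegrableOn (fun c => ‖F c‖ * Real.exp (σ * ll c)) (S1 η) := by
  have h1 := h.mF
  have hl := measurable_ll (K := K)
  refine Integrable.mono' (integrableOn_upper (measurableSet_S1 η) inter_subset_left le_of_mem_S1
    h.m1 h.p1 h.i1 σ) (Measurable.aestronglyMeasurable (by fun_prop))
    (Eventually.of_forall fun c => ?_)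
  rw [Real.norm_of_nonneg (by positivity)]
  exact mul_le_mul_of_nonneg_right (h.b1 c) (Real.exp_pos _).le

theorem Hyp.ptB (σ : ℝ) (c : X K) : ‖F c + a - b * cexp (-ll c)‖ * Real.exp (σ * ll c) ≤
    G₂ (-c) * Real.exp ((1 - σ) * ll (-c)) := by
  refine (mul_le_mul_of_nonneg_right (h.b2 c) (Real.exp_pos _).le).trans (le_of_eq ?_)
  rw [mul_comm (Real.exp _), mul_assoc, ← Real.exp_add, ll_neg]
  congr 2
  ring

theorem Hyp.intB' (σ : ℝ) :
    IntegrableOn (fun c => G₂ (-c) * Real.exp ((1 - σ) * ll (-c))) (S2 η) := by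
  have h2 := (integrableOn_upper (measurableSet_S2 η).neg (neg_S2_subset η) le_of_mem_neg_S2
    h.m2 h.p2 h.i2 (1 - σ)).comp_neg
  rwa [neg_neg] at h2

theorem Hyp.intB (σ : ℝ) :
    IntegrableOn (fun c => ‖F c + a - b * cexp (-ll c)‖ * Real.exp (σ * ll c)) (S2 η) := by
  have h1 := h.mF'
  have hl := measurable_ll (K := K)
  refine Integrable.mono' (h.intB' η σ) (Measurable.aestronglyMeasurable (by fun_prop))
    (Eventually.of_forall fun c => ?_)
  rw [Real.norm_of_nonneg (by positivity)]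
  exact h.ptB σ c

theorem Hyp.diffA : Differentiable ℂ (IA F η) :=
  differentiable_integral_exp h.mF.aestronglyMeasurable measurable_ll (h.intA η)

theorem Hyp.diffB : Differentiable ℂ (IB F a b η) :=
  differentiable_integral_exp h.mF'.aestronglyMeasurable measurable_ll (h.intB η)

theorem Hyp.normA {s : ℂ} (hs : s.re ≤ 2) :
    ‖IA F η s‖ ≤ Real.exp ((s.re - 2) * η) * ∫ c in D0 K, G₁ c * Real.exp (2 * ll c) := by
  refine le_trans ?_ (integral_upper_le (measurableSet_S1 η) inter_subset_left le_of_mem_S1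
    h.m1 h.p1 h.i1 hs)
  refine norm_integral_le_of_norm_le (integrableOn_upper (measurableSet_S1 η) inter_subset_left
    le_of_mem_S1 h.m1 h.p1 h.i1 s.re) (Eventually.of_forall fun c => ?_)
  rw [norm_mul_exp]
  exact mul_le_mul_of_nonneg_right (h.b1 c) (Real.exp_pos _).le

theorem Hyp.normB {s : ℂ} (hs : -1 ≤ s.re) :
    ‖IB F a b η s‖ ≤ Real.exp ((s.re + 1) * η) * ∫ c in -D0 K, G₂ c * Real.exp (2 * ll c) := by
  have h1 := integral_upper_le (measurableSet_S2 η).neg (neg_S2_subset η) le_of_mem_neg_S2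
    h.m2 h.p2 h.i2 (σ := 1 - s.re) (by linarith)
  have h2 : (1 - s.re - 2) * -η = (s.re + 1) * η := by ring
  rw [h2] at h1
  refine le_trans ?_ h1
  have h3 := (Measure.measurePreserving_neg (volume : Measure (X K))).setIntegral_preimage_emb
    (MeasurableEquiv.neg (X K)).measurableEmbedding
    (fun c => G₂ c * Real.exp ((1 - s.re) * ll c)) (-S2 η)
  have h4 : (Neg.neg ⁻¹' (-S2 η) : Set (X K)) = S2 η := by
    ext c
    simp
  rw [h4] at h3
  rw [← h3]
  refine norm_integral_le_of_norm_le (h.intB' η s.re) (Eventually.of_forall fun c => ?_)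
  rw [norm_mul_exp]
  exact h.ptB s.re c

theorem Hyp.split {s : ℂ} (hs : 1 < s.re) :
    ∫ c in D0 K, F c * cexp (s * ll c) = IA F η s + IB F a b η s +
      (b * (cexp ((s - 1) * η) / ((s - 1) * finrank ℚ K)) -
        a * (cexp (s * η) / (s * finrank ℚ K))) := by
  have hl := measurable_ll (K := K)
  have h1 : IntegrableOn (fun c => F c * cexp (s * ll c)) (D0 K) := by
    refine integrable_mul_exp h.mF.aestronglyMeasurable hl ?_
    have h1 := h.mF
    refine Integrable.mono' (h.i1 _ hs) (Measurable.aestronglyMeasurable (by fun_prop))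
      (Eventually.of_forall fun c => ?_)
    rw [Real.norm_of_nonneg (by positivity)]
    exact mul_le_mul_of_nonneg_right (h.b1 c) (Real.exp_pos _).le
  obtain ⟨h2, h3⟩ := integral_D0 (K := K) (z := s) (by linarith) η
  obtain ⟨h4, h5⟩ := integral_D0 (K := K) (z := s - 1) (by rw [sub_re, one_re]; linarith) η
  have h6 := integral_inter_add_sdiff (measurableSet_le_ll η) h1
  have h7 : IB F a b η s = (∫ c in S2 η, F c * cexp (s * ll c)) +
      a * (cexp (s * η) / (s * finrank ℚ K)) -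
      b * (cexp ((s - 1) * η) / ((s - 1) * finrank ℚ K)) := by
    have h9 : IntegrableOn (fun c => F c * cexp (s * ll c) + a * cexp (s * ll c))
        (D0 K ∩ {c | ll c ≤ η}) := (h1.mono_set inter_subset_left).add (h2.const_mul a)
    rw [← h3, ← h5, ← integral_const_mul, ← integral_const_mul, IB, S2,
      ← integral_add (h1.mono_set inter_subset_left) (h2.const_mul a),
      ← integral_sub h9 (h4.const_mul b)]
    refine integral_congr_ae (Eventually.of_forall fun c => ?_)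
    have h8 : cexp ((s - 1) * ll c) = cexp (-ll c) * cexp (s * ll c) := by
      rw [← Complex.exp_add]
      congr 1
      ring
    simp only [h8]
    ring
  rw [← h6, h7, IA, S1, S2, sdiff_eq]
  ring

end core

theorem hyp_th {J J' : FI K} {R : Finset K} (h : IsReps J J' R) {φ : K → ℂ}
    (hφ : ∀ x ∈ el J, ‖φ x‖ ≤ 1) (hp : ∀ x ∈ el J, ∀ y ∈ el J', φ (x + y) = φ x) :
    Hyp (th J φ) (φ 0) (((cov J')⁻¹ : ℝ) * ∑ r ∈ R, φ r) (thr J)
      (fun c => R.card * (cov J')⁻¹ * thr (dl J') c) where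
  mF := measurable_th J φ
  m1 := measurable_thr J
  m2 := (measurable_thr (dl J')).const_mul _
  p1 := thr_nonneg J
  p2 := fun c => mul_nonneg (mul_nonneg (Nat.cast_nonneg _) (inv_nonneg.2 (cov_pos J').le))
    (thr_nonneg _ c)
  b1 := norm_th_le J hφ
  b2 := theta_dec h hφ hp
  i1 := fun _ hσ => integrableOn_thr isFD_D0 J hσ
  i2 := fun σ hσ => by
    have h1 := (integrableOn_thr isFD_D0.neg (dl J') hσ).const_mul (R.card * (cov J')⁻¹)
    simp only [mul_assoc] at h1 ⊢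
    exact h1

/-! ### the Gamma factor -/

theorem gam_ne_zero {m : ℝ} (hm : 0 < m) {s : ℂ} (hs : 0 < s.re) : gam m s ≠ 0 := by
  have hr : 0 < π * m := mul_pos Real.pi_pos hm
  refine mul_ne_zero (by exact_mod_cast (half_pos hm).ne') (mul_ne_zero ?_ ?_)
  · rw [Ne, cpow_eq_zero_iff, not_and_or]
    exact Or.inl (one_div_ne_zero (by exact_mod_cast hr.ne'))
  · exact Gamma_ne_zero_of_re_pos (re_half hm hs)

theorem differentiableAt_gam {m : ℝ} (hm : 0 < m) {s : ℂ} (hs : 0 < s.re) :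
    DifferentiableAt ℂ (gam m) s := by
  have hr : 0 < π * m := mul_pos Real.pi_pos hm
  have h1 : DifferentiableAt ℂ (fun s : ℂ => Gamma (s * m / 2)) s := by
    refine (differentiableAt_Gamma (s * m / 2) fun k hk => ?_).comp s (by fun_prop)
    have h2 := re_half hm hs
    rw [hk] at h2
    simp at h2
    linarith [Nat.cast_nonneg (α := ℝ) k]
  have h2 : DifferentiableAt ℂ (fun s : ℂ => (1 / ((π * m : ℝ) : ℂ)) ^ (s * m / 2)) s :=
    DifferentiableAt.const_cpow (by fun_prop)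
      (Or.inl (one_div_ne_zero (by exact_mod_cast hr.ne')))
  exact (h2.mul h1).const_mul _

theorem Gam_ne_zero {s : ℂ} (hs : 0 < s.re) : Gam K s ≠ 0 :=
  Finset.prod_ne_zero_iff.2 fun w _ => gam_ne_zero (mult_pos' w) hs

theorem differentiableAt_Gam {s : ℂ} (hs : 0 < s.re) : DifferentiableAt ℂ (Gam K) s := by
  have h := DifferentiableAt.fun_finsetProd (𝕜 := ℂ) (u := Finset.univ)
    (f := fun w : InfinitePlace K => gam w.mult) (x := s)
    fun w _ => differentiableAt_gam (mult_pos' w) hs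
  exact h

theorem cst_ne_zero (J : FI K) {s : ℂ} (hs : 0 < s.re) : cst J s ≠ 0 :=
  mul_ne_zero (mul_ne_zero (Nat.cast_ne_zero.2 (torsionOrder_ne_zero K))
    (mul_ne_zero (by exact_mod_cast (kap_pos (K := K)).ne') (Gam_ne_zero hs))) (Complex.exp_ne_zero _)

theorem differentiableAt_cst (J : FI K) {s : ℂ} (hs : 0 < s.re) :
    DifferentiableAt ℂ (cst J) s := by
  have h := differentiableAt_Gam (K := K) hs
  unfold cst
  fun_prop

/-- the continuation of `(s - 1) Z_J(ψ, s)` -/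
def fc (J : FI K) (φ : K → ℂ) (b : ℂ) (η : ℝ) (s : ℂ) : ℂ :=
  ((s - 1) * (IA (th J φ) η s + IB (th J φ) (φ 0) b η s) +
    (b * cexp ((s - 1) * η) / finrank ℚ K -
      φ 0 * ((s - 1) * cexp (s * η) / (s * finrank ℚ K)))) / cst J s

theorem differentiableOn_fc {J : FI K} {φ : K → ℂ} {b : ℂ} {G₁ G₂ : X K → ℝ}
    (h : Hyp (th J φ) (φ 0) b G₁ G₂) (η : ℝ) :
    DifferentiableOn ℂ (fc J φ b η) {s | 0 < s.re} := by
  intro s hs
  have hs' : 0 < s.re := hs
  have h1 := h.diffA η s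
  have h2 := h.diffB η s
  have h3 := differentiableAt_cst J hs'
  have h4 : s * (finrank ℚ K : ℂ) ≠ 0 := by
    refine mul_ne_zero (fun h0 => ?_) (Nat.cast_ne_zero.2 Module.finrank_pos.ne')
    rw [h0] at hs'
    simp at hs'
  refine DifferentiableAt.differentiableWithinAt ?_
  unfold fc
  refine DifferentiableAt.div ?_ h3 (cst_ne_zero J hs')
  refine DifferentiableAt.add (by fun_prop) (DifferentiableAt.sub (by fun_prop) ?_)
  have h5 : DifferentiableAt ℂ
      (fun s : ℂ => (s - 1) * cexp (s * η) / (s * finrank ℚ K)) s :=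
    DifferentiableAt.div (by fun_prop) (by fun_prop) h4
  exact h5.const_mul _

theorem fc_eq {J : FI K} {φ : K → ℂ} {b : ℂ} {G₁ G₂ : X K → ℝ}
    (h : Hyp (th J φ) (φ 0) b G₁ G₂) (η : ℝ) {ψ : Ideal (𝓞 K) → ℂ}
    (hψ : ∀ A, ‖ψ A‖ ≤ 1) (hφ : ∀ x ∈ nz J, φ x = ψ (idl J x)) {s : ℂ} (hs : 1 < s.re) :
    fc J φ b η s = (s - 1) * Zs J ψ s := by
  have h1 := h.split η hs
  rw [mellin_th isFD_D0 J hψ hφ hs] at h1
  have h2 : s - 1 ≠ 0 := by
    intro h0
    rw [sub_eq_zero.1 h0] at hs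
    simp at hs
  have h3 : (finrank ℚ K : ℂ) ≠ 0 := Nat.cast_ne_zero.2 Module.finrank_pos.ne'
  rw [fc, div_eq_iff (cst_ne_zero J (by linarith)), mul_assoc, mul_comm (Zs J ψ s), h1]
  field_simp

theorem fc_one (J : FI K) (φ : K → ℂ) (b : ℂ) (η : ℝ) :
    fc J φ b η 1 = b * nm J / (finrank ℚ K * (torsionOrder K * (kap K * Gam K 1))) := by
  have h1 : cexp (-(1 * (Real.log (nm J) : ℂ))) = ((nm J : ℝ) : ℂ)⁻¹ := by
    rw [one_mul, Complex.exp_neg, ← Complex.ofReal_exp, Real.exp_log (nm_pos J)]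
  have h2 : ((nm J : ℝ) : ℂ) ≠ 0 := by exact_mod_cast (nm_pos J).ne'
  rw [fc, cst, h1]
  simp only [sub_self, zero_mul, Complex.exp_zero, mul_one, zero_div, mul_zero, sub_zero, zero_add]
  field_simp

end Crest.Agent.T27.HeckeE87
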