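import Mathlib
import Crest.Agent.T27.HeckeE_87

/-!
# Row 27, Hecke integral, part F (helper87): uniform bound for the Dedekind zeta function

`zetaCont_gen` : for every `a > 0` there is an absolute `C` such that for every number field `K`
the function `(s - 1) ζ_K(s)` continues to `re s > 0` and is bounded by
`exp (C (log |D_K| + n (1 + |im s|)))` on `a ≤ re s ≤ 4`.
-/

set_option autoImplicit false
set_option linter.unusedSectionVars false

noncomputable section

open MeasureTheory Complex Set Filter Topology NumberField Module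
open NumberField.Units IsDedekindDomain
open scoped Real ComplexConjugate nonZeroDivisors
open Crest.Agent.T27.HeckeA87 Crest.Agent.T27.HeckeB87 Crest.Agent.T27.HeckeC87
open Crest.Agent.T27.HeckeD87 Crest.Agent.T27.HeckeE87

namespace Crest.Agent.T27.HeckeF87

/-! ### the reciprocal of the Gamma function on strips (as in `PVc/R17/ReflMelAuxA`) -/

theorem norm_Gamma_le {s : ℂ} (hs : 0 < s.re) : ‖Complex.Gamma s‖ ≤ Real.Gamma s.re := by
  rw [Complex.Gamma_eq_integral hs, Real.Gamma_eq_integral hs, Complex.GammaIntegral]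
  refine (norm_integral_le_integral_norm _).trans (le_of_eq ?_)
  refine setIntegral_congr_fun measurableSet_Ioi fun x hx => ?_
  have hx' : 0 < x := hx
  simp only [norm_mul, Complex.norm_real, Real.norm_of_nonneg (Real.exp_pos _).le,
    Complex.norm_cpow_eq_rpow_re_of_pos hx', Complex.sub_re, Complex.one_re]

theorem norm_sin_le (z : ℂ) : ‖Complex.sin z‖ ≤ Real.exp |z.im| := by
  have h1 : ‖Complex.exp (-z * I)‖ ≤ Real.exp |z.im| := by
    rw [Complex.norm_exp]
    exact Real.exp_le_exp.2 (by simpa using le_abs_self z.im)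
  have h2 : ‖Complex.exp (z * I)‖ ≤ Real.exp |z.im| := by
    rw [Complex.norm_exp]
    exact Real.exp_le_exp.2 (by simpa using neg_le_abs z.im)
  have := norm_sub_le (Complex.exp (-z * I)) (Complex.exp (z * I))
  rw [Complex.sin, norm_div, norm_mul, norm_I, mul_one, Complex.norm_two]
  linarith

theorem norm_Gamma_bd {a : ℝ} (ha : 0 < a) (b : ℝ) : ∃ M : ℝ, 0 < M ∧ ∀ s : ℂ, a ≤ s.re →
    s.re ≤ b → ‖Gamma s‖ ≤ M := by
  have hc : ContinuousOn Real.Gamma (Set.Icc a b) := fun x hx =>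
    (Real.differentiableAt_Gamma fun m => by
      have := hx.1
      have := Nat.cast_nonneg (α := ℝ) m
      intro h; linarith).continuousAt.continuousWithinAt
  obtain ⟨M, hM⟩ := isCompact_Icc.exists_bound_of_continuousOn hc
  refine ⟨|M| + 1, by positivity, fun s h1 h2 => ?_⟩
  have := hM s.re ⟨h1, h2⟩
  have h3 := norm_Gamma_le (s := s) (by linarith)
  rw [Real.norm_eq_abs] at this
  linarith [le_abs_self M, le_abs_self (Real.Gamma s.re)]

theorem norm_inv_Gamma_add {s : ℂ} (hs : 1 ≤ |s.im|) (N : ℕ) :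
    ‖(Gamma (s + N))⁻¹‖ ≤ ‖(Gamma s)⁻¹‖ := by
  induction N with
  | zero => simp
  | succ N ih =>
    have h1 : 1 ≤ ‖s + N‖ := hs.trans (by simpa using abs_im_le_norm (s + N))
    have h0 : s + N ≠ 0 := norm_pos_iff.1 (by linarith)
    rw [Nat.cast_succ, ← add_assoc, Gamma_add_one _ h0, mul_inv, norm_mul, norm_inv (s + N)]
    exact (mul_le_of_le_one_left (norm_nonneg _) (inv_le_one_of_one_le₀ h1)).trans ih

theorem norm_inv_Gamma_le (a b : ℝ) : ∃ C : ℝ, 0 < C ∧ ∀ s : ℂ, a ≤ s.re → s.re ≤ b →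
    ‖(Gamma s)⁻¹‖ ≤ C * Real.exp (4 * |s.im|) := by
  obtain ⟨M₁, h₁⟩ := ((isCompact_Icc (a := a) (b := b)).reProdIm
    (isCompact_Icc (a := (-1 : ℝ)) (b := 1))).exists_bound_of_continuousOn
      differentiable_one_div_Gamma.continuous.continuousOn
  obtain ⟨N, hN⟩ := exists_nat_ge b
  obtain ⟨M₂, hM₂, h₂⟩ := norm_Gamma_bd one_pos (1 + N - a)
  refine ⟨|M₁| + M₂, by positivity, fun s ha hb => ?_⟩
  have he : 1 ≤ Real.exp (4 * |s.im|) := Real.one_le_exp (by positivity)
  rcases le_total |s.im| 1 with h | h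
  · have := h₁ s ⟨⟨ha, hb⟩, abs_le.1 h⟩
    nlinarith [le_abs_self M₁, abs_nonneg M₁]
  · have h3 := norm_inv_Gamma_add (s := s - N) (by simpa using h) N
    rw [sub_add_cancel] at h3
    set t : ℂ := s - N with ht
    have him : t.im = s.im := by simp [ht]
    have hre : t.re = s.re - N := by simp [ht]
    have ht0 : Gamma t ≠ 0 := Gamma_ne_zero fun m hm => by
      have := congrArg Complex.im hm
      rw [him] at this
      simp at this
      rw [this] at h
      norm_num at h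
    have ht1 : Gamma (1 - t) ≠ 0 := Gamma_ne_zero_of_re_pos (by simp [hre]; linarith)
    have hr := Gamma_mul_Gamma_one_sub t
    have hpi : (Real.pi : ℂ) ≠ 0 := ofReal_ne_zero.2 Real.pi_ne_zero
    have hs : Complex.sin (Real.pi * t) ≠ 0 := fun h0 => by
      rw [h0, div_zero] at hr
      exact mul_ne_zero ht0 ht1 hr
    have e : (Gamma t)⁻¹ = Gamma (1 - t) * Complex.sin (Real.pi * t) / Real.pi := by
      rw [eq_div_iff hs] at hr
      rw [eq_div_iff hpi, inv_mul_eq_iff_eq_mul₀ ht0, ← mul_assoc, hr]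
    have h4 := h₂ (1 - t) (by simp [hre]; linarith) (by simp [hre]; linarith)
    have h5 : ‖Complex.sin (Real.pi * t)‖ ≤ Real.exp (4 * |s.im|) := by
      refine (norm_sin_le _).trans (Real.exp_le_exp.2 ?_)
      rw [im_ofReal_mul, abs_mul, him, abs_of_pos Real.pi_pos]
      exact mul_le_mul_of_nonneg_right Real.pi_le_four (abs_nonneg _)
    have h6 : ‖(Gamma t)⁻¹‖ ≤ M₂ * Real.exp (4 * |s.im|) := by
      rw [e, norm_div, norm_mul, Complex.norm_real, Real.norm_of_nonneg Real.pi_pos.le]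
      refine (div_le_self (by positivity) (by linarith [Real.pi_gt_three])).trans ?_
      exact mul_le_mul h4 h5 (norm_nonneg _) hM₂.le
    nlinarith [abs_nonneg M₁]

theorem norm_gam {m : ℝ} (hm : 0 < m) (s : ℂ) :
    ‖gam m s‖ = m / 2 * ((1 / (π * m)) ^ (s.re * m / 2) * ‖Gamma (s * m / 2)‖) := by
  have hr : 0 < 1 / (π * m) := by have := Real.pi_pos; positivity
  have h1 : (1 / ((π * m : ℝ) : ℂ)) = ((1 / (π * m) : ℝ) : ℂ) := by push_cast; rfl
  have h2 : (s * m / 2).re = s.re * m / 2 := by simp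
  rw [gam, norm_mul, norm_mul, Complex.norm_real, Real.norm_of_nonneg (by positivity), h1,
    norm_cpow_eq_rpow_re_of_pos hr, h2]

theorem gam_ratio {a : ℝ} (ha : 0 < a) : ∃ C : ℝ, 0 < C ∧ ∀ m : ℝ, m = 1 ∨ m = 2 → ∀ s : ℂ,
    a ≤ s.re → s.re ≤ 2 → ‖gam m 2‖ ≤ ‖gam m s‖ * Real.exp (C * (1 + |s.im|)) := by
  obtain ⟨C, hC, h⟩ := norm_inv_Gamma_le (a / 2) 2
  refine ⟨C + 4, by positivity, fun m hm s h1 h2 => ?_⟩
  have hm1 : 1 ≤ m := by rcases hm with rfl | rfl <;> norm_num
  have hm2 : m ≤ 2 := by rcases hm with rfl | rfl <;> norm_num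
  have hm0 : 0 < m := by linarith
  have hs0 : 0 < s.re := by linarith
  have h3 : ‖Gamma ((2 : ℂ) * m / 2)‖ = 1 := by
    rcases hm with rfl | rfl
    · norm_num
    · have : (2 : ℂ) * ((2 : ℝ) : ℂ) / 2 = 1 + 1 := by norm_num
      rw [this, Complex.Gamma_add_one _ one_ne_zero]
      simp
  have hre : (s * m / 2).re = s.re * m / 2 := by simp
  have him : (s * m / 2).im = s.im * m / 2 := by simp
  have h4 := h (s * m / 2) (by rw [hre]; nlinarith) (by rw [hre]; nlinarith)
  have h5 : |(s * m / 2).im| ≤ |s.im| := by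
    rw [him, abs_div, abs_mul, abs_of_pos hm0, abs_two]
    nlinarith [abs_nonneg s.im]
  have h6 : C * Real.exp (4 * |(s * m / 2).im|) ≤ Real.exp ((C + 4) * (1 + |s.im|)) := by
    calc C * Real.exp (4 * |(s * m / 2).im|) ≤ Real.exp C * Real.exp (4 * |s.im|) := by
          gcongr
          linarith [Real.add_one_le_exp C]
      _ = Real.exp (C + 4 * |s.im|) := (Real.exp_add _ _).symm
      _ ≤ _ := Real.exp_le_exp.2 (by nlinarith [abs_nonneg s.im])
  have hG : 0 < ‖Gamma (s * m / 2)‖ := norm_pos_iff.2 (Gamma_ne_zero_of_re_pos (re_half hm0 hs0))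
  have h7 : 1 ≤ ‖Gamma (s * m / 2)‖ * Real.exp ((C + 4) * (1 + |s.im|)) := by
    have h8 := h4.trans h6
    rw [norm_inv, inv_le_iff_one_le_mul₀' hG] at h8
    exact h8
  have hr : 0 < 1 / (π * m) := by have := Real.pi_pos; positivity
  have hr1 : 1 / (π * m) ≤ 1 := by
    rw [div_le_one (by have := Real.pi_pos; positivity)]
    nlinarith [Real.pi_gt_three]
  have h9 : (1 / (π * m)) ^ ((2 : ℂ).re * m / 2) ≤ (1 / (π * m)) ^ (s.re * m / 2) :=
    Real.rpow_le_rpow_of_exponent_ge hr hr1 (by simp only [re_ofNat]; nlinarith)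
  rw [norm_gam hm0, norm_gam hm0, h3, mul_one, mul_assoc, mul_assoc]
  refine mul_le_mul_of_nonneg_left ?_ (by positivity)
  calc _ ≤ (1 / (π * m)) ^ (s.re * m / 2) * 1 := by rw [mul_one]; exact h9
    _ ≤ _ := mul_le_mul_of_nonneg_left h7 (Real.rpow_nonneg hr.le _)

variable {K : Type*} [Field K] [NumberField K]

theorem Gam_ratio {a C : ℝ} (hC : 0 < C) (h : ∀ m : ℝ, m = 1 ∨ m = 2 → ∀ s : ℂ,
    a ≤ s.re → s.re ≤ 2 → ‖gam m 2‖ ≤ ‖gam m s‖ * Real.exp (C * (1 + |s.im|))) {s : ℂ}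
    (h1 : a ≤ s.re) (h2 : s.re ≤ 2) :
    ‖Gam K 2‖ ≤ ‖Gam K s‖ * Real.exp (finrank ℚ K * (C * (1 + |s.im|))) := by
  rw [Gam, Gam, norm_prod, norm_prod, ← InfinitePlace.sum_mult_eq, Nat.cast_sum, Finset.sum_mul,
    Real.exp_sum, ← Finset.prod_mul_distrib]
  refine Finset.prod_le_prod (fun w _ => norm_nonneg _) fun w _ => ?_
  have hm : (w.mult : ℝ) = 1 ∨ (w.mult : ℝ) = 2 := by
    rw [InfinitePlace.mult]
    split_ifs <;> simp
  refine (h _ hm s h1 h2).trans (mul_le_mul_of_nonneg_left (Real.exp_le_exp.2 ?_) (norm_nonneg _))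
  exact le_mul_of_one_le_left (by positivity) InfinitePlace.one_le_mult

/-! ### ideal classes -/

/-- the class of a fractional ideal -/
def cl (J : FI K) : ClassGroup (𝓞 K) := ClassGroup.mk K J

theorem cl_mul (I J : FI K) : cl (I * J) = cl I * cl J := map_mul _ _ _

theorem cl_inv (J : FI K) : cl J⁻¹ = (cl J)⁻¹ := map_inv _ _

theorem cl_surjective : Function.Surjective (cl : FI K → ClassGroup (𝓞 K)) :=
  fun C => ClassGroup.induction K (P := fun C => ∃ J, cl J = C) (fun J => ⟨J, rfl⟩) C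

/-- a nonzero integral ideal as a fractional ideal -/
def mI (A : Ideal (𝓞 K)) (hA : A ≠ ⊥) : FI K :=
  FractionalIdeal.mk0 K ⟨A, mem_nonZeroDivisors_of_ne_zero hA⟩

theorem mI_coe (A : Ideal (𝓞 K)) (hA : A ≠ ⊥) :
    (mI A hA).1 = (A : FractionalIdeal (𝓞 K)⁰ K) := rfl

theorem mem_Pr_iff {J : FI K} {A : Ideal (𝓞 K)} (hA : A ≠ ⊥) :
    A ∈ Pr J ↔ cl J = (cl (mI A hA))⁻¹ := by
  rw [eq_inv_iff_mul_eq_one, mul_comm, ← cl_mul, cl, ClassGroup.mk_eq_one_iff,
    FractionalIdeal.isPrincipal_iff]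
  exact ⟨fun h => h.2, fun h => ⟨hA, h⟩⟩

theorem sum_indicator_Pr {M : Type*} [AddCommMonoid M] {rep : ClassGroup (𝓞 K) → FI K}
    (hrep : Function.Bijective fun C => cl (rep C)) (f : Ideal (𝓞 K) → M) (hf : f ⊥ = 0)
    (A : Ideal (𝓞 K)) : ∑ C, (Pr (rep C)).indicator f A = f A := by
  by_cases hA : A = ⊥
  · rw [hA, hf]
    exact Finset.sum_eq_zero fun C _ => indicator_of_notMem (fun h => h.1 rfl) _
  · obtain ⟨C, hC⟩ := hrep.2 (cl (mI A hA))⁻¹
    rw [Finset.sum_eq_single C, indicator_of_mem ((mem_Pr_iff hA).2 hC)]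
    · intro C' _ hne
      exact indicator_of_notMem (fun h => hne (hrep.1 (((mem_Pr_iff hA).1 h).trans hC.symm))) _
    · simp

theorem sum_Zs {rep : ClassGroup (𝓞 K) → FI K} (hrep : Function.Bijective fun C => cl (rep C))
    {ψ : Ideal (𝓞 K) → ℂ} (hψ : ∀ A, ‖ψ A‖ ≤ 1) {s : ℂ} (hs : 1 < s.re) :
    ∑ C, Zs (rep C) ψ s = ∑' A : Ideal (𝓞 K), ψ A * (Ideal.absNorm A : ℂ) ^ (-s) := by
  unfold Zs
  rw [← Summable.tsum_finsetSum fun C _ => (summable_psi hψ hs).indicator _]
  refine tsum_congr fun A => sum_indicator_Pr hrep _ ?_ A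
  rw [Ideal.absNorm_bot, Nat.cast_zero, zero_cpow, mul_zero]
  intro h
  rw [neg_eq_zero.1 h] at hs
  norm_num at hs

/-- the partial zeta value at `2` -/
def Zr (J : FI K) : ℝ := ∑' A, (Pr J).indicator (fun A => (Ideal.absNorm A : ℝ) ^ (-2 : ℝ)) A

theorem Zr_nonneg (J : FI K) : 0 ≤ Zr J :=
  tsum_nonneg fun A => indicator_nonneg (fun _ _ => Real.rpow_nonneg (Nat.cast_nonneg _) _) A

theorem sum_Zr {rep : ClassGroup (𝓞 K) → FI K} (hrep : Function.Bijective fun C => cl (rep C)) :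
    ∑ C, Zr (rep C) ≤ Real.exp (4 * finrank ℚ K) := by
  refine le_trans (le_of_eq ?_) tsum_ideal_two
  unfold Zr
  rw [← Summable.tsum_finsetSum fun C _ => (summable_ideal (K := K) one_lt_two).indicator _]
  refine tsum_congr fun A => sum_indicator_Pr hrep _ ?_ A
  rw [Ideal.absNorm_bot, Nat.cast_zero, Real.zero_rpow (by norm_num)]

theorem Zs_two (J : FI K) : Zs J (fun _ => 1) 2 = (Zr J : ℝ) := by
  rw [Zs, Zr, Complex.ofReal_tsum]
  refine tsum_congr fun A => ?_
  by_cases hA : A ∈ Pr J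
  · rw [indicator_of_mem hA, indicator_of_mem hA, one_mul, ofReal_cpow (Nat.cast_nonneg _)]
    push_cast
    rfl
  · rw [indicator_of_notMem hA, indicator_of_notMem hA, ofReal_zero]

/-- the common factor -/
def PP (K : Type*) [Field K] [NumberField K] (s : ℂ) : ℝ := torsionOrder K * (kap K * ‖Gam K s‖)

theorem PP_pos {s : ℂ} (hs : 0 < s.re) : 0 < PP K s :=
  mul_pos (Nat.cast_pos.2 (torsionOrder_pos K)) (mul_pos kap_pos (norm_pos_iff.2 (Gam_ne_zero hs)))

theorem norm_cst (J : FI K) (s : ℂ) :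
    ‖cst J s‖ = PP K s * Real.exp (-(s.re * Real.log (nm J))) := by
  rw [cst, norm_mul, norm_mul, norm_mul, Complex.norm_natCast, Complex.norm_real,
    Real.norm_of_nonneg kap_pos.le, Complex.norm_exp, PP]
  simp

theorem integral_thr_two {D : Set (X K)} (hD : IsFD D) (J : FI K) :
    ∫ c in D, thr J c * Real.exp (2 * ll c) = PP K 2 * Real.exp (-(2 * Real.log (nm J))) * Zr J := by
  have h1 := mellin_th hD J (ψ := fun _ => 1) (by simp) (φ := fun _ => 1) (fun _ _ => rfl)
    (s := 2) (by norm_num)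
  have h2 : ∀ c, th J (fun _ => 1) c * cexp (2 * ll c) =
      ((thr J c * Real.exp (2 * ll c) : ℝ) : ℂ) := by
    intro c
    rw [th_one]
    push_cast
    rfl
  simp only [h2] at h1
  rw [integral_complex_ofReal, Zs_two] at h1
  have h3 := congrArg norm h1
  rw [Complex.norm_real, Real.norm_of_nonneg (integral_nonneg fun c =>
    mul_nonneg (thr_nonneg J c) (Real.exp_pos _).le), norm_mul, norm_cst, Complex.norm_real,
    Real.norm_of_nonneg (Zr_nonneg J)] at h3
  exact h3

theorem integral_S2 {σ : ℝ} (hσ : 0 < σ) (η : ℝ) :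
    IntegrableOn (fun c : X K => Real.exp (σ * ll c)) (S2 η) ∧
    ∫ c in S2 η, Real.exp (σ * ll (K := K) c) = Real.exp (σ * η) / (σ * finrank ℚ K) := by
  obtain ⟨h1, h2⟩ := integral_D0 (K := K) (z := σ) (by simpa using hσ) η
  have h3 : ∀ c : X K, cexp (σ * ll c) = ((Real.exp (σ * ll c) : ℝ) : ℂ) := by
    intro c
    push_cast
    rfl
  simp only [h3] at h1 h2
  refine ⟨?_, ?_⟩
  · have h4 := h1.re
    simp only [RCLike.re_to_complex, ofReal_re] at h4
    exact h4
  · rw [integral_complex_ofReal] at h2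
    apply Complex.ofReal_injective
    rw [S2, h2]
    push_cast
    rfl

theorem lower_M2 (J : FI K) :
    Real.exp (2 * -Real.log (cov J)) / (2 * finrank ℚ K) ≤
      ∫ c in D0 K, thr J c * Real.exp (2 * ll c) := by
  set η := -Real.log (cov J) with hη
  have hc : (cov J)⁻¹ = Real.exp η := by rw [hη, Real.exp_neg, Real.exp_log (cov_pos J)]
  obtain ⟨h1, h2⟩ := integral_S2 (K := K) one_pos η
  obtain ⟨h3, h4⟩ := integral_S2 (K := K) two_pos η
  have hi := integrableOn_thr isFD_D0 J one_lt_two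
  have hn := finrank_pos' (K := K)
  calc Real.exp (2 * η) / (2 * finrank ℚ K)
      = Real.exp η * (Real.exp (1 * η) / (1 * finrank ℚ K)) -
          Real.exp (2 * η) / (2 * finrank ℚ K) := by
        rw [one_mul, one_mul, two_mul η, Real.exp_add]
        field_simp
        ring
    _ = ∫ c in S2 η, (Real.exp η * Real.exp (1 * ll (K := K) c) - Real.exp (2 * ll c)) := by
        rw [integral_sub (h1.const_mul _) h3, integral_const_mul, h2, h4]
    _ ≤ ∫ c in S2 η, thr J c * Real.exp (2 * ll c) := by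
        refine setIntegral_mono_on ((h1.const_mul _).sub h3) (hi.mono_set inter_subset_left)
          (measurableSet_S2 η) fun c _ => ?_
        have h5 := mul_le_mul_of_nonneg_right (theta_lower J c) (Real.exp_pos (2 * ll c)).le
        refine le_trans (le_of_eq ?_) h5
        rw [hc, sub_mul, one_mul, one_mul, mul_assoc, ← Real.exp_add (-ll c)]
        congr 3
        ring
    _ ≤ _ := setIntegral_mono_set hi
        (Eventually.of_forall fun c => mul_nonneg (thr_nonneg J c) (Real.exp_pos _).le)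
        (inter_subset_left (s := D0 K)).eventuallyLE

theorem one_le_abs_discr : 1 ≤ |(discr K : ℝ)| := by
  have h := Int.one_le_abs (discr_ne_zero K)
  exact_mod_cast h

/-- the continuation of the partial zeta function -/
def fz (J : FI K) : ℂ → ℂ :=
  fc J (fun _ => 1) (((cov J)⁻¹ : ℝ) * ∑ _r ∈ ({0} : Finset K), (1 : ℂ)) (-Real.log (cov J))

theorem hyp_one (J : FI K) : Hyp (th J fun _ => 1) 1
    (((cov J)⁻¹ : ℝ) * ∑ _r ∈ ({0} : Finset K), (1 : ℂ)) (thr J)
    (fun c => ({0} : Finset K).card * (cov J)⁻¹ * thr (dl J) c) :=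
  hyp_th (isReps_self J) (φ := fun _ => 1) (by simp) (fun _ _ _ _ => rfl)

theorem norm_fz_le (J : FI K) {a : ℝ} (ha : 0 < a) {s : ℂ} (h1 : a ≤ s.re) (h2 : s.re ≤ 2) :
    ‖fz J s‖ ≤ (‖s - 1‖ + 2 / a) * |(discr K : ℝ)| * (PP K 2 / PP K s) * (Zr J + Zr (dl J)) := by
  set η := -Real.log (cov J) with hη
  set L := Real.log (nm J) with hL
  set d := Real.log |(discr K : ℝ)| with hd
  have hD := abs_discr_pos (K := K)
  have hd0 : 0 ≤ d := Real.log_nonneg one_le_abs_discr
  have hs0 : 0 < s.re := by linarith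
  have hn := finrank_pos' (K := K)
  have hc : (cov J)⁻¹ = Real.exp η := by rw [hη, Real.exp_neg, Real.exp_log (cov_pos J)]
  have hηL : η = -L - d / 2 := by
    rw [hη, cov, Real.log_mul (nm_pos J).ne' (Real.sqrt_pos.2 hD).ne', Real.log_sqrt hD.le]
    ring
  have hL' : Real.log (nm (dl J)) = -d - L := by
    have h3 := congrArg Real.log (nm_dl J)
    rw [Real.log_mul (nm_pos _).ne' (nm_pos _).ne', Real.log_inv] at h3
    linarith
  have hA := (hyp_one J).normA η h2
  have hB := (hyp_one J).normB η (s := s) (by linarith)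
  have hM := lower_M2 J
  simp only [Finset.card_singleton, Nat.cast_one, one_mul, mul_assoc] at hB
  rw [integral_const_mul, integral_thr_two isFD_D0.neg, hc, hL'] at hB
  rw [integral_thr_two isFD_D0, ← hL] at hA hM
  rw [← hη] at hM
  have hP2 := PP_pos (K := K) (s := 2) (by norm_num)
  have hPs := PP_pos (K := K) hs0
  have hZ := Zr_nonneg J
  have hZ' := Zr_nonneg (dl J)
  have hs1 : s ≠ 0 := by
    rintro rfl
    simp at hs0
  have hn' : (finrank ℚ K : ℂ) ≠ 0 := Nat.cast_ne_zero.2 Module.finrank_pos.ne'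
  have h4 : (((cov J)⁻¹ : ℝ) * ∑ _r ∈ ({0} : Finset K), (1 : ℂ)) * cexp ((s - 1) * η) /
      finrank ℚ K - 1 * ((s - 1) * cexp (s * η) / (s * finrank ℚ K)) =
      cexp (s * η) / (s * finrank ℚ K) := by
    have h5 : cexp (s * η) = cexp η * cexp ((s - 1) * η) := by
      rw [← Complex.exp_add]
      congr 1
      ring
    rw [hc, Finset.sum_singleton, mul_one, Complex.ofReal_exp, h5]
    field_simp
    ring
  -- the three terms, multiplied by `exp (σ L)`
  set E := Real.exp (s.re * L) with hE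
  have hE0 : 0 < E := Real.exp_pos _
  have k1 : Real.exp ((s.re - 2) * η) * (PP K 2 * Real.exp (-(2 * L)) * Zr J) * E ≤
      |(discr K : ℝ)| * PP K 2 * Zr J := by
    have e1 : Real.exp ((s.re - 2) * η) * Real.exp (-(2 * L)) * E ≤ |(discr K : ℝ)| := by
      rw [hE, ← Real.exp_add, ← Real.exp_add, ← Real.exp_log hD, ← hd, Real.exp_le_exp, hηL]
      nlinarith
    calc _ = Real.exp ((s.re - 2) * η) * Real.exp (-(2 * L)) * E * (PP K 2 * Zr J) := by ring
      _ ≤ |(discr K : ℝ)| * (PP K 2 * Zr J) := mul_le_mul_of_nonneg_right e1 (by positivity)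
      _ = _ := by ring
  have k2 : Real.exp ((s.re + 1) * η) * (Real.exp η *
      (PP K 2 * Real.exp (-(2 * (-d - L))) * Zr (dl J))) * E ≤
      |(discr K : ℝ)| * PP K 2 * Zr (dl J) := by
    have e1 : Real.exp ((s.re + 1) * η) * Real.exp η * Real.exp (-(2 * (-d - L))) * E ≤
        |(discr K : ℝ)| := by
      rw [hE, ← Real.exp_add, ← Real.exp_add, ← Real.exp_add, ← Real.exp_log hD, ← hd,
        Real.exp_le_exp, hηL]
      nlinarith
    calc _ = Real.exp ((s.re + 1) * η) * Real.exp η * Real.exp (-(2 * (-d - L))) * E *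
          (PP K 2 * Zr (dl J)) := by ring
      _ ≤ |(discr K : ℝ)| * (PP K 2 * Zr (dl J)) := mul_le_mul_of_nonneg_right e1 (by positivity)
      _ = _ := by ring
  have k3 : ‖cexp (s * η) / (s * finrank ℚ K)‖ ≤
      2 / a * (Real.exp ((s.re - 2) * η) * (PP K 2 * Real.exp (-(2 * L)) * Zr J)) := by
    have e1 : a ≤ ‖s‖ := h1.trans (re_le_norm s)
    have e2 : ‖cexp (s * η) / (s * finrank ℚ K)‖ ≤ Real.exp (s.re * η) / (a * finrank ℚ K) := by
      rw [norm_div, norm_mul, Complex.norm_exp, Complex.norm_natCast]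
      have : (s * (η : ℂ)).re = s.re * η := by simp
      rw [this]
      gcongr
    refine e2.trans (le_trans (le_of_eq ?_) (mul_le_mul_of_nonneg_left
      (mul_le_mul_of_nonneg_left hM (Real.exp_pos _).le) (by positivity)))
    have e3 : Real.exp (s.re * η) = Real.exp ((s.re - 2) * η) * Real.exp (2 * η) := by
      rw [← Real.exp_add]
      congr 1
      ring
    rw [e3]
    field_simp
  rw [fz, fc, ← hη, h4, hc, norm_div, norm_cst, ← hL, Real.exp_neg (s.re * L), ← hE, ← div_eq_mul_inv,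
    div_div_eq_mul_div, div_le_iff₀ hPs]
  have k4 : (‖s - 1‖ + 2 / a) * |(discr K : ℝ)| * (PP K 2 / PP K s) * (Zr J + Zr (dl J)) *
      PP K s = (‖s - 1‖ + 2 / a) * (|(discr K : ℝ)| * PP K 2 * Zr J +
        |(discr K : ℝ)| * PP K 2 * Zr (dl J)) := by
    field_simp
  rw [k4]
  set T1 := Real.exp ((s.re - 2) * η) * (PP K 2 * Real.exp (-(2 * L)) * Zr J) with hT1
  set T2 := Real.exp ((s.re + 1) * η) * (Real.exp η *
      (PP K 2 * Real.exp (-(2 * (-d - L))) * Zr (dl J))) with hT2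
  have k5 := (norm_add_le _ _).trans (add_le_add (le_of_eq (norm_mul _ _) |>.trans
    (mul_le_mul_of_nonneg_left ((norm_add_le _ _).trans (add_le_add hA hB))
      (norm_nonneg (s - 1)))) k3)
  refine (mul_le_mul_of_nonneg_right k5 hE0.le).trans ?_
  have k6 : 0 ≤ |(discr K : ℝ)| * PP K 2 * Zr (dl J) := by positivity
  have k7 : 0 ≤ 2 / a := by positivity
  have k8 := norm_nonneg (s - 1)
  calc (‖s - 1‖ * (T1 + T2) + 2 / a * T1) * E
      = (‖s - 1‖ + 2 / a) * (T1 * E) + ‖s - 1‖ * (T2 * E) := by ring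
    _ ≤ (‖s - 1‖ + 2 / a) * (|(discr K : ℝ)| * PP K 2 * Zr J) +
        (‖s - 1‖ + 2 / a) * (|(discr K : ℝ)| * PP K 2 * Zr (dl J)) :=
        add_le_add (mul_le_mul_of_nonneg_left k1 (by positivity))
          (mul_le_mul (by linarith) k2 (by positivity) (by positivity))
    _ = _ := by ring

theorem norm_zeta_le {s : ℂ} (hs : 2 ≤ s.re) :
    ‖dedekindZeta K s‖ ≤ Real.exp (4 * finrank ℚ K) := by
  rw [dedekindZeta_eq (by linarith)]
  refine le_trans (tsum_of_norm_bounded (summable_ideal (K := K) one_lt_two).hasSum fun A => ?_)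
    tsum_ideal_two
  rw [norm_ideal_cpow A (by linarith)]
  rcases Nat.eq_zero_or_pos (Ideal.absNorm A) with h | h
  · rw [h, Nat.cast_zero, Real.zero_rpow (by linarith)]
    exact Real.rpow_nonneg le_rfl _
  · exact Real.rpow_le_rpow_of_exponent_le (by exact_mod_cast h) (by linarith)

theorem norm_sub_one_le {s : ℂ} (h0 : 0 ≤ s.re) (h4 : s.re ≤ 4) : ‖s - 1‖ ≤ 3 + |s.im| := by
  refine (norm_le_abs_re_add_abs_im _).trans ?_
  have : |(s - 1).re| ≤ 3 := by
    rw [sub_re, one_re, abs_le]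
    constructor <;> linarith
  simp only [sub_im, one_im, sub_zero]
  linarith

universe u

/-- **Continuation of the Dedekind zeta function with a uniform bound.** -/
theorem zetaCont_gen {a : ℝ} (ha : 0 < a) :
    ∃ C : ℝ, 0 < C ∧ ∀ (K : Type u) [Field K] [NumberField K],
      ∃ f : ℂ → ℂ, DifferentiableOn ℂ f {s | 0 < s.re} ∧
        (∀ s : ℂ, 1 < s.re → f s = (s - 1) * dedekindZeta K s) ∧
        ∀ s : ℂ, a ≤ s.re → s.re ≤ 4 → ‖f s‖ ≤
          Real.exp (C * (Real.log |(discr K : ℝ)| + Module.finrank ℚ K * (1 + |s.im|))) := by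
  obtain ⟨C, hC, hg⟩ := gam_ratio ha
  refine ⟨C + 4 + (6 + 4 / a), by positivity, fun K _ _ => ?_⟩
  choose rep hrep using cl_surjective (K := K)
  have hb : Function.Bijective fun C => cl (rep C) := by
    simp only [hrep]
    exact Function.bijective_id
  have hb' : Function.Bijective fun C => cl (dl (rep C)) := by
    simp only [dl_eq (rep _), cl_mul, cl_inv, hrep]
    exact (Equiv.mulLeft (cl (dl 1))).bijective.comp (Equiv.inv _).bijective
  have heq : ∀ s : ℂ, 1 < s.re → ∑ C, fz (rep C) s = (s - 1) * dedekindZeta K s := by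
    intro s hs
    have h1 := sum_Zs hb (ψ := fun _ => 1) (by simp) hs
    simp only [one_mul] at h1
    rw [dedekindZeta_eq hs, ← h1, Finset.mul_sum]
    exact Finset.sum_congr rfl fun C _ =>
      fc_eq (hyp_one (rep C)) _ (ψ := fun _ => 1) (by simp) (fun _ _ => rfl) hs
  refine ⟨fun s => ∑ C, fz (rep C) s, ?_, heq, fun s h1 h4 => ?_⟩
  · exact DifferentiableOn.fun_sum fun C _ => differentiableOn_fc (hyp_one (rep C)) _
  have hn : (1 : ℝ) ≤ finrank ℚ K := by exact_mod_cast Module.finrank_pos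
  have hd0 : 0 ≤ Real.log |(discr K : ℝ)| := Real.log_nonneg one_le_abs_discr
  have ht := abs_nonneg s.im
  have hs1 := norm_sub_one_le (by linarith) h4
  have ha' : 0 < 4 / a := by positivity
  have key : (‖s - 1‖ + 2 / a) * 2 ≤ Real.exp (finrank ℚ K * ((6 + 4 / a) * (1 + |s.im|))) := by
    have e1 : (‖s - 1‖ + 2 / a) * 2 ≤ (6 + 4 / a) * (1 + |s.im|) := by
      have : 2 / a * 2 = 4 / a := by ring
      nlinarith
    have e2 : (6 + 4 / a) * (1 + |s.im|) ≤ finrank ℚ K * ((6 + 4 / a) * (1 + |s.im|)) :=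
      le_mul_of_one_le_left (by positivity) hn
    linarith [Real.add_one_le_exp (finrank ℚ K * ((6 + 4 / a) * (1 + |s.im|)))]
  rcases le_total s.re 2 with h2 | h2
  · have hs0 : 0 < s.re := by linarith
    have hr : PP K 2 / PP K s ≤ Real.exp (finrank ℚ K * (C * (1 + |s.im|))) := by
      rw [div_le_iff₀ (PP_pos hs0), PP, PP]
      have e1 := Gam_ratio (K := K) hC hg h1 h2
      have e2 := kap_pos (K := K)
      calc (torsionOrder K : ℝ) * (kap K * ‖Gam K 2‖) ≤ torsionOrder K * (kap K *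
            (‖Gam K s‖ * Real.exp (finrank ℚ K * (C * (1 + |s.im|))))) := by gcongr
        _ = _ := by ring
    have hD := abs_discr_pos (K := K)
    calc ‖∑ C, fz (rep C) s‖ ≤ ∑ C, (‖s - 1‖ + 2 / a) * |(discr K : ℝ)| * (PP K 2 / PP K s) *
          (Zr (rep C) + Zr (dl (rep C))) :=
          norm_sum_le_of_le _ fun C _ => norm_fz_le (rep C) ha h1 h2
      _ = (‖s - 1‖ + 2 / a) * |(discr K : ℝ)| * (PP K 2 / PP K s) *
          (∑ C, Zr (rep C) + ∑ C, Zr (dl (rep C))) := by
          rw [← Finset.mul_sum, Finset.sum_add_distrib]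
      _ ≤ (‖s - 1‖ + 2 / a) * |(discr K : ℝ)| * Real.exp (finrank ℚ K * (C * (1 + |s.im|))) *
          (Real.exp (4 * finrank ℚ K) + Real.exp (4 * finrank ℚ K)) := by
          have e1 := sum_Zr hb
          have e2 := sum_Zr hb'
          have e3 : 0 ≤ ∑ C, Zr (rep C) := Finset.sum_nonneg fun C _ => Zr_nonneg _
          have e4 : 0 ≤ ∑ C, Zr (dl (rep C)) := Finset.sum_nonneg fun C _ => Zr_nonneg _
          gcongr
      _ = (‖s - 1‖ + 2 / a) * 2 * (Real.exp (Real.log |(discr K : ℝ)|) *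
          Real.exp (finrank ℚ K * (C * (1 + |s.im|))) * Real.exp (4 * finrank ℚ K)) := by
          rw [Real.exp_log hD]
          ring
      _ ≤ Real.exp (finrank ℚ K * ((6 + 4 / a) * (1 + |s.im|))) *
          (Real.exp (Real.log |(discr K : ℝ)|) *
          Real.exp (finrank ℚ K * (C * (1 + |s.im|))) * Real.exp (4 * finrank ℚ K)) :=
          mul_le_mul_of_nonneg_right key (by positivity)
      _ ≤ _ := by
          rw [← Real.exp_add, ← Real.exp_add, ← Real.exp_add, Real.exp_le_exp]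
          have e1 : 0 ≤ (C + 3 + (6 + 4 / a)) * Real.log |(discr K : ℝ)| := by positivity
          have e2 : 0 ≤ (finrank ℚ K : ℝ) * |s.im| := by positivity
          nlinarith
  · show ‖∑ C, fz (rep C) s‖ ≤ _
    rw [heq s (by linarith), norm_mul]
    have e0 : ‖s - 1‖ ≤ Real.exp (finrank ℚ K * ((6 + 4 / a) * (1 + |s.im|))) := by
      have : 0 ≤ 2 / a := by positivity
      linarith [norm_nonneg (s - 1)]
    refine (mul_le_mul e0 (norm_zeta_le h2) (norm_nonneg _) (Real.exp_pos _).le).trans ?_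
    rw [← Real.exp_add, Real.exp_le_exp]
    have e1 : 0 ≤ (C + 4 + (6 + 4 / a)) * Real.log |(discr K : ℝ)| := by positivity
    have e2 : 0 ≤ (finrank ℚ K : ℝ) * |s.im| := by positivity
    have e3 : 0 ≤ C * ((finrank ℚ K : ℝ) * (1 + |s.im|)) := by positivity
    nlinarith

end Crest.Agent.T27.HeckeF87
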