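import Crest.Agent.T27.EndDefs_65

/-!
# Row 27, module Z: from a zero-free half plane to the Chebotarev bound (definitions only)

`InvZeta d` is what the core has to deliver.  `ZetaCont`, `LCont` are Hecke's continuations
(helper87).  `InvZeta d → ZetaCont → LCont → ChebG` is proved in `T27/Cheb_52.lean`.
DO NOT change a definition of this file.
-/

set_option autoImplicit false

namespace Crest.Agent.T27

open NumberField

/-- `1 / ζ_F` continues to `Re s > 1 - d` for every number field containing `ω` -/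
def InvZeta (d : ℝ) : Prop :=
  ∀ (F : Type) [Field F] [NumberField F], (∃ w : F, w ^ 2 + w + 1 = 0) →
    ∃ G : ℂ → ℂ, DifferentiableOn ℂ G {s | 1 - d < s.re} ∧
      ∀ s : ℂ, 1 < s.re → G s * dedekindZeta F s = 1

/-- continuation of `(s - 1) ζ_K(s)` with a bound that is uniform in the field -/
def ZetaCont : Prop :=
  ∃ C : ℝ, 0 < C ∧ ∀ (K : Type) [Field K] [NumberField K], IsTotallyComplex K →
    ∃ f : ℂ → ℂ, DifferentiableOn ℂ f {s | 0 < s.re} ∧
      (∀ s : ℂ, 1 < s.re → f s = (s - 1) * dedekindZeta K s) ∧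
      ∀ s : ℂ, 1 / 2 ≤ s.re → s.re ≤ 4 → ‖f s‖ ≤
        Real.exp (C * (Real.log |(discr K : ℝ)| + Module.finrank ℚ K * (1 + |s.im|)))

/-- continuation of `(s - 1) L(s, ψ)` for a ray class character `ψ` (qualitative) -/
def LCont : Prop :=
  ∀ (K : Type) [Field K] [NumberField K], IsTotallyComplex K →
    ∀ m : Ideal (𝓞 K), m ≠ ⊥ → ∀ ψ : Ideal (𝓞 K) → ℂ, (∀ I J, ψ (I * J) = ψ I * ψ J) →
      (∀ I, ‖ψ I‖ ≤ 1) →
      (∀ x y : 𝓞 K, x - y ∈ m → ψ (Ideal.span {x}) = ψ (Ideal.span {y})) →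
      ∃ f : ℂ → ℂ, DifferentiableOn ℂ f {s | 0 < s.re} ∧
        ∀ s : ℂ, 1 < s.re →
          f s = (s - 1) * ∑' I : Ideal (𝓞 K), ψ I * ((Ideal.absNorm I : ℕ) : ℂ) ^ (-s)

end Crest.Agent.T27
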