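import Mathlib
import Crest.Agent.T27.HeckeF_87
import Crest.Agent.T27.IfaceZ_52

/-!
# Row 27, Hecke integral, part G (helper87): ray class `L`-functions, `ZetaCont`, `LCont`
-/

set_option autoImplicit false
set_option linter.unusedSectionVars false

noncomputable section

open MeasureTheory Complex Set Filter Topology NumberField Module
open NumberField.Units IsDedekindDomain
open scoped Real ComplexConjugate nonZeroDivisors
open Crest.Agent.T27.HeckeA87 Crest.Agent.T27.HeckeB87 Crest.Agent.T27.HeckeC87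
open Crest.Agent.T27.HeckeD87 Crest.Agent.T27.HeckeE87 Crest.Agent.T27.HeckeF87

namespace Crest.Agent.T27.HeckeG87

variable {K : Type*} [Field K] [NumberField K]

theorem mul_mem_el {I J : FI K} {x y : K} (hx : x ∈ el I) (hy : y ∈ el J) : x * y ∈ el (I * J) :=
  FractionalIdeal.mul_mem_mul hx hy

theorem coe_mem_el {A : Ideal (𝓞 K)} (hA : A ≠ ⊥) {a : 𝓞 K} (ha : a ∈ A) :
    (a : K) ∈ el (mI A hA) := FractionalIdeal.mem_coeIdeal_of_mem _ ha

theorem el_mul_subset {A : Ideal (𝓞 K)} (hA : A ≠ ⊥) (J : FI K) : el (mI A hA * J) ⊆ el J := by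
  have h : (mI A hA * J).1 ≤ J.1 := by
    calc (mI A hA * J).1 = (A : FractionalIdeal (𝓞 K)⁰ K) * J.1 := rfl
      _ ≤ 1 * J.1 := mul_le_mul_left FractionalIdeal.coeIdeal_le_one _
      _ = J.1 := one_mul _
  exact fun x hx => h hx

theorem exists_nz (J : FI K) : ∃ x, x ∈ nz J := by
  obtain ⟨x, hx, h0⟩ := FractionalIdeal.exists_ne_zero_mem_isInteger J.ne_zero
  exact ⟨_, h0, fun h => hx (FaithfulSMul.algebraMap_injective (𝓞 K) K (by rw [h, map_zero]))⟩

theorem exists_reps_mul {m : Ideal (𝓞 K)} (hm : m ≠ ⊥) (J : FI K) :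
    ∃ R, IsReps J (mI m hm * J) R := by
  refine exists_reps (el_mul_subset hm J) (N := Ideal.absNorm m)
    (by rwa [Ne, Ideal.absNorm_eq_zero_iff]) fun x hx => ?_
  have h := mul_mem_el (coe_mem_el hm (Ideal.absNorm_mem m)) hx
  simpa using h

theorem IsReps.coprime {m A : Ideal (𝓞 K)} (hm : m ≠ ⊥) (hA : A ≠ ⊥) (h : A ⊔ m = ⊤) {J : FI K}
    {R : Finset K} (hR : IsReps (mI A hA * J) (mI m hm * (mI A hA * J)) R) :
    IsReps J (mI m hm * J) R := by
  obtain ⟨a, ha, b, hb, hab⟩ := Submodule.mem_sup.1 ((Ideal.eq_top_iff_one _).1 h)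
  have hab' : (a : K) + (b : K) = 1 := by
    have h0 := congrArg (algebraMap (𝓞 K) K) hab
    rwa [map_add, map_one] at h0
  have hsub : el (mI m hm * (mI A hA * J)) ⊆ el (mI m hm * J) := by
    rw [mul_left_comm]
    exact el_mul_subset hA _
  refine ⟨el_mul_subset hm J, fun r hr => el_mul_subset hA J (hR.mem r hr), fun x hx => ?_⟩
  obtain ⟨r, ⟨hr, h1⟩, hu⟩ := hR.uniq _ (mul_mem_el (coe_mem_el hA ha) hx)
  have h2 : x - r ∈ el (mI m hm * J) := by
    have h3 := add_mem_el (hsub h1) (mul_mem_el (coe_mem_el hm hb) hx)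
    convert h3 using 1
    linear_combination (-x) * hab'
  refine ⟨r, ⟨hr, h2⟩, fun r' ⟨hr', h4⟩ => ?_⟩
  have h5 : r' - r ∈ el (mI m hm * J) := by
    convert sub_mem_el h2 h4 using 1
    ring
  have h6 : r' - r ∈ el (mI m hm * (mI A hA * J)) := by
    have h7 := mul_mem_el (coe_mem_el hA ha) h5
    rw [mul_left_comm] at h7
    have h8 := mul_mem_el (coe_mem_el hm hb) (sub_mem_el (hR.mem _ hr') (hR.mem _ hr))
    convert add_mem_el h7 h8 using 1
    linear_combination (r - r') * hab'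
  exact (hR.uniq r' (hR.mem _ hr')).unique ⟨hr', by rw [sub_self]; exact zero_mem_el _⟩ ⟨hr, h6⟩

theorem idl_mul {A : Ideal (𝓞 K)} (hA : A ≠ ⊥) {J : FI K} {x : K} (hx : x ∈ el (mI A hA * J)) :
    idl J x = A * idl (mI A hA * J) x := by
  refine (idl_eq ?_).2
  rw [← idl_spec hx, FractionalIdeal.coeIdeal_mul, Units.val_mul, mI_coe]
  ring

/-- bounded multiplicative functions on ideals that are periodic on principal ideals -/
structure Ray (m : Ideal (𝓞 K)) (ψ : Ideal (𝓞 K) → ℂ) : Prop where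
  mul : ∀ I J, I ≠ ⊥ → J ≠ ⊥ → ψ (I * J) = ψ I * ψ J
  le : ∀ I, ‖ψ I‖ ≤ 1
  per : ∀ x y : 𝓞 K, x ≠ 0 → y ≠ 0 → x - y ∈ m → ψ (Ideal.span {x}) = ψ (Ideal.span {y})

section ray

variable {m : Ideal (𝓞 K)} {ψ : Ideal (𝓞 K) → ℂ}

theorem Ray.pow_ne_zero (h : Ray m ψ) {A : Ideal (𝓞 K)} (hA : A ≠ ⊥) (h0 : ψ A ≠ 0) (k : ℕ) :
    ψ (A ^ k) ≠ 0 := by
  induction k with
  | zero =>
    intro h1
    have h2 := h.mul A (A ^ 0) hA (_root_.pow_ne_zero 0 hA)
    rw [h1, mul_zero, pow_zero, mul_one] at h2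
    exact h0 h2
  | succ k ih =>
    rw [pow_succ, h.mul _ _ (_root_.pow_ne_zero k hA) hA]
    exact mul_ne_zero ih h0

theorem exists_gen {A : Ideal (𝓞 K)} {z : K}
    (h : (A : FractionalIdeal (𝓞 K)⁰ K) = FractionalIdeal.spanSingleton (𝓞 K)⁰ z) :
    ∃ a : 𝓞 K, algebraMap (𝓞 K) K a = z ∧ Ideal.span {a} = A := by
  have h1 : z ∈ (A : FractionalIdeal (𝓞 K)⁰ K) := h ▸ FractionalIdeal.mem_spanSingleton_self _ z
  obtain ⟨a, -, ha⟩ := (FractionalIdeal.mem_coeIdeal _).1 h1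
  refine ⟨a, ha, FractionalIdeal.coeIdeal_injective (K := K) ?_⟩
  simp only [FractionalIdeal.coeIdeal_span_singleton, ha, h]

theorem Ray.idl_aux (h : Ray m ψ) (hm : m ≠ ⊥) {J : FI K} {x y : K} (hx : x ∈ nz J)
    (hy : y ∈ nz J) (hxy : x - y ∈ el (mI m hm * J)) (h0 : ψ (idl J x) ≠ 0) :
    ψ (idl J x) = ψ (idl J y) := by
  set A := idl J x with hAdef
  set B := idl J y with hBdef
  have hA : A ≠ ⊥ := idl_ne_bot hx
  have hB : B ≠ ⊥ := idl_ne_bot hy
  obtain ⟨k, hk⟩ : ∃ k, Fintype.card (ClassGroup (𝓞 K)) = k + 1 :=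
    Nat.exists_eq_succ_of_ne_zero Fintype.card_ne_zero
  have hAk : A ^ k ≠ ⊥ := _root_.pow_ne_zero k hA
  -- `A ^ k * J⁻¹` is principal
  have h1 : cl (mI (A ^ k) hAk * J⁻¹) = 1 := by
    have h2 : cl J = (cl (mI A hA))⁻¹ := (mem_Pr_iff hA).1 (idl_mem_Pr hx)
    have h3 : mI (A ^ k) hAk = mI A hA ^ k := by
      ext1
      rw [Units.val_pow_eq_pow_val, mI_coe, mI_coe, FractionalIdeal.coeIdeal_pow]
    have h4 : cl (mI A hA ^ k) = cl (mI A hA) ^ k := map_pow _ _ _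
    rw [cl_mul, cl_inv, h2, inv_inv, h3, h4, ← pow_succ, ← hk, pow_card_eq_one]
  rw [cl, ClassGroup.mk_eq_one_iff, FractionalIdeal.isPrincipal_iff] at h1
  obtain ⟨z, hz⟩ := h1
  have hz' : FractionalIdeal.spanSingleton (𝓞 K)⁰ z * J.1 = ((A ^ k : Ideal (𝓞 K)) :
      FractionalIdeal (𝓞 K)⁰ K) := by
    rw [← hz, Units.val_mul, Units.inv_mul_cancel_right, mI_coe]
  have h5 : ∀ {w : K}, w ∈ el J → ((A ^ k * idl J w : Ideal (𝓞 K)) : FractionalIdeal (𝓞 K)⁰ K) =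
      FractionalIdeal.spanSingleton (𝓞 K)⁰ (z * w) := by
    intro w hw
    rw [FractionalIdeal.coeIdeal_mul, ← hz', ← FractionalIdeal.spanSingleton_mul_spanSingleton,
      ← idl_spec hw]
    ring
  obtain ⟨a, ha, ha'⟩ := exists_gen (h5 hx.1)
  obtain ⟨b, hb, hb'⟩ := exists_gen (h5 hy.1)
  have ha0 : a ≠ 0 := by
    rintro rfl
    rw [Ideal.span_singleton_zero] at ha'
    exact mul_ne_zero hAk hA ha'.symm
  have hb0 : b ≠ 0 := by
    rintro rfl
    rw [Ideal.span_singleton_zero] at hb'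
    exact mul_ne_zero hAk hB hb'.symm
  have h6 : a - b ∈ m := by
    have h7 : z * (x - y) ∈ FractionalIdeal.spanSingleton (𝓞 K)⁰ z * (mI m hm * J).1 :=
      FractionalIdeal.mul_mem_mul (FractionalIdeal.mem_spanSingleton_self _ z) hxy
    rw [Units.val_mul, mul_left_comm, hz', mI_coe, ← FractionalIdeal.coeIdeal_mul] at h7
    obtain ⟨c, hc, hc'⟩ := (FractionalIdeal.mem_coeIdeal _).1 h7
    have h8 : c = a - b := by
      apply FaithfulSMul.algebraMap_injective (𝓞 K) K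
      rw [hc', map_sub, ha, hb, mul_sub]
    rw [← h8]
    exact Ideal.mul_le_left hc
  have h9 := h.per a b ha0 hb0 h6
  rw [ha', hb', h.mul _ _ hAk hA, h.mul _ _ hAk hB] at h9
  exact mul_left_cancel₀ (h.pow_ne_zero hA h0 k) h9

theorem Ray.idl_eq (h : Ray m ψ) (hm : m ≠ ⊥) {J : FI K} {x y : K} (hx : x ∈ nz J)
    (hy : y ∈ nz J) (hxy : x - y ∈ el (mI m hm * J)) : ψ (idl J x) = ψ (idl J y) := by
  by_cases h0 : ψ (idl J x) = 0
  · by_cases h1 : ψ (idl J y) = 0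
    · rw [h0, h1]
    · refine (h.idl_aux hm hy hx ?_ h1).symm
      have := sub_mem_el (zero_mem_el _) hxy
      rwa [zero_sub, neg_sub] at this
  · exact h.idl_aux hm hx hy hxy h0

open Classical in
/-- a nonzero element in the same coset -/
def rp (J' : FI K) (x : K) : K := if x = 0 then (exists_nz J').choose else x

theorem rp_ne_zero (J' : FI K) (x : K) : rp J' x ≠ 0 := by
  unfold rp
  split_ifs with h
  · exact (exists_nz J').choose_spec.2
  · exact h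

theorem rp_sub (J' : FI K) (x : K) : rp J' x - x ∈ el J' := by
  unfold rp
  split_ifs with h
  · rw [h, sub_zero]
    exact (exists_nz J').choose_spec.1
  · rw [sub_self]
    exact zero_mem_el _

theorem rp_mem {J J' : FI K} (h : el J' ⊆ el J) {x : K} (hx : x ∈ el J) : rp J' x ∈ nz J := by
  refine ⟨?_, rp_ne_zero J' x⟩
  have := add_mem_el (h (rp_sub J' x)) hx
  rwa [sub_add_cancel] at this

/-- the periodic function attached to `ψ` -/
def phi (ψ : Ideal (𝓞 K) → ℂ) (hm : m ≠ ⊥) (J : FI K) (x : K) : ℂ :=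
  ψ (idl J (rp (mI m hm * J) x))

theorem phi_nz (hm : m ≠ ⊥) (J : FI K) (x : K) (hx : x ∈ nz J) : phi ψ hm J x = ψ (idl J x) := by
  rw [phi, rp, if_neg hx.2]

theorem Ray.phi_per (h : Ray m ψ) (hm : m ≠ ⊥) (J : FI K) (x : K) (hx : x ∈ el J) (y : K)
    (hy : y ∈ el (mI m hm * J)) : phi ψ hm J (x + y) = phi ψ hm J x := by
  have hs := el_mul_subset hm J
  refine h.idl_eq hm (rp_mem hs (add_mem_el hx (hs hy))) (rp_mem hs hx) ?_
  convert sub_mem_el (add_mem_el (rp_sub (mI m hm * J) (x + y)) hy) (rp_sub (mI m hm * J) x) using 1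
  ring

theorem Ray.phi_mul (h : Ray m ψ) (hm : m ≠ ⊥) {A : Ideal (𝓞 K)} (hA : A ≠ ⊥) (J : FI K) {x : K}
    (hx : x ∈ el (mI A hA * J)) : phi ψ hm J x = ψ A * phi ψ hm (mI A hA * J) x := by
  have hs := el_mul_subset hm J
  have hs' := el_mul_subset hm (mI A hA * J)
  have hsub : el (mI m hm * (mI A hA * J)) ⊆ el (mI m hm * J) := by
    rw [mul_left_comm]
    exact el_mul_subset hA _
  have h1 := rp_mem hs' hx
  have h2 : rp (mI m hm * (mI A hA * J)) x ∈ nz J := ⟨el_mul_subset hA J h1.1, h1.2⟩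
  rw [phi, phi, ← h.mul _ _ hA (idl_ne_bot h1), ← idl_mul hA h1.1]
  refine h.idl_eq hm (rp_mem hs (el_mul_subset hA J hx)) h2 ?_
  convert sub_mem_el (rp_sub (mI m hm * J) x) (hsub (rp_sub (mI m hm * (mI A hA * J)) x)) using 1
  ring

/-- the constant in the residue -/
def rho (hm : m ≠ ⊥) : ℂ :=
  ((cov (mI m hm))⁻¹ : ℝ) / (finrank ℚ K * (torsionOrder K * (kap K * Gam K 1)))

theorem Ray.family (h : Ray m ψ) (hm : m ≠ ⊥) {rep : ClassGroup (𝓞 K) → FI K}
    (hrep : Function.Bijective fun C => cl (rep C)) {R : ClassGroup (𝓞 K) → Finset K}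
    (hR : ∀ C, IsReps (rep C) (mI m hm * rep C) (R C)) :
    ∃ f : ℂ → ℂ, DifferentiableOn ℂ f {s | 0 < s.re} ∧
      (∀ s : ℂ, 1 < s.re →
        f s = (s - 1) * ∑' I : Ideal (𝓞 K), ψ I * ((Ideal.absNorm I : ℕ) : ℂ) ^ (-s)) ∧
      f 1 = rho hm * ∑ C, ∑ r ∈ R C, phi ψ hm (rep C) r := by
  have hy := fun C => hyp_th (hR C) (φ := phi ψ hm (rep C)) (fun _ _ => h.le _)
    (h.phi_per hm (rep C))
  refine ⟨fun s => ∑ C, fc (rep C) (phi ψ hm (rep C))
    (((cov (mI m hm * rep C))⁻¹ : ℝ) * ∑ r ∈ R C, phi ψ hm (rep C) r) 0 s, ?_, fun s hs => ?_, ?_⟩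
  · exact DifferentiableOn.fun_sum fun C _ => differentiableOn_fc (hy C) _
  · rw [← sum_Zs hrep h.le hs, Finset.mul_sum]
    exact Finset.sum_congr rfl fun C _ => fc_eq (hy C) _ h.le (phi_nz hm (rep C)) hs
  · rw [Finset.mul_sum]
    refine Finset.sum_congr rfl fun C _ => ?_
    have h1 : (cov (mI m hm * rep C))⁻¹ * nm (rep C) = (cov (mI m hm))⁻¹ := by
      have h2 := (nm_pos (rep C)).ne'
      rw [cov, cov, nm_mul]
      field_simp
    rw [fc_one, rho, ← h1]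
    push_cast
    ring

theorem eq_at_one {f g : ℂ → ℂ} (hf : DifferentiableOn ℂ f {s | 0 < s.re})
    (hg : DifferentiableOn ℂ g {s | 0 < s.re}) (h : ∀ s : ℂ, 1 < s.re → f s = g s) :
    f 1 = g 1 := by
  have hU : {s : ℂ | 0 < s.re} ∈ 𝓝 (1 : ℂ) :=
    (isOpen_lt continuous_const continuous_re).mem_nhds (by simp)
  have h1 : Tendsto (fun x : ℝ => (x : ℂ)) (𝓝[>] 1) (𝓝 1) :=
    (continuous_ofReal.tendsto' 1 1 ofReal_one).mono_left nhdsWithin_le_nhds
  have h2 := (hf.differentiableAt hU).continuousAt.tendsto.comp h1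
  have h3 := (hg.differentiableAt hU).continuousAt.tendsto.comp h1
  refine tendsto_nhds_unique (h2.congr' ?_) h3
  filter_upwards [self_mem_nhdsWithin] with x hx
  exact h x (by simpa using hx)

/-- **Continuation of ray class `L`-functions**, with the vanishing of the residue. -/
theorem Ray.cont (h : Ray m ψ) (hm : m ≠ ⊥) :
    ∃ f : ℂ → ℂ, DifferentiableOn ℂ f {s | 0 < s.re} ∧
      (∀ s : ℂ, 1 < s.re →
        f s = (s - 1) * ∑' I : Ideal (𝓞 K), ψ I * ((Ideal.absNorm I : ℕ) : ℂ) ^ (-s)) ∧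
      ∀ A : Ideal (𝓞 K), A ≠ ⊥ → A ⊔ m = ⊤ → ψ A ≠ 1 → f 1 = 0 := by
  choose rep hrep using cl_surjective (K := K)
  have hb : Function.Bijective fun C => cl (rep C) := by
    simp only [hrep]
    exact Function.bijective_id
  choose R hR using fun C => exists_reps_mul hm (rep C)
  obtain ⟨f, hf1, hf2, -⟩ := h.family hm hb hR
  refine ⟨f, hf1, hf2, fun A hA hAm h1 => ?_⟩
  have hb' : Function.Bijective fun C => cl (mI A hA * rep C) := by
    simp only [cl_mul, hrep]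
    exact (Equiv.mulLeft (cl (mI A hA))).bijective
  choose R' hR' using fun C => exists_reps_mul hm (mI A hA * rep C)
  obtain ⟨g, hg1, hg2, hg3⟩ := h.family hm hb' hR'
  obtain ⟨g', hg1', hg2', hg3'⟩ := h.family hm hb fun C => IsReps.coprime hm hA hAm (hR' C)
  have e1 := eq_at_one hf1 hg1 fun s hs => (hf2 s hs).trans (hg2 s hs).symm
  have e2 := eq_at_one hf1 hg1' fun s hs => (hf2 s hs).trans (hg2' s hs).symm
  have e3 : g' 1 = ψ A * g 1 := by
    rw [hg3, hg3', mul_left_comm, Finset.mul_sum _ _ (ψ A)]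
    congr 1
    refine Finset.sum_congr rfl fun C _ => ?_
    rw [Finset.mul_sum]
    exact Finset.sum_congr rfl fun r hr => h.phi_mul hm hA _ ((hR' C).mem r hr)
  rw [← e1, ← e2] at e3
  have e4 : (1 - ψ A) * f 1 = 0 := by linear_combination e3
  exact (mul_eq_zero.1 e4).resolve_left (sub_ne_zero.2 h1.symm)

end ray

end Crest.Agent.T27.HeckeG87

namespace Crest.Agent.T27

theorem zetaCont_87 : ZetaCont := by
  obtain ⟨C, hC, h⟩ := HeckeF87.zetaCont_gen.{0} (a := 1 / 2) (by norm_num)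
  exact ⟨C, hC, fun K _ _ _ => h K⟩

theorem lCont_87 : LCont := by
  intro K _ _ _ m hm ψ h1 h2 h3
  obtain ⟨f, hf1, hf2, -⟩ := HeckeG87.Ray.cont (m := m) (ψ := ψ)
    ⟨fun I J _ _ => h1 I J, h2, fun x y _ _ => h3 x y⟩ hm
  exact ⟨f, hf1, hf2⟩

end Crest.Agent.T27
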