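import Crest.Agent.T27.Sar_77

/-!
# Row 27, S-arithmetic: finiteness statements (helper95)

* `UR_fg_95` : the `S`-units are finitely generated;
* `exists_E_95` : a finite transversal of `Rˣ / (Rˣ)^m`;
* `finiteIndex_95`, `fin_cl_95` : `Fˣ / (U P_J)` is finite as soon as `U ⊇ (Rˣ)^m`;
* `exists_compl_95` : in a commutative group of squarefree exponent every subgroup has a complement.
-/

set_option autoImplicit false
set_option linter.unusedSectionVars false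

noncomputable section

open NumberField IsDedekindDomain
open scoped nonZeroDivisors

namespace Crest.Agent.T27

/-! ## group theory -/

section grp

variable {G : Type*} [CommGroup G]

theorem relIndex_ne_zero_of_map_95 {H K : Subgroup G} {α : Type*} [Finite α] (f : K → α)
    (hf : ∀ x y : K, f x = f y → (x : G) / y ∈ H) : H.relIndex K ≠ 0 := by
  have : Finite (K ⧸ H.subgroupOf K) := by
    refine Finite.of_injective (fun q : K ⧸ H.subgroupOf K => f q.out) fun q q' h => ?_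
    have h1 := hf _ _ h.symm
    rw [← q.out_eq', ← q'.out_eq', QuotientGroup.eq, Subgroup.mem_subgroupOf]
    simpa [div_eq_mul_inv, mul_comm] using h1
  exact Subgroup.index_ne_zero_of_finite

theorem finiteIndex_sup_95 {A B C : Subgroup G} (h : (A ⊔ B).FiniteIndex) (hC : C.relIndex B ≠ 0) :
    (A ⊔ C).FiniteIndex := by
  have h1 : (A ⊔ C).relIndex ((A ⊔ C) ⊔ B) ≠ 0 := by
    rw [Subgroup.relIndex_sup_left]
    exact fun h0 => hC (Subgroup.relIndex_eq_zero_of_le_left le_sup_right h0)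
  have h2 : ((A ⊔ C) ⊔ B).FiniteIndex :=
    Subgroup.finiteIndex_of_le (H := A ⊔ B) (sup_le_sup_right le_sup_left B)
  refine ⟨?_⟩
  rw [← Subgroup.relIndex_mul_index (le_sup_left : A ⊔ C ≤ (A ⊔ C) ⊔ B)]
  exact mul_ne_zero h1 h2.index_ne_zero

/-- A finite transversal of a subgroup of finite relative index. -/
theorem exists_transversal_95 {H K : Subgroup G} (h : H.relIndex K ≠ 0) :
    ∃ T : Finset G, (∀ t ∈ T, t ∈ K) ∧ ∀ x ∈ K, ∃! t, t ∈ T ∧ x / t ∈ H := by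
  classical
  have : Finite (K ⧸ H.subgroupOf K) :=
    Nat.finite_of_card_ne_zero h
  have := Fintype.ofFinite (K ⧸ H.subgroupOf K)
  refine ⟨Finset.univ.image fun q : K ⧸ H.subgroupOf K => (q.out : G), ?_, fun x hx => ?_⟩
  · intro t ht
    obtain ⟨q, -, rfl⟩ := Finset.mem_image.1 ht
    exact q.out.2
  · have key : ∀ q : K ⧸ H.subgroupOf K,
        x / (q.out : G) ∈ H ↔ q = QuotientGroup.mk (⟨x, hx⟩ : K) := by
      intro q
      conv_rhs => rw [← q.out_eq', QuotientGroup.eq, Subgroup.mem_subgroupOf]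
      simp [div_eq_mul_inv, mul_comm]
    refine ⟨((QuotientGroup.mk (⟨x, hx⟩ : K) : K ⧸ H.subgroupOf K).out : G),
      ⟨Finset.mem_image.2 ⟨_, Finset.mem_univ _, rfl⟩, (key _).2 rfl⟩, ?_⟩
    rintro t ⟨ht, ht'⟩
    obtain ⟨q, -, rfl⟩ := Finset.mem_image.1 ht
    rw [(key q).1 ht']

theorem exists_compl_add_95 {M : Type*} [AddCommGroup M] (n : ℕ) [Module (ZMod n) M]
    [IsSemisimpleRing (ZMod n)] (H : AddSubgroup M) : ∃ K : AddSubgroup M, IsCompl H K := by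
  have h : IsSemisimpleModule (ZMod n) M := inferInstance
  obtain ⟨K, hK⟩ := h.exists_isCompl (AddSubgroup.toZModSubmodule n H)
  refine ⟨(AddSubgroup.toZModSubmodule n).symm K, ?_⟩
  rw [(AddSubgroup.toZModSubmodule n).isCompl_iff, OrderIso.apply_symm_apply]
  exact hK

/-- In a commutative group of squarefree exponent every subgroup has a complement. -/
theorem exists_compl_95 {n : ℕ} (hn : Squarefree n) (h : ∀ g : G, g ^ n = 1) (H : Subgroup G) :
    ∃ K : Subgroup G, IsCompl H K := by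
  have hn0 : NeZero n := ⟨hn.ne_zero⟩
  have : IsReduced (ZMod n) := isReduced_zmod.2 (Or.inl hn)
  have : IsSemisimpleRing (ZMod n) := IsArtinianRing.isSemisimpleRing_of_isReduced _
  let _ : Module (ZMod n) (Additive G) := AddCommGroup.zmodModule (fun x => by
    change Additive.ofMul (x.toMul ^ n) = 0
    rw [h]; rfl)
  obtain ⟨K, hK⟩ := exists_compl_add_95 n (Subgroup.toAddSubgroup H)
  refine ⟨Subgroup.toAddSubgroup.symm K, ?_⟩
  rw [Subgroup.toAddSubgroup.isCompl_iff, OrderIso.apply_symm_apply]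
  exact hK

/-- The same, in the form of a unique factorisation. -/
theorem exists_compl_mul_95 {n : ℕ} (hn : Squarefree n) (h : ∀ g : G, g ^ n = 1)
    (H : Subgroup G) :
    ∃ K : Subgroup G, (∀ g, g ∈ H → g ∈ K → g = 1) ∧ ∀ g, ∃ a ∈ H, ∃ b ∈ K, g = a * b := by
  obtain ⟨K, hK⟩ := exists_compl_95 hn h H
  refine ⟨K, fun g h1 h2 => ?_, fun g => ?_⟩
  · have : g ∈ H ⊓ K := ⟨h1, h2⟩
    rwa [hK.inf_eq_bot, Subgroup.mem_bot] at this
  · have : g ∈ H ⊔ K := by rw [hK.sup_eq_top]; trivial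
    obtain ⟨a, ha, b, hb, rfl⟩ := Subgroup.mem_sup.1 this
    exact ⟨a, ha, b, hb, rfl⟩

end grp

/-! ## the `S`-unit theorem (finite generation) -/

section sunit

variable {F : Type*} [Field F] [NumberField F] {N : ℕ}

theorem valuation_le_one_of_mem_RS_95 {x : F} (hx : x ∈ RS F N) (v : HeightOneSpectrum (𝓞 F))
    (hv : (N : 𝓞 F) ∉ v.asIdeal) : v.valuation F x ≤ 1 := by
  obtain ⟨k, a, ha⟩ := exists_eq_of_mem_RS hx
  have h1 : v.valuation F (N : F) = 1 := by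
    have : (N : F) = algebraMap (𝓞 F) F (N : 𝓞 F) := by simp
    rw [this, v.valuation_of_algebraMap]
    exact v.intValuation_eq_one_iff.2 hv
  have h2 : v.valuation F (a : F) ≤ 1 := v.valuation_le_one a
  rw [← ha, map_mul, map_pow, h1, one_pow, one_mul] at h2
  exact h2

theorem finite_primes_95 (hN : N ≠ 0) :
    {v : HeightOneSpectrum (𝓞 F) | (N : 𝓞 F) ∈ v.asIdeal}.Finite := by
  have h : (Ideal.span {(N : 𝓞 F)} : Ideal (𝓞 F)) ≠ ⊥ := by
    simpa using hN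
  refine (Ideal.finite_factors h).subset fun v hv => ?_
  simpa [Ideal.dvd_span_singleton] using hv

/-- The `S`-units are finitely generated. -/
theorem UR_fg_95 (hN : N ≠ 0) : (UR F N).FG := by
  set S := {v : HeightOneSpectrum (𝓞 F) | (N : 𝓞 F) ∈ v.asIdeal} with hS
  have : Finite S := finite_primes_95 hN
  let φ : Additive Fˣ →+ (S → ℤ) :=
    { toFun := fun x v => (v.1.valuationOfNeZero x.toMul).toAdd
      map_zero' := by funext v; simp
      map_add' := fun x y => by funext v; simp }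
  let ι : Additive (𝓞 F)ˣ →+ Additive Fˣ :=
    MonoidHom.toAdditive (Units.map (algebraMap (𝓞 F) F : 𝓞 F →* F))
  have h1 : ((UR F N).toAddSubgroup.toIntSubmodule).FG := by
    refine Submodule.fg_of_fg_map_of_fg_inf_ker φ.toIntLinearMap (IsNoetherian.noetherian _) ?_
    have h2 : (LinearMap.range ι.toIntLinearMap).FG := by
      rw [LinearMap.range_eq_map]
      exact Module.Finite.fg_top.map _
    refine h2.of_le ?_
    rintro x ⟨hx, hx0⟩
    have hx' : x.toMul ∈ UR F N := hx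
    have hv : ∀ v : S, v.1.valuation F ((x.toMul : Fˣ) : F) = 1 := by
      intro v
      have : (v.1.valuationOfNeZero x.toMul).toAdd = 0 := congrFun hx0 v
      rw [← v.1.valuationOfNeZero_eq, toAdd_eq_zero.1 this]; rfl
    obtain ⟨a, ha⟩ := HeightOneSpectrum.mem_integers_of_valuation_le_one (R := 𝓞 F) F
      ((x.toMul : Fˣ) : F) fun v => by
        by_cases h : v ∈ S
        · exact (hv ⟨v, h⟩).le
        · exact valuation_le_one_of_mem_RS_95 hx'.1 v h
    obtain ⟨b, hb⟩ := HeightOneSpectrum.mem_integers_of_valuation_le_one (R := 𝓞 F) F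
      ((x.toMul : Fˣ) : F)⁻¹ fun v => by
        by_cases h : v ∈ S
        · rw [map_inv₀, hv ⟨v, h⟩, inv_one]
        · exact valuation_le_one_of_mem_RS_95 hx'.2 v h
    have hab : a * b = 1 := by
      apply IsFractionRing.injective (𝓞 F) F
      rw [map_mul, ha, hb, map_one, mul_inv_cancel₀ x.toMul.ne_zero]
    refine ⟨Additive.ofMul ⟨a, b, hab, by rw [mul_comm, hab]⟩, ?_⟩
    apply Additive.toMul.injective
    exact Units.ext ha
  rw [Submodule.fg_iff_addSubgroup_fg, AddSubgroup.toIntSubmodule_toAddSubgroup] at h1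
  exact (Subgroup.fg_iff_add_fg _).2 h1

/-- A subgroup containing the `m`-th powers of the `S`-units has finite index in them. -/
theorem relIndex_UR_95 (hN : N ≠ 0) {m : ℕ} (hm : m ≠ 0) {U : Subgroup Fˣ}
    (hU : ∀ u ∈ UR F N, u ^ m ∈ U) : U.relIndex (UR F N) ≠ 0 := by
  have h := (Subgroup.isFiniteRelIndex_map_powMonoidHom_of_fg (UR_fg_95 (F := F) hN) hm).relIndex_ne_zero
  refine fun h0 => h (Subgroup.relIndex_eq_zero_of_le_left ?_ h0)
  rintro _ ⟨u, hu, rfl⟩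
  exact hU u hu

/-- A finite transversal of `Rˣ / (Rˣ)^m` (the fields `E_unit`, `E_rep` of `TH.Ar` for `m = 3`). -/
theorem exists_E_pow_95 (hN : N ≠ 0) {m : ℕ} (hm : m ≠ 0) :
    ∃ E : Finset F, (∀ η ∈ E, η ≠ 0 ∧ η ∈ RS F N ∧ η⁻¹ ∈ RS F N) ∧
      ∀ u : F, u ≠ 0 → u ∈ RS F N → u⁻¹ ∈ RS F N →
        ∃! η, η ∈ E ∧ ∃ v : F, v ≠ 0 ∧ v ∈ RS F N ∧ v⁻¹ ∈ RS F N ∧ u = η * v ^ m := by
  classical
  obtain ⟨T, hT, hT'⟩ := exists_transversal_95
    (relIndex_UR_95 (F := F) hN hm (U := (UR F N).map (powMonoidHom m))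
      fun u hu => ⟨u, hu, rfl⟩)
  refine ⟨T.image fun t : Fˣ => (t : F), ?_, fun u hu h1 h2 => ?_⟩
  · intro η hη
    obtain ⟨t, ht, rfl⟩ := Finset.mem_image.1 hη
    exact ⟨t.ne_zero, (hT t ht).1, (hT t ht).2⟩
  · obtain ⟨t, ⟨ht, v, hv, hv'⟩, huniq⟩ := hT' (Units.mk0 u hu) ⟨h1, h2⟩
    refine ⟨t, ⟨Finset.mem_image.2 ⟨t, ht, rfl⟩, v, v.ne_zero, hv.1, hv.2, ?_⟩, ?_⟩
    · have := congrArg (fun z : Fˣ => (z : F)) hv'
      simp only [powMonoidHom_apply, Units.val_pow_eq_pow_val, Units.val_div_eq_div_val,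
        Units.val_mk0] at this
      rw [this, mul_div_cancel₀ _ t.ne_zero]
    · rintro η ⟨hη, w, hw0, hw1, hw2, rfl⟩
      obtain ⟨t', ht', rfl⟩ := Finset.mem_image.1 hη
      rw [huniq t' ⟨ht', Units.mk0 w hw0, ⟨hw1, hw2⟩, Units.ext (by simp)⟩]

theorem exists_E_95 (hN : N ≠ 0) :
    ∃ E : Finset F, (∀ η ∈ E, η ≠ 0 ∧ η ∈ RS F N ∧ η⁻¹ ∈ RS F N) ∧
      ∀ u : F, u ≠ 0 → u ∈ RS F N → u⁻¹ ∈ RS F N →
        ∃! η, η ∈ E ∧ ∃ v : F, v ≠ 0 ∧ v ∈ RS F N ∧ v⁻¹ ∈ RS F N ∧ u = η * v ^ 3 :=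
  exists_E_pow_95 hN (by norm_num)

end sunit

/-! ## finiteness of the ray class groups -/

section ray

variable {F : Type*} [Field F] [NumberField F] {N : ℕ}

/-- The ideal `O ∩ x Λ`. -/
def capI_95 (N : ℕ) (x : F) : Ideal (𝓞 F) where
  carrier := {a | (a : F) / x ∈ LS F N}
  add_mem' := fun {a b} ha hb => by
    change ((a : F) + b) / x ∈ LS F N
    rw [add_div]; exact add_mem ha hb
  zero_mem' := by
    change (0 : F) / x ∈ LS F N
    rw [zero_div]; exact zero_mem _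
  smul_mem' := fun c a ha => by
    change ((c : F) * a) / x ∈ LS F N
    rw [mul_div_assoc]; exact mul_mem (coe_mem_LocS c) ha

theorem mem_capI_95 {x : F} {a : 𝓞 F} : a ∈ capI_95 N x ↔ (a : F) / x ∈ LS F N := Iff.rfl

theorem exists_pow_mem_capI_95 (hN : N ≠ 0) (x : F) : ∃ k : ℕ, (N : 𝓞 F) ^ k ∈ capI_95 N x := by
  obtain ⟨k, hk⟩ := exists_pow_mul_mem_LS hN x⁻¹
  refine ⟨k, mem_capI_95.2 ?_⟩
  simpa [div_eq_mul_inv] using hk

theorem capI_mem_95 (hN : N ≠ 0) (x : F) : capI_95 N x ∈ (Ideal (𝓞 F))⁰ := by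
  obtain ⟨k, hk⟩ := exists_pow_mem_capI_95 hN x
  refine mem_nonZeroDivisors_of_ne_zero fun h => ?_
  rw [h] at hk
  have : (N : 𝓞 F) ^ k = 0 := by simpa using hk
  exact hN (by simpa using pow_eq_zero_iff_of_pos_95 this)
where
  pow_eq_zero_iff_of_pos_95 {k : ℕ} (h : (N : 𝓞 F) ^ k = 0) : (N : 𝓞 F) = 0 :=
    eq_zero_of_pow_eq_zero h

variable [hG : SGood F N]

theorem cap_half_95 {x y : F} (hx0 : x ≠ 0) (hy0 : y ≠ 0) (hx : x ∈ LS F N) {a b : 𝓞 F}
    (hb : b ≠ 0)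
    (h : Ideal.span {a} * capI_95 N x = Ideal.span {b} * capI_95 N y) :
    (a : F) / b ∈ RS F N ∧ (a : F) * x / (b * y) ∈ LS F N := by
  have hb' : (b : F) ≠ 0 := by simpa using hb
  have key : ∀ c ∈ capI_95 N x, ∃ z ∈ capI_95 N y, (a : F) * c = b * z := by
    intro c hc
    have : a * c ∈ Ideal.span {b} * capI_95 N y :=
      h ▸ Ideal.mul_mem_mul (Ideal.mem_span_singleton_self a) hc
    obtain ⟨z, hz, hz'⟩ := Ideal.mem_span_singleton_mul.1 this
    exact ⟨z, hz, by simpa using (congrArg (fun t : 𝓞 F => (t : F)) hz').symm⟩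
  constructor
  · obtain ⟨k, hk⟩ := exists_pow_mem_capI_95 hG.ne x
    obtain ⟨z, -, hz⟩ := key _ hk
    refine mem_RS.2 ⟨k, ?_⟩
    have : (N : F) ^ k * ((a : F) / b) = z := by
      have h1 : (((N : 𝓞 F) ^ k : 𝓞 F) : F) = (N : F) ^ k := by simp
      rw [h1] at hz
      field_simp
      linear_combination hz
    rw [this]; exact z.isIntegral_coe
  · obtain ⟨d, hd, c, hc⟩ := exists_eq_of_mem_LS hx
    have hd0 : (d : F) ≠ 0 := by exact_mod_cast ne_zero_of_coprime F hd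
    obtain ⟨z, hz, hz'⟩ := key c (mem_capI_95.2 (by
      rw [← hc, mul_div_cancel_right₀ _ hx0]; exact natCast_mem _ d))
    have : (a : F) * x / (b * y) = (z : F) / y * (d : F)⁻¹ := by
      rw [← hc] at hz'
      field_simp
      linear_combination hz'
    rw [this]
    exact mul_mem hz (inv_mem_LS_of_coprime hd)

theorem finiteIndex_UR_UL_95 : (UR F N ⊔ UL F N).FiniteIndex := by
  have hN0 := SGood.cast_ne F N
  choose k hk using fun x : Fˣ => exists_pow_mul_mem_LS hG.ne (x : F)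
  refine ⟨?_⟩
  rw [← Subgroup.relIndex_top_right]
  refine relIndex_ne_zero_of_map_95 (α := ClassGroup (𝓞 F))
    (fun x => ClassGroup.mk0 ⟨capI_95 N ((N : F) ^ k x.1 * (x.1 : F)), capI_mem_95 hG.ne _⟩) ?_
  rintro ⟨x, hxt⟩ ⟨y, hyt⟩ hxy
  obtain ⟨a, b, ha, hb, h⟩ := ClassGroup.mk0_eq_mk0_iff.1 hxy
  change Ideal.span {a} * capI_95 N ((N : F) ^ k x * (x : F)) =
    Ideal.span {b} * capI_95 N ((N : F) ^ k y * (y : F)) at h
  clear hxy
  change x / y ∈ _
  have hx0 : (N : F) ^ k x * x ≠ 0 := mul_ne_zero (pow_ne_zero _ hN0) x.ne_zero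
  have hy0 : (N : F) ^ k y * y ≠ 0 := mul_ne_zero (pow_ne_zero _ hN0) y.ne_zero
  obtain ⟨h1, h2⟩ := cap_half_95 hx0 hy0 (hk x) hb h
  obtain ⟨h3, h4⟩ := cap_half_95 hy0 hx0 (hk y) ha h.symm
  have ha' : (a : F) ≠ 0 := by simpa using ha
  have hb' : (b : F) ≠ 0 := by simpa using hb
  have hNu : Units.mk0 (N : F) hN0 ∈ UR F N := ⟨natCast_mem _ N, inv_N_mem_RS⟩
  have hc : Units.mk0 ((b : F) / a) (div_ne_zero hb' ha') ∈ UR F N :=
    ⟨h3, by simpa using h1⟩
  have hl : Units.mk0 ((a : F) * ((N : F) ^ k x * x) / (b * ((N : F) ^ k y * y)))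
      (div_ne_zero (mul_ne_zero ha' hx0) (mul_ne_zero hb' hy0)) ∈ UL F N :=
    ⟨h2, by simpa only [Units.val_mk0, inv_div] using h4⟩
  refine Subgroup.mem_sup.2 ⟨_, mul_mem (mul_mem hc (pow_mem hNu (k y)))
    (inv_mem (pow_mem hNu (k x))), _, hl, Units.ext ?_⟩
  have := x.ne_zero
  have := y.ne_zero
  simp only [Units.val_mul, Units.val_mk0, Units.val_pow_eq_pow_val, Units.val_inv_eq_inv_val,
    Units.val_div_eq_div_val]
  field_simp

theorem relIndex_PJ_UL_95 (J : ℕ) : (PJ F N J).relIndex (UL F N) ≠ 0 := by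
  have hN0 := SGood.cast_ne F N
  have hI : Ideal.span {(N : 𝓞 F) ^ J} ≠ ⊥ := by
    simpa using fun h => absurd h hG.ne
  have : Finite (𝓞 F ⧸ Ideal.span {(N : 𝓞 F) ^ J}) := Ideal.finiteQuotientOfFreeOfNeBot _ hI
  have hex : ∀ u : UL F N, ∃ a : 𝓞 F, ∃ l ∈ LS F N, (a : F) = ((u : Fˣ) : F) + (N : F) ^ J * l := by
    intro u
    obtain ⟨a, -, h⟩ := exists_approx_int hG.ne (m := 1) (y := (N : F) ^ J) (a := 0)
      (b := ((u : Fˣ) : F)) one_ne_zero (pow_ne_zero _ hN0) (one_mem _)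
      (pow_mem (natCast_mem _ N) J) (zero_mem _) u.2.1
    exact ⟨a, h⟩
  choose a l hl ha using hex
  refine relIndex_ne_zero_of_map_95
    (fun u => Ideal.Quotient.mk (Ideal.span {(N : 𝓞 F) ^ J}) (a u)) fun x y h => ?_
  obtain ⟨c, hc⟩ := Ideal.mem_span_singleton.1 (Ideal.Quotient.eq.1 h)
  have hc' : (a x : F) - a y = (N : F) ^ J * c := by
    simpa using congrArg (fun t : 𝓞 F => (t : F)) hc
  refine ⟨div_mem x.2 y.2, ((c : F) - l x + l y) * ((y : Fˣ) : F)⁻¹,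
    mul_mem (add_mem (sub_mem (coe_mem_LocS c) (hl x)) (hl y)) y.2.2, ?_⟩
  have := (y : Fˣ).ne_zero
  rw [Units.val_div_eq_div_val]
  field_simp
  linear_combination hc' - ha x + ha y

/-- `Fˣ / (Rˣ P_J)` is finite. -/
theorem finiteIndex_UR_PJ_95 (J : ℕ) : (UR F N ⊔ PJ F N J).FiniteIndex :=
  finiteIndex_sup_95 finiteIndex_UR_UL_95 (relIndex_PJ_UL_95 J)

/-- `Fˣ / (U P_J)` is finite if `U` contains the `m`-th powers of the `S`-units. -/
theorem finiteIndex_95 (J : ℕ) (U : Subgroup Fˣ) {m : ℕ} (hm : m ≠ 0)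
    (hU : ∀ u ∈ UR F N, u ^ m ∈ U) : (U ⊔ PJ F N J).FiniteIndex := by
  rw [sup_comm]
  exact finiteIndex_sup_95 (by rw [sup_comm]; exact finiteIndex_UR_PJ_95 J)
    (relIndex_UR_95 hG.ne hm hU)

/-- The field `fin_cl` of `TH.Ar`. -/
theorem fin_cl_95 (J : ℕ) : ∃ T : Finset F, (∀ t ∈ T, t ≠ 0) ∧ ∀ x : F, x ≠ 0 → ∃ t ∈ T, ∃ u : F,
    u ≠ 0 ∧ u ∈ RS F N ∧ u⁻¹ ∈ RS F N ∧ ∃ y ∈ LS F N, x = u * t * (1 + (N : F) ^ J * y) := by
  classical
  obtain ⟨T, -, hT⟩ := exists_transversal_95 (H := UR F N ⊔ PJ F N J) (K := ⊤) (by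
    rw [Subgroup.relIndex_top_right]; exact (finiteIndex_UR_PJ_95 J).index_ne_zero)
  refine ⟨T.image fun t : Fˣ => (t : F), ?_, fun x hx => ?_⟩
  · intro t ht
    obtain ⟨t, -, rfl⟩ := Finset.mem_image.1 ht
    exact t.ne_zero
  · obtain ⟨t, ⟨ht, h⟩, -⟩ := hT (Units.mk0 x hx) trivial
    obtain ⟨u, hu, p, ⟨-, y, hy, hp⟩, h⟩ := Subgroup.mem_sup.1 h
    refine ⟨t, Finset.mem_image.2 ⟨t, ht, rfl⟩, u, u.ne_zero, hu.1, hu.2, y, hy, ?_⟩
    have := congrArg (fun z : Fˣ => (z : F)) h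
    simp only [Units.val_mul, Units.val_div_eq_div_val, Units.val_mk0] at this
    have ht0 := t.ne_zero
    rw [← hp, mul_right_comm, this, div_mul_cancel₀ _ ht0]

end ray

end Crest.Agent.T27
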