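import Crest.Agent.T27.Mdl_77
import Crest.Agent.T27.SarF_95

/-!
# Row 27, construction of the number-field model of the frame `Fr0` (helper77)
-/

set_option autoImplicit false
set_option linter.unusedSectionVars false

noncomputable section

open NumberField
open scoped nonZeroDivisors

namespace Crest.Agent.T27

namespace I77

/-- A multiplicative system of generators of the non-zero principal ideals. -/
theorem exists_system {R : Type*} [CommMonoidWithZero R] [Nontrivial R]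
    [UniqueFactorizationMonoid R] (K : Submonoid R)
    (hK : ∀ p : R, p ≠ 0 → ∃ u, IsUnit u ∧ u * p ∈ K) :
    ∃ S : Submonoid R, S ≤ K ∧ (∀ n ∈ S, n ≠ 0) ∧ (∀ m ∈ S, ∀ n ∈ S, Associated m n → m = n) ∧
      ∀ n, n ≠ 0 → ∃ u, IsUnit u ∧ u * n ∈ S := by
  classical
  have h1 : ∀ a : Associates R, ∃ g : R, Associates.mk g = a ∧ (a ≠ 0 → g ∈ K) := fun a => by
    obtain ⟨p, rfl⟩ := Associates.mk_surjective a
    by_cases hp : p = 0
    · exact ⟨0, by rw [hp], fun h => absurd (by rw [hp]; rfl) h⟩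
    obtain ⟨u, hu, h⟩ := hK p hp
    exact ⟨u * p, Associates.mk_eq_mk_iff_associated.2 (associated_unit_mul_left _ _ hu),
      fun _ => h⟩
  choose g hg hgK using h1
  set T : Set R := {p | Prime p ∧ g (Associates.mk p) = p}
  refine ⟨Submonoid.closure T, Submonoid.closure_le.2 fun p hp => ?_, fun n hn => ?_,
    fun m hm n hn h => ?_, fun n hn => ?_⟩
  · rw [← hp.2]
    exact hgK _ (by simpa using hp.1.ne_zero)
  · induction hn using Submonoid.closure_induction with
    | mem p hp => exact hp.1.ne_zero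
    | one => exact one_ne_zero
    | mul a b _ _ ha hb => exact mul_ne_zero ha hb
  · obtain ⟨s, hs, rfl⟩ := Submonoid.exists_multiset_of_mem_closure hm
    obtain ⟨t, ht, rfl⟩ := Submonoid.exists_multiset_of_mem_closure hn
    have h2 := UniqueFactorizationMonoid.factors_unique (fun x hx => (hs x hx).1.irreducible)
      (fun x hx => (ht x hx).1.irreducible) h
    rw [Multiset.rel_eq.1 (h2.mono fun a ha b hb hab => ?_)]
    rw [← (hs a ha).2, ← (ht b hb).2, Associates.mk_eq_mk_iff_associated.2 hab]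
  · induction n using UniqueFactorizationMonoid.induction_on_prime with
    | h₁ => exact absurd rfl hn
    | h₂ x hx =>
      obtain ⟨y, hy⟩ := hx.exists_left_inv
      exact ⟨y, IsUnit.of_mul_eq_one x hy, hy ▸ one_mem _⟩
    | h₃ a p ha hp ih =>
      obtain ⟨u, hu, h⟩ := ih ha
      have h3 : Associated p (g (Associates.mk p)) :=
        (Associates.mk_eq_mk_iff_associated.1 (hg _)).symm
      have h4 : g (Associates.mk p) ∈ T := ⟨h3.prime hp, by rw [hg]⟩
      obtain ⟨v, hv⟩ := h3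
      refine ⟨v * u, v.isUnit.mul hu, ?_⟩
      have : v * u * (p * a) = g (Associates.mk p) * (u * a) := by rw [← hv]; ac_rfl
      rw [this]
      exact mul_mem (Submonoid.subset_closure h4) h

/-- A finite transversal of the units. -/
theorem exists_transversal {R W : Type*} [Monoid R] [Finite W] (c : R → W) :
    ∃ U : Finset R, 1 ∈ U ∧ (∀ u ∈ U, IsUnit u) ∧ (∀ v, IsUnit v → ∃ u ∈ U, c u = c v) ∧
      ∀ u ∈ U, ∀ u' ∈ U, c u = c u' → u = u' := by
  classical
  have h1 : ∀ w : W, ∃ u : R, IsUnit u ∧ ((∃ v, IsUnit v ∧ c v = w) → c u = w) ∧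
      (w = c 1 ∨ (¬ ∃ v, IsUnit v ∧ c v = w) → u = 1) := fun w => by
    by_cases h : w = c 1
    · exact ⟨1, isUnit_one, fun _ => h.symm, fun _ => rfl⟩
    by_cases h' : ∃ v, IsUnit v ∧ c v = w
    · obtain ⟨v, hv, e⟩ := h'
      exact ⟨v, hv, fun _ => e, fun h2 => (h2.elim h fun h3 => h3 ⟨v, hv, e⟩).elim⟩
    · exact ⟨1, isUnit_one, fun h2 => absurd h2 h', fun _ => rfl⟩
  choose r hr1 hr2 hr3 using h1
  have key : ∀ w, r (c (r w)) = r w := fun w => by
    by_cases h' : ∃ v, IsUnit v ∧ c v = w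
    · rw [hr2 w h']
    · rw [hr3 w (Or.inr h'), hr3 _ (Or.inl rfl)]
  refine ⟨(Set.finite_range r).toFinset, by simpa using ⟨c 1, hr3 _ (Or.inl rfl)⟩, ?_, ?_, ?_⟩
  · simpa using hr1
  · intro v hv
    exact ⟨r (c v), by simp, hr2 _ ⟨v, hv, rfl⟩⟩
  · simp only [Set.Finite.mem_toFinset]
    rintro _ ⟨w, rfl⟩ _ ⟨w', rfl⟩ e
    rw [← key w, e, key]

/-- Upper bound for the number of ideals. -/
theorem exists_count (F : Type*) [Field F] [NumberField F] : ∃ kp : ℕ, ∀ X : ℕ,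
    {I : Ideal (𝓞 F) | I ≠ ⊥ ∧ Ideal.absNorm I ≤ X}.ncard ≤ kp * X := by
  have h1 := (NumberField.Ideal.tendsto_norm_le_div_atTop F).comp tendsto_natCast_atTop_atTop
  obtain ⟨C, hC⟩ := h1.bddAbove_range
  refine ⟨⌈C⌉₊, fun X => ?_⟩
  rcases Nat.eq_zero_or_pos X with rfl | hX
  · have : {I : Ideal (𝓞 F) | I ≠ ⊥ ∧ Ideal.absNorm I ≤ 0} = ∅ := by
      ext I
      simp [Ideal.absNorm_eq_zero_iff]
    rw [this]; simp
  have h2 := hC ⟨X, rfl⟩
  simp only [Function.comp, Nat.cast_le] at h2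
  rw [div_le_iff₀ (by exact_mod_cast hX)] at h2
  have h3 : {I : Ideal (𝓞 F) | I ≠ ⊥ ∧ Ideal.absNorm I ≤ X}.ncard ≤
      Nat.card {I : Ideal (𝓞 F) // Ideal.absNorm I ≤ X} :=
    Set.ncard_le_ncard (fun I hI => hI.2) (Ideal.finite_setOfPred_absNorm_le X)
  have h4 : ((Nat.card {I : Ideal (𝓞 F) // Ideal.absNorm I ≤ X} : ℕ) : ℝ) ≤ (⌈C⌉₊ * X : ℕ) := by
    push_cast
    exact h2.trans (mul_le_mul_of_nonneg_right (Nat.le_ceil C) (Nat.cast_nonneg X))
  exact h3.trans (by exact_mod_cast h4)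

open Classical in
/-- The class of an element of `F` modulo a subgroup of `Fˣ`. -/
def clsH {F : Type*} [Field F] (H : Subgroup Fˣ) : F →*₀ WithZero (Fˣ ⧸ H) where
  toFun x := if h : x = 0 then 0 else ((Units.mk0 x h : Fˣ ⧸ H) : WithZero (Fˣ ⧸ H))
  map_zero' := dif_pos rfl
  map_one' := by rw [dif_neg one_ne_zero, Units.mk0_one]; rfl
  map_mul' x y := by
    by_cases hx : x = 0
    · rw [dif_pos hx, dif_pos (mul_eq_zero_of_left hx y)]
      exact (MulZeroClass.zero_mul (M₀ := WithZero (Fˣ ⧸ H)) _).symm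
    by_cases hy : y = 0
    · rw [dif_pos hy, dif_pos (mul_eq_zero_of_right x hy)]
      exact (MulZeroClass.mul_zero (M₀ := WithZero (Fˣ ⧸ H)) _).symm
    rw [dif_neg hx, dif_neg hy, dif_neg (mul_ne_zero hx hy), ← WithZero.coe_mul,
      ← QuotientGroup.mk_mul]
    congr 2
    ext; rfl

theorem clsH_units {F : Type*} [Field F] (H : Subgroup Fˣ) (x : Fˣ) :
    clsH H (x : F) = ((x : Fˣ ⧸ H) : WithZero (Fˣ ⧸ H)) := by
  have : clsH H (x : F) = ((Units.mk0 (x : F) x.ne_zero : Fˣ ⧸ H) : WithZero (Fˣ ⧸ H)) :=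
    dif_neg x.ne_zero
  rw [this, Units.mk0_val]

theorem clsH_eq_iff {F : Type*} [Field F] (H : Subgroup Fˣ) {x y : F} (hx : x ≠ 0) (hy : y ≠ 0) :
    clsH H x = clsH H y ↔ ∃ t ∈ H, y = x * t := by
  lift x to Fˣ using hx.isUnit
  lift y to Fˣ using hy.isUnit
  rw [clsH_units, clsH_units, WithZero.coe_inj, QuotientGroup.eq]
  constructor
  · intro h
    exact ⟨_, h, by simp⟩
  · rintro ⟨t, ht, e⟩
    obtain rfl : y = x * t := Units.ext e
    simpa using ht

variable {F : Type*} [Field F] [NumberField F] {N : ℕ} [hG : SGood F N]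

/-- Every class modulo `P_J` contains an element of `R`. -/
theorem exists_mem_PJ_mul (J : ℕ) (x : F) : ∃ p ∈ PJ F N J, x * p ∈ RS F N := by
  obtain ⟨d, hd0, hd, hx⟩ := exists_cop_mul_mem_RS hG.ne x
  have h1 := Nat.ModEq.pow_totient (hd.pow_right J)
  have h2 : 0 < Nat.totient (N ^ J) := Nat.totient_pos.2 (pow_pos (Nat.pos_of_ne_zero hG.ne) J)
  obtain ⟨k, hk⟩ := Nat.exists_eq_succ_of_ne_zero h2.ne'
  rw [hk, Nat.succ_eq_add_one] at h1
  obtain ⟨c, hc⟩ := h1.symm.dvd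
  have hd1 : (d : F) ≠ 0 := by exact_mod_cast hd0
  have hu : Units.mk0 (d : F) hd1 ∈ UL F N := ⟨natCast_mem _ d, inv_mem_LS_of_coprime hd⟩
  refine ⟨Units.mk0 (d : F) hd1 ^ (k + 1), ⟨pow_mem hu _, c, intCast_mem _ c, ?_⟩, ?_⟩
  · have := congrArg (Int.cast : ℤ → F) hc
    push_cast at this ⊢
    rw [Units.val_mk0]
    linear_combination this
  · have : x * ((Units.mk0 (d : F) hd1 ^ (k + 1) : Fˣ) : F) = (d : F) ^ k * (d * x) := by
      push_cast; rw [Units.val_mk0]; ring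
    rw [this]
    exact mul_mem (pow_mem (natCast_mem _ d) k) hx

/-- The complement of the units. -/
theorem exists_K (J : ℕ) : ∃ K : Subgroup Fˣ, Co F N J ≤ K ∧
    (∀ u ∈ UR F N, u ∈ K → u ∈ Co F N J) ∧ ∀ x : Fˣ, ∃ u ∈ UR F N, u * x ∈ K := by
  obtain ⟨K, hK1, hK2⟩ := exists_compl_mul_95 (G := Fˣ ⧸ Co F N J) (n := 6) (by
    rw [show (6 : ℕ) = 2 * 3 by norm_num, Nat.squarefree_mul (by norm_num)]
    exact ⟨Nat.prime_two.prime.squarefree, Nat.prime_three.prime.squarefree⟩) (fun g => by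
    obtain ⟨x, rfl⟩ := QuotientGroup.mk_surjective g
    rw [← QuotientGroup.mk_pow, QuotientGroup.eq_one_iff]
    exact pow_six_mem_Co x) ((UR F N).map (QuotientGroup.mk' _))
  refine ⟨K.comap (QuotientGroup.mk' _), fun x hx => ?_, fun u hu h => ?_, fun x => ?_⟩
  · rw [Subgroup.mem_comap, QuotientGroup.mk'_apply, (QuotientGroup.eq_one_iff x).2 hx]
    exact one_mem _
  · rw [← QuotientGroup.eq_one_iff]
    exact hK1 _ ⟨u, hu, rfl⟩ h
  · obtain ⟨y, hy, k, hk, e⟩ := hK2 (QuotientGroup.mk' _ x)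
    obtain ⟨u, hu, e'⟩ := Subgroup.mem_map.1 hy
    refine ⟨u⁻¹, inv_mem hu, ?_⟩
    rw [Subgroup.mem_comap, map_mul, map_inv, e, e', inv_mul_cancel_left]
    exact hk

end I77

open I77 in
theorem model_77 : ModelStmt := by
  intro F _ _ N J hG w hw
  have hfin : (Fi F N J).FiniteIndex :=
    finiteIndex_95 J _ (m := 6) (by norm_num) fun u hu => pow_six_mem_Up hu
  obtain ⟨K, hK1, hK2, hK3⟩ := exists_K (F := F) (N := N) J
  obtain ⟨S, hS1, hS2, hS3, hS4⟩ := exists_system (R := RS F N)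
    ((K.toSubmonoid.map (Units.coeHom F)).comap (RS F N).subtype) fun p hp => by
      obtain ⟨u, hu, h⟩ := hK3 (Units.mk0 (p : F) (by simpa using hp))
      exact ⟨⟨u, hu.1⟩, isUnit_iff_subring.2 ⟨u.ne_zero, hu.2⟩, _, h, rfl⟩
  set c : RS F N →*₀ WithZero (Fˣ ⧸ Fi F N J) :=
    (clsH (Fi F N J)).comp (RS F N).subtype.toMonoidWithZeroHom with hc
  have hc' : ∀ x : RS F N, c x = clsH (Fi F N J) (x : F) := fun _ => rfl
  have : Finite (WithZero (Fˣ ⧸ Fi F N J)) := inferInstanceAs (Finite (Option (Fˣ ⧸ Fi F N J)))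
  obtain ⟨U, hU1, hU2, hU3, hU4⟩ := exists_transversal c
  obtain ⟨kp, hkp⟩ := exists_count F
  have hw' : w ∈ RS F N := mem_LocS_of_isIntegral
    ⟨Polynomial.X ^ 2 + Polynomial.X + 1, by monicity!, by simpa using hw⟩
  have hmaps : ∀ X : ℕ, Set.MapsTo idS {n : RS F N | n ∈ S ∧ nmS n ≤ X}
      {I : Ideal (𝓞 F) | I ≠ ⊥ ∧ Ideal.absNorm I ≤ X} := fun X n hn =>
    ⟨idS_ne_bot (SGood.h0R F N) (hS2 n hn.1), by rw [← nmS_eq (SGood.h0R F N)]; exact hn.2⟩
  have hinj : ∀ X : ℕ, Set.InjOn idS {n : RS F N | n ∈ S ∧ nmS n ≤ X} := fun X m hm n hn e =>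
    hS3 m hm.1 n hn.1 ((idS_eq_iff (SGood.h0R F N)).1 e)
  have hfinI : ∀ X : ℕ, {I : Ideal (𝓞 F) | I ≠ ⊥ ∧ Ideal.absNorm I ≤ X}.Finite := fun X =>
    (Ideal.finite_setOfPred_absNorm_le X).subset fun I hI => hI.2
  let fr : Fr0 :=
    { OF := RS F N
      fin_quot := fun n hn => finite_quot_RS hn
      omF := ⟨w, hw'⟩
      omF_sq_add := Subtype.ext (by simpa using hw)
      unit_six := isUnit_six_RS
      PrimF := fun n => n ∈ S
      prim_one := one_mem S
      prim_mul := fun m n hm hn => mul_mem hm hn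
      prim_ne := hS2
      prim_assoc := fun m n hm hn => hS3 m hm n hn
      prim_ex := hS4
      ClF := Fˣ ⧸ Fi F N J
      clsF := c
      clsF_ne := fun n hn => by
        rw [hc', ← Units.val_mk0 (a := (n : F)) (by simpa using hn), clsH_units]
        exact WithZero.coe_ne_zero
      clsF_surj := fun q => by
        induction q using WithZero.recZeroCoe with
        | zero => exact ⟨0, map_zero c⟩
        | coe q =>
          obtain ⟨x, rfl⟩ := QuotientGroup.mk_surjective q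
          obtain ⟨p, hp, h⟩ := exists_mem_PJ_mul (N := N) J (x : F)
          refine ⟨⟨_, h⟩, ?_⟩
          rw [hc', ← clsH_units, eq_comm,
            clsH_eq_iff _ x.ne_zero (mul_ne_zero x.ne_zero p.ne_zero)]
          exact ⟨p, PJ_le_Fi hp, rfl⟩
      clsF_prim := fun m n v hm hn hv e => by
        obtain ⟨a, ha, ea⟩ := hS1 hm
        obtain ⟨b, hb, eb⟩ := hS1 hn
        change (a : F) = m at ea
        change (b : F) = n at eb
        obtain ⟨hv0, hv1⟩ := isUnit_iff_subring.1 hv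
        rw [hc', hc', Subring.coe_mul, ← ea, ← eb,
          clsH_eq_iff _ (mul_ne_zero hv0 a.ne_zero) b.ne_zero] at e
        obtain ⟨t, ht, e⟩ := e
        have hu : Units.mk0 (v : F) hv0 ∈ UR F N := ⟨v.2, hv1⟩
        have e' : Units.mk0 (v : F) hv0 = b * (a * t)⁻¹ := by
          rw [eq_mul_inv_iff_mul_eq]
          exact Units.ext (by simp [e, mul_assoc])
        have h1 : Units.mk0 (v : F) hv0 ∈ K :=
          e' ▸ mul_mem hb (inv_mem (mul_mem ha (hK1 (Fi_le_Co ht))))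
        rw [hc', ← map_one (clsH (Fi F N J)), eq_comm, clsH_eq_iff _ one_ne_zero hv0]
        exact ⟨_, Up_le_Fi ⟨hu, hK2 _ hu h1⟩, by simp⟩
      U0F := U
      one_mem_U0F := hU1
      unit_U0F := hU2
      ex_U0F := hU3
      inj_U0F := hU4
      eqF := fun x n => psiS N ((x : F) / n)
      eqF_add := fun x y n => by rw [Subring.coe_add, add_div, psiS_add hG.ne]
      eqF_self := fun x n => psiS_of_mem_RS hG.ne (by
        by_cases hn : (n : F) = 0
        · simp [hn]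
        · simp [hn])
      eqF_mul := fun g x n hg => by
        rw [Subring.coe_mul, Subring.coe_mul, mul_div_mul_left _ _ (by simpa using hg)]
      eqF_norm := fun x n => norm_psiS _
      eqF_nondeg := fun k n hn h => (dvd_iff_subring (by simpa using hn)).2
        (mem_RS_of_psiS fun y hy => by
          rw [← h ⟨y, hy⟩, Subring.coe_mul, mul_div_right_comm])
      kp := kp
      fin_prim := fun X => Set.Finite.of_injOn (hmaps X) (hinj X) (hfinI X)
      card_prim := fun X =>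
        (Set.ncard_le_ncard_of_injOn _ (hmaps X) (hinj X) (hfinI X)).trans (hkp X) }
  refine ⟨fr, (RS F N).subtype, ⟨hG, Subtype.val_injective, fun x => ⟨fun ⟨y, e⟩ => e ▸ y.2, fun hx => ⟨⟨x, hx⟩, rfl⟩⟩, fun _ _ => rfl,
    fun m n hm hn => ?_⟩, rfl⟩
  exact clsH_eq_iff _ (fun h => hm (Subtype.ext h)) (fun h => hn (Subtype.ext h))

end Crest.Agent.T27
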