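import Crest.Agent.T27.Rec1_64

/-!
# Row 27, sextic reciprocity over a number field: the symbol `zs` and the statement

`zs ζ a b ∈ ℤ/6` is the exponent of the sextic residue symbol `(a / b)₆ = ζ ^ zs ζ a b` in a ring
`S` containing a primitive sixth root of unity `ζ` (`ζ² - ζ + 1 = 0`, for example `ζ = 1 + ω`) and
`1/6`.  It is additive in both arguments and satisfies Euler's criterion for prime `b`; in a
principal ideal domain these properties determine it.
-/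

set_option autoImplicit false

noncomputable section

namespace Crest.Agent.T27.Rc

open Finset

variable {S : Type*} [CommRing S] {ζ : S}

theorem zm_zeta_pow {Q : Type*} [AddCommGroup Q] [Module S Q] [Finite Q]
    (hζ : ζ ^ 2 - ζ + 1 = 0) (h6 : IsUnit (6 : S)) (k : ℕ) :
    zm ζ (ζ ^ k) Q = k * (((Nat.card Q - 1) / 6 : ℕ) : ZMod 6) := by
  classical
  cases nonempty_fintype Q
  have hs := isSec_sec (Q := Q) hζ h6
  rw [zm_eq hζ h6 (fun q h => by_contra fun h' => (hs.pow hζ k h').1 h) hs]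
  have h := (card_sec (fun q : Q => ζ • q) (zeta_inj hζ) (fun q => q ≠ 0)
    (fun q => (zeta_smul_eq_zero hζ).not) _ hs).1
  rw [Finset.filter_ne', Finset.card_erase_of_mem (mem_univ _), Finset.card_univ] at h
  rw [Nat.card_eq_fintype_card, h, Nat.mul_div_cancel_left _ (by norm_num), Finset.card_filter]
  push_cast
  rw [Finset.mul_sum]
  refine Finset.sum_congr rfl fun q _ => ?_
  by_cases h' : q = 0
  · simp [h']
  · by_cases h : sec ζ Q q = 0 <;> simp [h, h', (hs.pow hζ k h').2]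

theorem zm_neg_one {Q : Type*} [AddCommGroup Q] [Module S Q] [Finite Q]
    (hζ : ζ ^ 2 - ζ + 1 = 0) (h6 : IsUnit (6 : S)) :
    zm ζ (-1 : S) Q = 3 * (((Nat.card Q - 1) / 6 : ℕ) : ZMod 6) := by
  rw [show (-1 : S) = ζ ^ 3 by linear_combination (-ζ - 1) * hζ, zm_zeta_pow hζ h6]
  rfl

theorem smul_inj_of_coprime {a b : S} (h : IsCoprime a b) (q : S ⧸ Ideal.span {b})
    (hq : a • q = 0) : q = 0 := by
  obtain ⟨x, rfl⟩ := Ideal.Quotient.mk_surjective q
  have h1 : Ideal.Quotient.mk (Ideal.span {b}) (a * x) = 0 := hq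
  rw [Ideal.Quotient.eq_zero_iff_mem, Ideal.mem_span_singleton] at h1 ⊢
  exact h.symm.dvd_of_dvd_mul_left h1

theorem zs_one_left (ζ b : S) : zs ζ 1 b = 0 := zm_one _ _

theorem zs_congr (ζ : S) {a a' b : S} (h : b ∣ a - a') : zs ζ a b = zs ζ a' b :=
  zm_congr ζ fun q => by
    obtain ⟨x, rfl⟩ := Ideal.Quotient.mk_surjective q
    show Ideal.Quotient.mk (Ideal.span {b}) (a * x) = Ideal.Quotient.mk (Ideal.span {b}) (a' * x)
    rw [Ideal.Quotient.eq, Ideal.mem_span_singleton, ← sub_mul]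
    exact h.mul_right x

theorem zs_unit (ζ a : S) {b : S} (h : IsUnit b) : zs ζ a b = 0 := by
  have : Subsingleton (S ⧸ Ideal.span {b}) :=
    Ideal.Quotient.subsingleton_iff.2 (Ideal.span_singleton_eq_top.2 h)
  exact zm_subsingleton ζ a

theorem zs_assoc [IsDomain S] (ζ a : S) {b b' : S} (h : Associated b b') : zs ζ a b = zs ζ a b' := by
  rw [zs, zs, Ideal.span_singleton_eq_span_singleton.2 h]

theorem zs_mul_left (hζ : ζ ^ 2 - ζ + 1 = 0) (h6 : IsUnit (6 : S)) {a a' b : S}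
    [Finite (S ⧸ Ideal.span {b})] (h : IsCoprime a b) (h' : IsCoprime a' b) :
    zs ζ (a * a') b = zs ζ a b + zs ζ a' b :=
  zm_mul hζ h6 (smul_inj_of_coprime h) (smul_inj_of_coprime h')

theorem zs_mul_right [IsDomain S] (hζ : ζ ^ 2 - ζ + 1 = 0) (h6 : IsUnit (6 : S)) {a b b' : S}
    (hb : b ≠ 0) [Finite (S ⧸ Ideal.span {b * b'})] (h : IsCoprime a (b * b')) :
    zs ζ a (b * b') = zs ζ a b + zs ζ a b' := by
  let i : (S ⧸ Ideal.span {b'}) →ₗ[S] S ⧸ Ideal.span {b * b'} :=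
    Submodule.mapQ _ _ (LinearMap.mulLeft S b) fun x hx => by
      obtain ⟨y, rfl⟩ := Ideal.mem_span_singleton.1 hx
      exact Ideal.mem_span_singleton.2 ⟨y, (mul_assoc _ _ _).symm⟩
  let p : (S ⧸ Ideal.span {b * b'}) →ₗ[S] S ⧸ Ideal.span {b} :=
    Submodule.mapQ _ _ LinearMap.id fun x hx =>
      Ideal.mem_span_singleton.2 ((dvd_mul_right b b').trans (Ideal.mem_span_singleton.1 hx))
  have hi : ∀ x, i (Ideal.Quotient.mk _ x) = Ideal.Quotient.mk _ (b * x) := fun _ => rfl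
  have hp : ∀ x, p (Ideal.Quotient.mk _ x) = Ideal.Quotient.mk _ x := fun _ => rfl
  rw [add_comm]
  refine zm_exact hζ h6 i p ((injective_iff_map_eq_zero _).2 fun q hq => ?_) (fun q => ?_)
    (fun q => ?_) (smul_inj_of_coprime h)
  · obtain ⟨x, rfl⟩ := Ideal.Quotient.mk_surjective q
    rw [hi, Ideal.Quotient.eq_zero_iff_mem, Ideal.mem_span_singleton] at hq
    rw [Ideal.Quotient.eq_zero_iff_mem, Ideal.mem_span_singleton]
    exact (mul_dvd_mul_iff_left hb).1 hq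
  · obtain ⟨x, rfl⟩ := Ideal.Quotient.mk_surjective q
    exact ⟨_, hp x⟩
  · obtain ⟨x, rfl⟩ := Ideal.Quotient.mk_surjective q
    rw [hp, Ideal.Quotient.eq_zero_iff_mem, Ideal.mem_span_singleton]
    constructor
    · rintro ⟨y, rfl⟩
      exact ⟨_, hi y⟩
    · rintro ⟨q, hq⟩
      obtain ⟨y, rfl⟩ := Ideal.Quotient.mk_surjective q
      rw [hi, Ideal.Quotient.eq, Ideal.mem_span_singleton] at hq
      have h1 := ((dvd_mul_right b b').trans hq)
      exact (dvd_sub_right (dvd_mul_right b y)).1 h1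

/-- Euler's criterion -/
theorem zs_prime (hζ : ζ ^ 2 - ζ + 1 = 0) (h6 : IsUnit (6 : S)) {a p : S} (hp : Prime p)
    [Finite (S ⧸ Ideal.span {p})] (h : ¬ p ∣ a) :
    p ∣ a ^ ((Nat.card (S ⧸ Ideal.span {p}) - 1) / 6) - ζ ^ (zs ζ a p).val := by
  have : (Ideal.span {p}).IsPrime := (Ideal.span_singleton_prime hp.ne_zero).2 hp
  have h1 := zm_field (k := S ⧸ Ideal.span {p}) hζ h6 (a := a) fun h' =>
    h (Ideal.mem_span_singleton.1 (Ideal.Quotient.eq_zero_iff_mem.1 h'))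
  rw [← map_pow, ← map_pow] at h1
  exact Ideal.mem_span_singleton.1 (Ideal.Quotient.eq.1 h1)

theorem zs_neg_one (hζ : ζ ^ 2 - ζ + 1 = 0) (h6 : IsUnit (6 : S)) (b : S)
    [Finite (S ⧸ Ideal.span {b})] :
    zs ζ (-1) b = 3 * (((Nat.card (S ⧸ Ideal.span {b}) - 1) / 6 : ℕ) : ZMod 6) :=
  zm_neg_one hζ h6

/-- the exponent is determined by the congruence of `zs_prime` -/
theorem val_inj (hζ : ζ ^ 2 - ζ + 1 = 0) (h6 : IsUnit (6 : S)) {p : S} (hp : ¬ IsUnit p)
    {i j : ZMod 6} (h : p ∣ ζ ^ i.val - ζ ^ j.val) : i = j := by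
  by_contra hij
  have h0 : 0 < (i - j).val := ZMod.val_pos.2 (sub_ne_zero.2 hij)
  obtain ⟨a, b, hab⟩ := zeta_bezout hζ h0 (ZMod.val_lt _)
  have h1 : ζ ^ (i - j).val - 1 = ζ ^ (-j).val * (ζ ^ i.val - ζ ^ j.val) := by
    rw [mul_sub, ← pow_val_add hζ, ← pow_val_add hζ, neg_add_cancel, neg_add_eq_sub]
    simp
  refine hp (isUnit_of_dvd_unit ?_ h6)
  rw [← hab, h1]
  exact (h.mul_left _).mul_left _

/-- **Sextic reciprocity** over a number field `F`, in the ring `S = 𝓞_F[1/M]`, `6 ∣ M`.  The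
quotient `(a / b)₆ / (b / a)₆` is an alternating bimultiplicative function on `Fˣ` which is trivial
when one argument is `≡ 1 (mod M³)`. -/
def RecStmt : Prop :=
  ∀ (F : Type) [Field F] [NumberField F] (M : ℕ), 6 ∣ M → M ≠ 0 →
    ∀ (S : Type) [CommRing S] [Algebra S F], Function.Injective (algebraMap S F) →
      (∀ x : F, x ∈ (algebraMap S F).range ↔ ∃ j : ℕ, IsIntegral ℤ ((M : F) ^ j * x)) →
      ∀ ζ : S, ζ ^ 2 - ζ + 1 = 0 →
        IsUnit (6 : S) ∧ (∀ b : S, b ≠ 0 → Finite (S ⧸ Ideal.span {b})) ∧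
        ∃ T : F → F → ZMod 6,
          (∀ x x' y, x ≠ 0 → x' ≠ 0 → y ≠ 0 → T (x * x') y = T x y + T x' y) ∧
          (∀ x y, x ≠ 0 → y ≠ 0 → T y x = -T x y) ∧
          (∀ t y, IsIntegral ℤ t → y ≠ 0 → T (1 + (M : F) ^ 3 * t) y = 0) ∧
          ∀ a b : S, a ≠ 0 → b ≠ 0 → IsCoprime a b →
            T (algebraMap S F a) (algebraMap S F b) = zs ζ a b - zs ζ b a

end Crest.Agent.T27.Rc
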