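import Crest.Agent.T27.Symbol_55
import Crest.Agent.T27.RecDefs_64

/-!
# Row 27: the symbols of the frame in terms of `Rc.zs`, and `RecAx` from a bicharacter (helper61)
-/

set_option autoImplicit false

noncomputable section

namespace Crest.Agent.T27

open scoped ComplexConjugate
open Rc SymbolAux

/-- The character `k ↦ exp(2πik/6)` of `ZMod 6`. -/
def e6 (k : ZMod 6) : ℂ := ZMod.stdAddChar k

theorem e6_add (a b : ZMod 6) : e6 (a + b) = e6 a * e6 b := AddChar.map_add_eq_mul _ a b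

@[simp] theorem e6_zero : e6 0 = 1 := AddChar.map_zero_eq_one _

theorem norm_e6 (a : ZMod 6) : ‖e6 a‖ = 1 := by
  rw [e6, ZMod.stdAddChar_apply]; exact Circle.norm_coe _

theorem e6_ne_zero (a : ZMod 6) : e6 a ≠ 0 := fun h => by
  have := norm_e6 a
  rw [h, norm_zero] at this
  exact zero_ne_one this

theorem e6_neg (a : ZMod 6) : e6 (-a) = conj (e6 a) := by
  rw [← Complex.inv_eq_conj (norm_e6 a)]
  exact eq_inv_of_mul_eq_one_right (by rw [← e6_add, add_neg_cancel, e6_zero])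

theorem e6_sub (a b : ZMod 6) : e6 (a - b) = e6 a * conj (e6 b) := by
  rw [sub_eq_add_neg, e6_add, e6_neg]

theorem e6_mul_neg (a : ZMod 6) : e6 a * e6 (-a) = 1 := by
  rw [← e6_add, add_neg_cancel, e6_zero]

theorem e6_nsmul (n : ℕ) (a : ZMod 6) : e6 (n * a) = e6 a ^ n := by
  rw [← nsmul_eq_mul]; exact AddChar.map_nsmul_eq_pow _ n a

theorem e6_pow_six (a : ZMod 6) : e6 a ^ 6 = 1 := by
  rw [← e6_nsmul, Nat.cast_ofNat, show (6 : ZMod 6) = 0 by decide, zero_mul, e6_zero]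

theorem e6_injective : Function.Injective e6 := ZMod.injective_stdAddChar

theorem e6_one : e6 1 = 1 + omC := by
  have h := ZMod.stdAddChar_coe (N := 6) 1
  rw [Int.cast_one] at h
  rw [e6, h, show (2 * Real.pi * Complex.I * ((1 : ℤ) : ℂ) / ((6 : ℕ) : ℂ) : ℂ) =
    ((Real.pi / 3 : ℝ) : ℂ) * Complex.I by push_cast; ring]
  apply Complex.ext
  · rw [Complex.exp_ofReal_mul_I_re, Real.cos_pi_div_three]; simp [omC]; norm_num
  · rw [Complex.exp_ofReal_mul_I_im, Real.sin_pi_div_three]; simp [omC]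

theorem e6_eq_pow (k : ZMod 6) : e6 k = (1 + omC) ^ k.val := by
  rw [← e6_one, ← e6_nsmul, mul_one, ZMod.natCast_zmod_val]

theorem one_add_omC_sq : (1 + omC) ^ 2 = omC := by linear_combination omC_mul

theorem one_add_omC_cube : (1 + omC) ^ 3 = -1 := by linear_combination (omC + 2) * omC_mul

theorem e6_sq (k : ZMod 6) : e6 k ^ 2 = omC ^ k.val := by
  rw [e6_eq_pow, ← pow_mul, mul_comm, pow_mul, one_add_omC_sq]

theorem e6_cube (k : ZMod 6) : e6 k ^ 3 = (-1) ^ k.val := by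
  rw [e6_eq_pow, ← pow_mul, mul_comm, pow_mul, one_add_omC_cube]

/-- `e6 k ^ 2 = exp(2πi (k mod 3)/3)`; the right side is `B83.e3 (k mod 3)` by definition. -/
theorem e6_sq_eq (k : ZMod 6) :
    e6 k ^ 2 = ZMod.stdAddChar (ZMod.castHom (by norm_num : 3 ∣ 6) (ZMod 3) k) := by
  obtain ⟨j, rfl⟩ := ZMod.intCast_surjective k
  rw [map_intCast, ZMod.stdAddChar_coe, e6, ZMod.stdAddChar_coe, ← Complex.exp_nat_mul]
  congr 1
  push_cast
  ring

variable [Fr0]

theorem zeta_eq : (1 + om : O) ^ 2 - (1 + om) + 1 = 0 := by linear_combination om_sq_add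

theorem sym_prime_eq_zs {p a : O} (hp : Prime p) (h : Primary p) (ha : ¬ p ∣ a) :
    sym p a = e6 (zs (1 + om) a p) := by
  have := Fr0.fin_quot p hp.ne_zero
  have h1 : p ∣ a ^ ((nm p - 1) / 6) - (1 + om) ^ (zs (1 + om) a p).val :=
    zs_prime zeta_eq isUnit_six hp ha
  obtain ⟨h6, -⟩ := nm_prime_mod_six' hp
  generalize zs (1 + om) a p = k at h1 ⊢
  have h2 : p ∣ a ^ ((nm p - 1) / 3) - om ^ k.val := by
    have := h1.trans (sub_dvd_pow_sub_pow _ _ 2)
    rwa [← pow_mul, ← pow_mul, mul_comm k.val, pow_mul (1 + om),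
      show (1 + om : O) ^ 2 = om by linear_combination om_sq_add,
      show (nm p - 1) / 6 * 2 = (nm p - 1) / 3 by omega] at this
  have h3 : p ∣ a ^ ((nm p - 1) / 2) - (-1) ^ k.val := by
    have := h1.trans (sub_dvd_pow_sub_pow _ _ 3)
    rwa [← pow_mul, ← pow_mul, mul_comm k.val, pow_mul (1 + om),
      show (1 + om : O) ^ 3 = -1 by linear_combination (om + 2) * om_sq_add,
      show (nm p - 1) / 6 * 3 = (nm p - 1) / 2 by omega] at this
  have h4 : quad1 p a = (-1) ^ k.val := by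
    rw [quad1, if_neg ha]
    rcases neg_one_pow_eq_or ℤ k.val with h5 | h5
    · have e1 : (-1 : O) ^ k.val = 1 := by exact_mod_cast congrArg (Int.cast : ℤ → O) h5
      have e2 : (-1 : ℂ) ^ k.val = 1 := by exact_mod_cast congrArg (Int.cast : ℤ → ℂ) h5
      rw [e2, if_pos (e1 ▸ h3)]
    · have e1 : (-1 : O) ^ k.val = -1 := by exact_mod_cast congrArg (Int.cast : ℤ → O) h5
      have e2 : (-1 : ℂ) ^ k.val = -1 := by exact_mod_cast congrArg (Int.cast : ℤ → ℂ) h5
      rw [e2, if_neg]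
      intro h7
      rw [e1] at h3
      refine not_dvd_two hp ?_
      have := dvd_sub h3 h7
      rwa [show a ^ ((nm p - 1) / 2) - -1 - (a ^ ((nm p - 1) / 2) - 1) = 2 by ring] at this
  rw [sym, Symbol_quad_prime hp h, cub_prime hp h, h4, cub1_of_dvd hp h h2, ← e6_sq, ← e6_cube,
    map_pow, ← e6_neg, pow_succ' (e6 k), mul_assoc, ← mul_pow, e6_mul_neg, one_pow, mul_one]

/-- The sextic symbol of the frame is `e6` of the Gauss–Zolotarev exponent. -/
theorem sym_eq_zs {n a : O} (hn : n ≠ 0) (h : IsCoprime a n) :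
    sym n a = e6 (zs (1 + om) a n) := by
  obtain ⟨u, m, hu, hm, rfl⟩ := exists_eq_unit_mul_primary hn
  rw [sym_unit_mul_left hu, zs_assoc (1 + om) a (associated_unit_mul_left m u hu)]
  have h' := h.of_mul_right_right
  clear h hn
  refine Primary.induction (P := fun m => IsCoprime a m → sym m a = e6 (zs (1 + om) a m))
    (fun _ => ?_) (fun p n hp hp' hn ih h => ?_) hm h'
  · rw [sym_one_left, zs_unit _ _ isUnit_one, e6_zero]
  · have := Fr0.fin_quot (p * n) (mul_ne_zero hp.ne_zero hn.ne_zero)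
    rw [sym_mul_left hp.ne_zero hn.ne_zero, zs_mul_right zeta_eq isUnit_six hp.ne_zero h, e6_add,
      ih h.of_mul_right_right, sym_prime_eq_zs hp hp'
        fun hd => hp.not_isUnit (h.of_mul_right_left.isUnit_of_dvd' hd dvd_rfl)]

theorem cub_eq_e6 {n a : O} (hn : n ≠ 0) (h : IsCoprime a n) :
    cub n a = e6 (zs (1 + om) a n) ^ 2 := by
  rw [← sym_sq' hn, sym_eq_zs hn h]

/-- The right side is `B83.e3 (zs (1 + om) a n mod 3)` by definition. -/
theorem cub_eq_zs {n a : O} (hn : n ≠ 0) (h : IsCoprime a n) :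
    cub n a = ZMod.stdAddChar (ZMod.castHom (by norm_num : 3 ∣ 6) (ZMod 3) (zs (1 + om) a n)) := by
  rw [cub_eq_e6 hn h, e6_sq_eq]

theorem conj_cub_eq_zs {n a : O} (hn : n ≠ 0) (h : IsCoprime a n) :
    conj (cub n a) =
      ZMod.stdAddChar (-ZMod.castHom (by norm_num : 3 ∣ 6) (ZMod 3) (zs (1 + om) a n)) := by
  rw [cub_eq_e6 hn h, map_pow, ← e6_neg, e6_sq_eq, map_neg]

theorem quad_eq_zs {n a : O} (hn : n ≠ 0) (h : IsCoprime a n) :
    quad n a = (-1) ^ (zs (1 + om) a n).val := by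
  rw [← sym_pow_three' hn, sym_eq_zs hn h, e6_cube]

open Classical in
/-- Reciprocity in the frame from an additive bicharacter. -/
theorem recAx_of_T (T : O → O → ZMod 6)
    (hmul : ∀ x x' y, x ≠ 0 → x' ≠ 0 → y ≠ 0 → T (x * x') y = T x y + T x' y)
    (hanti : ∀ x y, x ≠ 0 → y ≠ 0 → T y x = -T x y)
    (hcls : ∀ x x' y, x ≠ 0 → y ≠ 0 → cls x = cls x' → T x y = T x' y)
    (hcop : ∀ a b, a ≠ 0 → b ≠ 0 → IsCoprime a b →
      T a b = zs (1 + om) a b - zs (1 + om) b a)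
    (hself : ∀ b, b ≠ 0 → T b b = zs (1 + om) (-1) b) :
    RecAx (fun m n => if m = 0 ∨ n = 0 then 0 else e6 (T n m)) where
  congr m m' n n' hm hn := by
    by_cases h : m = 0 ∨ n = 0
    · rw [if_pos h, if_pos]
      rcases h with rfl | rfl
      · exact Or.inl (cls_eq_zero.1 (by rw [← hm, map_zero]))
      · exact Or.inr (cls_eq_zero.1 (by rw [← hn, map_zero]))
    · have hm0 : m ≠ 0 := fun h0 => h (Or.inl h0)
      have hn0 : n ≠ 0 := fun h0 => h (Or.inr h0)
      have hm1 : m' ≠ 0 := ne_zero_of_cls_eq hm.symm hm0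
      have hn1 : n' ≠ 0 := ne_zero_of_cls_eq hn.symm hn0
      rw [if_neg h, if_neg (not_or.2 ⟨hm1, hn1⟩), hcls n n' m hn0 hm0 hn, hanti m n' hm0 hn1,
        hanti m' n' hm1 hn1, hcls m m' n' hm0 hn1 hm]
  mul_left m m' n hm hm' hn := by
    rw [if_neg (not_or.2 ⟨mul_ne_zero hm hm', hn⟩), if_neg (not_or.2 ⟨hm, hn⟩),
      if_neg (not_or.2 ⟨hm', hn⟩), hanti _ n (mul_ne_zero hm hm') hn, hmul _ _ _ hm hm' hn,
      hanti m n hm hn, hanti m' n hm' hn, neg_add, e6_add]
  anti m n hm hn := by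
    rw [if_neg (not_or.2 ⟨hm, hn⟩), if_neg (not_or.2 ⟨hn, hm⟩), hanti n m hn hm, e6_mul_neg]
  pow_six m n hm hn := by rw [if_neg (not_or.2 ⟨hm, hn⟩), e6_pow_six]
  self n hn := by
    rw [if_neg (not_or.2 ⟨hn, hn⟩), hself n hn, sym_eq_zs hn isCoprime_one_left.neg_left]
  recip m n hm hn h := by
    rw [if_neg (not_or.2 ⟨hm, hn⟩), hcop n m hn hm h.symm, sym_eq_zs hm h.symm, sym_eq_zs hn h,
      ← e6_add, sub_add_cancel]

end Crest.Agent.T27
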