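import Crest.Agent.T27.LnkA_61

/-!
# Row 27: the kernel of the reciprocity bicharacter `RecT.T` (helper60)
-/

set_option autoImplicit false
set_option linter.unusedSectionVars false

noncomputable section

open NumberField

namespace Crest.Agent.T27

namespace RecT

variable {F : Type} [Field F] {N : ℕ} {ζ : RS F N} (r : RecT F N ζ)

/-- The left kernel of `T` as a subgroup of `Fˣ`; it contains `PJ F N j` (`3 ≤ j`) and the sixth
powers. -/
def ker : Subgroup Fˣ where
  carrier := {x | ∀ y, y ≠ 0 → r.T x y = 0}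
  mul_mem' := fun {a b} ha hb y hy => by
    rw [Units.val_mul, r.mul_left _ _ _ a.ne_zero b.ne_zero hy, ha y hy, hb y hy, add_zero]
  one_mem' := fun _ hy => r.one_left hy
  inv_mem' := fun {a} ha y hy => by
    rw [Units.val_inv_eq_inv_val, r.inv_left a.ne_zero hy, ha y hy, neg_zero]

theorem mem_ker {x : Fˣ} : x ∈ r.ker ↔ ∀ y, y ≠ 0 → r.T x y = 0 := Iff.rfl

theorem pow_six_mem_ker (x : Fˣ) : x ^ 6 ∈ r.ker := fun y hy => by
  rw [Units.val_pow_eq_pow_val, r.pow_six_left x.ne_zero hy]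

theorem congr_left {x x' : Fˣ} (hx : x / x' ∈ r.ker) {y : F} (hy : y ≠ 0) :
    r.T x y = r.T x' y := by
  have h1 := hx y hy
  rw [Units.val_div_eq_div_val, r.div_left x.ne_zero x'.ne_zero hy] at h1
  exact sub_eq_zero.1 h1

theorem congr_right {x : F} (hx : x ≠ 0) {y y' : Fˣ} (hy : y / y' ∈ r.ker) :
    r.T x y = r.T x y' := by
  rw [r.anti _ _ y.ne_zero hx, r.congr_left hy hx, ← r.anti _ _ y'.ne_zero hx]

variable [NumberField F] [hG : SGood F N]

theorem PJ_le_ker {j : ℕ} (hj : 3 ≤ j) : PJ F N j ≤ r.ker := fun _ hx _ hy => r.PJ_left hj hx hy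

end RecT

end Crest.Agent.T27
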