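import Crest.Agent.T27.Sar_77

/-!
# Row 27: the number of ideals of `O_F[1/N]` of norm at most `X` is at most `kp * X`
-/

set_option autoImplicit false

noncomputable section

namespace Crest.Agent.T27

open NumberField Filter
open scoped nonZeroDivisors

variable {F : Type*} [Field F] [NumberField F] {N : ℕ}

namespace SC21

/-- The contraction of the ideal `(x)` of `R`. -/
def idl (x : RS F N) : Ideal (𝓞 F) :=
  (Ideal.span {x}).comap (algebraMap (𝓞 F) (RS F N))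

theorem card_eq (hN : N ≠ 0) {x : RS F N} (hx : x ≠ 0) :
    Nat.card (RS F N ⧸ Ideal.span {x}) = Ideal.absNorm (idl x) := by
  have hx' : (x : F) ≠ 0 := fun h => hx (Subtype.ext h)
  rw [Ideal.absNorm_apply, Submodule.cardQuot_apply]
  symm
  refine Nat.card_eq_of_bijective
    (Ideal.quotientMap (Ideal.span {x}) (algebraMap (𝓞 F) (RS F N)) le_rfl)
    ⟨Ideal.quotientMap_injective, fun q => ?_⟩
  obtain ⟨r, rfl⟩ := Ideal.Quotient.mk_surjective q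
  obtain ⟨a, ⟨t, ht, ha⟩, -⟩ := exists_approx_int (N := N) hN (a := (r : F)) (b := 0) hx'
    one_ne_zero x.2 (one_mem _) r.2 (zero_mem _)
  refine ⟨Ideal.Quotient.mk _ a, ?_⟩
  refine (Ideal.quotientMap_mk (x := a)).trans ?_
  rw [Ideal.Quotient.eq, Ideal.mem_span_singleton]
  refine ⟨⟨t, ht⟩, Subtype.ext ?_⟩
  simp [ha]

omit [NumberField F] in
theorem exists_mem (x : RS F N) : ∃ (k : ℕ) (a : 𝓞 F), a ∈ idl x ∧
    algebraMap (𝓞 F) (RS F N) a = (N : RS F N) ^ k * x := by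
  obtain ⟨k, a, h⟩ := exists_eq_of_mem_RS x.2
  have h1 : algebraMap (𝓞 F) (RS F N) a = (N : RS F N) ^ k * x := Subtype.ext (by simp [h])
  refine ⟨k, a, ?_, h1⟩
  rw [idl, Ideal.mem_comap, h1, Ideal.mem_span_singleton]
  exact dvd_mul_left _ _

theorem isUnit_N (hN : N ≠ 0) : IsUnit (N : RS F N) :=
  isUnit_natCast_LocS (zero_notMem_powers hN) (Submonoid.mem_powers N) dvd_rfl

theorem idl_ne (hN : N ≠ 0) {x : RS F N} (hx : x ≠ 0) : idl x ≠ ⊥ := by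
  obtain ⟨k, a, ha, h⟩ := exists_mem x
  intro h0
  rw [h0, Ideal.mem_bot] at ha
  rw [ha, map_zero] at h
  exact mul_ne_zero ((isUnit_N hN).pow k).ne_zero hx h.symm

theorem dvd_of_le (hN : N ≠ 0) {x y : RS F N} (h : idl x ≤ idl y) : y ∣ x := by
  obtain ⟨k, a, ha, h1⟩ := exists_mem x
  have h2 := h ha
  rw [idl, Ideal.mem_comap, h1, Ideal.mem_span_singleton] at h2
  exact (((isUnit_N hN).pow k).dvd_mul_left).1 h2

theorem count_ideals (F : Type*) [Field F] [NumberField F] : ∃ kp : ℕ, ∀ X : ℕ,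
    Nat.card {I : (Ideal (𝓞 F))⁰ // Ideal.absNorm (I : Ideal (𝓞 F)) ≤ X} ≤ kp * X := by
  have h := (Ideal.tendsto_norm_le_div_atTop₀ F).comp tendsto_natCast_atTop_atTop
  obtain ⟨B, hB⟩ := h.bddAbove_range
  obtain ⟨kp, hkp⟩ := exists_nat_ge B
  refine ⟨kp, fun X => ?_⟩
  rcases Nat.eq_zero_or_pos X with rfl | hX
  · have : IsEmpty {I : (Ideal (𝓞 F))⁰ // Ideal.absNorm (I : Ideal (𝓞 F)) ≤ 0} := ⟨fun I => by
      have h1 := I.2
      rw [Nat.le_zero, Ideal.absNorm_eq_zero_iff] at h1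
      exact nonZeroDivisors.ne_zero I.1.2 h1⟩
    rw [Nat.card_of_isEmpty]
    exact Nat.zero_le _
  · have h1 := hB ⟨X, rfl⟩
    simp only [Function.comp, Nat.cast_le] at h1
    have hX' : (0 : ℝ) < X := by exact_mod_cast hX
    rw [div_le_iff₀ hX'] at h1
    have h2 : (Nat.card {I : (Ideal (𝓞 F))⁰ // Ideal.absNorm (I : Ideal (𝓞 F)) ≤ X} : ℝ) ≤
        kp * X := h1.trans (by gcongr)
    exact_mod_cast h2

end SC21

open SC21

theorem finite_quot_21 (hN : N ≠ 0) (x : RS F N) (hx : x ≠ 0) :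
    Finite (RS F N ⧸ Ideal.span {x}) := by
  apply Nat.finite_of_card_ne_zero
  rw [card_eq hN hx, Ne, Ideal.absNorm_eq_zero_iff]
  exact idl_ne hN hx

theorem count_nm_21 (F : Type*) [Field F] [NumberField F] {N : ℕ} (hN : N ≠ 0) :
    ∃ kp : ℕ, ∀ (X : ℕ) (S : Finset (RS F N)),
      (∀ x ∈ S, x ≠ 0 ∧ Nat.card (RS F N ⧸ Ideal.span {x}) ≤ X) →
      (∀ x ∈ S, ∀ y ∈ S, Associated x y → x = y) → S.card ≤ kp * X := by
  obtain ⟨kp, h⟩ := count_ideals F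
  refine ⟨kp, fun X S h1 h2 => le_trans ?_ (h X)⟩
  have : Finite {I : (Ideal (𝓞 F))⁰ // Ideal.absNorm (I : Ideal (𝓞 F)) ≤ X} :=
    Ideal.finite_setOfPred_absNorm_le₀ X
  rw [← Nat.card_eq_finsetCard]
  refine Nat.card_le_card_of_injective
    (fun x : S => (⟨⟨idl x.1, mem_nonZeroDivisors_of_ne_zero (idl_ne hN (h1 _ x.2).1)⟩, by
      rw [← card_eq hN (h1 _ x.2).1]; exact (h1 _ x.2).2⟩ :
        {I : (Ideal (𝓞 F))⁰ // Ideal.absNorm (I : Ideal (𝓞 F)) ≤ X})) fun x y hxy => ?_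
  have h3 : idl x.1 = idl y.1 := by simpa using hxy
  exact Subtype.ext (h2 _ x.2 _ y.2
    (associated_of_dvd_dvd (dvd_of_le hN h3.ge) (dvd_of_le hN h3.le)))

theorem count_real_21 (F : Type*) [Field F] [NumberField F] {N : ℕ} (hN : N ≠ 0) :
    ∃ C : ℝ, ∀ (X : ℝ) (S : Finset (RS F N)), 0 ≤ X →
      (∀ x ∈ S, x ≠ 0 ∧ (Nat.card (RS F N ⧸ Ideal.span {x}) : ℝ) ≤ X) →
      (∀ x ∈ S, ∀ y ∈ S, Associated x y → x = y) → (S.card : ℝ) ≤ C * X := by
  obtain ⟨kp, h⟩ := count_nm_21 F hN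
  refine ⟨kp, fun X S hX h1 h2 => ?_⟩
  have h3 := h ⌊X⌋₊ S (fun x hx => ⟨(h1 x hx).1, Nat.le_floor (h1 x hx).2⟩) h2
  have h4 : (S.card : ℝ) ≤ kp * (⌊X⌋₊ : ℝ) := by exact_mod_cast h3
  exact h4.trans (by gcongr; exact Nat.floor_le hX)

theorem prim_count_21 (hN : N ≠ 0) (P : RS F N → Prop) (h0 : ∀ n, P n → n ≠ 0)
    (ha : ∀ m n, P m → P n → Associated m n → m = n) :
    ∃ kp : ℕ, (∀ X : ℕ, {n | P n ∧ Nat.card (RS F N ⧸ Ideal.span {n}) ≤ X}.Finite) ∧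
      ∀ X : ℕ, {n | P n ∧ Nat.card (RS F N ⧸ Ideal.span {n}) ≤ X}.ncard ≤ kp * X := by
  obtain ⟨kp, h⟩ := count_nm_21 F hN
  have key : ∀ (X : ℕ) (S : Finset (RS F N)),
      (↑S : Set (RS F N)) ⊆ {n | P n ∧ Nat.card (RS F N ⧸ Ideal.span {n}) ≤ X} →
        S.card ≤ kp * X := fun X S hS =>
    h X S (fun x hx => ⟨h0 x (hS hx).1, (hS hx).2⟩) fun x hx y hy =>
      ha x y (hS hx).1 (hS hy).1
  have hfin : ∀ X : ℕ, {n | P n ∧ Nat.card (RS F N ⧸ Ideal.span {n}) ≤ X}.Finite := by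
    intro X
    by_contra hinf
    obtain ⟨S, hS, hc⟩ := Set.Infinite.exists_subset_card_eq hinf (kp * X + 1)
    have := key X S hS
    omega
  refine ⟨kp, hfin, fun X => ?_⟩
  rw [Set.ncard_eq_toFinset_card _ (hfin X)]
  exact key X _ (by simp)

end Crest.Agent.T27
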