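import Crest.Agent.T27.ThA_54

/-!
# Row 27, cubic theta function over `F`, part B: test functions, Hecke theory, Voronoi formula

`R = 𝒪[1/N]` is a principal ideal domain, `L = 𝒪_S` the semilocal ring at the primes dividing `N`.
`sy x y` is a cubic residue symbol `(x / y)` on `R` and `cc` the reciprocity bicharacter.
The properties of `(sy, cc)` are symmetric under complex conjugation: instantiate `sy x y` with the
CONJUGATE of the symbol `cub y x` of row 17 to obtain the Gauss sums `gc` of row 17 in `gn`.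

Definitions and the statements of the leaves.  DO NOT change a definition of this file.
-/

set_option autoImplicit false

noncomputable section

namespace Crest.Agent.T27.TH

open scoped ComplexConjugate ENNReal Topology
open MeasureTheory Filter NumberField

/-- The arithmetic data. -/
class Ar (F : Type) [Field F] [NumberField F] [Emb F] where
  N : ℕ
  two_le : 2 ≤ N
  R : Subring F
  L : Subring F
  mem_R : ∀ x, x ∈ R ↔ ∃ k : ℕ, IsIntegral ℤ ((N : F) ^ k * x)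
  mem_L : ∀ x, x ∈ L ↔ ∃ m : ℕ, m.Coprime N ∧ IsIntegral ℤ ((m : F) * x)
  pidR : IsPrincipalIdealRing R
  pidL : IsPrincipalIdealRing L
  int_of : ∀ x, x ∈ R → x ∈ L → IsIntegral ℤ x
  /-- strong approximation `F = R + y L` -/
  approx : ∀ x y : F, y ≠ 0 → ∃ r ∈ R, ∃ l ∈ L, x = r + y * l
  /-- `N` lies in the Jacobson radical of `L` -/
  unit_P : ∀ y ∈ L, 1 + (N : F) * y ≠ 0 ∧ (1 + (N : F) * y)⁻¹ ∈ L
  pow_mem_L : ∀ x : F, ∃ k : ℕ, (N : F) ^ k * x ∈ L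
  /-- `#(R / x)`, extended multiplicatively to `F` -/
  nm : F → ℝ
  nm_mul : ∀ x y, nm (x * y) = nm x * nm y
  nm_pos : ∀ x, x ≠ 0 → 0 < nm x
  fin_quot : ∀ x : R, x ≠ 0 → Finite (R ⧸ Ideal.span {x})
  nm_eq : ∀ x : R, x ≠ 0 → nm x = Nat.card (R ⧸ Ideal.span {x})
  /-- product formula: `|x|_S = 1` for the units of `L` -/
  nm_unitL : ∀ x, x ≠ 0 → x ∈ L → x⁻¹ ∈ L → nm x = nF x
  count_nm : ∃ C : ℝ, ∀ (X : ℝ) (S : Finset R), 0 ≤ X → (∀ x ∈ S, x ≠ 0 ∧ nm x ≤ X) →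
    (∀ x ∈ S, ∀ y ∈ S, Associated x y → x = y) → (S.card : ℝ) ≤ C * X
  /-- representatives of `R^× / (R^×)³` -/
  E : Finset F
  E_unit : ∀ η ∈ E, η ≠ 0 ∧ η ∈ R ∧ η⁻¹ ∈ R
  E_rep : ∀ u : F, u ≠ 0 → u ∈ R → u⁻¹ ∈ R →
    ∃! η, η ∈ E ∧ ∃ v : F, v ≠ 0 ∧ v ∈ R ∧ v⁻¹ ∈ R ∧ u = η * v ^ 3
  /-- `F^× / (R^× P_J)` is finite -/
  fin_cl : ∀ J : ℕ, ∃ T : Finset F, (∀ t ∈ T, t ≠ 0) ∧ ∀ x : F, x ≠ 0 → ∃ t ∈ T, ∃ u : F,
    u ≠ 0 ∧ u ∈ R ∧ u⁻¹ ∈ R ∧ ∃ y ∈ L, x = u * t * (1 + (N : F) ^ J * y)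
  /-- the additive character of `F / R` -/
  psi : F → ℂ
  psi_add : ∀ x y, psi (x + y) = psi x * psi y
  psi_R : ∀ x ∈ R, psi x = 1
  psi_L : ∀ x ∈ L, psi x = eF x
  psi_prim : ∀ x, (∀ y ∈ R, psi (x * y) = 1) → x ∈ R
  /-- the cubic symbol `(x / y)` -/
  sy : F → F → ℂ
  sy_mul_left : ∀ x ∈ R, ∀ x' ∈ R, ∀ y ∈ R, y ≠ 0 → sy (x * x') y = sy x y * sy x' y
  sy_mul_right : ∀ x ∈ R, ∀ y ∈ R, ∀ y' ∈ R, y ≠ 0 → y' ≠ 0 → sy x (y * y') = sy x y * sy x y'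
  sy_congr : ∀ x ∈ R, ∀ y ∈ R, ∀ t ∈ R, y ≠ 0 → sy (x + y * t) y = sy x y
  sy_unit : ∀ x ∈ R, ∀ y ∈ R, y ≠ 0 → y⁻¹ ∈ R → sy x y = 1
  sy_cube : ∀ x y : R, y ≠ 0 → IsCoprime x y → sy x y ^ 3 = 1
  sy_zero : ∀ x y : R, y ≠ 0 → ¬ IsCoprime x y → sy x y = 0
  sy_nontriv : ∀ p : R, Prime p → ∃ x : R, IsCoprime x p ∧ sy x p ≠ 1
  /-- the reciprocity bicharacter on `F^×` -/
  cc : F → F → ℂ
  cc_mul_left : ∀ x x' y, x ≠ 0 → x' ≠ 0 → y ≠ 0 → cc (x * x') y = cc x y * cc x' y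
  cc_mul_right : ∀ x y y', x ≠ 0 → y ≠ 0 → y' ≠ 0 → cc x (y * y') = cc x y * cc x y'
  cc_cube : ∀ x y, x ≠ 0 → y ≠ 0 → cc x y ^ 3 = 1
  cc_swap : ∀ x y, x ≠ 0 → y ≠ 0 → cc x y * cc y x = 1
  kc : ℕ
  one_le_kc : 1 ≤ kc
  cc_P : ∀ z ∈ L, ∀ y, y ≠ 0 → cc (1 + (N : F) ^ kc * z) y = 1
  cc_eq : ∀ x y : R, x ≠ 0 → y ≠ 0 → IsCoprime x y → cc x y = sy x y * conj (sy y x)

variable {F : Type} [Field F] [NumberField F] [Emb F] [Ar F]

/-- The ring `R` as a type. -/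
abbrev RR (F : Type) [Field F] [NumberField F] [Emb F] [Ar F] : Type := ↥(Ar.R : Subring F)

instance : IsPrincipalIdealRing (RR F) := Ar.pidR
instance : IsPrincipalIdealRing ↥(Ar.L : Subring F) := Ar.pidL

/-- `|x|_S`. -/
def absS (x : F) : ℝ := Ar.nm x / nF x

/-- Units of `R`. -/
def UR (u : F) : Prop := u ≠ 0 ∧ u ∈ (Ar.R : Subring F) ∧ u⁻¹ ∈ (Ar.R : Subring F)

/-- Coprime elements of `R`. -/
def Cop (x y : F) : Prop :=
  x ∈ (Ar.R : Subring F) ∧ y ∈ (Ar.R : Subring F) ∧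
    ∃ a ∈ (Ar.R : Subring F), ∃ b ∈ (Ar.R : Subring F), a * x + b * y = 1

/-- `x ∈ N^j L`. -/
def Deep (j : ℕ) (x : F) : Prop := ∃ y ∈ (Ar.L : Subring F), x = (Ar.N F : F) ^ j * y

/-- `t ∈ P_j = 1 + N^j L`. -/
def PJ (j : ℕ) (t : F) : Prop := Deep j (t - 1)

/-- The virtual congruence subgroup `K_j`. -/
def KJ (j : ℕ) (k : SL F) : Prop := ∀ i i', Deep j (k i i' - (1 : Mat F) i i')

/-- Matrices with entries in `R`. -/
def InR (g : Mat F) : Prop := ∀ i j, g i j ∈ (Ar.R : Subring F)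

open Classical in
/-- Kubota's function. -/
def XK (u : F × F) : F := if u.1 = 0 then u.2⁻¹ else u.1

/-- The virtual right translation. -/
def rho (g : Mat F) (f : F × F → ℂ) : F × F → ℂ := fun u =>
  f (rmul u g) * conj (Ar.cc (XK (rmul u g) / XK u) (XK (rmul u g) / XK (g 1 0, g 1 1)))

/-- Test functions of level `j`. -/
structure TestFn (j : ℕ) (f : F × F → ℂ) : Prop where
  le : Ar.kc F ≤ j
  bdd : ∃ B : ℝ, ∀ u, ‖f u‖ ≤ B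
  supp : ∀ u, f u ≠ 0 → (Ar.N F : F) ^ j * u.1 ∈ (Ar.L : Subring F) ∧
    (Ar.N F : F) ^ j * u.2 ∈ (Ar.L : Subring F) ∧
      ∃ a ∈ (Ar.L : Subring F), ∃ b ∈ (Ar.L : Subring F), a * u.1 + b * u.2 = (Ar.N F : F) ^ j
  inv : ∀ k : SL F, KJ j k → rho (k : Mat F) f = f

/-- Test functions. -/
def Test (f : F × F → ℂ) : Prop := ∃ j, TestFn j f

open Classical in
/-- The symbol `(d / c)` of a row, `(unit / 0) = 1`. -/
def syR (u : F × F) : ℂ := if u.1 = 0 then 1 else Ar.sy u.2 u.1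

open Classical in
/-- The row function of a test function. -/
def xiF (f : F × F → ℂ) : F × F → ℂ := fun u => if Cop u.1 u.2 then f u * syR u else 0

/-- `f[m³]`. -/
def opC (m : F) (f : F × F → ℂ) : F × F → ℂ := fun u => f (m ^ 3 * u.1, u.2)

/-- `f(m³ ·)`. -/
def opS (m : F) (f : F × F → ℂ) : F × F → ℂ := fun u => f (m ^ 3 * u.1, m ^ 3 * u.2)

/-- `f⟨t⟩`. -/
def opT (t : F) (f : F × F → ℂ) : F × F → ℂ := fun u =>
  f (t ^ 2 * u.1, t * u.2) * Ar.cc t (XK u)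

/-- A matrix of determinant one with second row `(-β, α)` (inverse of a matrix with first column
`(α, β)`). -/
def gam (α β : F) : Mat F := !![0, β⁻¹; -β, α]

/-- `f^D`. -/
def opW (D : F) (f : F × F → ℂ) : F × F → ℂ := rho (gam 0 D) f

/-- Restriction to `R`. -/
def indR (φ : F → ℂ) : F → ℂ := ((Ar.R : Subring F) : Set F).indicator φ

/-- The `S`-adic integral. -/
def intS (φ : F → ℂ) : ℂ := mean (indR φ)

/-- `S`-adic Schwartz–Bruhat functions. -/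
def SB (j : ℕ) (φ : F → ℂ) : Prop :=
  (∀ x y, Deep j y → φ (x + y) = φ x) ∧ ∀ x, φ x ≠ 0 → (Ar.N F : F) ^ j * x ∈ (Ar.L : Subring F)

/-- The integrand of the constant term (the factor only corrects the value at `x = 0`). -/
def fE (f : F × F → ℂ) (η x d : F) : ℂ := f (η * x ^ 3, d) * Ar.cc (XK (η * x ^ 3, d)) η

/-- The constant term at `∞` (up to the factor `κ₀`). -/
def LamF (f : F × F → ℂ) : ℂ :=
  ∑ η ∈ (Ar.E : Finset F), ((nF η ^ (-(1 / 3) : ℝ) : ℝ) : ℂ) * intS fun x => intS fun d => fE f η x d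

/-- The `S`-part of the constant term at the cusp `α / β`. -/
def CF (f : F × F → ℂ) (α β : F) : ℂ := LamF (rho (gam α β) f)

/-- The normalised Fourier coefficients. -/
def tt (f : F × F → ℂ) (r : F) : ℂ := tau (xiF f) r * ((nF r ^ (1 / 6 : ℝ) : ℝ) : ℂ)

/-- The `S`-adic Whittaker function. -/
def WF (f : F × F → ℂ) (r : F) : ℂ := ((absS r ^ (3 / 2 : ℝ) : ℝ) : ℂ) * tau (xiF (opT r f)) 1

/-- The normalised Gauss sum `N(m)^{-1/2} ∑_{x mod m} conj (x / m) ψ(r x / m)`. -/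
def gn (r : F) (m : RR F) : ℂ :=
  ((Real.sqrt (Ar.nm (m : F)) : ℝ) : ℂ)⁻¹ *
    ∑ᶠ x : RR F ⧸ Ideal.span {m},
      conj (Ar.sy ((x.out : RR F) : F) (m : F)) * Ar.psi (r * ((x.out : RR F) : F) / (m : F))

open Classical in
/-- Patterson's coefficient: `th(m d³) = g̃(m) √N(d)` for squarefree `m`, zero on all other elements. -/
def thF (r : F) : ℂ :=
  if h : ∃ p : RR F × RR F, Squarefree p.1 ∧ p.2 ≠ 0 ∧ r = (p.1 : F) * (p.2 : F) ^ 3 then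
    gn 1 h.choose.1 * ((Real.sqrt (Ar.nm (h.choose.2 : F)) : ℝ) : ℂ)
  else 0

/-- The differentiated Bessel profile. -/
def U1V (x : Pl F → ℝ) : ℝ := ∏ j, R17.U1 (x j)

/-! ## statements of the leaves -/

variable (F)

/-- **Leaf B1** (master identity, operators). -/
structure OpStmt : Prop where
  steinberg : ∀ x y : F, x ≠ 0 → y ≠ 0 → x + y = 1 → Ar.cc x y = 1
  mono : ∀ (f : F × F → ℂ) (j j' : ℕ), TestFn j f → j ≤ j' → TestFn j' f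
  add : ∀ f g : F × F → ℂ, Test f → Test g → Test (f + g)
  smul : ∀ (a : ℂ) (f : F × F → ℂ), Test f → Test fun u => a * f u
  zero : Test (0 : F × F → ℂ)
  test_rho : ∀ (f : F × F → ℂ) (g : Mat F), g.det = 1 → Test f → Test (rho g f)
  test_opC : ∀ (f : F × F → ℂ) (m : F), m ≠ 0 → Test f → Test (opC m f)
  test_opS : ∀ (f : F × F → ℂ) (m : F), m ≠ 0 → Test f → Test (opS m f)
  test_opT : ∀ (f : F × F → ℂ) (t : F), t ≠ 0 → Test f → Test (opT t f)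
  /-- L0 -/
  close : ∀ (f : F × F → ℂ) (j : ℕ), TestFn j f → ∃ J, ∀ u u' : F × F, Deep J (u'.1 - u.1) →
    Deep J (u'.2 - u.2) →
      (u.2 ≠ 0 → f u' * Ar.cc u.2 (XK u') = f u * Ar.cc u.2 (XK u)) ∧ (u.2 = 0 → f u' = f u)
  master : ∀ (f : F × F → ℂ) (g : Mat F), g.det = 1 → InR g →
    tr (xiF f) g = fun u => syR (g 1 0, g 1 1) * xiF (rho g f) u
  adm : ∀ f : F × F → ℂ, Test f → Adm (xiF f)
  rho_nT : ∀ (f : F × F → ℂ) (p : F), f 0 = 0 →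
    rho (nT p : SL F) f = fun u => f (u.1, u.2 + u.1 * p)
  rho_nT_mul : ∀ (f : F × F → ℂ) (g : Mat F) (p : F), g.det = 1 → f 0 = 0 →
    rho (((nT p : SL F) : Mat F) * g) f = rho (nT p : SL F) (rho g f)
  rho_mul_nT : ∀ (f : F × F → ℂ) (g : Mat F) (p : F), g.det = 1 → f 0 = 0 →
    rho (g * ((nT p : SL F) : Mat F)) f = rho g (rho (nT p : SL F) f)
  rho_opS : ∀ (f : F × F → ℂ) (g : Mat F) (m : F), g.det = 1 → m ≠ 0 →
    rho g (opS m f) = opS m (rho g f)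
  opT_opT : ∀ (f : F × F → ℂ) (t t' : F), t ≠ 0 → t' ≠ 0 → f 0 = 0 →
    opT t' (opT t f) = fun u => conj (Ar.cc t t') * opT (t * t') f u
  opT_cube : ∀ (f : F × F → ℂ) (t m : F), t ≠ 0 → m ≠ 0 → f 0 = 0 →
    opT (m ^ 3 * t) f = opS m (opT t (opC m f))
  opT_P : ∀ f : F × F → ℂ, Test f → ∃ J, ∀ t k : F, t ≠ 0 → PJ J k → opT (t * k) f = opT t f
  opW_P : ∀ f : F × F → ℂ, Test f → ∃ J, ∀ D k : F, D ≠ 0 → PJ J k → opW (D * k) f = opW D f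
  xi_opT_unit : ∀ (f : F × F → ℂ) (u : F), UR u → xiF (opT u f) = tr (xiF f) !![u ^ 2, 0; 0, u]
  /-- Hermite normal form over `R` -/
  hermite : ∀ g : Mat F, g.det ≠ 0 → ∃ (ρ b e : F) (σ : Mat F), ρ ≠ 0 ∧ e ≠ 0 ∧ σ.det = 1 ∧ InR σ ∧
    g = !![ρ, b; 0, e] * σ

/-- **Leaf B2** (`S`-adic integrals and the constant-term function). -/
structure IntStmt : Prop where
  per : ∀ (φ : F → ℂ) (j : ℕ), SB j φ → Per (indR φ)
  shift : ∀ (φ : F → ℂ) (j : ℕ) (b : F), SB j φ → intS (fun x => φ (x + b)) = intS φ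
  scale : ∀ (φ : F → ℂ) (j : ℕ) (m : F), SB j φ → m ≠ 0 →
    intS (fun x => φ (m * x)) = ((absS m)⁻¹ : ℝ) * intS φ
  /-- equidistribution of the residue classes of `R` -/
  coset : ∀ (φ : F → ℂ) (j : ℕ) (m b : F), SB j φ → m ≠ 0 → m ∈ (Ar.R : Subring F) →
    b ∈ (Ar.R : Subring F) →
    Per ({x | (x - b) / m ∈ (Ar.R : Subring F)}.indicator φ) ∧
      mean ({x | (x - b) / m ∈ (Ar.R : Subring F)}.indicator φ) = ((Ar.nm m)⁻¹ : ℝ) * intS φ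
  sb : ∀ f : F × F → ℂ, Test f → ∀ η : F, η ≠ 0 → ∃ J,
    (∀ x, SB J (fE f η x)) ∧ ∀ d, SB J fun x => fE f η x d
  lam_add : ∀ f g : F × F → ℂ, Test f → Test g → LamF (f + g) = LamF f + LamF g
  lam_smul : ∀ (a : ℂ) (f : F × F → ℂ), Test f → LamF (fun u => a * f u) = a * LamF f
  lam_nT : ∀ (f : F × F → ℂ) (p : F), Test f → LamF (rho (nT p : SL F) f) = LamF f
  lam_opC : ∀ (f : F × F → ℂ) (m : F), Test f → m ≠ 0 →
    LamF (opC m f) = ((absS m)⁻¹ : ℝ) * LamF f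
  lam_opS : ∀ (f : F × F → ℂ) (m : F), Test f → m ≠ 0 →
    LamF (opS m f) = ((absS m ^ 4)⁻¹ : ℝ) * LamF f
  P0 : ∀ (f : F × F → ℂ) (j : ℕ) (α β x : F), TestFn j f → β ≠ 0 → Deep j x →
    CF f (α + x * β) β = CF f α β
  P1 : ∀ (f : F × F → ℂ) (m α β : F), Test f → m ≠ 0 → β ≠ 0 →
    CF f (m ^ 3 * α) (m ^ 3 * β) = ((absS m ^ 2)⁻¹ : ℝ) * CF f α β
  P2 : ∀ (f : F × F → ℂ) (m α β : F), Test f → m ≠ 0 → β ≠ 0 →
    CF (opC m f) (m ^ 3 * α) β = ((absS m ^ 3)⁻¹ : ℝ) * CF f α β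
  P3 : ∀ (f : F × F → ℂ) (t α β : F), Test f → t ≠ 0 → β ≠ 0 →
    CF (opT t f) (t ^ 2 * α) (t * β) = ((absS t ^ 3)⁻¹ : ℝ) * conj (Ar.cc β t) * CF f α β
  basic : ∃ f : F × F → ℂ, Test f ∧ LamF f ≠ 0

/-- **Leaf B3** (the density of the constant term). -/
def LamStmt : Prop :=
  ∃ κ₀ : ℝ, 0 < κ₀ ∧ ∀ f : F × F → ℂ, Test f → WDk (mf (xiF f) 0) k0 ((κ₀ : ℂ) * LamF f)

/-- **Leaf B4** (test functions give good row functions; constant terms at all cusps). -/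
def CuspStmt : Prop :=
  ∃ κ₀ : ℝ, 0 < κ₀ ∧ ∀ f : F × F → ℂ, Test f → Good (xiF f) ∧ tau (xiF f) 0 = κ₀ * LamF f ∧
    (∀ (g : Mat F) (ρ α β : F), g.det ≠ 0 → ρ ≠ 0 → β ≠ 0 → Cop α β →
      g 1 0 = -(ρ * β) → g 1 1 = ρ * α →
      tau (tr (xiF f) g) 0 =
        ((nF ρ ^ (2 / 3 : ℝ) * nF g.det ^ (1 / 3 : ℝ) : ℝ) : ℂ) * (κ₀ * Ar.sy α β * CF f α β)) ∧
    (∀ m : F, m ≠ 0 → ∀ r, tau (xiF (opS m f)) r = ((absS m ^ 4)⁻¹ : ℝ) * tau (xiF f) r) ∧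
    ∀ r, tau (xiF f) r ≠ 0 → r ∈ (Ar.R : Subring F)

/-- **Leaf C1** (Hecke relations at a prime of `R`). -/
def HeckeStmt : Prop :=
  ∀ f : F × F → ℂ, Test f → ∀ p r : RR F, Prime p → r ≠ 0 →
    tt f ((p : F) ^ 3 * r) =
        ((Real.sqrt (absS (p : F) * Ar.nm (p : F)) : ℝ) : ℂ) * tt (opC (p : F) f) r ∧
      (¬ p ∣ r → tt f ((p : F) ^ 2 * r) = 0) ∧
      (¬ p ∣ r → tt f ((p : F) * r) =
        ((absS (p : F) ^ (3 / 2 : ℝ) : ℝ) : ℂ) * gn (r : F) p * tt (opT (p : F) f) r)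

/-- **Leaf C2** (main formula and the properties of the Whittaker function). -/
structure MainStmt : Prop where
  thF_spec : ∀ m d : RR F, Squarefree m → d ≠ 0 →
    thF ((m : F) * (d : F) ^ 3) = gn 1 m * ((Real.sqrt (Ar.nm (d : F)) : ℝ) : ℂ)
  norm_gn : ∀ m : RR F, Squarefree m → ‖gn 1 m‖ = 1
  main : ∀ f : F × F → ℂ, Test f → ∀ r : F, r ≠ 0 → tt f r = thF r * WF f r
  W_P : ∀ f : F × F → ℂ, Test f → ∃ J, ∀ r k : F, r ≠ 0 → PJ J k → WF f (r * k) = WF f r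
  W_supp : ∀ f : F × F → ℂ, Test f → ∃ J : ℕ, ∀ r : F, r ≠ 0 → WF f r ≠ 0 →
    (Ar.N F : F) ^ J * r ∈ (Ar.L : Subring F)
  W_le : ∀ f : F × F → ℂ, Test f → ∃ C : ℝ, ∀ r : F, r ≠ 0 →
    ‖WF f r‖ ≤ C * (Real.sqrt (absS r))⁻¹
  /-- every class of `F^× / P_J` is cut out by a test function -/
  cls : ∀ (J : ℕ) (α : F), 1 ≤ J → α ≠ 0 → ∃ f : F × F → ℂ, Test f ∧ ∀ r : F, r ≠ 0 →
    tt f r = {r | PJ J (r / α)}.indicator thF r

/-- **Leaf D** (additive Voronoi formula). -/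
def VorStmt : Prop :=
  ∀ f : F × F → ℂ, Test f → ∀ D a δ y : F, D ≠ 0 → D ∈ (Ar.R : Subring F) →
    a ∈ (Ar.R : Subring F) → δ ∈ (Ar.R : Subring F) → y ∈ (Ar.R : Subring F) →
    a * δ - y * D = 1 → ∀ x : Pl F → ℝ, (∀ j, 0 < x j) →
      ∑' r : F, tt f r * conj (argF r) * Ar.psi (r * a / D) * (U1V (fun j => bb r j * x j) : ℂ) =
        Ar.sy a D * (∏ j, (-(em D j ^ 2 * (x j : ℂ)))⁻¹) *
          ∑' ν : F, tt (opW D f) ν * argF ν * Ar.psi (-(ν * δ / D)) *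
            (U1V (fun j => bb ν j / (‖em D j‖ ^ 4 * x j)) : ℂ)

end Crest.Agent.T27.TH
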