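import Crest.Agent.T27.ThA_54

/-!
# Row 27, theta module A1: elementary geometry of `HH F`

Basic lemmas on the definitions of `ThA_54`: denominators, `SL₂(F)`, the forms `QF w j`, the action,
norm and trace, the character `eV`, the invariant measure in the coordinates `pt z l`.
-/

set_option autoImplicit false

noncomputable section

namespace Crest.Agent.T27.TH.G

open scoped ComplexConjugate ENNReal NumberField
open MeasureTheory NumberField
open Crest.Agent.R17 (H hy hp μH Qf actC IsWt)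
open Emb (σ)

variable {F : Type} [Field F]

/-- `x ∈ M⁻¹ 𝒪`. -/
abbrev Den (M : ℕ) (x : F) : Prop := IsIntegral ℤ ((M : F) * x)

/-- The horizontal coordinates. -/
def zF (w : HH F) : Pl F → ℂ := fun j => (w j).1

/-- The logarithmic heights. -/
def lF (w : HH F) : Pl F → ℝ := fun j => (w j).2

theorem pt_zF_lF (w : HH F) : pt (zF w) (lF w) = w := rfl

@[simp] theorem zF_pt (z : Pl F → ℂ) (l : Pl F → ℝ) : zF (pt z l) = z := rfl

@[simp] theorem lF_pt (z : Pl F → ℂ) (l : Pl F → ℝ) : lF (pt z l) = l := rfl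

theorem continuous_zF : Continuous (zF : HH F → Pl F → ℂ) :=
  continuous_pi fun v => continuous_fst.comp (continuous_apply v)

theorem continuous_lF : Continuous (lF : HH F → Pl F → ℝ) :=
  continuous_pi fun v => continuous_snd.comp (continuous_apply v)

theorem continuous_pt : Continuous fun p : (Pl F → ℂ) × (Pl F → ℝ) => pt p.1 p.2 :=
  continuous_pi fun v => ((continuous_apply v).comp continuous_fst).prodMk
    ((continuous_apply v).comp continuous_snd)

/-! ### denominators -/

theorem Den.add {M : ℕ} {x y : F} (hx : Den M x) (hy : Den M y) : Den M (x + y) := by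
  unfold Den at *; rw [mul_add]; exact IsIntegral.add hx hy

theorem Den.neg {M : ℕ} {x : F} (hx : Den M x) : Den M (-x) := by
  unfold Den at *; rw [mul_neg]; exact IsIntegral.neg hx

theorem Den.sub {M : ℕ} {x y : F} (hx : Den M x) (hy : Den M y) : Den M (x - y) := by
  unfold Den at *; rw [mul_sub]; exact IsIntegral.sub hx hy

theorem Den.zero (M : ℕ) : Den M (0 : F) := by
  unfold Den; rw [mul_zero]; exact isIntegral_zero

theorem Den.mul {M N : ℕ} {x y : F} (hx : Den M x) (hy : Den N y) : Den (M * N) (x * y) := by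
  unfold Den at *
  rw [show ((M * N : ℕ) : F) * (x * y) = (M * x) * (N * y) by push_cast; ring]
  exact IsIntegral.mul hx hy

theorem isIntegral_natCast (M : ℕ) : IsIntegral ℤ (M : F) := by
  simpa using isIntegral_algebraMap (R := ℤ) (A := F) (x := (M : ℤ))

theorem den_one {x : F} : Den 1 x ↔ IsIntegral ℤ x := by simp [Den]

theorem Den.of_isIntegral (M : ℕ) {x : F} (hx : IsIntegral ℤ x) : Den M x :=
  IsIntegral.mul (isIntegral_natCast M) hx

theorem Den.mul_int {M : ℕ} {x y : F} (hx : Den M x) (hy : IsIntegral ℤ y) : Den M (x * y) := by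
  unfold Den at *; rw [← mul_assoc]; exact IsIntegral.mul hx hy

theorem Den.int_mul {M : ℕ} {x y : F} (hx : IsIntegral ℤ x) (hy : Den M y) : Den M (x * y) := by
  rw [mul_comm]; exact Den.mul_int hy hx

theorem Den.of_dvd {M N : ℕ} (h : M ∣ N) {x : F} (hx : Den M x) : Den N x := by
  obtain ⟨k, rfl⟩ := h
  simpa using Den.mul hx (Den.of_isIntegral k isIntegral_one)

/-- `M⁻¹ 𝒪` as an additive subgroup. -/
def denGrp (F : Type) [Field F] (M : ℕ) : AddSubgroup F where
  carrier := {x | Den M x}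
  add_mem' := Den.add
  zero_mem' := Den.zero M
  neg_mem' := Den.neg

@[simp] theorem mem_denGrp {M : ℕ} {x : F} : x ∈ denGrp F M ↔ Den M x := Iff.rfl

theorem mem_latt {N : ℕ} {x : F} : x ∈ latt F N ↔ ∃ y : F, IsIntegral ℤ y ∧ x = N * y := Iff.rfl

theorem exists_den [NumberField F] (x : F) : ∃ M : ℕ, M ≠ 0 ∧ Den M x := by
  obtain ⟨y, hy, h⟩ := IsAlgebraic.exists_integral_multiple (R := ℤ)
    ((IsFractionRing.isAlgebraic_iff ℤ ℚ F).2 (IsAlgebraic.of_finite ℚ x))
  refine ⟨y.natAbs, Int.natAbs_ne_zero.2 hy, ?_⟩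
  unfold Den
  rcases Int.natAbs_eq y with h1 | h1
  · rw [← Int.cast_natCast, ← h1]
    simpa [Algebra.smul_def] using h
  · rw [← Int.cast_natCast, ← neg_neg (y.natAbs : ℤ), ← h1, Int.cast_neg, neg_mul]
    refine IsIntegral.neg ?_
    simpa [Algebra.smul_def] using h

/-- A common denominator for the entries of a matrix. -/
theorem exists_den_mat [NumberField F] (g : Mat F) : ∃ M : ℕ, M ≠ 0 ∧ ∀ i j, Den M (g i j) := by
  choose M hM h using fun p : Fin 2 × Fin 2 => exists_den (g p.1 p.2)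
  exact ⟨∏ p, M p, Finset.prod_ne_zero_iff.2 fun p _ => hM p, fun i j =>
    Den.of_dvd (Finset.dvd_prod_of_mem _ (Finset.mem_univ (i, j))) (h (i, j))⟩

/-! ### `SL₂(F)` -/

theorem det_ne (g : SL F) : (g : Mat F).det ≠ 0 := by rw [g.det_coe]; exact one_ne_zero

theorem det_eq (g : SL F) : g 0 0 * g 1 1 - g 0 1 * g 1 0 = 1 := by
  have := g.det_coe; rwa [Matrix.det_fin_two] at this

@[simp] theorem mkSL_00 (a b c d : F) (h) : mkSL a b c d h 0 0 = a := rfl
@[simp] theorem mkSL_01 (a b c d : F) (h) : mkSL a b c d h 0 1 = b := rfl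
@[simp] theorem mkSL_10 (a b c d : F) (h) : mkSL a b c d h 1 0 = c := rfl
@[simp] theorem mkSL_11 (a b c d : F) (h) : mkSL a b c d h 1 1 = d := rfl

@[simp] theorem nT_00 (t : F) : nT t 0 0 = 1 := rfl
@[simp] theorem nT_01 (t : F) : nT t 0 1 = t := rfl
@[simp] theorem nT_10 (t : F) : nT t 1 0 = 0 := rfl
@[simp] theorem nT_11 (t : F) : nT t 1 1 = 1 := rfl

theorem nT_add (s t : F) : nT (s + t) = nT s * nT t := by
  refine Matrix.SpecialLinearGroup.ext _ _ fun i j => ?_
  fin_cases i <;> fin_cases j <;> simp [nT, mkSL, Matrix.mul_apply, Fin.sum_univ_two, add_comm]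

theorem nT_zero : nT (0 : F) = 1 := by
  refine Matrix.SpecialLinearGroup.ext _ _ fun i j => ?_
  fin_cases i <;> fin_cases j <;> simp [nT, mkSL]

theorem nT_neg (t : F) : nT (-t) = (nT t)⁻¹ :=
  eq_inv_of_mul_eq_one_left (by rw [← nT_add, neg_add_cancel, nT_zero])

theorem nT_injective : Function.Injective (nT : F → SL F) := fun s t h => by
  simpa using congrArg (fun g : SL F => g 0 1) h

theorem mem_Gam0 {g : SL F} : g ∈ Gam0 F ↔ ∀ i j, IsIntegral ℤ (g i j) := Iff.rfl

theorem nT_mem_Gam0 {t : F} : nT t ∈ Gam0 F ↔ IsIntegral ℤ t := by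
  refine ⟨fun h => h 0 1, fun h i j => ?_⟩
  fin_cases i <;> fin_cases j
  exacts [isIntegral_one, h, isIntegral_zero, isIntegral_one]

/-- Two matrices with the same second row differ by a translation. -/
theorem eq_nT_mul {g h : SL F} (h0 : g 1 0 = h 1 0) (h1 : g 1 1 = h 1 1) :
    g = nT (g 0 1 * h 0 0 - g 0 0 * h 0 1) * h := by
  have hg := det_eq g
  have hh := det_eq h
  rw [h0, h1] at hg
  refine Matrix.SpecialLinearGroup.ext _ _ fun i j => ?_
  fin_cases i <;> fin_cases j <;>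
    simp [nT, mkSL, Matrix.mul_apply, Fin.sum_univ_two, h0, h1]
  · linear_combination h 0 0 * hg - g 0 0 * hh
  · linear_combination h 0 1 * hg - g 0 1 * hh

/-- Two matrices with the same first column differ by a translation. -/
theorem eq_mul_nT {g h : SL F} (h0 : g 0 0 = h 0 0) (h1 : g 1 0 = h 1 0) :
    g = h * nT (h 1 1 * g 0 1 - h 0 1 * g 1 1) := by
  have hg := det_eq g
  have hh := det_eq h
  rw [h0, h1] at hg
  refine Matrix.SpecialLinearGroup.ext _ _ fun i j => ?_
  fin_cases i <;> fin_cases j <;>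
    simp [nT, mkSL, Matrix.mul_apply, Fin.sum_univ_two, h0, h1]
  · linear_combination h 0 1 * hg - g 0 1 * hh
  · linear_combination h 1 1 * hg - g 1 1 * hh

/-- The second row of a matrix. -/
def row2 (g : Mat F) : F × F := (g 1 0, g 1 1)

theorem rmul_zero_one (g : Mat F) : rmul (0, 1) g = row2 g := by simp [rmul, row2]

theorem rmul_one_zero (g : Mat F) : rmul (1, 0) g = (g 0 0, g 0 1) := by simp [rmul]

theorem row2_mul (g h : Mat F) : row2 (g * h) = rmul (row2 g) h := by
  rw [← rmul_zero_one, rmul_mul, rmul_zero_one]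

theorem row2_nT_mul (t : F) (g : SL F) : row2 ((nT t * g : SL F) : Mat F) = row2 (g : Mat F) := by
  rw [Matrix.SpecialLinearGroup.coe_mul, row2_mul, ← rmul_zero_one (g : Mat F)]
  rfl

theorem eq_nT_mul_of_row2 {g h : SL F} (e : row2 (g : Mat F) = row2 (h : Mat F)) :
    g = nT (g 0 1 * h 0 0 - g 0 0 * h 0 1) * h :=
  eq_nT_mul (congrArg Prod.fst e) (congrArg Prod.snd e)

theorem row2_ne_zero {g : Mat F} (hg : g.det ≠ 0) : row2 g ≠ 0 := by
  intro h
  have h0 : g 1 0 = 0 := congrArg Prod.fst h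
  have h1 : g 1 1 = 0 := congrArg Prod.snd h
  exact hg (by rw [Matrix.det_fin_two, h0, h1]; ring)

/-- Every non-zero row is the second row of an element of `SL₂(F)`. -/
theorem exists_SL_row {u : F × F} (hu : u ≠ 0) : ∃ g : SL F, row2 (g : Mat F) = u := by
  by_cases h : u.2 = 0
  · have h1 : u.1 ≠ 0 := fun h1 => hu (Prod.ext h1 h)
    exact ⟨mkSL 0 (-u.1⁻¹) u.1 u.2 (by field_simp; ring), rfl⟩
  · exact ⟨mkSL u.2⁻¹ 0 u.1 u.2 (by field_simp; ring), rfl⟩

/-- Right multiplication of rows by an element of `SL₂(F)` as a bijection. -/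
def rowEquiv (g : SL F) : F × F ≃ F × F where
  toFun u := rmul u g
  invFun u := rmul u (g⁻¹ : SL F)
  left_inv u := by
    simp only
    rw [← rmul_mul, ← Matrix.SpecialLinearGroup.coe_mul, mul_inv_cancel,
      Matrix.SpecialLinearGroup.coe_one, rmul_one]
  right_inv u := by
    simp only
    rw [← rmul_mul, ← Matrix.SpecialLinearGroup.coe_mul, inv_mul_cancel,
      Matrix.SpecialLinearGroup.coe_one, rmul_one]

@[simp] theorem rowEquiv_apply (g : SL F) (u : F × F) : rowEquiv g u = rmul u g := rfl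

theorem den_rmul {M N : ℕ} {u : F × F} {g : Mat F} (hu : Den M u.1 ∧ Den M u.2)
    (hg : ∀ i j, Den N (g i j)) : Den (M * N) (rmul u g).1 ∧ Den (M * N) (rmul u g).2 :=
  ⟨(hu.1.mul (hg _ _)).add (hu.2.mul (hg _ _)), (hu.1.mul (hg _ _)).add (hu.2.mul (hg _ _))⟩

variable [NumberField F]

instance countable_F : Countable F :=
  Countable.of_equiv _ (Module.finBasis ℚ F).equivFun.toEquiv.symm

instance countable_SL : Countable (SL F) :=
  haveI : Countable (Mat F) := inferInstanceAs (Countable (Fin 2 → Fin 2 → F))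
  inferInstanceAs (Countable {A : Mat F // A.det = 1})

/-! ### the character `eV` -/

theorem eV_add (z z' : Pl F → ℂ) : eV (z + z') = eV z * eV z' := by
  simp only [eV, Pi.add_apply, Complex.add_re, mul_add, Finset.sum_add_distrib, Complex.ofReal_add,
    Complex.exp_add]

@[simp] theorem eV_zero : eV (0 : Pl F → ℂ) = 1 := by simp [eV]

theorem norm_eV (z : Pl F → ℂ) : ‖eV z‖ = 1 := by
  rw [eV, show ∀ t : ℝ, 4 * Real.pi * Complex.I * (t : ℂ) = ((4 * Real.pi * t : ℝ) : ℂ) * Complex.I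
    from fun t => by push_cast; ring, Complex.norm_exp_ofReal_mul_I]

theorem eV_neg (z : Pl F → ℂ) : eV (-z) = conj (eV z) := by
  rw [eV, eV, ← Complex.exp_conj]
  congr 1
  simp only [Pi.neg_apply, Complex.neg_re, mul_neg, Finset.sum_neg_distrib, Complex.ofReal_neg,
    map_mul, Complex.conj_ofReal, Complex.conj_I, map_ofNat]
  ring

theorem eV_eq_prod (z : Pl F → ℂ) :
    eV z = ∏ v, Complex.exp (4 * Real.pi * Complex.I * ((z v).re : ℂ)) := by
  rw [eV, ← Complex.exp_sum, Complex.ofReal_sum, Finset.mul_sum]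

theorem continuous_eV : Continuous (eV : (Pl F → ℂ) → ℂ) := by
  unfold eV; fun_prop

/-! ### the invariant measure in coordinates -/

instance : IsLocallyFiniteMeasure (μHH F) := by unfold μHH; infer_instance

instance : SigmaFinite (μHH F) := by unfold μHH; infer_instance

instance : (μHH F).IsOpenPosMeasure := by unfold μHH; infer_instance

theorem lintegral_pi_prod_fin : ∀ {n : ℕ} (μ : Fin n → Measure ℝ) [∀ i, SigmaFinite (μ i)]
    (f : Fin n → ℝ → ℝ≥0∞) (_ : ∀ i, Measurable (f i)),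
    ∫⁻ x, ∏ i, f i (x i) ∂(Measure.pi μ) = ∏ i, ∫⁻ t, f i t ∂(μ i) := by
  intro n
  induction n with
  | zero =>
    intro μ _ f _
    simp
  | succ n ih =>
    intro μ _ f hf
    have h := (measurePreserving_piFinSuccAbove μ 0)
    have hm : Measurable (fun y : Fin n → ℝ => ∏ i, f i.succ (y i)) := by
      refine Finset.measurable_prod _ fun i _ => ?_
      exact (hf _).comp (by fun_prop)
    have h2 := h.lintegral_comp
      (f := fun p : ℝ × (Fin n → ℝ) => f 0 p.1 * ∏ i, f i.succ (p.2 i)) (by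
      apply Measurable.mul
      · exact (hf 0).comp (by fun_prop)
      · exact hm.comp (by fun_prop))
    rw [lintegral_prod_mul (f := f 0) (g := fun y : Fin n → ℝ => ∏ i, f i.succ (y i))
      (hf 0).aemeasurable hm.aemeasurable] at h2
    rw [Fin.prod_univ_succ]
    have ih' := ih (fun j => μ (Fin.succ j)) (fun i => f i.succ) (fun i => hf _)
    simp only [Fin.succAbove_zero] at h2
    rw [← ih', ← h2]
    refine lintegral_congr fun x => ?_
    rw [Fin.prod_univ_succ]
    rfl

/-- Tonelli for a product of functions of one variable. -/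
theorem lintegral_pi_prod {κ : Type} [Fintype κ] (μ : κ → Measure ℝ) [∀ i, SigmaFinite (μ i)]
    (f : κ → ℝ → ℝ≥0∞) (hf : ∀ i, Measurable (f i)) :
    ∫⁻ x, ∏ i, f i (x i) ∂(Measure.pi μ) = ∏ i, ∫⁻ t, f i t ∂(μ i) := by
  let e := (Fintype.equivFin κ).symm
  have hm : Measurable fun x : κ → ℝ => ∏ i, f i (x i) :=
    Finset.measurable_prod _ fun i _ => (hf i).comp (measurable_pi_apply i)
  rw [← (measurePreserving_piCongrLeft (α := fun _ => ℝ) μ e).lintegral_comp hm, ← e.prod_comp,
    ← lintegral_pi_prod_fin (fun j => μ (e j)) (fun j => f (e j)) fun j => hf _]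
  refine lintegral_congr fun x => ?_
  rw [← e.prod_comp]
  simp [MeasurableEquiv.piCongrLeft, Equiv.piCongrLeft_apply_apply]

theorem pi_withDensity {κ : Type} [Fintype κ] (μ : Measure ℝ) [SigmaFinite μ] (f : ℝ → ℝ≥0∞)
    (hf : Measurable f) [SigmaFinite (μ.withDensity f)] :
    Measure.pi (fun _ : κ => μ.withDensity f) =
      (Measure.pi fun _ : κ => μ).withDensity (fun x => ∏ i, f (x i)) := by
  refine Measure.pi_eq (fun s hs => ?_)
  rw [withDensity_apply _ (MeasurableSet.univ_pi hs),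
    ← lintegral_indicator (MeasurableSet.univ_pi hs)]
  have : (Set.univ.pi s).indicator (fun x => ∏ i, f (x i)) =
      fun x => ∏ i, (s i).indicator f (x i) := by
    funext x
    by_cases hx : x ∈ Set.univ.pi s
    · rw [Set.indicator_of_mem hx]
      refine Finset.prod_congr rfl fun i _ => ?_
      rw [Set.indicator_of_mem (hx i trivial)]
    · rw [Set.indicator_of_notMem hx]
      simp only [Set.mem_pi, Set.mem_univ, forall_const, not_forall] at hx
      obtain ⟨i, hi⟩ := hx
      exact (Finset.prod_eq_zero (Finset.mem_univ i) (Set.indicator_of_notMem hi _)).symm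
  rw [this, lintegral_pi_prod _ (fun i => (s i).indicator f) (fun i => hf.indicator (hs i))]
  refine Finset.prod_congr rfl fun i _ => ?_
  rw [lintegral_indicator (hs i), withDensity_apply _ (hs i)]

/-- `e^{-2 t} dt`. -/
def ν1 : Measure ℝ := volume.withDensity fun t => ENNReal.ofReal (Real.exp (-2 * t))

theorem ν1_meas : Measurable fun t : ℝ => ENNReal.ofReal (Real.exp (-2 * t)) := by fun_prop

instance : SigmaFinite ν1 := by
  unfold ν1
  exact SigmaFinite.withDensity_ofReal _

theorem μH_eq : μH = (volume : Measure ℂ).prod ν1 := by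
  rw [ν1, prod_withDensity_right ν1_meas]
  rfl

/-- `e^{-2 ∑ l} dl`. -/
def νL (F : Type) [Field F] [NumberField F] : Measure (Pl F → ℝ) :=
  volume.withDensity fun l => ENNReal.ofReal (Real.exp (-2 * ∑ j, l j))

theorem νL_meas : Measurable fun l : Pl F → ℝ => ENNReal.ofReal (Real.exp (-2 * ∑ j, l j)) := by
  fun_prop

theorem νL_eq : νL F = Measure.pi fun _ => ν1 := by
  have : SigmaFinite (volume.withDensity fun t : ℝ => ENNReal.ofReal (Real.exp (-2 * t))) :=
    inferInstanceAs (SigmaFinite ν1)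
  unfold ν1
  rw [pi_withDensity _ _ ν1_meas, νL]
  refine congrArg _ (funext fun l => ?_)
  rw [Finset.mul_sum, Real.exp_sum, ENNReal.ofReal_prod_of_nonneg fun _ _ => (Real.exp_pos _).le]

instance : SigmaFinite (νL F) := by rw [νL_eq]; infer_instance

theorem measurable_pt : Measurable fun p : (Pl F → ℂ) × (Pl F → ℝ) => pt p.1 p.2 :=
  continuous_pt.measurable

/-- The coordinates `(z, l)` carry `dz × e^{-2 ∑ l} dl` to `μHH`. -/
theorem mp_pt : MeasurePreserving (fun p : (Pl F → ℂ) × (Pl F → ℝ) => pt p.1 p.2)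
    (volume.prod (νL F)) (μHH F) := by
  rw [νL_eq, μHH, μH_eq]
  exact (measurePreserving_arrowProdEquivProdArrow ℂ ℝ (Pl F) (fun _ => volume)
      (fun _ => ν1)).symm

theorem lintegral_μHH {f : HH F → ℝ≥0∞} (hf : Measurable f) :
    ∫⁻ w, f w ∂μHH F = ∫⁻ l : Pl F → ℝ,
      (∫⁻ z : Pl F → ℂ, f (pt z l)) * ENNReal.ofReal (Real.exp (-2 * ∑ j, l j)) := by
  have hm : Measurable fun p : (Pl F → ℂ) × (Pl F → ℝ) => f (pt p.1 p.2) := hf.comp measurable_pt
  rw [← mp_pt.lintegral_comp hf, lintegral_prod_symm _ hm.aemeasurable, νL,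
    lintegral_withDensity_eq_lintegral_mul _ νL_meas hm.lintegral_prod_left']
  exact lintegral_congr fun y => mul_comm _ _

theorem integral_νL (g : (Pl F → ℝ) → ℂ) :
    ∫ l, g l ∂νL F = ∫ l, g l * (Real.exp (-2 * ∑ j, l j) : ℂ) := by
  rw [νL, integral_withDensity_eq_integral_toReal_smul νL_meas
    (Filter.Eventually.of_forall fun _ => ENNReal.ofReal_lt_top)]
  refine integral_congr_ae (Filter.Eventually.of_forall fun l => ?_)
  simp only
  rw [ENNReal.toReal_ofReal (Real.exp_pos _).le, Complex.real_smul, mul_comm]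

theorem integrable_νL {g : (Pl F → ℝ) → ℂ} :
    Integrable g (νL F) ↔ Integrable fun l => g l * (Real.exp (-2 * ∑ j, l j) : ℂ) := by
  rw [νL, integrable_withDensity_iff_integrable_smul' νL_meas
    (Filter.Eventually.of_forall fun _ => ENNReal.ofReal_lt_top)]
  refine integrable_congr (Filter.Eventually.of_forall fun l => ?_)
  simp only
  rw [ENNReal.toReal_ofReal (Real.exp_pos _).le, Complex.real_smul, mul_comm]

theorem integral_μHH {f : HH F → ℂ} (hf : Integrable f (μHH F)) :
    ∫ w, f w ∂μHH F = ∫ l : Pl F → ℝ,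
      (∫ z : Pl F → ℂ, f (pt z l)) * (Real.exp (-2 * ∑ j, l j) : ℂ) := by
  have h1 : Integrable (fun p : (Pl F → ℂ) × (Pl F → ℝ) => f (pt p.1 p.2)) (volume.prod (νL F)) :=
    mp_pt.integrable_comp_of_integrable hf
  rw [← integral_νL, ← integral_prod_symm _ h1, ← mp_pt.map_eq,
    integral_map measurable_pt.aemeasurable (by rw [mp_pt.map_eq]; exact hf.1)]

/-- The inner integral of an integrable function is integrable. -/
theorem integrable_inner {f : HH F → ℂ} (hf : Integrable f (μHH F)) :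
    Integrable fun l : Pl F → ℝ =>
      (∫ z : Pl F → ℂ, f (pt z l)) * (Real.exp (-2 * ∑ j, l j) : ℂ) := by
  have h1 : Integrable (fun p : (Pl F → ℂ) × (Pl F → ℝ) => f (pt p.1 p.2)) (volume.prod (νL F)) :=
    mp_pt.integrable_comp_of_integrable hf
  exact integrable_νL.1 h1.integral_prod_right

/-! ### embeddings, the action -/

variable [Emb F]

/-- The Minkowski embedding as a ring homomorphism. -/
def emR : F →+* (Pl F → ℂ) := RingHom.pi fun v => σ v

theorem emR_apply (x : F) : emR x = em x := rfl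

theorem em_apply (x : F) (v : Pl F) : em x v = σ v x := rfl

theorem em_add (x y : F) : em (x + y) = em x + em y := map_add emR x y
theorem em_sub (x y : F) : em (x - y) = em x - em y := map_sub emR x y
theorem em_neg (x : F) : em (-x) = -em x := map_neg emR x
theorem em_mul (x y : F) : em (x * y) = em x * em y := map_mul emR x y
@[simp] theorem em_zero : em (0 : F) = 0 := map_zero emR
@[simp] theorem em_one : em (1 : F) = 1 := map_one emR

theorem norm_em (x : F) (v : Pl F) : ‖em x v‖ = v x := by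
  conv_rhs => rw [← Emb.mk_σ v]
  rfl

theorem em_ne_zero {x : F} (hx : x ≠ 0) (v : Pl F) : em x v ≠ 0 := (map_ne_zero (σ v)).2 hx

theorem norm_em_pos {x : F} (hx : x ≠ 0) (v : Pl F) : 0 < ‖em x v‖ :=
  norm_pos_iff.2 (em_ne_zero hx v)

theorem norm_em_natCast (M : ℕ) (v : Pl F) : ‖em (M : F) v‖ = M := by
  rw [em_apply, map_natCast, Complex.norm_natCast]

theorem exp_lg {x : F} (hx : x ≠ 0) (v : Pl F) : Real.exp (lg x v) = ‖em x v‖ ^ 2 :=
  Real.exp_log (pow_pos (norm_em_pos hx v) 2)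

/-- The Hermitian form at the place `j`. -/
def QF (w : HH F) (j : Pl F) (u : F × F) : ℝ := Qf (w j) (em u.1 j) (em u.2 j)

theorem Qv_eq (v : Pl F → ℝ) (w : HH F) (u : F × F) :
    Qv v w u = ∑ j, Real.exp (v j) * QF w j u := rfl

theorem det_map_σ (v : Pl F) (g : Mat F) : (g.map (σ v)).det = em g.det v :=
  ((σ v).map_det g).symm

theorem act_smul {ρ : F} (hρ : ρ ≠ 0) {g : Mat F} (hg : g.det ≠ 0) (w : HH F) :
    act (ρ • g) w = act g w := funext fun v => by
  unfold act
  rw [show (ρ • g).map (σ v) = σ v ρ • g.map (σ v) by ext i j; simp]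
  exact R17.actC_smul (em_ne_zero hρ v) (det_map_ne hg v) _

theorem continuous_act {g : Mat F} (hg : g.det ≠ 0) : Continuous (act g : HH F → HH F) :=
  continuous_pi fun v => (R17.continuous_actC (det_map_ne hg v)).comp (continuous_apply v)

theorem measurePreserving_act {g : Mat F} (hg : g.det ≠ 0) :
    MeasurePreserving (act g) (μHH F) (μHH F) :=
  measurePreserving_pi (fun _ => μH) (fun _ => μH) (f := fun v => actC (g.map (σ v)))
    fun v => R17.measurePreserving_actC (det_map_ne hg v)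

theorem continuous_smul_SL (g : SL F) : Continuous fun w : HH F => g • w :=
  continuous_act (det_ne g)

theorem measurePreserving_smul_SL (g : SL F) :
    MeasurePreserving (fun w : HH F => g • w) (μHH F) (μHH F) :=
  measurePreserving_act (det_ne g)

theorem act_inv {g : Mat F} (hg : g.det ≠ 0) (w : HH F) :
    act g⁻¹ (act g w) = w ∧ act g (act g⁻¹ w) = w := by
  have hu : IsUnit g.det := isUnit_iff_ne_zero.2 hg
  have h1 : g⁻¹.det ≠ 0 := (Matrix.isUnit_nonsing_inv_det g hu).ne_zero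
  rw [← act_mul h1 hg, ← act_mul hg h1, Matrix.nonsing_inv_mul g hu, Matrix.mul_nonsing_inv g hu,
    act_one]
  exact ⟨rfl, rfl⟩

theorem act_upper {a d : F} (ha : a ≠ 0) (hd : d ≠ 0) (b : F) (z : Pl F → ℂ) (l : Pl F → ℝ) :
    act !![a, b; 0, d] (pt z l) =
      pt (fun v => (em a v * z v + em b v) / em d v)
        (fun v => l v + (lg a v - lg d v) / 2) := funext fun v => by
  have h := R17.actC_upper (em_ne_zero ha v) (em_ne_zero hd v) (em b v) (z v) (Real.exp_pos (l v))
  unfold act pt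
  rw [show (!![a, b; 0, d] : Mat F).map (σ v) = !![em a v, em b v; 0, em d v] by
    ext i j; fin_cases i <;> fin_cases j <;> simp [em_apply]]
  rw [hp, Real.log_exp] at h
  rw [h, hp, Real.log_mul (div_pos (norm_em_pos ha v) (norm_em_pos hd v)).ne' (Real.exp_pos _).ne',
    Real.log_div (norm_em_pos ha v).ne' (norm_em_pos hd v).ne', Real.log_exp]
  simp only [lg, Real.log_pow]
  congr 1
  push_cast
  ring

/-- The inverse of `(α x; β δ)` near the geodesic above the cusp `α / β`. -/
theorem act_geod {α x β δ : F} (hdet : α * δ - x * β = 1) (hβ : β ≠ 0) (z : Pl F → ℂ)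
    (l : Pl F → ℝ) :
    act !![δ, -x; -β, α] (pt (em (α / β) + z) l) =
      pt (fun v => em (-δ / β) v -
          conj (z v) / (em β v ^ 2 * ((‖z v‖ ^ 2 + Real.exp (l v) ^ 2 : ℝ) : ℂ)))
        (fun v => Real.log (Real.exp (l v) / (‖em β v‖ ^ 2 * (‖z v‖ ^ 2 + Real.exp (l v) ^ 2)))) :=
  funext fun v => by
  have h := R17.actC_geod (α := σ v α) (x := σ v x) (β := σ v β) (δ := σ v δ)
    (by rw [← map_mul, ← map_mul, ← map_sub, hdet, map_one]) (em_ne_zero hβ v) (z v)
    (Real.exp_pos (l v))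
  unfold act pt
  rw [show (!![δ, -x; -β, α] : Mat F).map (σ v) = !![σ v δ, -σ v x; -σ v β, σ v α] by
    ext i j; fin_cases i <;> fin_cases j <;> simp]
  rw [hp, Real.log_exp] at h
  simp only [Pi.add_apply, em_apply, map_div₀, map_neg]
  exact h

theorem QF_nonneg (w : HH F) (v : Pl F) (u : F × F) : 0 ≤ QF w v u := R17.Qf_nonneg _ _ _

theorem QF_pos (w : HH F) (v : Pl F) {u : F × F} (hu : u ≠ 0) : 0 < QF w v u := by
  refine R17.Qf_pos _ ?_
  by_contra h
  rw [not_or, not_not, not_not, em_apply, em_apply, map_eq_zero, map_eq_zero] at h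
  exact hu (Prod.ext h.1 h.2)

theorem QF_zero (w : HH F) (v : Pl F) : QF w v 0 = 0 := by simp [QF, Qf]

theorem QF_eq (w : HH F) (v : Pl F) (u : F × F) :
    QF w v u = (‖em u.1 v * zF w v + em u.2 v‖ ^ 2 + ‖em u.1 v‖ ^ 2 * Real.exp (lF w v) ^ 2) /
      Real.exp (lF w v) := rfl

theorem QF_pt (z : Pl F → ℂ) (l : Pl F → ℝ) (v : Pl F) (u : F × F) :
    QF (pt z l) v u = (‖em u.1 v * z v + em u.2 v‖ ^ 2 + ‖em u.1 v‖ ^ 2 * Real.exp (l v) ^ 2) /
      Real.exp (l v) := rfl

theorem QF_zero_left (w : HH F) (v : Pl F) (d : F) :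
    QF w v (0, d) = ‖em d v‖ ^ 2 / Real.exp (lF w v) := by
  rw [QF_eq]; simp

theorem QF_zero_one (w : HH F) (v : Pl F) : QF w v (0, 1) = Real.exp (-lF w v) := by
  rw [QF_zero_left, Real.exp_neg]; simp

theorem QF_smul (w : HH F) (v : Pl F) (ρ : F) (u : F × F) :
    QF w v (ρ • u) = ‖em ρ v‖ ^ 2 * QF w v u := by
  rw [QF, QF, ← R17.Qf_mul, Prod.smul_fst, Prod.smul_snd, smul_eq_mul, smul_eq_mul, em_mul, em_mul]
  rfl

theorem continuous_QF (v : Pl F) (u : F × F) : Continuous fun w : HH F => QF w v u :=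
  (R17.continuous_Qf _ _).comp (continuous_apply v)

theorem continuous_Qv (v : Pl F → ℝ) (u : F × F) : Continuous fun w : HH F => Qv v w u :=
  continuous_finsetSum _ fun j _ => continuous_const.mul (continuous_QF j u)

theorem Qv_nonneg (v : Pl F → ℝ) (w : HH F) (u : F × F) : 0 ≤ Qv v w u :=
  Finset.sum_nonneg fun j _ => mul_nonneg (Real.exp_pos _).le (QF_nonneg w j u)

theorem det_sq_le_QF (w : HH F) (v : Pl F) (u u' : F × F) :
    ‖em (u.1 * u'.2 - u'.1 * u.2) v‖ ^ 2 ≤ QF w v u * QF w v u' := by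
  rw [em_sub, em_mul, em_mul]
  exact R17.norm_det_sq_le_Qf _ _ _ _ _

theorem QF_sub_le (w : HH F) (v : Pl F) (u u' : F × F) :
    QF w v (u - u') ≤ 2 * (QF w v u + QF w v u') := by
  have hy0 := Real.exp_pos (lF w v)
  simp only [QF_eq, Prod.fst_sub, Prod.snd_sub, em_sub, Pi.sub_apply]
  rw [← add_div, ← mul_div_assoc, div_le_div_iff_of_pos_right hy0]
  have h1 : ‖(em u.1 v - em u'.1 v) * zF w v + (em u.2 v - em u'.2 v)‖ ≤
      ‖em u.1 v * zF w v + em u.2 v‖ + ‖em u'.1 v * zF w v + em u'.2 v‖ := by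
    rw [show (em u.1 v - em u'.1 v) * zF w v + (em u.2 v - em u'.2 v) =
      (em u.1 v * zF w v + em u.2 v) - (em u'.1 v * zF w v + em u'.2 v) by ring]
    exact norm_sub_le _ _
  have h2 := norm_sub_le (em u.1 v) (em u'.1 v)
  have h3 := pow_le_pow_left₀ (norm_nonneg _) h1 2
  have h4 := mul_le_mul_of_nonneg_right (pow_le_pow_left₀ (norm_nonneg _) h2 2)
    (sq_nonneg (Real.exp (lF w v)))
  nlinarith [sq_nonneg (‖em u.1 v * zF w v + em u.2 v‖ - ‖em u'.1 v * zF w v + em u'.2 v‖),
    mul_nonneg (sq_nonneg (‖em u.1 v‖ - ‖em u'.1 v‖)) (sq_nonneg (Real.exp (lF w v)))]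

theorem QF_act {g : Mat F} (hg : g.det ≠ 0) (w : HH F) (v : Pl F) (u : F × F) :
    QF (act g w) v u = QF w v (rmul u g) / ‖em g.det v‖ := by
  unfold QF act
  rw [R17.Qf_actC (det_map_ne hg v), det_map_σ]
  simp only [rmul, Matrix.map_apply, map_add, map_mul, em_apply]

theorem exp_lF_act {g : Mat F} (hg : g.det ≠ 0) (w : HH F) (v : Pl F) :
    Real.exp (lF (act g w) v) = ‖em g.det v‖ / QF w v (row2 g) := by
  have h := R17.hy_actC (det_map_ne hg v) (w v)
  rw [det_map_σ] at h
  exact h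

theorem QF_smul_SL (g : SL F) (w : HH F) (v : Pl F) (u : F × F) :
    QF (g • w) v u = QF w v (rmul u g) := by
  rw [smul_def, QF_act (det_ne g), g.det_coe]
  simp

theorem Qv_smul_SL (g : SL F) (v : Pl F → ℝ) (w : HH F) (u : F × F) :
    Qv v (g • w) u = Qv v w (rmul u g) := by
  simp only [Qv_eq, QF_smul_SL]

theorem exp_lF_smul (g : SL F) (w : HH F) (v : Pl F) :
    Real.exp (lF (g • w) v) = (QF w v (row2 (g : Mat F)))⁻¹ := by
  rw [smul_def, exp_lF_act (det_ne g), g.det_coe]
  simp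

theorem QF_row2 (g : SL F) (w : HH F) (v : Pl F) :
    QF w v (row2 (g : Mat F)) = Real.exp (-lF (g • w) v) := by
  rw [Real.exp_neg, exp_lF_smul, inv_inv]

theorem nT_smul_pt (t : F) (z : Pl F → ℂ) (l : Pl F → ℝ) : nT t • pt z l = pt (z + em t) l := by
  refine (act_upper one_ne_zero one_ne_zero t z l).trans ?_
  congr 1 <;> funext v <;> simp

theorem nT_smul (t : F) (w : HH F) : nT t • w = pt (zF w + em t) (lF w) := nT_smul_pt t _ _

theorem zF_nT_smul (t : F) (w : HH F) : zF (nT t • w) = zF w + em t := by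
  rw [nT_smul, zF_pt]

theorem lF_nT_smul (t : F) (w : HH F) : lF (nT t • w) = lF w := by
  rw [nT_smul, lF_pt]

/-! ### norm and trace -/

theorem isComplex (v : Pl F) : v.IsComplex := (Emb.tc (F := F)).isComplex v

theorem mult_eq (v : Pl F) : v.mult = 2 := (isComplex v).mult_eq_two

theorem nF_eq (x : F) : nF x = |((Algebra.norm ℚ x : ℚ) : ℝ)| := by
  rw [← Rat.cast_abs, ← InfinitePlace.prod_eq_abs_norm]
  simp only [mult_eq, nF, norm_em]

theorem two_mul_card : 2 * Fintype.card (Pl F) = Module.finrank ℚ F := by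
  rw [← InfinitePlace.sum_mult_eq]
  simp [mult_eq, mul_comm]

theorem nF_nonneg (x : F) : 0 ≤ nF x := Finset.prod_nonneg fun _ _ => sq_nonneg _

theorem nF_pos {x : F} (hx : x ≠ 0) : 0 < nF x :=
  Finset.prod_pos fun v _ => pow_pos (norm_em_pos hx v) 2

theorem nF_mul (x y : F) : nF (x * y) = nF x * nF y := by
  simp only [nF, em_mul, Pi.mul_apply, norm_mul, mul_pow, Finset.prod_mul_distrib]

theorem nF_natCast (M : ℕ) : nF (M : F) = (M : ℝ) ^ Module.finrank ℚ F := by
  simp only [nF, norm_em_natCast, Finset.prod_const, Finset.card_univ, ← pow_mul, two_mul_card]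

theorem exp_sum_lg {x : F} (hx : x ≠ 0) : Real.exp (∑ j, lg x j) = nF x := by
  simp only [Real.exp_sum, exp_lg hx, nF]

/-- A non-zero algebraic integer has norm at least one. -/
theorem one_le_nF {x : F} (h0 : x ≠ 0) (hx : IsIntegral ℤ x) : 1 ≤ nF x := by
  rw [nF_eq]
  obtain ⟨a, rfl⟩ : ∃ a : 𝓞 F, (a : F) = x := ⟨⟨x, hx⟩, rfl⟩
  have h := Algebra.coe_norm_int a
  have h1 : Algebra.norm ℤ a ≠ 0 := by
    rw [Algebra.norm_ne_zero_iff]
    rintro rfl
    exact h0 rfl
  have h2 : (1 : ℤ) ≤ |Algebra.norm ℤ a| := Int.one_le_abs h1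
  have h3 : Algebra.norm ℚ (a : F) = (Algebra.norm ℤ a : ℤ) := h.symm
  rw [h3]
  exact_mod_cast h2

theorem one_le_mul_nF {M : ℕ} (hM : M ≠ 0) {x : F} (h0 : x ≠ 0) (hx : Den M x) :
    1 ≤ (M : ℝ) ^ Module.finrank ℚ F * nF x := by
  rw [← nF_natCast, ← nF_mul]
  exact one_le_nF (mul_ne_zero (Nat.cast_ne_zero.2 hM) h0) hx

/-- Sums over all complex embeddings in terms of the chosen ones. -/
theorem sum_embeddings (f : (F →+* ℂ) → ℂ) :
    ∑ φ : F →+* ℂ, f φ = ∑ v : Pl F, (f (σ v) + f (ComplexEmbedding.conjugate (σ v))) := by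
  classical
  rw [← Finset.sum_fiberwise Finset.univ (fun φ => InfinitePlace.mk φ)]
  refine Finset.sum_congr rfl fun v _ => ?_
  have hne : σ v ≠ ComplexEmbedding.conjugate (σ v) := fun h =>
    InfinitePlace.not_isReal_of_mk_isComplex (φ := σ v) ((Emb.mk_σ v).symm ▸ isComplex v)
      (ComplexEmbedding.isReal_iff.2 h.symm)
  rw [← Finset.sum_pair hne]
  refine Finset.sum_congr ?_ fun _ _ => rfl
  ext φ
  simp only [Finset.mem_filter, Finset.mem_univ, true_and, Finset.mem_insert, Finset.mem_singleton]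
  conv_lhs => rw [← Emb.mk_σ v, eq_comm, InfinitePlace.mk_eq_iff]
  exact or_congr eq_comm eq_comm

theorem trace_eq_sum (x : F) : ((Algebra.trace ℚ F x : ℚ) : ℝ) = 2 * ∑ v : Pl F, (em x v).re := by
  have h := trace_eq_sum_embeddings ℂ (K := ℚ) (L := F) (x := x)
  rw [← (RingHom.equivRatAlgHom F ℂ).sum_comp] at h
  have h2 := sum_embeddings (F := F) fun φ => φ x
  apply Complex.ofReal_injective
  rw [Complex.ofReal_ratCast, Finset.mul_sum, Complex.ofReal_sum]
  refine Eq.trans h (Eq.trans h2 (Finset.sum_congr rfl fun v _ => ?_))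
  rw [ComplexEmbedding.conjugate_coe_eq, Complex.add_conj, em_apply]

theorem eF_eq (x : F) :
    eF x = Complex.exp (2 * Real.pi * Complex.I * ((Algebra.trace ℚ F x : ℚ) : ℂ)) := by
  rw [eF, eV, ← Complex.ofReal_ratCast, trace_eq_sum]
  congr 1
  push_cast
  ring

theorem eF_of_isIntegral {x : F} (hx : IsIntegral ℤ x) : eF x = 1 := by
  have h : Algebra.trace ℚ F x = (Algebra.trace ℤ (𝓞 F) ⟨x, hx⟩ : ℤ) :=
    (Algebra.coe_trace_int (⟨x, hx⟩ : 𝓞 F)).symm
  rw [eF_eq, h, Rat.cast_intCast, mul_comm, Complex.exp_int_mul_two_pi_mul_I]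

theorem eF_add (x y : F) : eF (x + y) = eF x * eF y := by rw [eF, em_add, eV_add, eF, eF]

theorem norm_eF (x : F) : ‖eF x‖ = 1 := norm_eV _

/-! ### existence of `Emb F` when `ω ∈ F` -/

omit [Emb F] in
/-- If `ω ∈ F` there is an `Emb F` with `σ_v ω = ζ` for a prescribed primitive cube root of unity. -/
theorem exists_Emb {ω : F} (hω : ω ^ 2 + ω + 1 = 0) {ζ : ℂ} (hζ : ζ ^ 2 + ζ + 1 = 0) :
    ∃ _ : Emb F, ∀ v, σ v ω = ζ := by
  have key : ∀ t : ℂ, t ^ 2 + t + 1 = 0 → conj t = -1 - t ∧ conj t ≠ t := by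
    intro t ht
    have h1 := congrArg Complex.re ht
    have h2 := congrArg Complex.im ht
    simp only [sq, Complex.add_re, Complex.mul_re, Complex.one_re, Complex.zero_re, Complex.add_im,
      Complex.mul_im, Complex.one_im, Complex.zero_im] at h1 h2
    have h3 : t.im ≠ 0 := fun h => by rw [h] at h1; nlinarith [sq_nonneg (2 * t.re + 1)]
    have h4 : 2 * t.re + 1 = 0 := by
      apply mul_left_cancel₀ h3
      linarith
    refine ⟨Complex.ext ?_ ?_, fun h => h3 (Complex.conj_eq_iff_im.1 h)⟩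
    · simp; linarith
    · simp
  have hφ : ∀ φ : F →+* ℂ, φ ω ^ 2 + φ ω + 1 = 0 := fun φ => by
    simpa using congrArg φ hω
  have h : ∀ v : Pl F, ∃ φ : F →+* ℂ, InfinitePlace.mk φ = v ∧ φ ω = ζ := fun v => by
    by_cases h : v.embedding ω = ζ
    · exact ⟨_, v.mk_embedding, h⟩
    · refine ⟨ComplexEmbedding.conjugate v.embedding, by
        rw [InfinitePlace.mk_conjugate_eq, v.mk_embedding], ?_⟩
      rw [ComplexEmbedding.conjugate_coe_eq, (key _ (hφ _)).1]
      have : (v.embedding ω - ζ) * (-1 - v.embedding ω - ζ) = 0 := by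
        linear_combination hζ - hφ v.embedding
      exact sub_eq_zero.1 ((mul_eq_zero.1 this).resolve_left (sub_ne_zero.2 h))
  choose φ h1 h2 using h
  refine ⟨⟨φ, h1, ⟨fun v => ⟨φ v, fun hr => (key _ (hφ (φ v))).2 ?_, h1 v⟩⟩⟩, h2⟩
  exact RingHom.congr_fun (ComplexEmbedding.isReal_iff.1 hr) ω

end Crest.Agent.T27.TH.G
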