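import Crest.Agent.T27.LnkSy_60
import Crest.Agent.T27.LnkT_60
import Crest.Agent.T27.LnkB_61
import Crest.Agent.T27.Mdl_77
import Crest.Agent.T27.SarCnt_21
import Crest.Agent.T27.SarF_95
import Crest.Agent.T27.ThB_54
import Crest.Agent.T27.ThG1_80

/-!
# Row 27: the instance `TH.Ar F` for `R = RS F N`, and its dictionary with a model frame (helper60)
-/

set_option autoImplicit false
set_option linter.unusedSectionVars false

noncomputable section

open NumberField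
open scoped ComplexConjugate

namespace Crest.Agent.T27

open Rc

/-- Transport of the symbol `zs` along a ring isomorphism of principal ideal domains. -/
theorem zs_equiv60 {S S' : Type*} [CommRing S] [CommRing S'] [IsDomain S] [IsDomain S']
    [IsPrincipalIdealRing S] (e : S ≃+* S') {ζ : S} (hζ : ζ ^ 2 - ζ + 1 = 0) (h6 : IsUnit (6 : S))
    (hfin : ∀ b : S, b ≠ 0 → Finite (S ⧸ Ideal.span {b})) (a : S) {b : S} (hb : b ≠ 0)
    (hab : IsCoprime a b) : zs (e ζ) (e a) (e b) = zs ζ a b := by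
  have hζ' : e ζ ^ 2 - e ζ + 1 = 0 := by simpa using congrArg e hζ
  have h6' : IsUnit (6 : S') := by simpa only [map_ofNat] using h6.map e
  have q : ∀ c : S, (S ⧸ Ideal.span {c}) ≃+* (S' ⧸ Ideal.span {e c}) := fun c =>
    Ideal.quotientEquiv _ _ e (by simp [Ideal.map_span])
  induction b using UniqueFactorizationMonoid.induction_on_prime with
  | h₁ => exact absurd rfl hb
  | h₂ x hx => rw [zs_unit _ _ hx, zs_unit _ _ (hx.map e)]
  | h₃ c p hc hp ih =>
    have f1 := hfin _ hb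
    have f2 : Finite (S' ⧸ Ideal.span {e p * e c}) := by
      rw [← map_mul]; exact Finite.of_equiv _ (q _).toEquiv
    have f3 := hfin _ hp.ne_zero
    have f4 : Finite (S' ⧸ Ideal.span {e p}) := Finite.of_equiv _ (q _).toEquiv
    have hp' : Prime (e p) := (MulEquiv.prime_iff e).2 hp
    have hab' : IsCoprime (e a) (e p * e c) := by rw [← map_mul]; exact hab.map (e : S →+* S')
    rw [map_mul, zs_mul_right hζ h6 hp.ne_zero hab, zs_mul_right hζ' h6' hp'.ne_zero hab',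
      ih hc hab.of_mul_right_right]
    congr 1
    have hnd : ¬ p ∣ a := fun h => hp.not_isUnit (hab.of_mul_right_left.isUnit_of_dvd' h dvd_rfl)
    have h1 := zs_prime hζ h6 hp hnd
    have h2 := zs_prime hζ' h6' hp' (a := e a) fun h => hnd ((map_dvd_iff e).1 h)
    rw [← Nat.card_congr (q p).toEquiv] at h2
    have h3 := (map_dvd_iff e).2 h1
    rw [map_sub, map_pow, map_pow] at h3
    refine val_inj hζ' h6' hp'.not_isUnit ?_
    have h4 := dvd_sub h3 h2
    rwa [sub_sub_sub_cancel_left] at h4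

theorem w3_eq_conj (k : ZMod 6) : w3 k = conj (e6 k ^ 2) := by
  rw [map_pow, ← e6_neg, ← e6_nsmul, w3, e6]
  congr 1
  revert k; decide

variable {F : Type} [Field F] [NumberField F] [TH.Emb F] {N : ℕ} [hG : SGood F N]

/-- Existence of a transversal of `Rˣ / (Rˣ)³`. -/
def EStmt (F : Type) [Field F] (N : ℕ) : Prop :=
  ∃ E : Finset F, (∀ η ∈ E, η ≠ 0 ∧ η ∈ RS F N ∧ η⁻¹ ∈ RS F N) ∧
    ∀ u : F, u ≠ 0 → u ∈ RS F N → u⁻¹ ∈ RS F N →
      ∃! η, η ∈ E ∧ ∃ v : F, v ≠ 0 ∧ v ∈ RS F N ∧ v⁻¹ ∈ RS F N ∧ u = η * v ^ 3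

/-- Finiteness of `Fˣ / (Rˣ P_J)`. -/
def FinClStmt (F : Type) [Field F] (N : ℕ) : Prop :=
  ∀ J : ℕ, ∃ T : Finset F, (∀ t ∈ T, t ≠ 0) ∧ ∀ x : F, x ≠ 0 → ∃ t ∈ T, ∃ u : F,
    u ≠ 0 ∧ u ∈ RS F N ∧ u⁻¹ ∈ RS F N ∧ ∃ y ∈ LS F N, x = u * t * (1 + (N : F) ^ J * y)

/-- The arithmetic data of the theta function for `R = 𝓞_F[1/N]`. -/
@[reducible] def arOf60 {ζ : RS F N} (r : RecT F N ζ) (hE : EStmt F N) (hC : FinClStmt F N) :
    TH.Ar F where
  N := N
  two_le := SGood.one_lt F N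
  R := RS F N
  L := LS F N
  mem_R _ := mem_RS
  mem_L _ := mem_LS
  pidR := inferInstance
  pidL := inferInstance
  int_of _ := isIntegral_of_mem_RS_LS
  approx x _ hy := exists_add_mul hG.ne hy x
  unit_P _ hy := one_add_mul_LS hy
  pow_mem_L := exists_pow_mul_mem_LS hG.ne
  nm := nmQ (Submonoid.powers N)
  nm_mul := nmQ_mul (SGood.h0R F N)
  nm_pos _ hx := nmQ_pos (SGood.h0R F N) hx
  fin_quot _ hx := finite_quot_RS hx
  nm_eq x _ := nmQ_coe (SGood.h0R F N) x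
  nm_unitL x hx h1 h2 := by
    have h3 : absS N x = 1 := absS_of_mem_UL (x := Units.mk0 x hx) ⟨h1, h2⟩
    rw [nmQ_eq_absS, TH.G.nF_eq, h3, one_mul]
  count_nm := by
    obtain ⟨C, hC⟩ := count_real_21 F hG.ne
    refine ⟨C, fun X S hX h1 h2 => hC X S hX (fun x hx => ⟨(h1 x hx).1, ?_⟩) h2⟩
    have := (h1 x hx).2
    rwa [nmQ_coe (SGood.h0R F N)] at this
  E := hE.choose
  E_unit := hE.choose_spec.1
  E_rep := hE.choose_spec.2
  fin_cl := hC
  psi := psiS N
  psi_add := psiS_add hG.ne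
  psi_R _ hx := psiS_of_mem_RS hG.ne hx
  psi_L x hx := by rw [psiS_of_mem_LS hG.ne hx, TH.G.eF_eq, eTr]
  psi_prim _ h := mem_RS_of_psiS h
  sy := syS ζ
  sy_mul_left := r.sy_mul_left
  sy_mul_right := r.sy_mul_right
  sy_congr := r.sy_congr
  sy_unit := r.sy_unit
  sy_cube := r.sy_cube
  sy_zero _ _ _ h := syS_ncop ζ h
  sy_nontriv := r.sy_nontriv
  cc := ccS r.T
  cc_mul_left := r.cc_mul_left
  cc_mul_right := r.cc_mul_right
  cc_cube _ _ _ _ := w3_cube _
  cc_swap := r.cc_swap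
  kc := 3
  one_le_kc := by norm_num
  cc_P := r.cc_P
  cc_eq := r.cc_eq

omit hG in
/-- The symbol of `arOf60` is the conjugate of the cubic symbol of a model frame. -/
theorem IsModel.syS_eq [Fr0] {J : ℕ} {j : O →+* F} (h : IsModel F N J j) (x : O) {n : O}
    (hn : n ≠ 0) : syS (h.equiv (1 + om)) (j x) (j n) = conj (cub n x) := by
  rw [← h.coe_equiv, ← h.coe_equiv]
  by_cases hc : IsCoprime x n
  · have hc' : IsCoprime (h.equiv x) (h.equiv n) := hc.map (h.equiv : O →+* RS F N)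
    rw [syS_cop _ hc', zs_equiv60 h.equiv zeta_eq Fr0.unit_six Fr0.fin_quot x hn hc, cub_eq_e6 hn hc, w3_eq_conj]
  · rw [(cub_eq_zero_iff' hn).2 fun e => hc e.symm, map_zero, syS_ncop]
    intro e
    simpa using hc (by simpa using e.map (h.equiv.symm : RS F N →+* O))

omit hG in
/-- **The instance `TH.Ar F` attached to a model frame, with its dictionary.** -/
theorem exists_ar60 (hR : RecStmt) [Fr0] {J : ℕ} {j : O →+* F} (h : IsModel F N J j)
    (hJ : 3 ≤ J) :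
    ∃ A : TH.Ar F, A.N = N ∧ A.R = RS F N ∧ A.L = LS F N ∧ A.kc = 3 ∧
      (∀ x n : O, n ≠ 0 → A.sy (j x) (j n) = conj (cub n x)) ∧
      (∀ x n : O, A.psi (j x / j n) = eq x n) ∧
      (∀ n : O, A.nm (j n) = nr n) ∧
      (∀ t ∈ Co F N J, ∀ y : F, y ≠ 0 → A.cc t y = 1) ∧
      (∀ x : F, TH.absS x = absS N x) := by
  have := h.good
  have hζ : h.equiv (1 + om) ^ 2 - h.equiv (1 + om) + 1 = 0 := by
    simpa using congrArg h.equiv zeta_eq
  obtain ⟨r⟩ := nonempty_RecT hR F N _ hζ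
  refine ⟨arOf60 r (exists_E_95 this.ne) fin_cl_95, rfl, rfl, rfl, rfl, fun x n hn => h.syS_eq x hn,
    fun x n => (h.eq_eq x n).symm, fun n => (h.nr_eq_nmQ n).symm, fun t ht y hy => ?_, fun x => ?_⟩
  · obtain ⟨s, p, hp, rfl⟩ := mem_Co.1 ht
    show w3 _ = 1
    rw [r.mem_ker.1 (r.ker.mul_mem (r.pow_six_mem_ker s) (r.PJ_le_ker hJ hp)) y hy, w3_zero]
  · show nmQ (Submonoid.powers N) x / TH.nF x = _
    by_cases hx : x = 0
    · rw [hx, nmQ_zero (SGood.h0R F N), zero_div, absS_zero]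
    · rw [nmQ_eq_absS, ← TH.G.nF_eq, mul_div_cancel_right₀ _ (TH.G.nF_pos hx).ne']

end Crest.Agent.T27
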