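import Crest.Agent.T27.LnkB_61
import Crest.Agent.T27.LnkT_60
import Crest.Agent.T27.Mdl_77

/-!
# Row 27: `RecAx` for the number-field model of the frame (helper61)
-/

set_option autoImplicit false
set_option linter.unusedSectionVars false

noncomputable section

open NumberField

namespace Crest.Agent.T27

open scoped ComplexConjugate
open Rc

/-- The Gauss–Zolotarev exponent is invariant under ring isomorphisms. -/
theorem zs_map_equiv {S S' : Type*} [CommRing S] [CommRing S'] (e : S ≃+* S') {ζ a b : S}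
    (hζ : ζ ^ 2 - ζ + 1 = 0) (h6 : IsUnit (6 : S)) [Finite (S ⧸ Ideal.span {b})]
    (h : IsCoprime a b) : zs (e ζ) (e a) (e b) = zs ζ a b := by
  classical
  let φ : (S ⧸ Ideal.span {b}) ≃+* (S' ⧸ Ideal.span {e b}) :=
    Ideal.quotientEquiv _ _ e (by simp [Ideal.map_span])
  have hφ : ∀ (c : S) (q : S ⧸ Ideal.span {b}), φ (c • q) = e c • φ q := by
    intro c q
    obtain ⟨x, rfl⟩ := Ideal.Quotient.mk_surjective q
    change Ideal.Quotient.mk _ (e (c * x)) = Ideal.Quotient.mk _ (e c * e x)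
    rw [map_mul e]
  have : Finite (S' ⧸ Ideal.span {e b}) := Finite.of_equiv _ φ.toEquiv
  cases nonempty_fintype (S ⧸ Ideal.span {b})
  cases nonempty_fintype (S' ⧸ Ideal.span {e b})
  have hζ' : e ζ ^ 2 - e ζ + 1 = 0 := by simpa using congrArg e hζ
  have h6' : IsUnit (6 : S') := by simpa [map_ofNat] using h6.map e
  have hs' := isSec_sec (Q := S' ⧸ Ideal.span {e b}) hζ' h6'
  have hs : IsSec ζ (S ⧸ Ideal.span {b}) fun q => sec (e ζ) _ (φ q) := fun q hq => by
    simp only [hφ]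
    exact hs' _ (by simpa using hq)
  have h' : IsCoprime (e a) (e b) := h.map (e : S →+* S')
  rw [zs, zs, zm_eq hζ' h6' (smul_inj_of_coprime h') hs',
    zm_eq hζ h6 (smul_inj_of_coprime h) hs]
  refine (Fintype.sum_equiv φ.toEquiv _ _ fun q => ?_).symm
  change (if sec (e ζ) _ (φ q) = 0 then (if q = 0 then 0 else sec (e ζ) _ (φ (a • q))) else 0) =
    if sec (e ζ) _ (φ q) = 0 then (if φ q = 0 then 0 else sec (e ζ) _ (e a • φ q)) else 0
  rw [hφ]
  simp only [EmbeddingLike.map_eq_zero_iff]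

namespace IsModel

variable [Fr0] {F : Type} [Field F] [NumberField F] {N J : ℕ} {j : O →+* F}
  (h : IsModel F N J j)

/-- The sixth root of unity `1 + ω` in `RS F N`. -/
def zeta : RS F N := h.equiv (1 + om)

theorem coe_zeta : (h.zeta : F) = 1 + j om := by
  rw [zeta, h.coe_equiv, map_add, map_one]

theorem zeta_sq : h.zeta ^ 2 - h.zeta + 1 = 0 := by
  have := congrArg h.equiv zeta_eq
  rwa [map_add, map_sub, map_pow, map_one, map_zero] at this

theorem zs_equiv {a n : O} (hn : n ≠ 0) (hc : IsCoprime a n) :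
    zs h.zeta (h.equiv a) (h.equiv n) = zs (1 + om) a n :=
  have := Fr0.fin_quot n hn
  zs_map_equiv h.equiv zeta_eq isUnit_six hc

theorem sym_eq {a n : O} (hn : n ≠ 0) (hc : IsCoprime a n) :
    sym n a = e6 (zs h.zeta (h.equiv a) (h.equiv n)) := by
  rw [h.zs_equiv hn hc, sym_eq_zs hn hc]

theorem cub_eq {a n : O} (hn : n ≠ 0) (hc : IsCoprime a n) :
    cub n a = e6 (zs h.zeta (h.equiv a) (h.equiv n)) ^ 2 := by
  rw [h.zs_equiv hn hc, cub_eq_e6 hn hc]

theorem nonempty_recT (hR : RecStmt) : Nonempty (RecT F N h.zeta) :=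
  have := h.good
  nonempty_RecT hR F N h.zeta h.zeta_sq

/-- `T` only depends on the class. -/
theorem T_congr (hJ : 3 ≤ J) (r : RecT F N h.zeta) {x x' : O} (hx : x ≠ 0) (e : cls x = cls x')
    {y : F} (hy : y ≠ 0) : r.T (j x) y = r.T (j x') y := by
  have := h.good
  obtain ⟨t, ht, e'⟩ := (h.cls_iff x x' hx (ne_zero_of_cls_eq e.symm hx)).1 e
  obtain ⟨s, p, hp, rfl⟩ := mem_Co.1 (Fi_le_Co ht)
  rw [e', r.mul_left _ _ _ (h.ne_zero hx) (Units.ne_zero _) hy,
    mul_mem (r.pow_six_mem_ker s) (r.PJ_le_ker hJ hp) y hy, add_zero]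

open Classical in
/-- Reciprocity in the model, with the explicit factor. -/
theorem recAx_of_recT (hJ : 3 ≤ J) (r : RecT F N h.zeta) :
    RecAx (fun m n => if m = 0 ∨ n = 0 then 0 else e6 (r.T (j n) (j m))) := by
  have := h.good
  refine recAx_of_T (fun x y => r.T (j x) (j y)) (fun x x' y hx hx' hy => ?_)
    (fun x y hx hy => r.anti _ _ (h.ne_zero hx) (h.ne_zero hy))
    (fun x x' y hx hy e => h.T_congr hJ r hx e (h.ne_zero hy)) (fun a b ha hb hc => ?_)
    (fun b hb => ?_)
  · rw [map_mul, r.mul_left _ _ _ (h.ne_zero hx) (h.ne_zero hx') (h.ne_zero hy)]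
  · rw [← h.zs_equiv hb hc, ← h.zs_equiv ha hc.symm]
    exact r.recip (h.equiv a) (h.equiv b) (by simpa using ha) (by simpa using hb) 
      (hc.map (h.equiv : O →+* RS F N))
  · rw [← h.zs_equiv hb isCoprime_one_left.neg_left, map_neg, map_one]
    exact r.self_eq (b := h.equiv b) (by simpa using hb)

end IsModel

/-- Leaf I-REC. -/
theorem recAx_model [Fr0] {F : Type} [Field F] [NumberField F] {N J : ℕ} {j : O →+* F}
    (hR : RecStmt) (h : IsModel F N J j) (hJ : 3 ≤ J) : ∃ R, RecAx R := by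
  obtain ⟨r⟩ := h.nonempty_recT hR
  exact ⟨_, h.recAx_of_recT hJ r⟩

end Crest.Agent.T27
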