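import Crest.Agent.T27.FourA_78

/-!
# Row 27, theta leaf A3, part 2 (helper78): the Fourier expansion of `thY ξ v`
-/

set_option autoImplicit false
set_option linter.unusedSectionVars false

noncomputable section

namespace Crest.Agent.T27.TH.Four78

open scoped ComplexConjugate ENNReal Topology
open MeasureTheory Filter NumberField

variable {F : Type} [Field F] [NumberField F] [Emb F]

theorem exp_lg {c : F} (hc : c ≠ 0) (j : Pl F) : Real.exp (lg c j) = ‖em c j‖ ^ 2 :=
  Real.exp_log (pow_pos (norm_pos_iff.2 (em_ne hc j)) 2)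

theorem Fk_nonneg (l b x : Pl F → ℝ) : 0 ≤ Fk l b x :=
  Finset.prod_nonneg fun _ _ => (mul_pos (Real.exp_pos _) (Real.exp_pos _)).le

theorem exp_Qv (v l : Pl F → ℝ) (z : Pl F → ℂ) (c d : F) :
    Real.exp (-Qv v (pt z l) (c, d)) =
      Real.exp (-∑ j, Real.exp (v j + l j) * ‖em c j‖ ^ 2) *
        gau (fun j => Real.exp (v j - l j)) (fun j => em c j * z j) d := by
  rw [gau, ← Real.exp_add, Qv, ← neg_add, ← Finset.sum_add_distrib]
  congr 2
  refine Finset.sum_congr rfl fun j _ => ?_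
  simp only [pt, R17.Qf, R17.hy, Real.exp_add, Real.exp_sub]
  have := Real.exp_pos (l j)
  field_simp
  ring

theorem Fk_eq (v l : Pl F → ℝ) {c : F} (hc : c ≠ 0) (r : F) :
    Real.exp (4 / 3 * ∑ j, v j) * (Real.exp (-∑ j, Real.exp (v j + l j) * ‖em c j‖ ^ 2) *
      gft (fun j => Real.exp (v j - l j)) (r / c)) =
      Real.exp ((∑ j, v j) / 3) * Fk l (bb r) (v + lg c) := by
  rw [show 4 / 3 * ∑ j, v j = (∑ j, v j) / 3 + ∑ j, v j by ring, Real.exp_add, mul_assoc]
  congr 1
  rw [← Finset.sum_neg_distrib, Real.exp_sum, Real.exp_sum, gft, Fk, ← Finset.prod_mul_distrib,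
    ← Finset.prod_mul_distrib]
  refine Finset.prod_congr rfl fun j _ => ?_
  have h1 := Real.exp_pos (l j)
  have h2 := Real.exp_pos (v j)
  have h3 : 0 < ‖em c j‖ := norm_pos_iff.2 (em_ne hc j)
  have e1 : -Real.exp (l j) * (Real.exp ((v + lg c) j) + bb r j * Real.exp (-(v + lg c) j)) =
      -(Real.exp (v j + l j) * ‖em c j‖ ^ 2) + -(bb (r / c) j / Real.exp (v j - l j)) := by
    simp only [Pi.add_apply, Real.exp_neg, Real.exp_add, Real.exp_sub, exp_lg hc, bb, em_div,
      norm_div]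
    field_simp
    ring
  rw [e1, Real.exp_add (-_), Real.exp_sub]
  field_simp

/-- The inner sum for a fixed `c ≠ 0`. -/
theorem inner_ne (hM : MeanStmt F) (hR : RowStmt F) {ξ : F × F → ℂ} (h : Adm ξ) (v l : Pl F → ℝ)
    (z : Pl F → ℂ) {c : F} (hc : c ≠ 0) :
    (Real.exp (4 / 3 * ∑ j, v j) : ℂ) * ∑' d : F, ξ (c, d) * (Real.exp (-Qv v (pt z l) (c, d)) : ℂ) =
      ∑' r : F, (kap F : ℂ) * ((Real.exp ((∑ j, v j) / 3) : ℂ) *
        (mf ξ r c * (Fk l (bb r) (v + lg c) : ℂ))) * eV (fun j => em r j * z j) := by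
  have H := (poisson_per hM (hR.per ξ h c hc) (a := fun j => Real.exp (v j - l j))
    (fun j => Real.exp_pos _) fun j => em c j * z j).2.tsum_eq
  simp only [exp_Qv, Complex.ofReal_mul, mul_left_comm (ξ _)]
  rw [tsum_mul_left, ← H, ← tsum_mul_left, ← tsum_mul_left,
    ← (Equiv.divRight₀ c hc).tsum_eq]
  refine tsum_congr fun r => ?_
  have e1 := congrArg (fun t : ℝ => (t : ℂ)) (Fk_eq v l hc r)
  simp only [Complex.ofReal_mul] at e1
  have e2 : mf ξ r c = mean fun d => ξ (c, d) * eF (r / c * d) := by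
    rw [mf, if_neg hc]
    simp only [div_mul_eq_mul_div]
  have e3 : (fun j => em (r / c) j * (em c j * z j)) = fun j => em r j * z j := by
    funext j
    rw [← mul_assoc, ← em_mul, div_mul_cancel₀ _ hc]
  simp only [Equiv.divRight₀_apply]
  rw [e3, e2, mul_left_comm (Real.exp ((∑ j, v j) / 3) : ℂ), ← e1]
  ring

theorem inner_zero (ξ : F × F → ℂ) (v l : Pl F → ℝ) (z : Pl F → ℂ) :
    (Real.exp (4 / 3 * ∑ j, v j) : ℂ) * ∑' d : F, ξ (0, d) * (Real.exp (-Qv v (pt z l) (0, d)) : ℂ) =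
      E0 ξ v l := by
  simp only [E0, exp_Qv, gau, em_zero, norm_zero, zero_mul, zero_add]
  simp

/-- Lattice sums of functions which decay like `∏ min(1, |x_j|⁻⁴)`. -/
theorem summable_latt (hL : LatStmt F) {M : ℕ} (hM : M ≠ 0) {g : F → ℝ} (h0 : ∀ x, 0 ≤ g x)
    (hs : ∀ x, g x ≠ 0 → IsIntegral ℤ ((M : F) * x)) {C : ℝ}
    (hb : ∀ x, x ≠ 0 → g x ≤ C * ∏ j, min 1 ((‖em x j‖ ^ 4)⁻¹)) : Summable g := by
  classical
  obtain ⟨C', hC'⟩ := hL.lsum M hM 0 2 (by norm_num) (by norm_num)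
  refine summable_of_sum_le (c := g 0 + |C| * C') h0 fun S => ?_
  have h1 := hC' 0 (S.filter fun x => x ≠ 0 ∧ IsIntegral ℤ ((M : F) * x))
    fun x hx => (Finset.mem_filter.1 hx).2
  simp only [Pi.zero_apply, Finset.sum_const_zero, neg_zero, Real.exp_zero, mul_one, zero_mul,
    zero_add] at h1
  have h2 : ∀ x ∈ S, g x ≤ (if x = 0 then g 0 else 0) +
      |C| * if x ≠ 0 ∧ IsIntegral ℤ ((M : F) * x) then ∏ j, min 1 (Real.exp (-2 * lg x j))
        else 0 := by
    intro x _
    by_cases hx : x = 0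
    · subst hx
      simp
    · by_cases hg : g x = 0
      · rw [hg, if_neg hx, zero_add]
        refine mul_nonneg (abs_nonneg _) ?_
        split_ifs
        · exact Finset.prod_nonneg fun j _ => le_min zero_le_one (Real.exp_pos _).le
        · exact le_rfl
      · rw [if_neg hx, if_pos ⟨hx, hs x hg⟩, zero_add]
        have e : ∀ j, Real.exp (-2 * lg x j) = (‖em x j‖ ^ 4)⁻¹ := fun j => by
          rw [show -2 * lg x j = -(lg x j + lg x j) by ring, Real.exp_neg, Real.exp_add, exp_lg hx]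
          ring
        simp only [e]
        exact (hb x hx).trans (mul_le_mul_of_nonneg_right (le_abs_self C)
          (Finset.prod_nonneg fun j _ => le_min zero_le_one (by positivity)))
  refine (Finset.sum_le_sum h2).trans ?_
  rw [Finset.sum_add_distrib, ← Finset.mul_sum, ← Finset.sum_filter]
  refine add_le_add ?_ (mul_le_mul_of_nonneg_left ?_ (abs_nonneg C))
  · rw [Finset.sum_const, nsmul_eq_mul]
    refine mul_le_of_le_one_left (h0 0) ?_
    have : (S.filter fun x => x = 0).card ≤ 1 :=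
      Finset.card_le_one.2 fun a ha b hb =>
        (Finset.mem_filter.1 ha).2.trans (Finset.mem_filter.1 hb).2.symm
    exact_mod_cast this
  · rw [← Finset.sum_filter]
    exact h1

theorem exp_neg_le {y : ℝ} (hy : 0 < y) {ρ : ℝ} (hρ : 0 < ρ) :
    Real.exp (-(y * ρ)) ≤ (1 + 24 / y ^ 4) * min 1 (ρ ^ 4)⁻¹ := by
  have h1 : Real.exp (-(y * ρ)) ≤ 1 := Real.exp_le_one_iff.2 (by nlinarith [mul_pos hy hρ])
  have h2 : Real.exp (-(y * ρ)) ≤ 24 / y ^ 4 * (ρ ^ 4)⁻¹ := by
    have h := Real.pow_div_factorial_le_exp (y * ρ) (by positivity) 4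
    have h3 : ((Nat.factorial 4 : ℕ) : ℝ) = 24 := by norm_num [Nat.factorial]
    rw [h3] at h
    rw [Real.exp_neg]
    refine (inv_anti₀ (by positivity) h).trans (le_of_eq ?_)
    field_simp
  have h4 : 0 ≤ 24 / y ^ 4 := by positivity
  have h5 : 0 ≤ (ρ ^ 4)⁻¹ := by positivity
  rcases le_total 1 (ρ ^ 4)⁻¹ with h | h
  · rw [min_eq_left h]; linarith
  · rw [min_eq_right h]; nlinarith

open Classical in
theorem summable_exp (hL : LatStmt F) {M : ℕ} (hM : M ≠ 0) {y : Pl F → ℝ} (hy : ∀ j, 0 < y j) :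
    Summable fun x : F => if IsIntegral ℤ ((M : F) * x) then
      ∏ j, Real.exp (-(y j * ‖em x j‖)) else 0 := by
  refine summable_latt hL hM (C := ∏ j, (1 + 24 / y j ^ 4)) (fun x => ?_) (fun x hx => ?_)
    fun x hx => ?_
  · split_ifs
    · exact Finset.prod_nonneg fun j _ => (Real.exp_pos _).le
    · exact le_rfl
  · by_contra h
    exact hx (if_neg h)
  · rw [← Finset.prod_mul_distrib]
    have h1 := Finset.prod_le_prod (s := Finset.univ)
      (f := fun j => Real.exp (-(y j * ‖em x j‖))) (fun j _ => (Real.exp_pos _).le)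
      fun j _ => exp_neg_le (hy j) (norm_pos_iff.2 (em_ne hx j))
    split_ifs
    · exact h1
    · exact (Finset.prod_nonneg fun j _ => (Real.exp_pos _).le).trans h1

theorem Fk_le (v l : Pl F → ℝ) {c : F} (hc : c ≠ 0) (r : F) :
    Fk l (bb r) (v + lg c) ≤ (∏ j, Real.exp (l j) * Real.exp (Real.exp (v j + l j))) *
      ((∏ j, Real.exp (-(Real.exp (v j + l j) * ‖em c j‖))) *
        ∏ j, Real.exp (-(Real.exp (l j) * ‖em r j‖))) := by
  rw [Fk, ← Finset.prod_mul_distrib, ← Finset.prod_mul_distrib]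
  refine Finset.prod_le_prod (fun j _ => (mul_pos (Real.exp_pos _) (Real.exp_pos _)).le)
    fun j _ => ?_
  rw [mul_assoc]
  refine mul_le_mul_of_nonneg_left ?_ (Real.exp_pos _).le
  rw [← Real.exp_add, ← Real.exp_add]
  refine Real.exp_le_exp.2 ?_
  have h1 := Real.exp_pos (l j)
  have h2 := Real.exp_pos (v j)
  have h3 : 0 < ‖em c j‖ := norm_pos_iff.2 (em_ne hc j)
  have h4 : 0 ≤ ‖em r j‖ := norm_nonneg _
  simp only [Pi.add_apply, Real.exp_neg, Real.exp_add, exp_lg hc, bb]
  set y := Real.exp (l j)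
  set Y := Real.exp (v j)
  set s := ‖em c j‖
  set ρ := ‖em r j‖
  have hX : 0 < Y * s ^ 2 := by positivity
  have h5 : ρ ≤ Y * s ^ 2 / 2 + 4 * Real.pi ^ 2 * ρ ^ 2 * (Y * s ^ 2)⁻¹ := by
    have h6 : (1 : ℝ) ≤ Real.pi ^ 2 := by nlinarith [Real.pi_gt_three]
    have h7 : ρ ^ 2 / 2 * (Y * s ^ 2)⁻¹ ≤ 4 * Real.pi ^ 2 * ρ ^ 2 * (Y * s ^ 2)⁻¹ :=
      mul_le_mul_of_nonneg_right (by nlinarith [sq_nonneg ρ]) (by positivity)
    refine le_trans ?_ (add_le_add le_rfl h7)
    generalize Y * s ^ 2 = X at hX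
    have h8 : X / 2 + ρ ^ 2 / 2 * X⁻¹ - ρ = (X - ρ) ^ 2 / (2 * X) := by
      field_simp
      ring
    have h9 : 0 ≤ (X - ρ) ^ 2 / (2 * X) := by positivity
    linarith
  have h10 : s - 1 ≤ s ^ 2 / 2 := by nlinarith [sq_nonneg (s - 1)]
  have h11 : Y * y * (s - 1) ≤ Y * y * (s ^ 2 / 2) := mul_le_mul_of_nonneg_left h10 (by positivity)
  have h12 := mul_le_mul_of_nonneg_left h5 h1.le
  nlinarith

/-- Absolute convergence of the dual double series. -/
theorem summable_dual (hL : LatStmt F) (hR : RowStmt F) {ξ : F × F → ℂ} (h : Adm ξ)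
    (v l : Pl F → ℝ) :
    Summable fun p : F × F => ‖mf ξ p.2 p.1 * (Fk l (bb p.2) (v + lg p.1) : ℂ)‖ := by
  classical
  obtain ⟨M, B, hM, hB⟩ := hR.bddL ξ h
  have s1 := summable_exp hL hM (y := fun j => Real.exp (v j + l j)) fun j => Real.exp_pos _
  have s2 := summable_exp hL hM (y := fun j => Real.exp (l j)) fun j => Real.exp_pos _
  have n1 : ∀ (y : Pl F → ℝ) (x : F), 0 ≤ if IsIntegral ℤ ((M : F) * x) then
      ∏ j, Real.exp (-(y j * ‖em x j‖)) else 0 := fun y x => by
    split_ifs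
    · exact Finset.prod_nonneg fun j _ => (Real.exp_pos _).le
    · exact le_rfl
  have s3 := (s1.mul_of_nonneg s2 (n1 _) (n1 _)).mul_left
    (B * ∏ j, Real.exp (l j) * Real.exp (Real.exp (v j + l j)))
  have hB0 : 0 ≤ B := (norm_nonneg _).trans ((hB 0).1 0)
  have hP : 0 ≤ ∏ j, Real.exp (l j) * Real.exp (Real.exp (v j + l j)) :=
    Finset.prod_nonneg fun j _ => (mul_pos (Real.exp_pos _) (Real.exp_pos _)).le
  refine s3.of_nonneg_of_le (fun _ => norm_nonneg _) fun p => ?_
  by_cases h0 : mf ξ p.2 p.1 = 0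
  · rw [h0, zero_mul, norm_zero]
    exact mul_nonneg (mul_nonneg hB0 hP) (mul_nonneg (n1 _ _) (n1 _ _))
  · obtain ⟨h1, h2, h3⟩ := (hB p.2).2 p.1 h0
    rw [if_pos h2, if_pos h3, norm_mul, Complex.norm_real, Real.norm_of_nonneg (Fk_nonneg _ _ _),
      mul_assoc]
    exact mul_le_mul ((hB p.2).1 p.1) (Fk_le v l h1 p.2) (Fk_nonneg _ _ _) hB0

theorem summable_rows (hG : GeomStmt F) {ξ : F × F → ℂ} (h : Adm ξ) (v : Pl F → ℝ) (w : HH F) :
    Summable fun u : F × F => ξ u * (Real.exp (-Qv v w u) : ℂ) := by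
  obtain ⟨B, hB⟩ := h.bdd
  obtain ⟨M, hM, hS⟩ := h.supp
  refine Summable.of_norm_bounded ((hG.summ M v w hM).mul_left B) fun u => ?_
  have hB0 : 0 ≤ B := (norm_nonneg _).trans (hB u)
  by_cases h0 : ξ u = 0
  · rw [h0, zero_mul, norm_zero]
    exact mul_nonneg hB0 (Set.indicator_nonneg (fun _ _ => (Real.exp_pos _).le) _)
  · rw [Set.indicator_of_mem (show u ∈ {u : F × F | IsIntegral ℤ ((M : F) * u.1) ∧
      IsIntegral ℤ ((M : F) * u.2)} from ⟨(hS u h0).1, (hS u h0).2.1⟩), norm_mul,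
      Complex.norm_real, Real.norm_of_nonneg (Real.exp_pos _).le]
    exact mul_le_mul_of_nonneg_right (hB u) (Real.exp_pos _).le

theorem measurable_Acoef (κ : ℝ) (ξ : F × F → ℂ) (v : Pl F → ℝ) (r : F) :
    Measurable (Acoef κ ξ v r) := by
  have := countable F
  unfold Acoef
  refine Measurable.add ?_ (Measurable.const_mul ?_ _)
  · split_ifs
    · unfold E0
      refine Measurable.const_mul (Measurable.tsum fun d => ?_) _
      fun_prop
    · exact measurable_const
  · unfold Sk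
    refine Measurable.const_mul (Measurable.tsum fun c => ?_) _
    unfold Fk
    fun_prop

theorem thY_fourier (hL : LatStmt F) (hM : MeanStmt F) (hR : RowStmt F) (hG : GeomStmt F)
    {ξ : F × F → ℂ} (h : Adm ξ) (v l : Pl F → ℝ) :
    (Summable fun r => ‖Acoef (kap F) ξ v r l‖) ∧
      ∀ z, thY ξ v (pt z l) = ∑' r : F, Acoef (kap F) ξ v r l * eV (fun j => em r j * z j) := by
  classical
  set P : ℂ := (Real.exp ((∑ j, v j) / 3) : ℂ) with hP
  set T : F → F → ℂ := fun c r => (kap F : ℂ) * (P * (mf ξ r c * (Fk l (bb r) (v + lg c) : ℂ)))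
    with hT
  have hS : Summable fun p : F × F => T p.1 p.2 :=
    ((summable_dual hL hR h v l).of_norm.mul_left P).mul_left _
  set a : ℂ := E0 ξ v l with ha
  have hA : ∀ r, Acoef (kap F) ξ v r l = (if r = 0 then a else 0) + ∑' c : F, T c r := by
    intro r
    rw [Acoef, Sk, hT]
    simp only [tsum_mul_left]
    rfl
  have hite : ∀ b : ℂ, HasSum (fun r : F => if r = 0 then b else 0) b := fun b => hasSum_ite_eq 0 b
  constructor
  · simp only [hA]
    exact ((hite a).summable.add hS.prod_symm.prod).norm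
  · intro z
    have hS1 := summable_rows hG h v (pt z l)
    have hS2 : Summable fun p : F × F => T p.1 p.2 * eV (fun j => em p.2 j * z j) := by
      refine Summable.of_norm_bounded hS.norm fun p => ?_
      rw [norm_mul, norm_eV, mul_one]
    have hcomm := Summable.tsum_comm (f := fun c r : F => T c r * eV (fun j => em r j * z j)) hS2
    have inner : ∀ c : F, (Real.exp (4 / 3 * ∑ j, v j) : ℂ) *
        ∑' d : F, ξ (c, d) * (Real.exp (-Qv v (pt z l) (c, d)) : ℂ) =
        (if c = 0 then a else 0) + ∑' r : F, T c r * eV (fun j => em r j * z j) := by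
      intro c
      split_ifs with hc
      · subst hc
        rw [inner_zero]
        simp [hT, mf, ha]
      · rw [inner_ne hM hR h v l z hc, zero_add]
    rw [thY, hS1.tsum_prod, ← tsum_mul_left]
    simp only [inner, hA]
    rw [(hite a).summable.tsum_add hS2.prod, (hite a).tsum_eq, ← hcomm]
    have e1 : ∀ r : F, ((if r = 0 then a else 0) + ∑' c : F, T c r) * eV (fun j => em r j * z j) =
        (if r = 0 then a else 0) + ∑' c : F, T c r * eV (fun j => em r j * z j) := by
      intro r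
      rw [add_mul, tsum_mul_right]
      split_ifs with hr
      · subst hr
        simp only [em_zero, zero_mul, eV_zero, mul_one]
      · rw [zero_mul]
    simp only [e1]
    have hS3 : Summable fun r : F => ∑' c : F, T c r * eV (fun j => em r j * z j) :=
      hS2.prod_symm.prod
    rw [(hite a).summable.tsum_add hS3, (hite a).tsum_eq]

end Crest.Agent.T27.TH.Four78

namespace Crest.Agent.T27.TH

open Four78

/-- **Leaf A3.** -/
theorem fourier_78 (F : Type) [Field F] [NumberField F] [Emb F] (hL : LatStmt F) (hM : MeanStmt F)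
    (hR : RowStmt F) (hG : GeomStmt F) : FourierStmt F := by
  refine ⟨kap F, kap_pos F, fun ξ h => ?_⟩
  obtain ⟨M, B, hM0, hB⟩ := hR.bddL ξ h
  refine ⟨M, hM0, fun v => ⟨measurable_Acoef _ ξ v, fun r l hr => ?_,
    fun l => thY_fourier hL hM hR hG h v l⟩⟩
  by_cases h0 : r = 0
  · rw [h0, mul_zero]
    exact isIntegral_zero
  · by_contra hc
    refine hr ?_
    have e : ∀ c, mf ξ r c = 0 := fun c => by
      by_contra h1
      exact hc ((hB r).2 c h1).2.2
    simp [Acoef, h0, Sk, e]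

end Crest.Agent.T27.TH
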