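import Crest.Agent.T27.LamC_98

/-!
# Row 27, theta module B3 (part D): the density of the constant term (`LamStmt`)
-/

set_option autoImplicit false
set_option linter.unusedSectionVars false

noncomputable section

namespace Crest.Agent.T27.Lam98

open Filter Topology NumberField TH IsDedekindDomain

variable {F : Type} [Field F] [NumberField F] [Emb F]

theorem per_zero : Per (fun _ : F => (0 : ℂ)) :=
  ⟨1, one_ne_zero, fun _ _ _ => rfl, fun _ h => absurd rfl h⟩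

theorem mean_zero (hM : MeanStmt F) : mean (fun _ : F => (0 : ℂ)) = 0 := by
  simpa using (hM.smul 0 _ per_zero).2

theorem mean_sum (hM : MeanStmt F) {ι : Type} (s : Finset ι) (φ : ι → F → ℂ)
    (h : ∀ i ∈ s, Per (φ i)) :
    Per (fun x => ∑ i ∈ s, φ i x) ∧ mean (fun x => ∑ i ∈ s, φ i x) = ∑ i ∈ s, mean (φ i) := by
  classical
  induction s using Finset.induction_on with
  | empty => exact ⟨per_zero, by simpa using mean_zero hM⟩
  | insert i s hi ih =>
    obtain ⟨h1, h2⟩ := ih fun j hj => h j (Finset.mem_insert_of_mem hj)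
    simp only [Finset.sum_insert hi]
    have h3 := hM.add _ _ (h i (Finset.mem_insert_self _ _)) h1
    rw [h2] at h3
    exact h3

theorem eF_zero : eF (0 : F) = 1 := by simp [eF, eV, TH.em]

variable [Ar F]

/-- Restriction to a residue class of `R`. -/
def cosI (m b : F) (φ : F → ℂ) : F → ℂ := {x | (x - b) / m ∈ (Ar.R : Subring F)}.indicator φ

theorem div_mem_iff {c : RR F} (hc : c ≠ 0) (x : RR F) :
    (x : F) / c ∈ (Ar.R : Subring F) ↔ c ∣ x := by
  have hc0 : (c : F) ≠ 0 := fun e => hc (Subtype.ext e)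
  refine ⟨fun h => ⟨⟨_, h⟩, Subtype.ext ?_⟩, ?_⟩
  · change (x : F) = c * (x / c)
    field_simp
  · rintro ⟨y, rfl⟩
    rw [Subring.coe_mul, mul_div_cancel_left₀ _ hc0]
    exact y.2

theorem mem_of_div_mem {c : RR F} (hc : c ≠ 0) {x : F} (h : x / c ∈ (Ar.R : Subring F)) :
    x ∈ (Ar.R : Subring F) := by
  have hc0 : (c : F) ≠ 0 := fun e => hc (Subtype.ext e)
  have := mul_mem c.2 h
  rwa [mul_div_cancel₀ _ hc0] at this

open Classical in
theorem cosI_mem {c : RR F} (hc : c ≠ 0) (b x : RR F) (φ : F → ℂ) :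
    cosI (c : F) b φ x = if c ∣ x - b then φ x else 0 := by
  have h : (x : F) ∈ {x : F | (x - b) / c ∈ (Ar.R : Subring F)} ↔ c ∣ x - b := div_mem_iff hc (x - b)
  split_ifs with h1
  · exact Set.indicator_of_mem (h.2 h1) _
  · exact Set.indicator_of_notMem (fun h2 => h1 (h.1 h2)) _

theorem cosI_notMem {c : RR F} (hc : c ≠ 0) (b : RR F) {x : F} (hx : x ∉ (Ar.R : Subring F))
    (φ : F → ℂ) : cosI (c : F) b φ x = 0 := by
  refine Set.indicator_of_notMem (fun h2 => hx ?_) _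
  have h3 := add_mem (mem_of_div_mem hc h2) b.2
  rwa [sub_add_cancel] at h3

theorem mean_cosI (hI : IntStmt F) {φ : F → ℂ} {j : ℕ} (hφ : SB j φ) {c : RR F} (hc : c ≠ 0)
    (b : RR F) : Per (cosI (c : F) b φ) ∧
      mean (cosI (c : F) b φ) = ((Ar.nm (c : F))⁻¹ : ℝ) * intS φ :=
  hI.coset φ j c b hφ (fun e => hc (Subtype.ext e)) c.2 b.2

/-- Independence of the `S`-adic and of the residue conditions. -/
theorem indep (hM : MeanStmt F) (hI : IntStmt F) {φ : F → ℂ} {j : ℕ} (hφ : SB j φ) {c : RR F}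
    (hc : c ≠ 0) (h : RR F ⧸ Ideal.span {c} → ℂ) (ψ : F → ℂ)
    (h0 : ∀ x, x ∉ (Ar.R : Subring F) → ψ x = 0)
    (h1 : ∀ x : RR F, ψ x = φ x * h (Ideal.Quotient.mk _ x)) :
    mean ψ = ((Ar.nm (c : F))⁻¹ : ℝ) * intS φ * ∑ᶠ q, h q := by
  classical
  have := Ar.fin_quot c hc
  have := Fintype.ofFinite (RR F ⧸ Ideal.span {c})
  have e : ψ = fun x => ∑ q, h q * cosI (c : F) ((q.out : RR F) : F) φ x := by
    funext x
    by_cases hx : x ∈ (Ar.R : Subring F)
    · lift x to RR F using hx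
      rw [Finset.sum_eq_single (Ideal.Quotient.mk _ x)]
      · rw [h1, cosI_mem hc, if_pos, mul_comm]
        rw [← Ideal.mem_span_singleton, ← Ideal.Quotient.eq]
        exact (Quotient.out_eq _).symm
      · intro q _ hq
        rw [cosI_mem hc, if_neg, mul_zero]
        rw [← Ideal.mem_span_singleton, ← Ideal.Quotient.eq]
        exact fun h2 => hq ((Quotient.out_eq q).symm.trans h2.symm)
      · exact fun h => absurd (Finset.mem_univ _) h
    · rw [h0 x hx]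
      refine (Finset.sum_eq_zero fun q _ => ?_).symm
      rw [cosI_notMem hc _ hx, mul_zero]
  have hq := fun q : RR F ⧸ Ideal.span {c} => mean_cosI hI hφ hc q.out
  rw [e, (mean_sum hM _ _ fun q _ => (hM.smul (h q) _ (hq q).1).1).2, finsum_eq_sum_of_fintype,
    Finset.mul_sum]
  refine Finset.sum_congr rfl fun q _ => ?_
  rw [mul_comm, ← (hq q).2]
  exact (hM.smul (h q) _ (hq q).1).2

theorem eq_one_of_sq_cube {z : ℂ} (h2 : z * z = z) (h3 : z ^ 3 = 1) : z = 1 := by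
  have hz : z ≠ 0 := by rintro rfl; simp at h3
  exact mul_left_cancel₀ hz (by rw [h2, mul_one])

theorem sy_one {y : RR F} (hy : y ≠ 0) : Ar.sy (1 : F) y = 1 := by
  have hy0 : (y : F) ≠ 0 := fun e => hy (Subtype.ext e)
  refine eq_one_of_sq_cube ?_ (Ar.sy_cube 1 y hy isCoprime_one_left)
  rw [← Ar.sy_mul_left (1 : F) (one_mem _) 1 (one_mem _) y y.2 hy0, one_mul]

theorem sy_pow (x : RR F) {y : RR F} (hy : y ≠ 0) (k : ℕ) :
    Ar.sy (x : F) ((y : F) ^ k) = Ar.sy (x : F) y ^ k := by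
  have hy0 : (y : F) ≠ 0 := fun e => hy (Subtype.ext e)
  induction k with
  | zero =>
    rw [pow_zero, pow_zero]
    exact Ar.sy_unit _ x.2 1 (one_mem _) one_ne_zero (by simp)
  | succ k ih =>
    rw [pow_succ, Ar.sy_mul_right _ x.2 _ (pow_mem y.2 _) _ y.2 (pow_ne_zero _ hy0) hy0, ih,
      pow_succ]

theorem sy_congr' {c : RR F} (hc : c ≠ 0) {x y : RR F} (h : c ∣ x - y) :
    Ar.sy (x : F) c = Ar.sy (y : F) c := by
  obtain ⟨t, ht⟩ := h
  have : (x : F) = y + c * t := by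
    rw [sub_eq_iff_eq_add'.1 ht]; rfl
  rw [this]
  exact Ar.sy_congr _ y.2 _ c.2 _ t.2 fun e => hc (Subtype.ext e)

theorem sy_out {c : RR F} (hc : c ≠ 0) (x : RR F) :
    Ar.sy (((Ideal.Quotient.mk (Ideal.span {c}) x).out : RR F) : F) c = Ar.sy (x : F) c :=
  sy_congr' hc (Ideal.mem_span_singleton.1 (Ideal.Quotient.eq.1 (Quotient.out_eq _)))

/-- The complete character sum vanishes unless the modulus is a cube up to a unit. -/
theorem sum_sy_eq_zero {p y : RR F} {k : ℕ} (hp : Prime p) (hk : ¬ 3 ∣ k) (hy : ¬ p ∣ y) :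
    ∑ᶠ q : RR F ⧸ Ideal.span {p ^ k * y}, Ar.sy ((q.out : RR F) : F) (p ^ k * y : RR F) = 0 := by
  have hy0 : y ≠ 0 := by rintro rfl; exact hy (dvd_zero _)
  have hc : p ^ k * y ≠ 0 := mul_ne_zero (pow_ne_zero _ hp.ne_zero) hy0
  obtain ⟨x0, hx0, hx1⟩ := Ar.sy_nontriv p hp
  obtain ⟨a, b, hab⟩ : IsCoprime p y := hp.irreducible.coprime_iff_not_dvd.2 hy
  set u : RR F := x0 * (b * y) + a * p with hu
  have h1 : p ∣ u - x0 := ⟨a - x0 * a, by linear_combination x0 * hab⟩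
  have h2 : y ∣ u - 1 := ⟨x0 * b - b, by linear_combination hab⟩
  have h3 : IsCoprime u (p ^ k * y) := by
    refine IsCoprime.mul_right (IsCoprime.pow_right ?_) ?_
    · obtain ⟨t, ht⟩ := h1
      rw [sub_eq_iff_eq_add'.1 ht]
      exact hx0.add_mul_left_left t
    · obtain ⟨t, ht⟩ := h2
      rw [sub_eq_iff_eq_add'.1 ht]
      exact isCoprime_one_left.add_mul_left_left t
  have h4 : Ar.sy (u : F) (p ^ k * y : RR F) ≠ 1 := by
    rw [Subring.coe_mul, Subring.coe_pow, Ar.sy_mul_right _ u.2 _ (pow_mem p.2 _) _ y.2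
      (pow_ne_zero _ fun e => hp.ne_zero (Subtype.ext e)) (fun e => hy0 (Subtype.ext e)),
      sy_pow u hp.ne_zero, sy_congr' hp.ne_zero h1, sy_congr' hy0 h2, Subring.coe_one,
      sy_one hy0, mul_one]
    intro h
    have h5 := Ar.sy_cube x0 p hp.ne_zero hx0
    have h6 := pow_gcd_eq_one.2 ⟨h, h5⟩
    rw [Nat.Coprime.gcd_eq_one ((Nat.prime_three.coprime_iff_not_dvd.2 hk).symm), pow_one] at h6
    exact hx1 h6
  obtain ⟨s, t, hst⟩ := h3
  have hU : IsUnit (Ideal.Quotient.mk (Ideal.span {p ^ k * y}) u) := by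
    refine IsUnit.of_mul_eq_one (Ideal.Quotient.mk _ s) ?_
    rw [← map_mul, ← map_one (Ideal.Quotient.mk (Ideal.span {p ^ k * y})), Ideal.Quotient.eq,
      Ideal.mem_span_singleton]
    exact ⟨-t, by linear_combination hst⟩
  set S := ∑ᶠ q : RR F ⧸ Ideal.span {p ^ k * y},
    Ar.sy ((q.out : RR F) : F) (p ^ k * y : RR F) with hS
  have h7 : S = Ar.sy (u : F) (p ^ k * y : RR F) * S := by
    conv_lhs => rw [hS, ← finsum_comp_equiv hU.unit.mulLeft]
    rw [hS, mul_finsum]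
    refine finsum_congr fun q => ?_
    obtain ⟨x, rfl⟩ := Ideal.Quotient.mk_surjective q
    have e : hU.unit.mulLeft (Ideal.Quotient.mk _ x) = Ideal.Quotient.mk _ (u * x) := rfl
    rw [e, sy_out hc, sy_out hc, Subring.coe_mul _ u,
      Ar.sy_mul_left _ u.2 _ x.2 _ (p ^ k * y).2 fun e => hc (Subtype.ext e)]
  by_contra h8
  exact h4 (mul_right_cancel₀ h8 (by rw [← h7, one_mul]))

theorem cc_self {x : F} (hx : x ≠ 0) : Ar.cc x x = 1 := by
  have h2 := Ar.cc_swap x x hx hx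
  have h3 := Ar.cc_cube x x hx hx
  rw [pow_succ, sq, h2, one_mul] at h3
  exact h3

theorem fE_eq (f : F × F → ℂ) {η x : F} (hη : η ≠ 0) (hx : x ≠ 0) (d : F) :
    fE f η x d = f (η * x ^ 3, d) := by
  have h : η * x ^ 3 ≠ 0 := mul_ne_zero hη (pow_ne_zero _ hx)
  have h3 := Ar.cc_cube x η hx hη
  have h4 : Ar.cc (x ^ 3) η = 1 := by
    rw [pow_succ, sq, Ar.cc_mul_left _ _ _ (mul_ne_zero hx hx) hx hη,
      Ar.cc_mul_left _ _ _ hx hx hη, ← h3]
    ring
  rw [fE, XK, if_neg h, Ar.cc_mul_left _ _ _ hη (pow_ne_zero _ hx) hη, cc_self hη, h4]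
  simp

theorem xiF_of_notMem (f : F × F → ℂ) (c : F) {d : F} (hd : d ∉ (Ar.R : Subring F)) :
    xiF f (c, d) = 0 := if_neg fun h => hd h.2.1

theorem xiF_of_mem (f : F × F → ℂ) {c : RR F} (hc : c ≠ 0) (d : RR F) :
    xiF f (c, d) = f (c, d) * Ar.sy (d : F) c := by
  have hc0 : (c : F) ≠ 0 := fun e => hc (Subtype.ext e)
  unfold xiF
  split_ifs with h
  · rw [syR, if_neg hc0]
  · rw [Ar.sy_zero d c hc, mul_zero]
    rintro ⟨a, b, hab⟩
    refine h ⟨c.2, d.2, b, b.2, a, a.2, ?_⟩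
    rw [add_comm]
    exact congrArg Subtype.val hab

theorem mf_eq (f : F × F → ℂ) {c : F} (hc : c ≠ 0) :
    mf (xiF f) 0 c = mean fun d => xiF f (c, d) := by
  simp only [mf, if_neg hc, zero_mul, zero_div, eF_zero, mul_one]

/-- Only the cubes contribute. -/
theorem exists_of_mf_ne (hM : MeanStmt F) (hI : IntStmt F) {f : F × F → ℂ} (hf : Test f) {c : F}
    (h : mf (xiF f) 0 c ≠ 0) : ∃ η ∈ (Ar.E : Finset F), ∃ n ∈ (Ar.R : Subring F), n ≠ 0 ∧
      c = η * n ^ 3 := by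
  have hc0 : c ≠ 0 := by
    rintro rfl
    exact h (if_pos rfl)
  rw [mf_eq f hc0] at h
  have hcR : c ∈ (Ar.R : Subring F) := by
    by_contra hc
    refine h ?_
    rw [← mean_zero hM]
    congr 1
    funext d
    exact if_neg fun h => hc h.1
  lift c to RR F using hcR
  have hc : c ≠ 0 := fun e => hc0 (congrArg Subtype.val e)
  rcases cube_or hc with ⟨u, n, hu, hn, e⟩ | ⟨p, k, y, hp, hk, hy, e⟩
  · obtain ⟨u', hu'⟩ := hu.exists_right_inv
    have h1 : (u : F) * u' = 1 := congrArg Subtype.val hu'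
    obtain ⟨η, ⟨hη, v, hv0, hv, -, e2⟩, -⟩ := Ar.E_rep (u : F) (left_ne_zero_of_mul_eq_one h1) u.2
      (by rw [← eq_inv_of_mul_eq_one_right h1]; exact u'.2)
    refine ⟨η, hη, v * n, mul_mem hv n.2, mul_ne_zero hv0 fun e => hn (Subtype.ext e), ?_⟩
    rw [e, Subring.coe_mul, Subring.coe_pow, e2]
    ring
  · exfalso
    obtain ⟨J, hJ, -⟩ := hI.sb f hf c hc0
    refine h ?_
    rw [indep hM hI (hJ 1) hc (fun q => Ar.sy ((q.out : RR F) : F) c) _
      (fun x hx => xiF_of_notMem f c hx) fun x => ?_]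
    · subst e
      rw [sum_sy_eq_zero hp hk hy, mul_zero]
    · rw [xiF_of_mem f hc, sy_out hc, fE_eq f hc0 one_ne_zero, one_pow, mul_one]

open Classical in
/-- The value at a cube. -/
theorem mf_cube (hM : MeanStmt F) (hI : IntStmt F) {f : F × F → ℂ} {η : F}
    (hη : η ∈ (Ar.E : Finset F)) {J : ℕ} (hJ : ∀ x, SB J (fE f η x)) {n : RR F} (hn : n ≠ 0) :
    mf (xiF f) 0 (η * n ^ 3) =
      ∑ s ∈ (finite_gen hn).toFinset.powerset, (wS s : ℂ) * intS (fE f η n) := by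
  obtain ⟨h0, h1, h2⟩ := Ar.E_unit η hη
  have hn0 : (n : F) ≠ 0 := fun e => hn (Subtype.ext e)
  have hc0 : η * (n : F) ^ 3 ≠ 0 := mul_ne_zero h0 (pow_ne_zero _ hn0)
  have hq := fun s : Finset (HeightOneSpectrum (RR F)) => mean_cosI hI (hJ n) (dS_ne s) 0
  have e : (fun d => xiF f (η * n ^ 3, d)) = fun d => ∑ s ∈ (finite_gen hn).toFinset.powerset,
      (-1 : ℂ) ^ s.card * cosI ((dS s : RR F) : F) (0 : RR F) (fE f η (n : F)) d := by
    funext d
    by_cases hd : d ∈ (Ar.R : Subring F)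
    · lift d to RR F using hd
      have e1 : xiF f (η * n ^ 3, d) = f (η * n ^ 3, d) * Ar.sy (d : F) (η * n ^ 3) :=
        xiF_of_mem f (c := ⟨η, h1⟩ * n ^ 3) (fun e => hc0 (congrArg Subtype.val e)) d
      have e2 : Ar.sy (d : F) (η * (n : F) ^ 3) = if IsCoprime d n then 1 else 0 := by
        rw [Ar.sy_mul_right _ d.2 _ h1 _ (pow_mem n.2 _) h0 (pow_ne_zero _ hn0),
          Ar.sy_unit _ d.2 _ h1 h0 h2, one_mul, sy_pow d hn]
        split_ifs with h
        · exact Ar.sy_cube d n hn h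
        · rw [Ar.sy_zero d n hn h]; simp
      rw [e1, e2, ind_coprime hn, Finset.mul_sum]
      refine Finset.sum_congr rfl fun s _ => ?_
      rw [cosI_mem (dS_ne s), sub_zero, fE_eq f h0 hn0]
      split_ifs <;> simp [mul_comm]
    · rw [xiF_of_notMem f _ hd]
      refine (Finset.sum_eq_zero fun s _ => ?_).symm
      rw [cosI_notMem (dS_ne s) _ hd, mul_zero]
  rw [mf_eq f hc0, e, (mean_sum hM _ _ fun s _ => (hM.smul _ _ (hq s).1).1).2]
  refine Finset.sum_congr rfl fun s _ => ?_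
  refine (hM.smul _ _ (hq s).1).2.trans ?_
  rw [(hq s).2, wS]
  push_cast
  ring

theorem Dom.tsum {ι : Type} {ψ : ι → F → ℂ} {b : ι → ℝ} (hb : Summable b)
    (h : ∀ i, Dom (ψ i) (b i)) : Dom (fun x => ∑' i, ψ i x) (∑' i, b i) := by
  intro Z hZ
  have hP := PZ_pos hZ
  have hnn : ∀ i x, 0 ≤ ‖ψ i x‖ * ex6 Z x := fun i x => mul_nonneg (norm_nonneg _) (ex6_pos _ _).le
  have hle : ∀ i, ∑' x, ‖ψ i x‖ * ex6 Z x ≤ b i / PZ Z := fun i => by
    rw [le_div_iff₀ hP, mul_comm]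
    exact (h i Z hZ).2
  have hs1 : Summable fun i => ∑' x, ‖ψ i x‖ * ex6 Z x :=
    (hb.div_const (PZ Z)).of_nonneg_of_le (fun i => tsum_nonneg (hnn i)) hle
  have hs : Summable fun p : ι × F => ‖ψ p.1 p.2‖ * ex6 Z p.2 :=
    (summable_prod_of_nonneg fun p => hnn _ _).2 ⟨fun i => (h i Z hZ).1, hs1⟩
  have hs2 : Summable fun x => ∑' i, ‖ψ i x‖ * ex6 Z x := hs.prod_symm.prod
  have hx : ∀ x, ‖∑' i, ψ i x‖ * ex6 Z x ≤ ∑' i, ‖ψ i x‖ * ex6 Z x := fun x => by
    have h1 : Summable fun i => ‖ψ i x‖ * ex6 Z x := hs.prod_symm.prod_factor x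
    rw [tsum_mul_right]
    exact mul_le_mul_of_nonneg_right (norm_tsum_le_tsum_norm
      ((summable_mul_right_iff (ex6_pos Z x).ne').1 h1)) (ex6_pos _ _).le
  have hs3 : Summable fun x => ‖∑' i, ψ i x‖ * ex6 Z x :=
    hs2.of_nonneg_of_le (fun x => mul_nonneg (norm_nonneg _) (ex6_pos _ _).le) hx
  refine ⟨hs3, ?_⟩
  have h2 := hs3.tsum_le_tsum hx hs2
  rw [Summable.tsum_comm (f := fun i x => ‖ψ i x‖ * ex6 Z x) hs] at h2
  have h3 := h2.trans (hs1.tsum_le_tsum hle (hb.div_const _))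
  rwa [tsum_div_const, le_div_iff₀ hP, mul_comm] at h3

theorem TT_const_mul (a : ℂ) (ψ : F → ℂ) (Z : Pl F → ℝ) :
    TT (fun x => a * ψ x) Z = a * TT ψ Z := by
  simp only [TT, mul_assoc, tsum_mul_left]
  ring

/-- The coefficients along the cubes of the class `η`. -/
def aE (H : F → ℂ) (η : F) : F → ℂ := cut (indR fun x => H (η * x ^ 3))

theorem aE_mem (H : F → ℂ) (η : F) {x : F} (hx : x ∈ (Ar.R : Subring F)) (h0 : x ≠ 0) :
    aE H η x = H (η * x ^ 3) := by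
  rw [aE, cut, if_neg h0, indR, Set.indicator_of_mem hx]

theorem aE_ne {H : F → ℂ} {η x : F} (h : aE H η x ≠ 0) : x ∈ (Ar.R : Subring F) ∧ x ≠ 0 :=
  ⟨Set.mem_of_indicator_ne_zero (cut_ne h).2, (cut_ne h).1⟩

theorem eta_lim (hM : MeanStmt F) (hI : IntStmt F) {κ : ℝ} (hκ : ∀ ψ : F → ℂ, Per ψ →
      ∀ η : Pl F → ℝ, (∀ w, 0 < η w) →
      Tendsto (fun t : ℝ => TT (cut ψ) fun w => t * η w) (𝓝[>] 0) (𝓝 (κ * mean ψ)))
    {f : F × F → ℂ} (hf : Test f) {η : F} (hη : η ∈ (Ar.E : Finset F)) :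
    (∃ b, Dom (aE (mf (xiF f) 0) η) b) ∧ ∀ Z : Pl F → ℝ, (∀ w, 0 < Z w) →
      Tendsto (fun t : ℝ => TT (aE (mf (xiF f) 0) η) fun w => t * Z w) (𝓝[>] 0)
        (𝓝 (κ * cS F * intS fun x => intS fun d => fE f η x d)) := by
  classical
  obtain ⟨h0, -, -⟩ := Ar.E_unit η hη
  obtain ⟨J, hJ1, hJ2⟩ := hI.sb f hf η h0
  obtain ⟨j, -, ⟨B, hB⟩, -, -⟩ := hf
  obtain ⟨C, hC, HD⟩ := exists_dom (F := F)
  set G : F → ℂ := fun x => intS fun d => fE f η x d with hG
  have hGS : SB J G := by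
    refine ⟨fun x y hy => ?_, fun x hx => ?_⟩
    · simp only [hG]
      congr 1
      funext d
      exact (hJ2 d).1 x y hy
    · by_contra h
      refine hx ?_
      have e : indR (fun d => fE f η x d) = fun _ => 0 := by
        funext d
        exact Set.indicator_apply_eq_zero.2 fun _ => by_contra fun h1 => h ((hJ2 d).2 x h1)
      simp only [hG]
      rw [intS, e, mean_zero hM]
  have hB0 : 0 ≤ B := (norm_nonneg _).trans (hB 0)
  set B' : ℝ := B * ((Ar.N F ^ J : ℕ) : ℝ) ^ Module.finrank ℚ F with hB'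
  have hB'0 : 0 ≤ B' := by positivity
  have hGB : ∀ x, x ≠ 0 → ‖G x‖ ≤ B' := fun x hx => by
    refine hM.norm_le _ _ _ (pow_ne_zero _ (Nat.cast_ne_zero.1 (N_ne (F := F)))) (fun d => ?_)
      fun d hd => ?_
    · refine (norm_indicator_le_norm_self _ _).trans ?_
      rw [fE_eq f h0 hx]
      exact hB _
    · rw [Nat.cast_pow]
      exact Ar.int_of _ (mul_mem (pow_mem N_mem_R _) (Set.mem_of_indicator_ne_zero hd))
        ((hJ1 x).2 d fun h => hd (Set.indicator_apply_eq_zero.2 fun _ => h))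
  let ψ : Finset (HeightOneSpectrum (RR F)) → F → ℂ := fun s x =>
    (wS s : ℂ) * cut (cosI ((dS s : RR F) : F) (0 : RR F) G) x
  have hN : 0 < nN ((Ar.N F : F) ^ J) := nN_pos (pow_ne_zero _ N_ne)
  have hdom : ∀ s, Dom (ψ s) (B' * C * nN ((Ar.N F : F) ^ J) *
      ((Ar.nm ((dS s : RR F) : F))⁻¹ * (Ar.nm ((dS s : RR F) : F))⁻¹)) := fun s => by
    have h1 := nm_dS_pos s
    have h2 := HD {x | x ≠ 0 ∧ x / (dS s : RR F) ∈ (Ar.R : Subring F) ∧
      (Ar.N F : F) ^ J * x ∈ (Ar.L : Subring F)} _ (div_pos h1 hN)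
      (fun x hx => nN_ge (dS_ne s) J hx.1 hx.2.1 hx.2.2)
      (fun x hx y hy hxy => nN_ge (dS_ne s) J (sub_ne_zero.2 hxy)
        (by rw [sub_div]; exact sub_mem hx.2.1 hy.2.1)
        (by rw [mul_sub]; exact sub_mem hx.2.2 hy.2.2)) (ψ s)
      ((Ar.nm ((dS s : RR F) : F))⁻¹ * B') (fun x => by
        simp only [ψ]
        rw [norm_mul, Complex.norm_real, Real.norm_eq_abs, abs_wS]
        refine mul_le_mul_of_nonneg_left ?_ (inv_pos.2 h1).le
        unfold cut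
        split_ifs with hx
        · simpa using hB'0
        · exact (norm_indicator_le_norm_self _ _).trans (hGB x hx))
      (fun x hx => by
        obtain ⟨h3, h4⟩ := cut_ne (right_ne_zero_of_mul hx)
        refine ⟨h3, by simpa using Set.mem_of_indicator_ne_zero h4, hGS.2 x fun h => h4 ?_⟩
        exact Set.indicator_apply_eq_zero.2 fun _ => h)
    convert h2 using 1
    field_simp
  have hsum := (summable_wS (F := F)).mul_left (B' * C * nN ((Ar.N F : F) ^ J))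
  have e : aE (mf (xiF f) 0) η = fun x => ∑' s, ψ s x := by
    funext x
    by_cases hx0 : x = 0
    · simp [ψ, aE, cut, hx0]
    by_cases hx : x ∈ (Ar.R : Subring F)
    · rw [aE_mem _ _ hx hx0]
      lift x to RR F using hx
      have hn : x ≠ 0 := fun e => hx0 (congrArg Subtype.val e)
      have hmem : ∀ s, s ∈ (finite_gen hn).toFinset.powerset ↔ dS s ∣ x := fun s => by
        rw [dS_dvd_iff, Finset.mem_powerset]
        exact ⟨fun h v hv => (finite_gen hn).mem_toFinset.1 (h hv),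
          fun h v hv => (finite_gen hn).mem_toFinset.2 (h v hv)⟩
      rw [mf_cube hM hI hη hJ1 hn, tsum_eq_sum (s := (finite_gen hn).toFinset.powerset)]
      · refine Finset.sum_congr rfl fun s hs => ?_
        simp only [ψ]
        rw [cut, if_neg hx0, cosI_mem (dS_ne s), sub_zero, if_pos ((hmem s).1 hs)]
      · intro s hs
        simp only [ψ]
        rw [cut, if_neg hx0, cosI_mem (dS_ne s), sub_zero, if_neg fun h => hs ((hmem s).2 h),
          mul_zero]
    · simp only [ψ, cut, if_neg hx0, cosI_notMem (dS_ne _) _ hx, mul_zero, tsum_zero]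
      exact by_contra fun h => hx (aE_ne h).1
  rw [e]
  refine ⟨⟨_, Dom.tsum hsum hdom⟩, fun Z hZ => ?_⟩
  have h1 := tendsto_TT_tsum hsum hdom hZ
    (l := fun s => κ * ((wS s * (Ar.nm ((dS s : RR F) : F))⁻¹ : ℝ) : ℂ) * intS G) fun s => by
      simp only [ψ, TT_const_mul]
      have h2 := (hκ _ (mean_cosI hI hGS (dS_ne s) 0).1 Z hZ).const_mul (wS s : ℂ)
      rw [(mean_cosI hI hGS (dS_ne s) 0).2] at h2
      convert h2 using 2
      push_cast
      ring
  rwa [tsum_mul_right, tsum_mul_left, ← Complex.ofReal_tsum] at h1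

variable (F) in
/-- The number of cube roots of unity. -/
def m3 : ℕ := (Polynomial.nthRootsFinset 3 (1 : F)).card

theorem m3_pos : 0 < m3 F :=
  Finset.card_pos.2 ⟨1, (Polynomial.mem_nthRootsFinset (by norm_num) _).2 (one_pow _)⟩

/-- The cubes of the class `η`. -/
def DE (η : F) : Set F := {c | ∃ n ∈ (Ar.R : Subring F), n ≠ 0 ∧ c = η * n ^ 3}

theorem hasSum_fiber {H : F → ℂ} {η : F} (hη : η ≠ 0) {S : ℂ} (h : HasSum (aE H η) S) :
    HasSum (fun c => (m3 F : ℂ) * (DE η).indicator H c) S := by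
  classical
  have h' : HasSum (fun c : F => ∑' x : ((fun x : F => η * x ^ 3) ⁻¹' {c} : Set F), aE H η x) S :=
    h.tsum_fiberwise (fun x => η * x ^ 3)
  refine (congrArg (HasSum · S) (funext fun c => ?_)).mpr h'
  rw [tsum_subtype]
  by_cases hc : c ∈ DE η
  · rw [Set.indicator_of_mem hc]
    obtain ⟨n, hn, hn0, rfl⟩ := hc
    rw [tsum_eq_sum (s := (Polynomial.nthRootsFinset 3 (1 : F)).image (· * n)),
      Finset.sum_image fun a _ b _ h => mul_right_cancel₀ hn0 h, m3, ← nsmul_eq_mul,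
      ← Finset.sum_const]
    · refine Finset.sum_congr rfl fun ζ hζ => ?_
      have h1 : ζ ^ 3 = 1 := (Polynomial.mem_nthRootsFinset (by norm_num) _).1 hζ
      have h2 : η * (ζ * n) ^ 3 = η * n ^ 3 := by rw [mul_pow, h1, one_mul]
      have h3 : ζ ≠ 0 := by rintro rfl; simp at h1
      have h4 : IsIntegral ℤ ζ := IsIntegral.of_pow (by norm_num : 0 < 3) (h1 ▸ isIntegral_one)
      rw [Set.indicator_of_mem (by exact h2), aE_mem _ _ (mul_mem (mem_R_of_int h4) hn)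
        (mul_ne_zero h3 hn0), h2]
    · intro x hx
      refine Set.indicator_of_notMem (fun h1 => hx ?_) _
      have h2 : x ^ 3 = n ^ 3 := mul_left_cancel₀ hη h1
      refine Finset.mem_image.2 ⟨x / n, (Polynomial.mem_nthRootsFinset (by norm_num) _).2 ?_,
        div_mul_cancel₀ _ hn0⟩
      rw [div_pow, h2, div_self (pow_ne_zero _ hn0)]
  · rw [Set.indicator_of_notMem hc, mul_zero, eq_comm]
    convert tsum_zero with x
    refine Set.indicator_apply_eq_zero.2 fun h1 => by_contra fun h2 => hc ?_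
    exact ⟨x, (aE_ne h2).1, (aE_ne h2).2, Eq.symm h1⟩

theorem eq_of_mem_DE {η η' c : F} (hη : η ∈ (Ar.E : Finset F)) (hη' : η' ∈ (Ar.E : Finset F))
    (h : c ∈ DE η) (h' : c ∈ DE η') : η = η' := by
  obtain ⟨n, hn, hn0, e⟩ := h
  obtain ⟨n', hn', hn0', e'⟩ := h'
  have key : ∀ {a b x y : F}, a ∈ (Ar.E : Finset F) → b ∈ (Ar.E : Finset F) →
      x ∈ (Ar.R : Subring F) → y ∈ (Ar.R : Subring F) → y ≠ 0 → a * x ^ 3 = b * y ^ 3 →
      x / y ∈ (Ar.R : Subring F) := by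
    intro a b x y ha hb hx hy hy0 h
    obtain ⟨a0, -, a2⟩ := Ar.E_unit a ha
    obtain ⟨-, b1, -⟩ := Ar.E_unit b hb
    lift x to RR F using hx
    lift y to RR F using hy
    rw [div_mem_iff fun e => hy0 (congrArg Subtype.val e),
      ← IsIntegrallyClosed.pow_dvd_pow_iff (n := 3) (by norm_num)]
    refine ⟨⟨a⁻¹ * b, mul_mem a2 b1⟩, Subtype.ext ?_⟩
    change (x : F) ^ 3 = (y : F) ^ 3 * (a⁻¹ * b)
    field_simp
    linear_combination h
  obtain ⟨b0, b1, b2⟩ := Ar.E_unit η' hη'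
  refine (Ar.E_rep η' b0 b1 b2).unique ⟨hη, n / n', div_ne_zero hn0 hn0',
    key hη hη' hn hn' hn0' (e.symm.trans e'), ?_, ?_⟩
    ⟨hη', 1, one_ne_zero, one_mem _, by simp, by simp⟩
  · rw [inv_div]
    exact key hη' hη hn' hn hn0 (e'.symm.trans e)
  · field_simp
    linear_combination e - e'

/-- The shape attached to `v` and `η`. -/
def ZE (v : Pl F → ℝ) (η : F) : Pl F → ℝ := fun j => Real.exp (v j) * j η ^ 2

theorem ZE_pos (v : Pl F → ℝ) {η : F} (hη : η ≠ 0) (j : Pl F) : 0 < ZE v η j :=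
  mul_pos (Real.exp_pos _) (pow_pos (j.pos_iff.2 hη) _)

theorem k0_eq (v : Pl F → ℝ) {η x : F} (hη : η ≠ 0) (hx : x ≠ 0) :
    k0 (v + lg (η * x ^ 3)) = ex6 (ZE v η) x := by
  rw [k0, ex6]
  congr 2
  refine Finset.sum_congr rfl fun j _ => ?_
  rw [Pi.add_apply, Real.exp_add, lg, norm_em, Real.exp_log
    (pow_pos (j.pos_iff.2 (mul_ne_zero hη (pow_ne_zero _ hx))) _), map_mul, map_pow, ZE]
  ring

theorem PZ_ZE (v : Pl F → ℝ) {η : F} (hη : η ≠ 0) :
    Real.exp ((∑ j, v j) / 3) = nF η ^ (-(1 / 3) : ℝ) * PZ (ZE v η) := by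
  have h1 := nN_pos hη
  have e : ∏ j, ZE v η j = Real.exp (∑ j, v j) * nN η := by
    rw [Real.exp_sum, nN, ← Finset.prod_mul_distrib]
    rfl
  rw [PZ, e, Real.mul_rpow (Real.exp_pos _).le h1.le, nF_eq_nN, Real.rpow_neg h1.le,
    ← Real.exp_mul, mul_one_div]
  have := (Real.rpow_pos_of_pos h1 (1 / 3 : ℝ)).ne'
  field_simp

theorem Sk_eq {g : F → ℂ} (hg : ∀ c, g c ≠ 0 → ∃ η ∈ (Ar.E : Finset F), c ∈ DE η)
    (hd : ∀ η ∈ (Ar.E : Finset F), ∃ b, Dom (aE g η) b) (v : Pl F → ℝ) :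
    Sk g k0 v = (m3 F : ℂ)⁻¹ * ∑ η ∈ (Ar.E : Finset F),
      ((nF η ^ (-(1 / 3) : ℝ) : ℝ) : ℂ) * TT (aE g η) (ZE v η) := by
  have hm : (m3 F : ℂ) ≠ 0 := Nat.cast_ne_zero.2 m3_pos.ne'
  set H : F → ℂ := fun c => g c * (k0 (v + lg c) : ℂ) with hH
  have h1 : ∀ η ∈ (Ar.E : Finset F), HasSum (fun c => (m3 F : ℂ) * (DE η).indicator H c)
      (∑' x, aE g η x * (ex6 (ZE v η) x : ℂ)) := fun η hη => by
    obtain ⟨h0, -, -⟩ := Ar.E_unit η hη
    obtain ⟨b, hb⟩ := hd η hη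
    refine hasSum_fiber h0 ?_
    convert (hb.summable (ZE_pos v h0)).hasSum using 2 with x
    by_cases hx : x ∈ (Ar.R : Subring F) ∧ x ≠ 0
    · rw [aE_mem _ _ hx.1 hx.2, aE_mem _ _ hx.1 hx.2, ← k0_eq v h0 hx.2]
    · rw [show aE H η x = 0 from by_contra fun h => hx (aE_ne h),
        show aE g η x = 0 from by_contra fun h => hx (aE_ne h), zero_mul]
  have h2 := hasSum_sum h1
  have e : ∀ c, ∑ η ∈ (Ar.E : Finset F), (m3 F : ℂ) * (DE η).indicator H c = m3 F * H c := by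
    intro c
    rw [← Finset.mul_sum]
    congr 1
    by_cases hc : g c = 0
    · have : H c = 0 := by simp only [hH, hc, zero_mul]
      rw [this]
      exact Finset.sum_eq_zero fun η _ => Set.indicator_apply_eq_zero.2 fun _ => this
    · obtain ⟨η, hη, h⟩ := hg c hc
      rw [Finset.sum_eq_single η, Set.indicator_of_mem h]
      · exact fun η' hη' hne => Set.indicator_of_notMem
          (fun h' => hne (eq_of_mem_DE hη' hη h' h)) _
      · exact fun h => absurd hη h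
  simp only [e] at h2
  have h3 := h2.tsum_eq
  rw [tsum_mul_left] at h3
  rw [eq_inv_mul_iff_mul_eq₀ hm, Sk, mul_left_comm, h3, Finset.mul_sum]
  refine Finset.sum_congr rfl fun η hη => ?_
  rw [PZ_ZE v (Ar.E_unit η hη).1, TT]
  push_cast
  ring

end Crest.Agent.T27.Lam98

namespace Crest.Agent.T27.TH

open Filter Topology NumberField Lam98

/-- **Leaf B3**. -/
theorem lam_98 (F : Type) [Field F] [NumberField F] [Emb F] [Ar F] (hM : MeanStmt F)
    (hI : IntStmt F) (hk : 0 < Mo (k0 : (Pl F → ℝ) → ℝ)) : LamStmt F := by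
  obtain ⟨κ, hκ, H⟩ := mean_limit hM
  have hm : (0 : ℝ) < m3 F := Nat.cast_pos.2 m3_pos
  refine ⟨κ * cS F / (m3 F * Mo (k0 : (Pl F → ℝ) → ℝ)),
    div_pos (mul_pos hκ cS_pos) (mul_pos hm hk), fun f hf => ?_⟩
  have h1 := fun η (hη : η ∈ (Ar.E : Finset F)) => eta_lim hM hI H hf hη
  have h2 := Sk_eq (g := mf (xiF f) 0) (fun c hc => exists_of_mf_ne hM hI hf hc)
    fun η hη => (h1 η hη).1
  constructor
  · choose! b hb using fun η hη => (h1 η hη).1
    refine ⟨‖(m3 F : ℂ)⁻¹‖ * ∑ η ∈ (Ar.E : Finset F), ‖((nF η ^ (-(1 / 3) : ℝ) : ℝ) : ℂ)‖ * b η,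
      fun v => ?_⟩
    rw [h2, norm_mul]
    refine mul_le_mul_of_nonneg_left ((norm_sum_le _ _).trans (Finset.sum_le_sum fun η hη => ?_))
      (norm_nonneg _)
    rw [norm_mul]
    exact mul_le_mul_of_nonneg_left ((hb η hη).norm_le (ZE_pos v (Ar.E_unit η hη).1))
      (norm_nonneg _)
  · intro v
    have ht : Tendsto (fun s : ℝ => Real.exp (-s)) atTop (𝓝[>] 0) :=
      tendsto_nhdsWithin_iff.2 ⟨Real.tendsto_exp_neg_atTop_nhds_zero,
        Eventually.of_forall fun s => Real.exp_pos _⟩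
    have e : ∀ (s : ℝ) (η : F), ZE (ray v s) η = fun w => Real.exp (-s) * ZE v η w := by
      intro s η
      funext w
      rw [ZE, ZE, ray, sub_eq_neg_add, Real.exp_add, mul_assoc]
    simp only [h2, e]
    have h3 := (tendsto_finsetSum (Ar.E : Finset F) fun η hη =>
      (((h1 η hη).2 _ (ZE_pos v (Ar.E_unit η hη).1)).comp ht).const_mul
        ((nF η ^ (-(1 / 3) : ℝ) : ℝ) : ℂ)).const_mul (m3 F : ℂ)⁻¹
    refine (congrArg (fun z => Tendsto _ _ (𝓝 z)) ?_).mpr h3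
    have hk' : ((Mo (k0 : (Pl F → ℝ) → ℝ) : ℝ) : ℂ) ≠ 0 := by exact_mod_cast hk.ne'
    have e2 : ∑ η ∈ (Ar.E : Finset F), ((nF η ^ (-(1 / 3) : ℝ) : ℝ) : ℂ) *
        (κ * cS F * intS fun x => intS fun d => fE f η x d) = κ * cS F * LamF f := by
      rw [LamF, Finset.mul_sum]
      exact Finset.sum_congr rfl fun η _ => by ring
    rw [e2]
    push_cast
    field_simp

end Crest.Agent.T27.TH
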