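import Crest.Agent.T27.MainB_94
import Crest.Agent.T27.Cls_73

/-!
# Row 27, theta leaf C2 (helper94): the main formula
-/

set_option autoImplicit false

namespace Crest.Agent.T27.TH

theorem main_94 (F : Type) [Field F] [NumberField F] [Emb F] [Ar F] (hL : LatStmt F)
    (hM : MeanStmt F) (hT : ThetaStmt F) (hA : TauStmt F) (hO : OpStmt F) (hI : IntStmt F)
    (hC : CuspStmt F) (hH : HeckeStmt F) : MainStmt F where
  thF_spec := M94.thF_spec
  norm_gn := M94.norm_gn
  main := M94.main hO hC hA hH
  W_P := M94.W_P hO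
  W_supp := M94.W_supp hO hC hA
  W_le := M94.W_le hL hT hO hC hA
  cls := cls_73 hL hM hA hO hI hC (M94.main hO hC hA hH) (M94.W_P hO) (M94.W_supp hO hC hA)

end Crest.Agent.T27.TH
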