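import Crest.Agent.T27.ThA_54

/-!
# Row 27, leaf R: row functions (`RowStmt`)
-/

set_option autoImplicit false

noncomputable section

namespace Crest.Agent.T27.TH

open scoped ComplexConjugate ENNReal Topology
open MeasureTheory Filter NumberField

variable {F : Type} [Field F] [NumberField F] [Emb F]

namespace Row93

omit [Emb F] in
theorem exists_den (x : F) : ∃ D : ℕ, D ≠ 0 ∧ IsIntegral ℤ ((D : F) * x) := by
  have hx : IsAlgebraic ℤ x :=
    (IsFractionRing.isAlgebraic_iff ℤ ℚ F).2 (Algebra.IsAlgebraic.isAlgebraic x)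
  obtain ⟨m, s, hm, h⟩ := hx.exists_nsmul_eq (𝓞 F)
  refine ⟨m, hm, ?_⟩
  rw [← nsmul_eq_mul, h]
  exact s.isIntegral_coe

omit [NumberField F] [Emb F] in
theorem int_nat (n : ℕ) : IsIntegral ℤ (n : F) := by
  have : (n : F) = algebraMap ℤ F (n : ℤ) := by simp
  rw [this]; exact isIntegral_algebraMap

omit [NumberField F] [Emb F] in
theorem int_mul_left {M : ℕ} (K : ℕ) {x : F} (h : IsIntegral ℤ ((M : F) * x)) :
    IsIntegral ℤ (((K * M : ℕ) : F) * x) := by
  have : ((K * M : ℕ) : F) * x = (K : F) * ((M : F) * x) := by push_cast; ring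
  rw [this]; exact (int_nat K).mul h

omit [NumberField F] [Emb F] in
theorem int_mul_right {M : ℕ} (K : ℕ) {x : F} (h : IsIntegral ℤ ((M : F) * x)) :
    IsIntegral ℤ (((M * K : ℕ) : F) * x) := by
  rw [Nat.mul_comm]; exact int_mul_left K h

omit [Emb F] in
theorem exists_den_mat (g : Mat F) : ∃ D : ℕ, D ≠ 0 ∧ ∀ i j, IsIntegral ℤ ((D : F) * g i j) := by
  choose D hD hI using fun p : Fin 2 × Fin 2 => exists_den (g p.1 p.2)
  refine ⟨∏ p, D p, Finset.prod_ne_zero_iff.2 fun p _ => hD p, fun i j => ?_⟩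
  rw [← Finset.mul_prod_erase _ _ (Finset.mem_univ (i, j))]
  exact int_mul_right _ (hI (i, j))

theorem eF_add (x y : F) : eF (x + y) = eF x * eF y := by
  simp only [eF, eV, em, map_add, Complex.add_re, Finset.sum_add_distrib]
  rw [← Complex.exp_add]
  congr 1
  push_cast
  ring

theorem eF_zero : eF (0 : F) = 1 := by simp [eF, eV, em]

theorem norm_eF (x : F) : ‖eF x‖ = 1 := by
  have : (4 * Real.pi * Complex.I * ((∑ j, (em x j).re : ℝ) : ℂ) : ℂ) =
      ((4 * Real.pi * (∑ j, (em x j).re) : ℝ) : ℂ) * Complex.I := by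
    push_cast; ring
  rw [eF, eV, this, Complex.norm_exp_ofReal_mul_I]

omit [NumberField F] [Emb F] in
theorem mem_Stab {ξ : F × F → ℂ} {g : SL F} : g ∈ Stab ξ ↔ tr ξ (g : Mat F) = ξ := Iff.rfl

omit [NumberField F] [Emb F] in
theorem mem_Gam0 {g : SL F} : g ∈ Gam0 F ↔ ∀ i j, IsIntegral ℤ (g i j) := Iff.rfl

omit [NumberField F] [Emb F] in
theorem mem_latt {N : ℕ} {x : F} : x ∈ latt F N ↔ ∃ y : F, IsIntegral ℤ y ∧ x = N * y := Iff.rfl

omit [NumberField F] [Emb F] in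
theorem adm_add (ξ ξ' : F × F → ℂ) (h : Adm ξ) (h' : Adm ξ') : Adm (ξ + ξ') := by
  obtain ⟨B, hB⟩ := h.bdd
  obtain ⟨B', hB'⟩ := h'.bdd
  obtain ⟨M, hM, hs⟩ := h.supp
  obtain ⟨M', hM', hs'⟩ := h'.supp
  refine ⟨⟨B + B', fun u => (norm_add_le _ _).trans (add_le_add (hB u) (hB' u))⟩,
    ⟨M * M', mul_ne_zero hM hM', fun u hu => ?_⟩, ?_⟩
  · by_cases h0 : ξ u = 0
    · have h1 : ξ' u ≠ 0 := by
        intro h1; apply hu; simp [h0, h1]
      obtain ⟨h2, h3, a, b, ha, hb, hab⟩ := hs' u h1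
      refine ⟨int_mul_left _ h2, int_mul_left _ h3, M * a, M * b, (int_nat M).mul ha,
        (int_nat M).mul hb, ?_⟩
      push_cast
      rw [← hab]; ring
    · obtain ⟨h2, h3, a, b, ha, hb, hab⟩ := hs u h0
      refine ⟨int_mul_right _ h2, int_mul_right _ h3, M' * a, M' * b, (int_nat M').mul ha,
        (int_nat M').mul hb, ?_⟩
      push_cast
      rw [← hab]; ring
  · have h1 := Subgroup.relIndex_inf_ne_zero h.fin h'.fin
    intro h2
    refine h1 (Subgroup.relIndex_eq_zero_of_le_left ?_ h2)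
    intro g hg
    rw [mem_Stab]
    funext u
    have e1 := congrFun (mem_Stab.1 hg.1) u
    have e2 := congrFun (mem_Stab.1 hg.2) u
    simp only [tr, Pi.add_apply] at e1 e2 ⊢
    rw [e1, e2]

omit [NumberField F] [Emb F] in
theorem adm_smul (a : ℂ) (ξ : F × F → ℂ) (h : Adm ξ) : Adm (fun u => a * ξ u) := by
  obtain ⟨B, hB⟩ := h.bdd
  obtain ⟨M, hM, hs⟩ := h.supp
  refine ⟨⟨‖a‖ * B, fun u => ?_⟩, ⟨M, hM, fun u hu => hs u (right_ne_zero_of_mul hu)⟩, ?_⟩
  · rw [norm_mul]; exact mul_le_mul_of_nonneg_left (hB u) (norm_nonneg _)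
  · intro h2
    refine h.fin (Subgroup.relIndex_eq_zero_of_le_left ?_ h2)
    intro g hg
    rw [mem_Stab]
    funext u
    have e1 := congrFun (mem_Stab.1 hg) u
    simp only [tr] at e1 ⊢
    rw [e1]

omit [NumberField F] [Emb F] in
theorem latt_mul {N : ℕ} {x y : F} (hx : IsIntegral ℤ x) (hy : y ∈ latt F N) :
    x * y ∈ latt F N := by
  obtain ⟨z, hz, rfl⟩ := hy
  exact ⟨x * z, hx.mul hz, by ring⟩

theorem cong (hM : MeanStmt F) (N : ℕ) (Δ : Subgroup (SL F)) (hN : N ≠ 0)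
    (h : ∀ g ∈ Gam0 F, (∀ i j, g i j - (1 : Mat F) i j ∈ latt F N) → g ∈ Δ) :
    Δ.relIndex (Gam0 F) ≠ 0 := by
  obtain ⟨S, -, -, -, hS⟩ := hM.reps N hN
  have hex : ∀ (g : Gam0 F) (p : Fin 2 × Fin 2), ∃ y : S, (g : SL F) p.1 p.2 - y ∈ latt F N := by
    intro g p
    obtain ⟨y, hy, hy'⟩ := hS ((g : SL F) p.1 p.2) ((int_nat N).mul (g.2 p.1 p.2))
    exact ⟨⟨y, hy⟩, hy'⟩
  choose f hf using hex
  have key : ∀ g g' : Gam0 F, f g = f g' → g⁻¹ * g' ∈ Δ.subgroupOf (Gam0 F) := by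
    intro g g' hgg
    rw [Subgroup.mem_subgroupOf]
    refine h _ (g⁻¹ * g').2 fun i j => ?_
    have hd : ∀ i j, (g' : SL F) i j - (g : SL F) i j ∈ latt F N := by
      intro i j
      have h1 := hf g (i, j)
      have h2 := hf g' (i, j)
      rw [← hgg] at h2
      have := (latt F N).sub_mem h2 h1
      simpa using this
    have e1 : (1 : Mat F) = ((g⁻¹ : Gam0 F) : SL F).1 * (g : SL F).1 := by
      rw [← Matrix.SpecialLinearGroup.coe_mul, ← Subgroup.coe_mul, inv_mul_cancel]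
      rfl
    have e2 : ((g⁻¹ * g' : Gam0 F) : SL F).1 = ((g⁻¹ : Gam0 F) : SL F).1 * (g' : SL F).1 := by
      rw [← Matrix.SpecialLinearGroup.coe_mul, ← Subgroup.coe_mul]
    have e3 : ((g⁻¹ * g' : Gam0 F) : SL F) i j - (1 : Mat F) i j =
        ((g⁻¹ : Gam0 F) : SL F) i 0 * ((g' : SL F) 0 j - (g : SL F) 0 j) +
        ((g⁻¹ : Gam0 F) : SL F) i 1 * ((g' : SL F) 1 j - (g : SL F) 1 j) := by
      show ((g⁻¹ * g' : Gam0 F) : SL F).1 i j - (1 : Mat F) i j = _
      rw [e1, e2, Matrix.mul_apply, Matrix.mul_apply, Fin.sum_univ_two, Fin.sum_univ_two]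
      ring
    rw [e3]
    exact (latt F N).add_mem (latt_mul ((g⁻¹).2 _ _) (hd _ _)) (latt_mul ((g⁻¹).2 _ _) (hd _ _))
  have : Finite (Gam0 F ⧸ Δ.subgroupOf (Gam0 F)) := by
    refine Finite.of_injective (fun q : Gam0 F ⧸ Δ.subgroupOf (Gam0 F) => f q.out) ?_
    intro q q' hq
    rw [← QuotientGroup.out_eq' q, ← QuotientGroup.out_eq' q']
    exact QuotientGroup.eq.2 (key _ _ hq)
  exact Subgroup.index_ne_zero_of_finite

omit [NumberField F] [Emb F] in
/-- Conjugation `h ↦ g⁻¹ h g`. -/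
def conjSL (g : Mat F) (hg : g.det ≠ 0) : SL F →* SL F where
  toFun h := ⟨g⁻¹ * (h : Mat F) * g, by
    rw [Matrix.det_mul, Matrix.det_mul, h.det_coe, Matrix.det_nonsing_inv, mul_one,
      Ring.inverse_eq_inv', inv_mul_cancel₀ hg]⟩
  map_one' := by
    apply Subtype.ext
    show g⁻¹ * ((1 : SL F) : Mat F) * g = ((1 : SL F) : Mat F)
    rw [Matrix.SpecialLinearGroup.coe_one, Matrix.mul_one,
      Matrix.nonsing_inv_mul _ (Ne.isUnit hg)]
  map_mul' h k := by
    apply Subtype.ext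
    show g⁻¹ * ((h * k : SL F) : Mat F) * g = (g⁻¹ * (h : Mat F) * g) * (g⁻¹ * (k : Mat F) * g)
    rw [Matrix.SpecialLinearGroup.coe_mul]
    have : g * g⁻¹ = 1 := Matrix.mul_nonsing_inv _ (Ne.isUnit hg)
    calc g⁻¹ * ((h : Mat F) * (k : Mat F)) * g
        = g⁻¹ * (h : Mat F) * (g * g⁻¹) * (k : Mat F) * g := by
          rw [this]; simp only [Matrix.mul_assoc, Matrix.one_mul]
      _ = _ := by simp only [Matrix.mul_assoc]

omit [NumberField F] [Emb F] in
theorem conjSL_coe (g : Mat F) (hg : g.det ≠ 0) (h : SL F) :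
    ((conjSL g hg h : SL F) : Mat F) = g⁻¹ * (h : Mat F) * g := rfl

theorem adm_tr (hM : MeanStmt F) (ξ : F × F → ℂ) (g : Mat F) (h : Adm ξ) (hg : g.det ≠ 0) :
    Adm (tr ξ g) := by
  obtain ⟨B, hB⟩ := h.bdd
  obtain ⟨M, hM0, hs⟩ := h.supp
  obtain ⟨D, hD, hDg⟩ := exists_den_mat g
  obtain ⟨E, hE, hEg⟩ := exists_den_mat g⁻¹
  have hgg : g * g⁻¹ = 1 := Matrix.mul_nonsing_inv _ (Ne.isUnit hg)
  refine ⟨⟨B, fun u => hB _⟩, ⟨M * (D * E), mul_ne_zero hM0 (mul_ne_zero hD hE), fun u hu => ?_⟩, ?_⟩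
  · obtain ⟨h1, h2, a, b, ha, hb, hab⟩ := hs _ hu
    have hu' : u = rmul (rmul u g) g⁻¹ := by rw [← rmul_mul, hgg, rmul_one]
    have e1 : ((M * (D * E) : ℕ) : F) * u.1 = (D : F) * (((M : F) * (rmul u g).1) * (E * g⁻¹ 0 0) +
        ((M : F) * (rmul u g).2) * (E * g⁻¹ 1 0)) := by
      conv_lhs => rw [hu']
      simp only [rmul]
      push_cast; ring
    have e2 : ((M * (D * E) : ℕ) : F) * u.2 = (D : F) * (((M : F) * (rmul u g).1) * (E * g⁻¹ 0 1) +
        ((M : F) * (rmul u g).2) * (E * g⁻¹ 1 1)) := by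
      conv_lhs => rw [hu']
      simp only [rmul]
      push_cast; ring
    refine ⟨?_, ?_, E * (a * (D * g 0 0) + b * (D * g 0 1)), E * (a * (D * g 1 0) + b * (D * g 1 1)),
      ?_, ?_, ?_⟩
    · rw [e1]; exact (int_nat D).mul ((h1.mul (hEg _ _)).add (h2.mul (hEg _ _)))
    · rw [e2]; exact (int_nat D).mul ((h1.mul (hEg _ _)).add (h2.mul (hEg _ _)))
    · exact (int_nat E).mul ((ha.mul (hDg _ _)).add (hb.mul (hDg _ _)))
    · exact (int_nat E).mul ((ha.mul (hDg _ _)).add (hb.mul (hDg _ _)))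
    · simp only [rmul] at hab
      push_cast
      rw [← hab]; ring
  · have h1 : ((Gam0 F).comap (conjSL g hg)).relIndex (Gam0 F) ≠ 0 := by
      refine cong hM (D * E) _ (mul_ne_zero hD hE) fun k hk hk1 => ?_
      rw [Subgroup.mem_comap, mem_Gam0]
      intro i j
      choose Y hY hY' using hk1
      have e : (k : Mat F) = 1 + ((D : F) * E) • Matrix.of Y := by
        ext i j
        have := hY' i j
        simp only [Matrix.add_apply, Matrix.smul_apply, Matrix.of_apply, smul_eq_mul]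
        push_cast at this
        rw [← this]; ring
      have e' : ((conjSL g hg k : SL F) : Mat F) =
          1 + ((E : F) • g⁻¹) * Matrix.of Y * ((D : F) • g) := by
        rw [conjSL_coe, e, Matrix.mul_add, Matrix.add_mul, Matrix.mul_one,
          Matrix.nonsing_inv_mul _ (Ne.isUnit hg)]
        simp only [Matrix.mul_smul, Matrix.smul_mul, smul_smul]
      show IsIntegral ℤ (((conjSL g hg k : SL F) : Mat F) i j)
      rw [e', Matrix.add_apply]
      refine ((Gam0 F).one_mem i j).add ?_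
      simp only [Matrix.mul_apply, Fin.sum_univ_two, Matrix.smul_apply, smul_eq_mul,
        Matrix.of_apply]
      exact ((((hEg _ _).mul (hY _ _)).add ((hEg _ _).mul (hY _ _))).mul (hDg _ _)).add
        ((((hEg _ _).mul (hY _ _)).add ((hEg _ _).mul (hY _ _))).mul (hDg _ _))
    rw [Subgroup.relIndex_comap] at h1
    have h2 := Subgroup.relIndex_ne_zero_trans h.fin h1
    rw [← Subgroup.relIndex_comap] at h2
    intro h3
    refine h2 (Subgroup.relIndex_eq_zero_of_le_left ?_ h3)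
    intro k hk
    rw [Subgroup.mem_comap, mem_Stab, conjSL_coe] at hk
    rw [mem_Stab, ← tr_mul]
    have : (k : Mat F) * g = g * (g⁻¹ * (k : Mat F) * g) := by
      rw [← Matrix.mul_assoc, ← Matrix.mul_assoc, hgg, Matrix.one_mul]
    rw [this, tr_mul, hk]

omit [NumberField F] [Emb F] in
theorem nT_coe (t : F) : ((nT t : SL F) : Mat F) = !![1, t; 0, 1] := rfl

omit [NumberField F] [Emb F] in
theorem nT_add (s t : F) : nT (s + t) = nT s * nT t := by
  apply Subtype.ext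
  show ((nT (s + t) : SL F) : Mat F) = ((nT s * nT t : SL F) : Mat F)
  rw [Matrix.SpecialLinearGroup.coe_mul, nT_coe, nT_coe, nT_coe, Matrix.mul_fin_two]
  simp [add_comm]

omit [NumberField F] [Emb F] in
theorem nT_zero : nT (0 : F) = 1 := by
  apply Subtype.ext
  show ((nT (0 : F) : SL F) : Mat F) = ((1 : SL F) : Mat F)
  rw [nT_coe, Matrix.SpecialLinearGroup.coe_one, Matrix.one_fin_two]

omit [NumberField F] [Emb F] in
theorem nT_pow (t : F) (n : ℕ) : nT t ^ n = nT ((n : F) * t) := by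
  induction n with
  | zero => simp [nT_zero]
  | succ n ih => rw [pow_succ, ih, ← nT_add]; congr 1; push_cast; ring

omit [NumberField F] [Emb F] in
theorem nT_mem {t : F} (ht : IsIntegral ℤ t) : nT t ∈ Gam0 F := by
  intro i j
  show IsIntegral ℤ ((!![1, t; 0, 1] : Mat F) i j)
  fin_cases i <;> fin_cases j <;> simp [isIntegral_one, isIntegral_zero, ht]

omit [NumberField F] [Emb F] in
theorem transl (ξ : F × F → ℂ) (h : Adm ξ) : ∃ N : ℕ, N ≠ 0 ∧ ∀ t ∈ latt F N, nT t ∈ Del ξ := by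
  refine ⟨((Stab ξ).relIndex (Gam0 F)).factorial, Nat.factorial_ne_zero _, ?_⟩
  rintro _ ⟨y, hy, rfl⟩
  rw [← nT_pow]
  exact Subgroup.pow_mem_of_relIndex_ne_zero_of_dvd h.fin (nT_mem hy)
    fun m hm hm' => Nat.dvd_factorial hm hm'

omit [NumberField F] [Emb F] in
theorem xi_shift {ξ : F × F → ℂ} {t : F} (h : nT t ∈ Del ξ) (c d : F) :
    ξ (c, d + c * t) = ξ (c, d) := by
  have e := congrFun (mem_Stab.1 h.1) (c, d)
  rw [← e, tr, nT_coe]
  congr 1
  simp [rmul, add_comm]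

omit [Emb F] in
theorem per (ξ : F × F → ℂ) (h : Adm ξ) (c : F) (hc : c ≠ 0) : Per fun d => ξ (c, d) := by
  obtain ⟨N, hN, hT⟩ := transl ξ h
  obtain ⟨M, hM, hs⟩ := h.supp
  obtain ⟨D, hD, hDc⟩ := exists_den c⁻¹
  refine ⟨M * (N * D), mul_ne_zero hM (mul_ne_zero hN hD), ?_, fun x hx => ?_⟩
  · rintro x _ ⟨y, hy, rfl⟩
    have e : ((M * (N * D) : ℕ) : F) * y = c * ((N : F) * ((M : F) * ((D : F) * c⁻¹) * y)) := by
      push_cast; field_simp
    rw [e]
    exact xi_shift (hT _ ⟨_, ((int_nat M).mul hDc).mul hy, rfl⟩) c x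
  · exact int_mul_right _ (hs _ hx).2.1

theorem per_char (hM : MeanStmt F) (ξ : F × F → ℂ) (h : Adm ξ) (r c : F) (hc : c ≠ 0) :
    Per fun d => ξ (c, d) * eF (r * d / c) := by
  have := hM.char _ (r / c) (per ξ h c hc)
  simpa only [div_mul_eq_mul_div] using this

theorem bddL (hM : MeanStmt F) (ξ : F × F → ℂ) (h : Adm ξ) :
    ∃ (M : ℕ) (B : ℝ), M ≠ 0 ∧ ∀ r, (∀ c, ‖mf ξ r c‖ ≤ B) ∧
      ∀ c, mf ξ r c ≠ 0 → c ≠ 0 ∧ IsIntegral ℤ ((M : F) * c) ∧ IsIntegral ℤ ((M : F) * r) := by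
  obtain ⟨N, hN, hT⟩ := transl ξ h
  obtain ⟨B, hB⟩ := h.bdd
  obtain ⟨M, hM0, hs⟩ := h.supp
  obtain ⟨D, hD, hdual⟩ := hM.dual
  have hB0 : 0 ≤ B := (norm_nonneg _).trans (hB 0)
  refine ⟨M * (D * N), B * (M : ℝ) ^ Module.finrank ℚ F, mul_ne_zero hM0 (mul_ne_zero hD hN),
    fun r => ⟨fun c => ?_, fun c hc => ?_⟩⟩
  · unfold mf
    split_ifs with hc
    · rw [norm_zero]; positivity
    · refine hM.norm_le _ M B hM0 (fun x => ?_) fun x hx => (hs _ (left_ne_zero_of_mul hx)).2.1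
      rw [norm_mul, norm_eF, mul_one]; exact hB _
  · have hc0 : c ≠ 0 := by
      rintro rfl
      exact hc (by simp [mf])
    rw [mf, if_neg hc0] at hc
    refine ⟨hc0, ?_, ?_⟩
    · by_contra hcon
      apply hc
      have hz : ∀ d, ξ (c, d) = 0 := by
        intro d
        by_contra hd
        exact hcon (int_mul_right _ (hs _ hd).1)
      have := hM.norm_le (fun d => ξ (c, d) * eF (r * d / c)) 1 0 one_ne_zero
        (fun x => by simp [hz]) (fun x hx => absurd (by simp [hz]) hx)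
      rw [zero_mul] at this
      exact norm_le_zero_iff.1 this
    · have h1 : IsIntegral ℤ ((D : F) * (r * N)) := by
        refine hdual _ fun t ht => ?_
        by_contra hne
        apply hc
        have := hM.char_zero (fun d => ξ (c, d)) (r / c) (c * ((N : F) * t)) (per ξ h c hc0)
          (fun x => xi_shift (hT _ ⟨t, ht, rfl⟩) c x) (by
            have e : r / c * (c * ((N : F) * t)) = r * N * t := by field_simp
            rw [e]; exact hne)
        simpa only [div_mul_eq_mul_div] using this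
      have e : ((M * (D * N) : ℕ) : F) * r = (M : F) * ((D : F) * (r * N)) := by push_cast; ring
      rw [e]; exact (int_nat M).mul h1

theorem mf_add (hM : MeanStmt F) (ξ ξ' : F × F → ℂ) (h : Adm ξ) (h' : Adm ξ') (r : F) :
    mf (ξ + ξ') r = mf ξ r + mf ξ' r := by
  funext c
  simp only [mf, Pi.add_apply]
  split_ifs with hc
  · simp
  · rw [← (hM.add _ _ (per_char hM ξ h r c hc) (per_char hM ξ' h' r c hc)).2]
    congr 1
    funext d
    simp only [Pi.add_apply]; ring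

theorem mf_smul (hM : MeanStmt F) (a : ℂ) (ξ : F × F → ℂ) (h : Adm ξ) (r c : F) :
    mf (fun u => a * ξ u) r c = a * mf ξ r c := by
  simp only [mf]
  split_ifs with hc
  · simp
  · rw [← (hM.smul a _ (per_char hM ξ h r c hc)).2]
    congr 1
    funext d
    ring

theorem mf_tri (hM : MeanStmt F) (ξ : F × F → ℂ) (h : Adm ξ) (ρ b e r c : F) (hρ : ρ ≠ 0)
    (he : e ≠ 0) :
    mf (tr ξ !![ρ, b; 0, e]) r c = (nF e : ℂ) * eF (-(r * b / e)) * mf ξ (r * ρ / e) (c * ρ) := by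
  by_cases hc : c = 0
  · simp [mf, hc]
  have hcρ : c * ρ ≠ 0 := mul_ne_zero hc hρ
  rw [mf, mf, if_neg hc, if_neg hcρ]
  have hψ := per_char hM ξ h (r * ρ / e) (c * ρ) hcρ
  obtain ⟨h1, h1'⟩ := hM.shift _ (c * b) hψ
  obtain ⟨h2, h2'⟩ := hM.scale _ e h1 he
  have h3 := (hM.smul (eF (-(r * b / e))) _ h2).2
  rw [h2', h1'] at h3
  rw [mul_comm (nF e : ℂ), mul_assoc, ← h3]
  congr 1
  funext d
  have e1 : rmul (c, d) (!![ρ, b; 0, e] : Mat F) = (c * ρ, e * d + c * b) := by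
    simp only [rmul, Matrix.of_apply, Matrix.cons_val', Matrix.cons_val_zero, Matrix.cons_val_one,
      Matrix.cons_val_fin_one]
    congr 1 <;> ring
  have e2 : r * d / c = -(r * b / e) + r * ρ / e * (e * d + c * b) / (c * ρ) := by
    field_simp; ring
  rw [tr, e1, e2, eF_add]; ring

end Row93

open Row93 in
/-- **Leaf R.** -/
theorem row_93 (F : Type) [Field F] [NumberField F] [Emb F] (hM : MeanStmt F) : RowStmt F where
  adm_add := adm_add
  adm_smul := adm_smul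
  adm_tr := adm_tr hM
  cong := cong hM
  transl := transl
  per := per
  bddL := bddL hM
  mf_add := mf_add hM
  mf_smul := mf_smul hM
  mf_tri := fun ξ h ρ b e r c hρ he => mf_tri hM ξ h ρ b e r c hρ he

end Crest.Agent.T27.TH
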