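import Crest.Agent.T27.ThA_54

/-!
# Row 27, theta function, leaf A6: formal properties of `Good` and `tau`
-/

set_option autoImplicit false

noncomputable section

namespace Crest.Agent.T27.TH

open scoped ComplexConjugate ENNReal Topology
open MeasureTheory Filter NumberField

variable {F : Type} [Field F] [NumberField F] [Emb F]

omit [Emb F] in
theorem mean_zero_73 : mean (fun _ : F => (0 : ℂ)) = 0 := by
  unfold mean meanN
  split_ifs <;> simp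

theorem mf_zero_73 (r : F) : mf (0 : F × F → ℂ) r = 0 := by
  funext c
  unfold mf
  split_ifs
  · rfl
  · simpa using mean_zero_73 (F := F)

theorem wdk_zero_73 (k : (Pl F → ℝ) → ℝ) : WDk (0 : F → ℂ) k 0 := by
  refine ⟨⟨0, fun v => by simp [Sk]⟩, fun v => ?_⟩
  simp [Sk]

theorem bddL_mf_73 (hR : RowStmt F) {ξ : F × F → ℂ} (h : Adm ξ) (r : F) : BddL (mf ξ r) := by
  obtain ⟨M, B, hM, hB⟩ := hR.bddL ξ h
  exact ⟨M, B, hM, (hB r).1, fun c hc => ⟨((hB r).2 c hc).1, ((hB r).2 c hc).2.1⟩⟩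

theorem tau_eq_73 (hR : RowStmt F) (hD : DensStmt F) (hT : ThetaStmt F) {ξ : F × F → ℂ}
    (h : Good ξ) {r : F} {t : ℂ} (ht : WD (mf ξ r) t) : tau ξ r = t :=
  hD.unique _ _ _ (bddL_mf_73 hR h.1 r) (hT.spec ξ h r) ht

theorem eF_zero_73 : eF (0 : F) = 1 := by
  simp [eF, eV, em]

omit [NumberField F] [Emb F] in
theorem det_ne_73 (γ : SL F) : (γ : Mat F).det ≠ 0 := by
  rw [γ.det_coe]; exact one_ne_zero

omit [NumberField F] [Emb F] in
theorem adm_zero_73 : Adm (0 : F × F → ℂ) := by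
  refine ⟨⟨0, fun u => by simp⟩, ⟨1, one_ne_zero, fun u hu => (hu rfl).elim⟩, ?_⟩
  have : Stab (0 : F × F → ℂ) = ⊤ := by
    rw [eq_top_iff]
    intro g _
    rfl
  rw [this, Subgroup.relIndex_top_left]
  exact one_ne_zero

theorem good_zero_73 : Good (0 : F × F → ℂ) := by
  refine ⟨adm_zero_73, fun γ => ⟨0, ?_⟩⟩
  have : tr (0 : F × F → ℂ) (γ : Mat F) = 0 := rfl
  rw [this, mf_zero_73]
  exact wdk_zero_73 _

theorem good_add_73 (hR : RowStmt F) (hD : DensStmt F) {ξ ξ' : F × F → ℂ} (h : Good ξ)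
    (h' : Good ξ') : Good (ξ + ξ') := by
  refine ⟨hR.adm_add _ _ h.1 h'.1, fun γ => ?_⟩
  obtain ⟨t, ht⟩ := h.2 γ
  obtain ⟨t', ht'⟩ := h'.2 γ
  have h1 := hR.adm_tr ξ γ h.1 (det_ne_73 γ)
  have h2 := hR.adm_tr ξ' γ h'.1 (det_ne_73 γ)
  have e : tr (ξ + ξ') (γ : Mat F) = tr ξ γ + tr ξ' γ := rfl
  refine ⟨t + t', ?_⟩
  rw [e, hR.mf_add _ _ h1 h2]
  exact hD.addk _ _ _ _ _ (bddL_mf_73 hR h1 0) (bddL_mf_73 hR h2 0) hD.kc0 ht ht'

theorem good_smul_73 (hR : RowStmt F) (hD : DensStmt F) (a : ℂ) {ξ : F × F → ℂ} (h : Good ξ) :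
    Good (fun u => a * ξ u) := by
  refine ⟨hR.adm_smul _ _ h.1, fun γ => ?_⟩
  obtain ⟨t, ht⟩ := h.2 γ
  have h1 := hR.adm_tr ξ γ h.1 (det_ne_73 γ)
  have e : tr (fun u => a * ξ u) (γ : Mat F) = fun u => a * tr ξ γ u := rfl
  have e2 : mf (fun u => a * tr ξ γ u) 0 = fun c => a * mf (tr ξ γ) 0 c :=
    funext fun c => hR.mf_smul a _ h1 0 c
  refine ⟨a * t, ?_⟩
  rw [e, e2]
  exact hD.smulk _ _ _ _ ht

theorem good_tr_73 (hR : RowStmt F) (hD : DensStmt F) {ξ : F × F → ℂ} (h : Good ξ) (g : Mat F)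
    (hg : g.det ≠ 0) : Good (tr ξ g) := by
  refine ⟨hR.adm_tr _ _ h.1 hg, fun γ => ?_⟩
  have hdet : ((!![1, 0; 0, g.det⁻¹] : Mat F) * ((γ : Mat F) * g)).det = 1 := by
    rw [Matrix.det_mul, Matrix.det_mul, γ.det_coe, Matrix.det_fin_two_of]
    field_simp
    ring
  let γ' : SL F := ⟨_, hdet⟩
  have e : (γ : Mat F) * g = !![1, 0; 0, g.det] * (γ' : Mat F) := by
    show _ = _ * ((!![1, 0; 0, g.det⁻¹] : Mat F) * ((γ : Mat F) * g))
    rw [← Matrix.mul_assoc, Matrix.mul_fin_two]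
    simp only [mul_one, mul_zero, add_zero, zero_mul, zero_add, mul_inv_cancel₀ hg]
    rw [← Matrix.one_fin_two, Matrix.one_mul]
  obtain ⟨t, ht⟩ := h.2 γ'
  have h1 := hR.adm_tr ξ γ' h.1 (det_ne_73 γ')
  have e2 : mf (tr (tr ξ g) γ) 0 = fun c => (nF g.det : ℂ) * mf (tr ξ γ') 0 c := by
    funext c
    rw [← tr_mul, e, tr_mul, hR.mf_tri _ h1 1 0 g.det 0 c one_ne_zero hg]
    simp [eF_zero_73]
  refine ⟨(nF g.det : ℂ) * t, ?_⟩
  rw [e2]
  exact hD.smulk _ _ _ _ ht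

theorem tau_tri_73 (hR : RowStmt F) (hD : DensStmt F) (hT : ThetaStmt F) {ξ : F × F → ℂ}
    (h : Good ξ) (ρ b e r : F) (hρ : ρ ≠ 0) (he : e ≠ 0) :
    tau (tr ξ !![ρ, b; 0, e]) r =
      ((nF e * nF ρ ^ (1 / 3 : ℝ) : ℝ) : ℂ) * eF (-(r * b / e)) * tau ξ (r * ρ / e) := by
  have hdet : (!![ρ, b; 0, e] : Mat F).det ≠ 0 := by
    rw [Matrix.det_fin_two_of, mul_zero, sub_zero]
    exact mul_ne_zero hρ he
  refine tau_eq_73 hR hD hT (good_tr_73 hR hD h _ hdet) ?_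
  obtain ⟨k, hk, hw⟩ := hT.spec ξ h (r * ρ / e)
  obtain ⟨M, B, -, -, hB⟩ := bddL_mf_73 hR h.1 (r * ρ / e)
  have h2 := hD.smulk ((nF e : ℂ) * eF (-(r * b / e))) _ _ _
    (hD.scalek _ k _ ρ hρ (fun c hc => (hB c hc).1) hw)
  have e2 : mf (tr ξ !![ρ, b; 0, e]) r =
      fun c => (nF e : ℂ) * eF (-(r * b / e)) * mf ξ (r * ρ / e) (c * ρ) :=
    funext fun c => hR.mf_tri ξ h.1 ρ b e r c hρ he
  refine ⟨k, hk, ?_⟩
  rw [e2]
  convert h2 using 1
  push_cast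
  ring

/-- The lower unipotent matrices. -/
def lT73 (t : F) : SL F := mkSL 1 0 t 1 (by ring)

omit [NumberField F] [Emb F] in
theorem lT73_pow (t : F) (n : ℕ) : lT73 t ^ n = lT73 (n * t) := by
  induction n with
  | zero =>
    rw [pow_zero]
    ext i j
    fin_cases i <;> fin_cases j <;> simp [lT73, mkSL]
  | succ n ih =>
    rw [pow_succ, ih]
    ext i j
    rw [Matrix.SpecialLinearGroup.coe_mul]
    fin_cases i <;> fin_cases j <;> simp [lT73, mkSL, add_mul]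

omit [NumberField F] [Emb F] in
theorem lT73_mem : lT73 (1 : F) ∈ Gam0 F := by
  intro i j
  fin_cases i <;> fin_cases j <;> simp [lT73, mkSL, isIntegral_one, isIntegral_zero]

theorem Th_const_73 {ξ : F × F → ℂ} (h : ∀ r, r ≠ 0 → tau ξ r = 0) (w : HH F) :
    Th ξ w = tau ξ 0 * ((∏ j, R17.hy (w j) ^ (2 / 3 : ℝ) * R17.W0 0 : ℝ) : ℂ) := by
  rw [Th, tsum_eq_single 0 fun r hr => by rw [h r hr, zero_mul, zero_mul]]
  simp [MkV, bb, eV, em, R17.Mk, R17.hy]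

theorem nonconst_73 (hT : ThetaStmt F) {ξ : F × F → ℂ} (h : Good ξ) (h0 : tau ξ 0 ≠ 0) :
    ∃ r, r ≠ 0 ∧ tau ξ r ≠ 0 := by
  by_contra hc
  push Not at hc
  obtain ⟨n, hn, -, hmem⟩ := Subgroup.exists_pow_mem_of_relIndex_ne_zero h.1.fin lT73_mem
  rw [lT73_pow, mul_one] at hmem
  have hst : tr ξ ((lT73 (n : F) : SL F) : Mat F) = ξ := hmem.1
  let w : HH F := fun _ => (0, 0)
  have h1 := hT.aut ξ h (lT73 n) w
  rw [hst, Th_const_73 hc, Th_const_73 hc, mul_right_inj' h0, Complex.ofReal_inj] at h1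
  have hW : 0 < R17.W0 0 := R17.W0_pos le_rfl
  have hlt : ∀ j : Pl F, R17.hy ((lT73 (n : F) • w) j) < R17.hy (w j) := by
    intro j
    rw [smul_def, act, R17.hy_actC (det_map_ne (det_ne_73 _) j)]
    have hn' : (0 : ℝ) < n := by exact_mod_cast hn
    have hd : ((lT73 (n : F) : SL F) : Mat F).map (Emb.σ j) = !![1, 0; (n : ℂ), 1] := by
      ext a b
      fin_cases a <;> fin_cases b <;> simp [lT73, mkSL]
    rw [hd]
    simp only [Matrix.det_fin_two_of, R17.Qf, R17.hy, w, Real.exp_zero]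
    simp
    exact inv_lt_one_of_one_lt₀ (by nlinarith)
  refine absurd h1 (ne_of_lt ?_)
  refine Finset.prod_lt_prod_of_nonempty (fun j _ => ?_) (fun j _ => ?_) Finset.univ_nonempty
  · exact mul_pos (Real.rpow_pos_of_pos (R17.hy_pos _) _) hW
  · exact mul_lt_mul_of_pos_right
      (Real.rpow_lt_rpow (R17.hy_pos _).le (hlt j) (by norm_num)) hW

/-- **Leaf A6.** -/
theorem tauStmt_73 (F : Type) [Field F] [NumberField F] [Emb F] (hR : RowStmt F)
    (hD : DensStmt F) (hT : ThetaStmt F) : TauStmt F where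
  good_add _ _ h h' := good_add_73 hR hD h h'
  good_smul a _ h := good_smul_73 hR hD a h
  good_tr _ g h hg := good_tr_73 hR hD h g hg
  good_zero := good_zero_73
  tau_zero r := tau_eq_73 hR hD hT good_zero_73
    ⟨k0, hD.kc0, by rw [mf_zero_73]; exact wdk_zero_73 _⟩
  tau_add ξ ξ' h h' r := by
    refine tau_eq_73 hR hD hT (good_add_73 hR hD h h') ?_
    rw [hR.mf_add _ _ h.1 h'.1]
    exact hD.add _ _ _ _ (bddL_mf_73 hR h.1 r) (bddL_mf_73 hR h'.1 r) (hT.spec _ h r)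
      (hT.spec _ h' r)
  tau_smul a ξ h r := by
    refine tau_eq_73 hR hD hT (good_smul_73 hR hD a h) ?_
    rw [show mf (fun u => a * ξ u) r = fun c => a * mf ξ r c from
      funext fun c => hR.mf_smul a ξ h.1 r c]
    exact hD.smul _ _ _ (hT.spec _ h r)
  tau_tri _ h ρ b e r hρ he := tau_tri_73 hR hD hT h ρ b e r hρ he
  tau_ct _ _ h ht := tau_eq_73 hR hD hT h ⟨k0, hD.kc0, ht⟩
  supp ξ h := by
    obtain ⟨M, B, hM, hB⟩ := hR.bddL ξ h.1
    refine ⟨M, hM, fun r hr => ?_⟩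
    by_contra hc
    have h0 : mf ξ r = 0 := by
      funext c
      by_contra hc'
      exact hc ((hB r).2 c hc').2.2
    exact hr (tau_eq_73 hR hD hT h ⟨k0, hD.kc0, by rw [h0]; exact wdk_zero_73 _⟩)
  nonconst _ h h0 := nonconst_73 hT h h0

end Crest.Agent.T27.TH
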