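import Crest.Agent.T27.ThA5a_53

/-!
# Row 27, theta leaf A5, part b: the coefficients `tau`, the theta function `Th`, `ThetaStmt`
-/

set_option autoImplicit false
set_option linter.unusedSectionVars false

noncomputable section

namespace Crest.Agent.T27.TH.A5

open scoped ComplexConjugate ENNReal Topology
open MeasureTheory Filter NumberField

variable {F : Type} [Field F] [NumberField F] [Emb F] {κ : ℝ} {ξ : F × F → ℂ}

/-! ## boxes -/

theorem Hyp.box_one (H : Hyp F κ) (hξ : Adm ξ) (L : ℝ) : ∃ C : ℝ, 0 < C ∧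
    ∀ a v : Pl F → ℝ, ∑' r : F, ∫⁻ l in box a L, ‖Acoef κ ξ v r l‖ₑ ^ 2 ≤
      ENNReal.ofReal (C * (1 + Real.exp (2 * ∑ j, a j))) * N2 (Del ξ) (thY ξ v) := by
  obtain ⟨C, hC, h⟩ := H.B.box_le (Del ξ) L inf_le_right
  obtain ⟨N, hN, hf⟩ := H.four ξ hξ
  exact ⟨C, hC, fun a v => h N _ _ a hN (H.meas_thY hξ v)
    (fun δ hδ w => by rw [H.thY_del hδ]) (hf v)⟩

theorem Hyp.box_two (H : Hyp F κ) (hξ : Adm ξ) (L : ℝ) : ∃ C : ℝ, 0 < C ∧
    ∀ a v v' : Pl F → ℝ, ∑' r : F, ∫⁻ l in box a L, ‖Acoef κ ξ v r l - Acoef κ ξ v' r l‖ₑ ^ 2 ≤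
      ENNReal.ofReal (C * (1 + Real.exp (2 * ∑ j, a j))) *
        N2 (Del ξ) (fun w => thY ξ v w - thY ξ v' w) := by
  obtain ⟨C, hC, h⟩ := H.B.box_le (Del ξ) L inf_le_right
  obtain ⟨N, hN, hf⟩ := H.four ξ hξ
  exact ⟨C, hC, fun a v v' => h N _ (fun r l => Acoef κ ξ v r l - Acoef κ ξ v' r l) a hN
    ((H.meas_thY hξ v).sub (H.meas_thY hξ v'))
    (fun δ hδ w => by simp only [H.thY_del hδ]) (hasExp_sub (hf v) (hf v'))⟩

/-- The coefficients are Cauchy in `ℓ²(L²(box))`. -/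
theorem Hyp.strip_cauchy (H : Hyp F κ) (hξ : Good ξ) (a : Pl F → ℝ) (L : ℝ) (w w' : Pl F → ℝ) :
    Tendsto (fun p : ℝ × ℝ => ∑' r : F, ∫⁻ l in box a L,
      ‖Acoef κ ξ (ray w p.1) r l - Acoef κ ξ (ray w' p.2) r l‖ₑ ^ 2) (atTop ×ˢ atTop) (𝓝 0) := by
  obtain ⟨C, -, h⟩ := H.box_two hξ.1 L
  have h1 := ENNReal.Tendsto.const_mul (a := ENNReal.ofReal (C * (1 + Real.exp (2 * ∑ j, a j))))
    (H.N2_cauchy hξ w w') (Or.inr ENNReal.ofReal_ne_top)
  rw [mul_zero] at h1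
  exact tendsto_of_tendsto_of_tendsto_of_le_of_le tendsto_const_nhds h1 (fun _ => zero_le)
    fun p => h a _ _

theorem cauchy_of_tendsto {Φ : ℝ → ℝ → ℝ≥0∞}
    (h : Tendsto (fun p : ℝ × ℝ => Φ p.1 p.2) (atTop ×ˢ atTop) (𝓝 0)) {ε : ℝ≥0∞} (hε : 0 < ε) :
    ∃ s₀ : ℝ, ∀ s ≥ s₀, ∀ s' ≥ s₀, Φ s s' ≤ ε := by
  obtain ⟨S, hS, h1⟩ := Filter.mem_prod_self_iff.1 (ENNReal.tendsto_nhds_zero.1 h ε hε)
  obtain ⟨s₀, h2⟩ := mem_atTop_sets.1 hS
  exact ⟨s₀, fun s hs s' hs' => h1 (Set.mk_mem_prod (h2 s hs) (h2 s' hs'))⟩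

/-- The contribution of `c = 0`. -/
def Ez (κ : ℝ) (ξ : F × F → ℂ) (v : Pl F → ℝ) (r : F) (l : Pl F → ℝ) : ℂ :=
  Acoef κ ξ v r l - (κ : ℂ) * Sk (mf ξ r) (Fk l (bb r)) v

theorem Hyp.Ez_le (H : Hyp F κ) (hξ : Adm ξ) (a : Pl F → ℝ) (L : ℝ) : ∃ C : ℝ, 0 ≤ C ∧
    ∀ (v : Pl F → ℝ) (r : F), ∀ l ∈ box a L,
      ‖Ez κ ξ v r l‖ ≤ C * Real.exp ((∑ j, v j) / 3) := by
  obtain ⟨C, hC0, hC⟩ := norm_E0_le H.L hξ
  refine ⟨C * Real.exp (∑ j, (a j + L)), by positivity, fun v r l hl => ?_⟩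
  unfold Ez Acoef
  rw [add_sub_cancel_right]
  split_ifs
  · refine (hC v l).trans ?_
    rw [mul_assoc, ← Real.exp_add]
    refine mul_le_mul_of_nonneg_left (Real.exp_le_exp.2 ?_) hC0
    have : ∑ j, l j ≤ ∑ j, (a j + L) := Finset.sum_le_sum fun j _ => (hl j (Set.mem_univ j)).2
    linarith
  · rw [norm_zero]; positivity

theorem Hyp.κ_ne (H : Hyp F κ) : (κ : ℂ) ≠ 0 := Complex.ofReal_ne_zero.2 H.pos.ne'

theorem Hyp.Sk_bdd (H : Hyp F κ) (hξ : Good ξ) (r : F) (a : Pl F → ℝ) (L : ℝ) :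
    ∃ C : ℝ≥0∞, C ≠ ⊤ ∧ ∀ v : Pl F → ℝ, ∑ j, v j ≤ 0 →
      ∫⁻ l in box a L, ‖Sk (mf ξ r) (Fk l (bb r)) v‖ₑ ^ 2 ≤ C := by
  obtain ⟨C, -, h⟩ := H.box_one hξ.1 L
  obtain ⟨D, hD⟩ := H.N2_bound hξ
  obtain ⟨E, hE0, hE⟩ := H.Ez_le hξ.1 a L
  have hv := volume_box_ne_top a L
  refine ⟨2 * volume (box a L) * ENNReal.ofReal (κ⁻¹ * E) ^ 2 + 2 * ‖(κ : ℂ)⁻¹‖ₑ ^ 2 *
    (ENNReal.ofReal (C * (1 + Real.exp (2 * ∑ j, a j))) * ENNReal.ofReal D), by finiteness,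
    fun v hv0 => ?_⟩
  refine (lintegral_add_le (measurableSet_box a L) (c := (κ : ℂ)⁻¹)
    (v := fun l => (κ : ℂ)⁻¹ * -Ez κ ξ v r l) (w := fun l => Acoef κ ξ v r l) (e := κ⁻¹ * E)
    (fun l _ => ?_) (fun l hl => ?_)).trans ?_
  · have := H.κ_ne
    simp only [Ez]
    field_simp
    ring
  · rw [norm_mul, norm_inv, norm_neg, Complex.norm_real, Real.norm_of_nonneg H.pos.le]
    refine mul_le_mul_of_nonneg_left ((hE v r l hl).trans (mul_le_of_le_one_right hE0 ?_))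
      (inv_pos.2 H.pos).le
    rw [Real.exp_le_one_iff]
    linarith
  · refine add_le_add le_rfl (mul_le_mul_right ?_ _)
    exact (ENNReal.le_tsum (f := fun r => ∫⁻ l in box a L, ‖Acoef κ ξ v r l‖ₑ ^ 2) r).trans
      ((h a v).trans (mul_le_mul_right (hD v hv0) _))

theorem Hyp.Sk_cauchy (H : Hyp F κ) (hξ : Good ξ) (r : F) (a : Pl F → ℝ) (L : ℝ)
    (w w' : Pl F → ℝ) :
    Tendsto (fun p : ℝ × ℝ => ∫⁻ l in box a L, ‖Sk (mf ξ r) (Fk l (bb r)) (ray w p.1) -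
      Sk (mf ξ r) (Fk l (bb r)) (ray w' p.2)‖ₑ ^ 2) (atTop ×ˢ atTop) (𝓝 0) := by
  obtain ⟨E, hE0, hE⟩ := H.Ez_le hξ.1 a L
  have hv := volume_box_ne_top a L
  have he : Tendsto (fun p : ℝ × ℝ => κ⁻¹ * (E * Real.exp ((∑ j, ray w' p.2 j) / 3) +
      E * Real.exp ((∑ j, ray w p.1 j) / 3))) (atTop ×ˢ atTop) (𝓝 0) := by
    simpa using ((((tendsto_exp_ray w').comp tendsto_snd).const_mul E).add
      (((tendsto_exp_ray w).comp tendsto_fst).const_mul E)).const_mul κ⁻¹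
  have h1 := tendsto_comb (c := 2 * volume (box a L)) (d := 2 * ‖(κ : ℂ)⁻¹‖ₑ ^ 2)
    (by finiteness) (by finiteness) he (H.strip_cauchy hξ a L w w')
  refine tendsto_of_tendsto_of_tendsto_of_le_of_le tendsto_const_nhds h1 (fun _ => zero_le)
    fun p => ?_
  refine (lintegral_add_le (measurableSet_box a L) (c := (κ : ℂ)⁻¹)
    (v := fun l => (κ : ℂ)⁻¹ * (Ez κ ξ (ray w' p.2) r l - Ez κ ξ (ray w p.1) r l))
    (w := fun l => Acoef κ ξ (ray w p.1) r l - Acoef κ ξ (ray w' p.2) r l)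
    (e := κ⁻¹ * (E * Real.exp ((∑ j, ray w' p.2 j) / 3) + E * Real.exp ((∑ j, ray w p.1 j) / 3)))
    (fun l _ => ?_) (fun l hl => ?_)).trans ?_
  · have := H.κ_ne
    simp only [Ez]
    field_simp
    ring
  · rw [norm_mul, norm_inv, Complex.norm_real, Real.norm_of_nonneg H.pos.le]
    exact mul_le_mul_of_nonneg_left ((norm_sub_le _ _).trans
      (add_le_add (hE _ r l hl) (hE _ r l hl))) (inv_pos.2 H.pos).le
  · refine add_le_add le_rfl (mul_le_mul_right ?_ _)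
    exact ENNReal.le_tsum (f := fun r => ∫⁻ l in box a L,
      ‖Acoef κ ξ (ray w p.1) r l - Acoef κ ξ (ray w' p.2) r l‖ₑ ^ 2) r

/-- The limit coefficient. -/
def Bc (κ : ℝ) (ξ : F × F → ℂ) (r : F) (l : Pl F → ℝ) : ℂ :=
  (κ : ℂ) * (tau ξ r * (MkV l (bb r) : ℂ))

theorem Hyp.spec (H : Hyp F κ) (hξ : Good ξ) (r : F) : WD (mf ξ r) (tau ξ r) ∧
    ∀ (a : Pl F → ℝ) (L : ℝ) (w : Pl F → ℝ), Tendsto (fun s : ℝ => ∫⁻ l in box a L,
      ‖Acoef κ ξ (ray w s) r l - Bc κ ξ r l‖ₑ ^ 2) atTop (𝓝 0) := by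
  obtain ⟨t, ht, h⟩ := H.D.limit (mf ξ r) (bb r) (H.bddL hξ.1 r) (bb_nonneg r)
    (H.Sk_bdd hξ r) fun a L w w' ε hε => cauchy_of_tendsto (H.Sk_cauchy hξ r a L w w') hε
  have h1 : tau ξ r = t := H.tau_eq hξ.1 ht
  refine ⟨by rwa [h1], fun a L w => ?_⟩
  obtain ⟨E, hE0, hE⟩ := H.Ez_le hξ.1 a L
  have hv := volume_box_ne_top a L
  have he : Tendsto (fun s : ℝ => E * Real.exp ((∑ j, ray w s j) / 3)) atTop (𝓝 0) := by
    simpa using (tendsto_exp_ray w).const_mul E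
  have h2 := tendsto_comb (c := 2 * volume (box a L)) (d := 2 * ‖(κ : ℂ)‖ₑ ^ 2)
    (by finiteness) (by finiteness) he (h a L w)
  refine tendsto_of_tendsto_of_tendsto_of_le_of_le tendsto_const_nhds h2 (fun _ => zero_le)
    fun s => ?_
  refine lintegral_add_le (measurableSet_box a L) (v := Ez κ ξ (ray w s) r) (fun l _ => ?_)
    fun l hl => hE _ r l hl
  rw [Bc, h1, Ez]
  ring

/-- A lower bound `m` for `MkV` on a unit box bounds the coefficient. -/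
theorem Hyp.coef_le (H : Hyp F κ) (hξ : Good ξ) : ∃ C : ℝ, 0 < C ∧
    ∀ (r : F) (a : Pl F → ℝ) (m D : ℝ), 0 ≤ m → 0 ≤ D → (∀ l ∈ box a 1, m ≤ MkV l (bb r)) →
      (∀ᶠ s in atTop, N2 (Del ξ) (thY ξ (ray 0 s)) ≤ ENNReal.ofReal D) →
      (‖tau ξ r‖ * m) ^ 2 ≤ C * (1 + Real.exp (2 * ∑ j, a j)) * D := by
  obtain ⟨C, hC, h⟩ := H.box_one hξ.1 1
  have hκ := H.pos
  refine ⟨2 * C / κ ^ 2, by positivity, fun r a m D hm hD hlow hN => ?_⟩
  have key : ENNReal.ofReal ((κ * (‖tau ξ r‖ * m)) ^ 2) ≤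
      ENNReal.ofReal (2 * (C * (1 + Real.exp (2 * ∑ j, a j)) * D)) := by
    have h1 := (tendsto_two_mul ((H.spec hξ r).2 a 1 0)).const_add
      (ENNReal.ofReal (2 * (C * (1 + Real.exp (2 * ∑ j, a j)) * D)))
    rw [add_zero] at h1
    refine ge_of_tendsto h1 ?_
    filter_upwards [hN] with s hs
    have hmeas : Measurable fun l => 2 * ‖Acoef κ ξ (ray 0 s) r l‖ₑ ^ 2 :=
      ((H.meas_A hξ.1 _ r).enorm.pow_const 2).const_mul 2
    calc ENNReal.ofReal ((κ * (‖tau ξ r‖ * m)) ^ 2)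
        = ∫⁻ _ in box a 1, ENNReal.ofReal ((κ * (‖tau ξ r‖ * m)) ^ 2) := by
          rw [setLIntegral_const, volume_box]
          simp
      _ ≤ ∫⁻ l in box a 1, (2 * ‖Acoef κ ξ (ray 0 s) r l‖ₑ ^ 2 +
            2 * ‖Acoef κ ξ (ray 0 s) r l - Bc κ ξ r l‖ₑ ^ 2) := by
          refine setLIntegral_mono' (measurableSet_box a 1) fun l hl => ?_
          have h2 := enorm_add_sq (Acoef κ ξ (ray 0 s) r l)
            (-(Acoef κ ξ (ray 0 s) r l - Bc κ ξ r l))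
          rw [enorm_neg, ← sub_eq_add_neg, sub_sub_cancel] at h2
          refine le_trans ?_ h2
          rw [← ofReal_norm, ← ENNReal.ofReal_pow (norm_nonneg _)]
          refine ENNReal.ofReal_le_ofReal (pow_le_pow_left₀ (by positivity) ?_ 2)
          rw [Bc, norm_mul, norm_mul, Complex.norm_real, Complex.norm_real,
            Real.norm_of_nonneg hκ.le]
          exact mul_le_mul_of_nonneg_left (mul_le_mul_of_nonneg_left
            ((hlow l hl).trans (le_abs_self _)) (norm_nonneg _)) hκ.le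
      _ = 2 * (∫⁻ l in box a 1, ‖Acoef κ ξ (ray 0 s) r l‖ₑ ^ 2) +
            2 * ∫⁻ l in box a 1, ‖Acoef κ ξ (ray 0 s) r l - Bc κ ξ r l‖ₑ ^ 2 := by
          rw [lintegral_add_left hmeas, lintegral_const_mul' _ _ (by simp),
            lintegral_const_mul' _ _ (by simp)]
      _ ≤ _ := by
          refine add_le_add ?_ le_rfl
          have h2 := (ENNReal.le_tsum (f := fun r => ∫⁻ l in box a 1,
            ‖Acoef κ ξ (ray 0 s) r l‖ₑ ^ 2) r).trans ((h a _).trans (mul_le_mul_right hs _))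
          refine (mul_le_mul_right h2 _).trans (le_of_eq ?_)
          rw [← ENNReal.ofReal_mul (by positivity), ENNReal.ofReal_mul (by norm_num : (0 : ℝ) ≤ 2),
            ENNReal.ofReal_ofNat]
  rw [ENNReal.ofReal_le_ofReal_iff (by positivity)] at key
  rw [div_mul_eq_mul_div, div_mul_eq_mul_div, le_div_iff₀ (by positivity)]
  nlinarith

/-! ## the profile `MkV` -/

theorem Mk_exp (l b : ℝ) : R17.Mk (Real.exp l) b =
    Real.exp (2 / 3 * l) * R17.W0 (Real.exp (2 * l) * b) := by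
  rw [R17.Mk, ← Real.exp_mul, mul_comm l, ← Real.exp_nat_mul]
  norm_num

theorem Mk_ge {a l L b : ℝ} (hb : 0 ≤ b) (h1 : a ≤ l) (h2 : l ≤ a + L) :
    Real.exp (2 / 3 * a) * R17.W0 (Real.exp (2 * (a + L)) * b) ≤ R17.Mk (Real.exp l) b := by
  rw [Mk_exp]
  refine mul_le_mul (Real.exp_le_exp.2 (by linarith)) (R17.W0_antitoneOn
    (Set.mem_Ici.2 (by positivity)) (Set.mem_Ici.2 (by positivity)) ?_)
    (R17.W0_pos (by positivity)).le (Real.exp_pos _).le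
  exact mul_le_mul_of_nonneg_right (Real.exp_le_exp.2 (by linarith)) hb

theorem Mk_le {a l L b : ℝ} (hb : 0 ≤ b) (h1 : a ≤ l) (h2 : l ≤ a + L) :
    R17.Mk (Real.exp l) b ≤ Real.exp (2 / 3 * L) * R17.Mk (Real.exp a) b := by
  rw [Mk_exp, Mk_exp, ← mul_assoc, ← Real.exp_add]
  refine mul_le_mul (Real.exp_le_exp.2 (by linarith)) (R17.W0_antitoneOn
    (Set.mem_Ici.2 (by positivity)) (Set.mem_Ici.2 (by positivity)) ?_)
    (R17.W0_pos (by positivity)).le (Real.exp_pos _).le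
  exact mul_le_mul_of_nonneg_right (Real.exp_le_exp.2 (by linarith)) hb

theorem MkV_pos (l : Pl F → ℝ) (r : F) : 0 < MkV l (bb r) :=
  Finset.prod_pos fun j _ => R17.Mk_pos (Real.exp_pos _) (bb_nonneg r j)

theorem continuous_MkV (r : F) : Continuous fun l : Pl F → ℝ => MkV l (bb r) := by
  unfold MkV
  refine continuous_finsetProd _ fun j _ => ?_
  exact (R17.continuousOn_Mk (bb_nonneg r j)).comp_continuous
    (Real.continuous_exp.comp (continuous_apply j)) fun l => Real.exp_pos _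

theorem Hyp.vanish (H : Hyp F κ) (hξ : Good ξ) (h0 : ∀ γ : SL F, tau (tr ξ (γ : Mat F)) 0 = 0)
    (r : F) : tau ξ r = 0 := by
  obtain ⟨C, hC, h⟩ := H.coef_le hξ
  set m : ℝ := ∏ j : Pl F, Real.exp (2 / 3 * 0) * R17.W0 (Real.exp (2 * (0 + 1)) * bb r j) with hm
  have hm0 : 0 < m := Finset.prod_pos fun j _ => mul_pos (Real.exp_pos _)
    (R17.W0_pos (mul_nonneg (Real.exp_pos _).le (bb_nonneg r j)))
  have hlow : ∀ l ∈ box (0 : Pl F → ℝ) 1, m ≤ MkV l (bb r) := fun l hl =>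
    Finset.prod_le_prod (fun j _ => (mul_pos (Real.exp_pos _)
      (R17.W0_pos (mul_nonneg (Real.exp_pos _).le (bb_nonneg r j)))).le)
      fun j _ => Mk_ge (bb_nonneg r j) (hl j (Set.mem_univ j)).1 (hl j (Set.mem_univ j)).2
  have key : (‖tau ξ r‖ * m) ^ 2 ≤ 0 := by
    refine le_of_forall_pos_le_add fun ε hε => ?_
    have hK : 0 < C * (1 + Real.exp (2 * ∑ j : Pl F, (0 : Pl F → ℝ) j)) := by positivity
    have := h r 0 m (ε / (C * (1 + Real.exp (2 * ∑ j : Pl F, (0 : Pl F → ℝ) j)))) hm0.le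
      (by positivity) hlow (ENNReal.tendsto_nhds_zero.1 (H.N2_zero hξ h0 0) _
        (ENNReal.ofReal_pos.2 (by positivity)))
    rwa [mul_div_cancel₀ _ hK.ne', ← zero_add ε] at this
  have h1 : ‖tau ξ r‖ * m = 0 := pow_eq_zero_iff (two_ne_zero) |>.1 (le_antisymm key (sq_nonneg _))
  exact norm_eq_zero.1 ((mul_eq_zero.1 h1).resolve_right hm0.ne')

theorem Hyp.bound (H : Hyp F κ) (hξ : Good ξ) : ∃ C : ℝ, 0 ≤ C ∧ ∀ r : F, r ≠ 0 →
    ‖tau ξ r‖ ^ 2 * nF r ^ (1 / 3 : ℝ) ≤ C * (1 + nF r) := by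
  obtain ⟨C, hC, h⟩ := H.coef_le hξ
  obtain ⟨D, hD⟩ := H.N2_bound hξ
  set W : ℝ := R17.W0 (Real.exp 2 * (4 * Real.pi ^ 2)) ^ Fintype.card (Pl F) with hW
  have hW0 : 0 < W := pow_pos (R17.W0_pos (by positivity)) _
  refine ⟨C * |D| / W ^ 2, by positivity, fun r hr => ?_⟩
  set S : ℝ := ∑ j, lg r j with hS
  have hn : nF r = Real.exp S := (exp_sum_lg hr).symm
  have hlow : ∀ l ∈ box (fun j => -lg r j / 2) 1, Real.exp (-S / 3) * W ≤ MkV l (bb r) := by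
    intro l hl
    have e : Real.exp (-S / 3) * W = ∏ j : Pl F, Real.exp (2 / 3 * (-lg r j / 2)) *
        R17.W0 (Real.exp (2 * (-lg r j / 2 + 1)) * bb r j) := by
      rw [Finset.prod_mul_distrib, ← Real.exp_sum, hW, ← Finset.card_univ, ← Finset.prod_const]
      congr 1
      · congr 1
        rw [hS, ← Finset.mul_sum, ← Finset.sum_div, Finset.sum_neg_distrib]
        ring
      · refine Finset.prod_congr rfl fun j _ => ?_
        rw [bb, ← exp_lg hr, mul_left_comm (Real.exp (2 * (-lg r j / 2 + 1))), ← Real.exp_add,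
          mul_comm (Real.exp 2)]
        congr 3
        ring
    rw [e]
    exact Finset.prod_le_prod (fun j _ => (mul_pos (Real.exp_pos _)
      (R17.W0_pos (mul_nonneg (Real.exp_pos _).le (bb_nonneg r j)))).le)
      fun j _ => Mk_ge (bb_nonneg r j) (hl j (Set.mem_univ j)).1 (hl j (Set.mem_univ j)).2
  have key := h r _ _ |D| (by positivity) (abs_nonneg D) hlow (by
    filter_upwards [eventually_ray (0 : Pl F → ℝ)] with s hs
    exact (hD _ hs).trans (ENNReal.ofReal_le_ofReal (le_abs_self D)))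
  have e1 : Real.exp (2 * ∑ j, -lg r j / 2) = Real.exp (-S) := by
    congr 1
    rw [hS, ← Finset.sum_div, Finset.sum_neg_distrib]
    ring
  rw [e1] at key
  rw [hn, ← Real.exp_mul, div_mul_eq_mul_div, le_div_iff₀ (by positivity)]
  have e2 : Real.exp (S * (1 / 3)) = Real.exp (-S / 3) ^ 2 * Real.exp S := by
    rw [← Real.exp_nat_mul, ← Real.exp_add]
    congr 1
    push_cast
    ring
  have e3 : Real.exp (-S) * Real.exp S = 1 := by rw [← Real.exp_add]; simp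
  have h4 := mul_le_mul_of_nonneg_right key (Real.exp_pos S).le
  calc ‖tau ξ r‖ ^ 2 * Real.exp (S * (1 / 3)) * W ^ 2
      = (‖tau ξ r‖ * (Real.exp (-S / 3) * W)) ^ 2 * Real.exp S := by rw [e2]; ring
    _ ≤ C * (1 + Real.exp (-S)) * |D| * Real.exp S := h4
    _ = C * |D| * (Real.exp S + Real.exp (-S) * Real.exp S) := by ring
    _ = _ := by rw [e3]; ring

theorem Hyp.supp (H : Hyp F κ) (hξ : Good ξ) : ∃ M : ℕ, M ≠ 0 ∧
    ∀ r, tau ξ r ≠ 0 → IsIntegral ℤ ((M : F) * r) := by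
  obtain ⟨M, B, hM, h⟩ := H.R.bddL ξ hξ.1
  refine ⟨M, hM, fun r hr => ?_⟩
  by_contra hn
  refine hr (H.tau_eq hξ.1 ⟨k0, H.D.kc0, ?_⟩)
  have h0 : ∀ c, mf ξ r c = 0 := fun c => by
    by_contra hc
    exact hn ((h r).2 c hc).2.2
  have h1 : ∀ v, Sk (mf ξ r) k0 v = 0 := fun v => by simp [Sk, h0]
  exact ⟨⟨0, fun v => by simp [h1]⟩, fun v => by simp [h1]⟩

theorem Hyp.norm_tau_le (H : Hyp F κ) (hξ : Good ξ) : ∃ C : ℝ, 0 ≤ C ∧ ∀ r : F, r ≠ 0 →
    ‖tau ξ r‖ ≤ C * Real.exp ((∑ j, lg r j) / 3) := by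
  obtain ⟨C, hC, h⟩ := H.bound hξ
  obtain ⟨M, hM, hs⟩ := H.supp hξ
  have hM0 : (M : F) ≠ 0 := Nat.cast_ne_zero.2 hM
  have hnM := nF_pos hM0
  refine ⟨Real.sqrt (C * (nF (M : F) + 1)), Real.sqrt_nonneg _, fun r hr => ?_⟩
  by_cases h0 : tau ξ r = 0
  · rw [h0, norm_zero]; positivity
  have h1 := H.L.one_le _ (mul_ne_zero hM0 hr) (hs r h0)
  have h2 := h r hr
  rw [nF_mul] at h1
  set S : ℝ := ∑ j, lg r j with hS
  have hn : nF r = Real.exp S := (exp_sum_lg hr).symm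
  have e1 : Real.exp S = Real.exp (S / 3) ^ 2 * Real.exp (S / 3) := by
    rw [← pow_succ, ← Real.exp_nat_mul]
    congr 1
    push_cast
    ring
  have h3 : 0 < Real.exp (S / 3) := Real.exp_pos _
  rw [hn, ← Real.exp_mul, mul_one_div] at h2
  rw [hn] at h1
  have h4 : ‖tau ξ r‖ ^ 2 ≤ C * (nF (M : F) + 1) * Real.exp (S / 3) ^ 2 := by
    refine le_of_mul_le_mul_right (h2.trans ?_) h3
    rw [mul_assoc, ← e1, mul_assoc]
    exact mul_le_mul_of_nonneg_left (by linarith) hC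
  refine le_trans (Real.le_sqrt_of_sq_le h4) (le_of_eq ?_)
  rw [Real.sqrt_mul (by positivity), Real.sqrt_sq h3.le]

theorem profile_le : ∃ C : ℝ, 0 ≤ C ∧ ∀ t : ℝ,
    Real.exp (t / 3) * R17.W0 (4 * Real.pi ^ 2 * Real.exp t) ≤
      C * min (Real.exp (-0 * t)) (Real.exp (-2 * t)) := by
  obtain ⟨C, hC, h⟩ := R17.U1_le_rpow (A := 0) (by norm_num)
  obtain ⟨C', hC', h'⟩ := R17.U1_le_rpow (A := 2) (by norm_num)
  refine ⟨max C C', (le_max_left _ _).trans' hC.le, fun t => ?_⟩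
  have h0 := Real.exp_pos t
  have h1 : Real.exp (t / 3) * R17.W0 (4 * Real.pi ^ 2 * Real.exp t) ≤ R17.U1 (Real.exp t) := by
    rw [R17.U1, ← Real.exp_mul, mul_one_div]
    refine mul_le_mul_of_nonneg_left (R17.W0_antitoneOn (Set.mem_Ici.2 h0.le)
      (Set.mem_Ici.2 (by positivity)) ?_) (Real.exp_pos _).le
    refine le_mul_of_one_le_left h0.le ?_
    nlinarith [Real.pi_gt_three]
  refine h1.trans ?_
  rw [mul_min_of_nonneg _ _ ((le_max_left _ _).trans' hC.le)]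
  refine le_min ((h _ h0).2.trans ?_) ((h' _ h0).2.trans ?_)
  · rw [← Real.exp_mul, mul_comm t]
    exact mul_le_mul_of_nonneg_right (le_max_left _ _) (Real.exp_pos _).le
  · rw [← Real.exp_mul, mul_comm t]
    exact mul_le_mul_of_nonneg_right (le_max_right _ _) (Real.exp_pos _).le

theorem Hyp.summable_Th (H : Hyp F κ) (hξ : Good ξ) (l : Pl F → ℝ) :
    Summable fun r : F => ‖tau ξ r * (MkV l (bb r) : ℂ)‖ := by
  classical
  obtain ⟨C, hC, h⟩ := H.norm_tau_le hξ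
  obtain ⟨M, hM, hs⟩ := H.supp hξ
  obtain ⟨C', hC', h'⟩ := profile_le
  obtain ⟨E, -, hE⟩ := lsum_tsum H.L hM
  have key := (hE (fun j => 2 * l j) (fun r => if r = 0 then 0 else tau ξ r * (MkV l (bb r) : ℂ))
    (C * C' ^ Fintype.card (Pl F)) (by positivity) fun r hr => by
      have hr0 : r ≠ 0 := fun h0 => hr (if_pos h0)
      rw [if_neg hr0] at hr ⊢
      refine ⟨hr0, hs r (left_ne_zero_of_mul hr), ?_⟩
      rw [norm_mul, Complex.norm_real, Real.norm_of_nonneg (MkV_pos l r).le]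
      refine (mul_le_mul_of_nonneg_right (h r hr0) (MkV_pos l r).le).trans ?_
      rw [mul_assoc, mul_assoc]
      refine mul_le_mul_of_nonneg_left ?_ hC
      rw [Finset.sum_div, Real.exp_sum, MkV, ← Finset.card_univ, ← Finset.prod_const,
        ← Finset.prod_mul_distrib, ← Finset.prod_mul_distrib]
      refine Finset.prod_le_prod (fun j _ => mul_nonneg (Real.exp_pos _).le
        (R17.Mk_pos (Real.exp_pos _) (bb_nonneg r j)).le) fun j _ => le_trans (le_of_eq ?_) (h' _)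
      rw [Mk_exp, bb, ← exp_lg hr0, ← mul_assoc, ← Real.exp_add, mul_left_comm, ← Real.exp_add]
      congr 2
      ring).1
  refine key.congr_cofinite ?_
  filter_upwards [eventually_cofinite_ne (0 : F)] with r hr
  rw [if_neg hr]

theorem Hyp.continuous_Th (H : Hyp F κ) (hξ : Good ξ) : Continuous (Th ξ) := by
  rw [continuous_iff_continuousAt]
  intro w₀
  set a : Pl F → ℝ := fun j => (w₀ j).2 - 1 with ha
  have hs : {w : HH F | ∀ j, (w j).2 ∈ Set.Ioo (a j) (a j + 2)} ∈ 𝓝 w₀ := by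
    refine IsOpen.mem_nhds ?_ fun j => ⟨by simp [ha], by simp only [ha]; linarith⟩
    rw [Set.ofPred_forall]
    exact isOpen_iInter_of_finite fun j =>
      isOpen_Ioo.preimage (continuous_snd.comp (continuous_apply j))
  refine ContinuousOn.continuousAt ?_ hs
  refine continuousOn_tsum
    (u := fun r => Real.exp (2 / 3 * 2) ^ Fintype.card (Pl F) * ‖tau ξ r * (MkV a (bb r) : ℂ)‖)
    (fun r => Continuous.continuousOn ?_) ((H.summable_Th hξ a).mul_left _) fun r w hw => ?_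
  · refine (continuous_const.mul (Complex.continuous_ofReal.comp
      ((continuous_MkV r).comp ?_))).mul (continuous_eV.comp ?_)
    · fun_prop
    · fun_prop
  · rw [norm_mul, norm_eV, mul_one, norm_mul, norm_mul, Complex.norm_real, Complex.norm_real,
      Real.norm_of_nonneg (MkV_pos _ r).le, Real.norm_of_nonneg (MkV_pos _ r).le, mul_left_comm]
    refine mul_le_mul_of_nonneg_left ?_ (norm_nonneg _)
    rw [MkV, MkV, ← Finset.card_univ, ← Finset.prod_const, ← Finset.prod_mul_distrib]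
    exact Finset.prod_le_prod (fun j _ => (R17.Mk_pos (Real.exp_pos _) (bb_nonneg r j)).le)
      fun j _ => Mk_le (bb_nonneg r j) (hw j).1.le (hw j).2.le

/-! ## convergence and automorphy -/

theorem Hyp.tendsto_strip (H : Hyp F κ) (hξ : Good ξ) (a : Pl F → ℝ) (L : ℝ) :
    Tendsto (fun s : ℝ => ∑' r : F, ∫⁻ l in box a L,
      ‖Acoef κ ξ (ray 0 s) r l - Bc κ ξ r l‖ₑ ^ 2) atTop (𝓝 0) := by
  rw [ENNReal.tendsto_nhds_zero]
  intro ε hε
  obtain ⟨s₀, hc⟩ := cauchy_of_tendsto (Φ := fun s s' => ∑' r : F, ∫⁻ l in box a L,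
      ‖Acoef κ ξ (ray 0 s) r l - Acoef κ ξ (ray 0 s') r l‖ₑ ^ 2)
    (H.strip_cauchy hξ a L 0 0) (ENNReal.half_pos hε.ne')
  filter_upwards [eventually_ge_atTop s₀] with s hs
  rw [ENNReal.tsum_eq_iSup_sum]
  refine iSup_le fun S => ?_
  have ht : Tendsto (fun s' : ℝ => ε + ∑ r ∈ S, 2 * ∫⁻ l in box a L,
      ‖Acoef κ ξ (ray 0 s') r l - Bc κ ξ r l‖ₑ ^ 2) atTop (𝓝 (ε + ∑ r ∈ S, 0)) :=
    tendsto_const_nhds.add (tendsto_finsetSum _ fun r _ => tendsto_two_mul ((H.spec hξ r).2 a L 0))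
  rw [Finset.sum_const_zero, add_zero] at ht
  refine ge_of_tendsto ht ?_
  filter_upwards [eventually_ge_atTop s₀] with s' hs'
  calc _ ≤ ∑ r ∈ S, (2 * (∫⁻ l in box a L,
          ‖Acoef κ ξ (ray 0 s) r l - Acoef κ ξ (ray 0 s') r l‖ₑ ^ 2) + 2 * ∫⁻ l in box a L,
          ‖Acoef κ ξ (ray 0 s') r l - Bc κ ξ r l‖ₑ ^ 2) :=
        Finset.sum_le_sum fun r _ => lint_tri _ _ (H.meas_A hξ.1 _ r) (H.meas_A hξ.1 _ r)
    _ ≤ _ := by
        rw [Finset.sum_add_distrib, ← Finset.mul_sum]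
        gcongr
        calc _ ≤ 2 * (ε / 2) := by
              gcongr
              exact (ENNReal.sum_le_tsum S).trans (hc s hs s' hs')
          _ ≤ ε := ENNReal.mul_div_le

theorem Hyp.hasExp_Th (H : Hyp F κ) (hξ : Good ξ) : ∃ M : ℕ, M ≠ 0 ∧
    HasExp M (fun w => (κ : ℂ) * Th ξ w) (Bc κ ξ) := by
  obtain ⟨M, hM, hs⟩ := H.supp hξ
  refine ⟨M, hM, fun r => ?_, fun r l hr => hs r (left_ne_zero_of_mul (right_ne_zero_of_mul hr)),
    fun l => ⟨?_, fun z => ?_⟩⟩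
  · exact (continuous_const.mul (continuous_const.mul
      (Complex.continuous_ofReal.comp (continuous_MkV r)))).measurable
  · simpa only [Bc, norm_mul (κ : ℂ)] using (H.summable_Th hξ l).mul_left ‖(κ : ℂ)‖
  · simp only [Th, Bc, pt]
    rw [← tsum_mul_left]
    exact tsum_congr fun r => by ring

theorem Hyp.tendsto_local (H : Hyp F κ) (hξ : Good ξ) {K : Set (HH F)} (hK : IsCompact K) :
    Tendsto (fun s : ℝ => ∫⁻ w in K, ‖thY ξ (ray 0 s) w - (κ : ℂ) * Th ξ w‖ₑ ^ 2 ∂μHH F)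
      atTop (𝓝 0) := by
  obtain ⟨N, hN, hf⟩ := H.four ξ hξ.1
  obtain ⟨M, hM, hg⟩ := H.hasExp_Th hξ
  obtain ⟨C, a, L, h⟩ := H.B.compact_le K (N * M) hK (mul_ne_zero hN hM)
  have ht := ENNReal.Tendsto.const_mul (a := ENNReal.ofReal C) (H.tendsto_strip hξ a L)
    (Or.inr ENNReal.ofReal_ne_top)
  rw [mul_zero] at ht
  refine tendsto_of_tendsto_of_tendsto_of_le_of_le tendsto_const_nhds ht (fun _ => zero_le)
    fun s => ?_
  exact h (fun w => thY ξ (ray 0 s) w - (κ : ℂ) * Th ξ w)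
    (fun r l => Acoef κ ξ (ray 0 s) r l - Bc κ ξ r l)
    ((H.meas_thY hξ.1 _).sub (continuous_const.mul (H.continuous_Th hξ)).measurable)
    (hasExp_sub (hasExp_mono (dvd_mul_right N M) (hf _)) (hasExp_mono (dvd_mul_left M N) hg))

instance isOpenPosMeasure_μHH : (μHH F).IsOpenPosMeasure := by
  unfold μHH
  infer_instance

theorem Hyp.aut (H : Hyp F κ) (hξ : Good ξ) (γ : SL F) (w : HH F) :
    Th (tr ξ (γ : Mat F)) (γ • w) = Th ξ w := by
  have hη := H.good_tr hξ γ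
  have hc : Continuous fun w : HH F => γ • w := H.G.cont _ (det_ne γ)
  have hm : MeasurePreserving (fun w : HH F => γ • w) (μHH F) (μHH F) := H.G.meas _ (det_ne γ)
  refine mul_left_cancel₀ H.κ_ne ?_
  refine eq_of_local (μ := μHH F) (Φ := fun s => thY ξ (ray 0 s))
    (G := fun w => (κ : ℂ) * Th (tr ξ (γ : Mat F)) (γ • w)) (G' := fun w => (κ : ℂ) * Th ξ w)
    (fun s => H.meas_thY hξ.1 _) (continuous_const.mul ((H.continuous_Th hη).comp hc))
    (continuous_const.mul (H.continuous_Th hξ)) (fun K hK => ?_)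
    (fun K hK => H.tendsto_local hξ hK) w
  have hK' := hK.image hc
  refine tendsto_of_tendsto_of_tendsto_of_le_of_le tendsto_const_nhds (H.tendsto_local hη hK')
    (fun _ => zero_le) fun s => ?_
  have hf : Measurable fun w : HH F =>
      ‖thY (tr ξ (γ : Mat F)) (ray 0 s) w - (κ : ℂ) * Th (tr ξ (γ : Mat F)) w‖ₑ ^ 2 :=
    ((H.meas_thY hη.1 _).sub
      (continuous_const.mul (H.continuous_Th hη)).measurable).enorm.pow_const 2
  simp only
  rw [← hm.setLIntegral_comp_preimage hK'.measurableSet hf]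
  simp only [H.G.aut]
  exact lintegral_mono_set (Set.subset_preimage_image _ _)

end Crest.Agent.T27.TH.A5

namespace Crest.Agent.T27.TH

/-- **Leaf A5**. -/
theorem theta_53 (F : Type) [Field F] [NumberField F] [Emb F] (hL : LatStmt F) (hR : RowStmt F)
    (hD : DensStmt F) (hG : GeomStmt F) (hU : UnfoldStmt F) (hB : BoxStmt F)
    (hF : FourierStmt F) : ThetaStmt F := by
  obtain ⟨κ, hκ, hf⟩ := hF
  have H : A5.Hyp F κ := ⟨hL, hR, hD, hG, hU, hB, hκ, hf⟩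
  refine ⟨fun ξ hξ r => (H.spec hξ r).1, fun ξ hξ => ?_, fun ξ hξ => H.aut hξ,
    fun ξ hξ => H.vanish hξ⟩
  obtain ⟨C, -, h⟩ := H.bound hξ
  exact ⟨C, h⟩

end Crest.Agent.T27.TH
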