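import Crest.Agent.T27.ThInt_54

/-!
# Row 27, theta function, leaf B2 (part 2): the constant-term function (`TH.IntStmt`)
-/

set_option autoImplicit false

noncomputable section

namespace Crest.Agent.T27.TH

open scoped ComplexConjugate
open NumberField

namespace I54

variable {F : Type} [Field F] [NumberField F] [Emb F] [Ar F]

local notation "𝐍" => ((Ar.N F : ℕ) : F)
local notation "𝐑" => (Ar.R : Subring F)
local notation "𝐋" => (Ar.L : Subring F)

/-! ## the bicharacter -/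

theorem cc_ne {x y : F} (hx : x ≠ 0) (hy : y ≠ 0) : Ar.cc x y ≠ 0 := fun h => by
  have := Ar.cc_cube x y hx hy
  rw [h] at this
  norm_num at this

theorem cc_swap_eq {x y : F} (hx : x ≠ 0) (hy : y ≠ 0) : Ar.cc y x = Ar.cc x y ^ 2 := by
  have h1 := Ar.cc_swap x y hx hy
  have h2 := Ar.cc_cube x y hx hy
  linear_combination (Ar.cc x y ^ 2) * h1 - Ar.cc y x * h2

theorem cc_self {x : F} (hx : x ≠ 0) : Ar.cc x x = 1 := by
  have h1 := Ar.cc_swap x x hx hx
  have h2 := Ar.cc_cube x x hx hx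
  linear_combination h2 - Ar.cc x x * h1

theorem conj_cc {x y : F} (hx : x ≠ 0) (hy : y ≠ 0) : conj (Ar.cc x y) = Ar.cc x y ^ 2 := by
  have h2 := Ar.cc_cube x y hx hy
  have h1 : ‖Ar.cc x y‖ = 1 := by
    have : ‖Ar.cc x y‖ ^ 3 = 1 := by rw [← norm_pow, h2, norm_one]
    exact (pow_eq_one_iff_of_nonneg (norm_nonneg _) (by norm_num)).1 this
  have h3 : Ar.cc x y * conj (Ar.cc x y) = 1 := by
    rw [Complex.mul_conj, Complex.normSq_eq_norm_sq, h1]; simp
  linear_combination (Ar.cc x y ^ 2) * h3 - conj (Ar.cc x y) * h2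

theorem cc_one_left {y : F} (hy : y ≠ 0) : Ar.cc 1 y = 1 := by
  have h := Ar.cc_mul_left 1 1 y one_ne_zero one_ne_zero hy
  rw [mul_one] at h
  exact (mul_left_cancel₀ (cc_ne one_ne_zero hy) (by rw [mul_one]; exact h)).symm

theorem cc_one_right {y : F} (hy : y ≠ 0) : Ar.cc y 1 = 1 := by
  rw [cc_swap_eq one_ne_zero hy, cc_one_left hy, one_pow]

theorem cc_inv_left {x y : F} (hx : x ≠ 0) (hy : y ≠ 0) : Ar.cc x⁻¹ y = Ar.cc x y ^ 2 := by
  have h := Ar.cc_mul_left x x⁻¹ y hx (inv_ne_zero hx) hy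
  rw [mul_inv_cancel₀ hx, cc_one_left hy] at h
  have h2 := Ar.cc_cube x y hx hy
  linear_combination (-Ar.cc x y ^ 2) * h - Ar.cc x⁻¹ y * h2

theorem cc_inv_right {x y : F} (hx : x ≠ 0) (hy : y ≠ 0) : Ar.cc x y⁻¹ = Ar.cc x y ^ 2 := by
  have h := Ar.cc_mul_right x y y⁻¹ hx hy (inv_ne_zero hy)
  rw [mul_inv_cancel₀ hy, cc_one_right hx] at h
  have h2 := Ar.cc_cube x y hx hy
  linear_combination (-Ar.cc x y ^ 2) * h - Ar.cc x y⁻¹ * h2

theorem cc_cube_left {s y : F} (hs : s ≠ 0) (hy : y ≠ 0) : Ar.cc (s ^ 3) y = 1 := by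
  rw [show s ^ 3 = s * s * s by ring, Ar.cc_mul_left _ _ _ (mul_ne_zero hs hs) hs hy,
    Ar.cc_mul_left _ _ _ hs hs hy, ← Ar.cc_cube s y hs hy]
  ring

theorem cc_cube_right {s y : F} (hs : s ≠ 0) (hy : y ≠ 0) : Ar.cc y (s ^ 3) = 1 := by
  rw [cc_swap_eq (pow_ne_zero _ hs) hy, cc_cube_left hs hy, one_pow]

/-- `x` acts trivially on both sides. -/
def Triv (x : F) : Prop := x ≠ 0 ∧ ∀ y, y ≠ 0 → Ar.cc x y = 1

theorem Triv.right {x y : F} (h : Triv x) (hy : y ≠ 0) : Ar.cc y x = 1 := by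
  rw [cc_swap_eq h.1 hy, h.2 y hy, one_pow]

theorem Triv.mul {x y : F} (h : Triv x) (h' : Triv y) : Triv (x * y) :=
  ⟨mul_ne_zero h.1 h'.1, fun z hz => by
    rw [Ar.cc_mul_left _ _ _ h.1 h'.1 hz, h.2 z hz, h'.2 z hz, one_mul]⟩

theorem Triv.inv {x : F} (h : Triv x) : Triv x⁻¹ :=
  ⟨inv_ne_zero h.1, fun z hz => by rw [cc_inv_left h.1 hz, h.2 z hz, one_pow]⟩

theorem triv_cube {s : F} (hs : s ≠ 0) : Triv (s ^ 3) :=
  ⟨pow_ne_zero _ hs, fun _ hy => cc_cube_left hs hy⟩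

theorem triv_one : Triv (1 : F) := by simpa using triv_cube (one_ne_zero (α := F))

theorem triv_neg_one : Triv (-1 : F) := by
  have := triv_cube (neg_ne_zero.2 (one_ne_zero (α := F)))
  rwa [show (-1 : F) ^ 3 = -1 by ring] at this

theorem PJ_unit {j : ℕ} (hj : 1 ≤ j) {t : F} (h : PJ j t) : t ≠ 0 ∧ t⁻¹ ∈ 𝐋 ∧ t ∈ 𝐋 := by
  obtain ⟨y, hy, e⟩ := deep_mono h hj
  have e' : t = 1 + 𝐍 * y := by rw [pow_one] at e; linear_combination e
  have := Ar.unit_P y hy
  rw [← e'] at this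
  refine ⟨this.1, this.2, ?_⟩
  rw [e']
  exact Subring.add_mem _ (Subring.one_mem _) (Subring.mul_mem _ (natCast_mem _ _) hy)

theorem triv_PJ {j : ℕ} (hj : Ar.kc F ≤ j) {t : F} (h : PJ j t) : Triv t := by
  refine ⟨(PJ_unit (Ar.one_le_kc.trans hj) h).1, fun y hy => ?_⟩
  obtain ⟨z, hz, e⟩ := deep_mono h hj
  have e' : t = 1 + 𝐍 ^ Ar.kc F * z := by linear_combination e
  rw [e']
  exact Ar.cc_P z hz y hy

/-- the value only depends on the arguments modulo trivial elements -/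
theorem cc_congr {x y x' y' s t : F} (hx : x ≠ 0) (hy : y ≠ 0) (hs : Triv s) (ht : Triv t)
    (e1 : x' = x * s) (e2 : y' = y * t) : Ar.cc x' y' = Ar.cc x y := by
  rw [e1, e2, Ar.cc_mul_left _ _ _ hx hs.1 (mul_ne_zero hy ht.1), hs.2 _ (mul_ne_zero hy ht.1),
    mul_one, Ar.cc_mul_right _ _ _ hx hy ht.1, ht.right hx, mul_one]

omit [NumberField F] [Emb F] [Ar F] in
theorem XK_ne {u : F × F} (hu : u ≠ 0) : XK u ≠ 0 := by
  unfold XK
  split_ifs with h
  · exact inv_ne_zero fun h2 => hu (Prod.ext h h2)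
  · exact h

omit [NumberField F] [Emb F] [Ar F] in
theorem XK_of_ne {c : F} (hc : c ≠ 0) (d : F) : XK (c, d) = c := if_neg hc

omit [NumberField F] [Emb F] [Ar F] in
theorem XK_zero (d : F) : XK ((0 : F), d) = d⁻¹ := if_pos rfl

/-- scaling a row by cubes -/
theorem XK_cube {a b : F} (ha : a ≠ 0) (hb : b ≠ 0) (c d : F) :
    ∃ s, Triv s ∧ XK (a ^ 3 * c, b ^ 3 * d) = XK (c, d) * s := by
  rcases eq_or_ne c 0 with rfl | hc
  · refine ⟨_, (triv_cube hb).inv, ?_⟩
    rw [mul_zero, XK_zero, XK_zero, mul_inv, mul_comm]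
  · refine ⟨_, triv_cube ha, ?_⟩
    rw [XK_of_ne hc, XK_of_ne (mul_ne_zero (pow_ne_zero _ ha) hc), mul_comm]

theorem test_zero {f : F × F → ℂ} (h : Test f) : f 0 = 0 := by
  obtain ⟨j, hj⟩ := h
  by_contra h0
  obtain ⟨-, -, a, -, b, -, e⟩ := hj.supp 0 h0
  simp only [Prod.fst_zero, Prod.snd_zero, mul_zero, add_zero] at e
  exact pow_ne_zero j N_ne e.symm

/-! ## the integrand -/

theorem fE_ne (f : F × F → ℂ) {η x : F} (hη : η ≠ 0) (hx : x ≠ 0) (d : F) :
    fE f η x d = f (η * x ^ 3, d) := by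
  rw [fE, XK_of_ne (mul_ne_zero hη (pow_ne_zero _ hx)),
    cc_congr hη hη (triv_cube hx) triv_one rfl (mul_one _).symm, cc_self hη, mul_one]

theorem fE_zero (f : F × F → ℂ) (η d : F) : fE f η 0 d = f (0, d) * Ar.cc d⁻¹ η := by
  rw [fE, zero_pow three_ne_zero, mul_zero, XK_zero]

theorem fE_mul (f : F × F → ℂ) {η d : F} (hη : η ≠ 0) (hd : d ≠ 0) (x : F) :
    fE f η x d * Ar.cc d η = f (η * x ^ 3, d) * Ar.cc d (XK (η * x ^ 3, d)) := by
  rcases eq_or_ne x 0 with rfl | hx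
  · rw [fE_zero, zero_pow three_ne_zero, mul_zero, XK_zero, cc_inv_left hd hη, cc_inv_right hd hd,
      cc_self hd]
    linear_combination f (0, d) * Ar.cc_cube d η hd hη
  · rw [fE_ne f hη hx, XK_of_ne (mul_ne_zero hη (pow_ne_zero _ hx)),
      cc_congr hd hη triv_one (triv_cube hx) (mul_one _).symm rfl]

theorem fE_d0 {f : F × F → ℂ} (h0 : f 0 = 0) {η : F} (hη : η ≠ 0) (x : F) :
    fE f η x 0 = f (η * x ^ 3, 0) := by
  rcases eq_or_ne x 0 with rfl | hx
  · rw [fE_zero, zero_pow three_ne_zero, mul_zero]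
    have : f (0, 0) = 0 := h0
    rw [this, zero_mul]
  · exact fE_ne f hη hx 0

theorem sb (hO : OpStmt F) {f : F × F → ℂ} (hf : Test f) {η : F} (hη : η ≠ 0) :
    ∃ J, (∀ x, SB J (fE f η x)) ∧ ∀ d, SB J fun x => fE f η x d := by
  have h0 := test_zero hf
  obtain ⟨j, hj⟩ := hf
  obtain ⟨J0, hJ0⟩ := hO.close f j hj
  obtain ⟨k, hk1, hk2⟩ := exists_bd2 η
  have hsx : ∀ x d, fE f η x d ≠ 0 → 𝐍 ^ (j + k) * x ∈ 𝐋 := by
    intro x d hx
    have h1 := (hj.supp _ (left_ne_zero_of_mul hx)).1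
    refine L_of_cube ?_
    have := Subring.mul_mem _ (Npow_L (2 * (j + k))) (Subring.mul_mem _ h1 hk2)
    have e : (𝐍 ^ (j + k) * x) ^ 3 =
        𝐍 ^ (2 * (j + k)) * (𝐍 ^ j * (η * x ^ 3) * (𝐍 ^ k * η⁻¹)) := by
      field_simp
      ring
    rw [e]
    exact this
  refine ⟨J0 + k + 2 * (j + k) + j + Ar.kc F, fun x => ⟨fun d y hy => ?_, fun d hd => ?_⟩,
    fun d => ⟨fun x y hy => ?_, fun x hx => bd_mono (hsx x d hx) (by omega)⟩⟩
  · -- periodicity in `d`
    have hy0 : Deep J0 y := deep_mono hy (by omega)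
    have c1 := hJ0 (η * x ^ 3, d) (η * x ^ 3, d + y) (by simpa using deep_zero J0)
      (by simpa using hy0)
    have c2 := hJ0 (η * x ^ 3, d + y) (η * x ^ 3, d) (by simpa using deep_zero J0)
      (by simpa using deep_neg hy0)
    rcases eq_or_ne x 0 with rfl | hx
    · simp only [zero_pow three_ne_zero, mul_zero, XK_zero] at c1 c2
      rw [fE_zero, fE_zero]
      have h00 : f (0, 0) = 0 := h0
      rcases eq_or_ne d 0 with rfl | hd
      · rw [c1.2 rfl, h00, zero_mul, zero_mul]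
      rcases eq_or_ne (d + y) 0 with hd' | hd'
      · rw [c2.2 hd', hd', h00, zero_mul, zero_mul]
      have c3 := c1.1 hd
      by_cases hf0 : f (0, d) = 0
      · rw [hf0, zero_mul] at c3
        rw [(mul_eq_zero.1 c3).resolve_right (cc_ne hd (inv_ne_zero hd')), hf0, zero_mul, zero_mul]
      obtain ⟨-, -, a, -, b, hb, e⟩ := hj.supp _ hf0
      simp only [mul_zero, zero_add] at e
      have hdi : 𝐍 ^ j * d⁻¹ ∈ 𝐋 := by
        rw [← e, mul_inv_cancel_right₀ hd]; exact hb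
      have ht : Triv ((d + y) / d) := by
        refine triv_PJ le_rfl ?_
        have : (d + y) / d - 1 = y * d⁻¹ := by field_simp; ring
        rw [PJ, this]
        exact deep_mul_bd (deep_mono hy (by omega)) hdi
      have e1 : (d + y)⁻¹ = d⁻¹ * ((d + y) / d)⁻¹ := by field_simp
      rw [cc_congr hd (inv_ne_zero hd) triv_one ht.inv (mul_one _).symm e1] at c3
      rw [mul_right_cancel₀ (cc_ne hd (inv_ne_zero hd)) c3,
        cc_congr (inv_ne_zero hd) hη ht.inv triv_one e1 (mul_one _).symm]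
    · have hc : η * x ^ 3 ≠ 0 := mul_ne_zero hη (pow_ne_zero _ hx)
      rw [fE_ne f hη hx, fE_ne f hη hx]
      rcases eq_or_ne d 0 with rfl | hd
      · exact c1.2 rfl
      · have c3 := c1.1 hd
        rw [XK_of_ne hc, XK_of_ne hc] at c3
        exact mul_right_cancel₀ (cc_ne hd hc) c3
  · exact bd_mono (hj.supp _ (left_ne_zero_of_mul hd)).2.1 (by omega)
  · -- periodicity in `x`
    show fE f η (x + y) d = fE f η x d
    by_cases hx : 𝐍 ^ (j + k) * x ∈ 𝐋
    · have hyL := deep_L hy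
      have hdeep : Deep J0 (η * (x + y) ^ 3 - η * x ^ 3) := by
        have h1 : 𝐍 ^ (k + 2 * (j + k)) * (η * (3 * x ^ 2 + 3 * x * y + y ^ 2)) ∈ 𝐋 := by
          have e : 𝐍 ^ (k + 2 * (j + k)) * (η * (3 * x ^ 2 + 3 * x * y + y ^ 2)) =
              (𝐍 ^ k * η) * (3 * (𝐍 ^ (j + k) * x) ^ 2 +
                3 * (𝐍 ^ (j + k) * x) * (𝐍 ^ (j + k) * y) + (𝐍 ^ (j + k) * y) ^ 2) := by ring
          have hy' : 𝐍 ^ (j + k) * y ∈ 𝐋 := Subring.mul_mem _ (Npow_L _) hyL
          have h3 : (3 : F) ∈ 𝐋 := by exact_mod_cast natCast_mem 𝐋 3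
          rw [e]
          exact Subring.mul_mem _ hk1 (Subring.add_mem _ (Subring.add_mem _
            (Subring.mul_mem _ h3 (Subring.pow_mem _ hx _))
            (Subring.mul_mem _ (Subring.mul_mem _ h3 hx) hy')) (Subring.pow_mem _ hy' _))
        have := deep_mul_bd (j := J0) (deep_mono hy (by omega)) h1
        convert this using 1
        ring
      have c1 := hJ0 (η * x ^ 3, d) (η * (x + y) ^ 3, d) hdeep (by simpa using deep_zero J0)
      rcases eq_or_ne d 0 with rfl | hd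
      · rw [fE_d0 h0 hη, fE_d0 h0 hη]
        exact c1.2 rfl
      · refine mul_right_cancel₀ (cc_ne hd hη) ?_
        rw [fE_mul f hη hd, fE_mul f hη hd]
        exact c1.1 hd
    · have hx' : 𝐍 ^ (j + k) * (x + y) ∉ 𝐋 := fun h => hx (by
        rw [mul_add] at h
        exact (add_mem_cancel_right (Subring.mul_mem _ (Npow_L _) (deep_L hy))).1 h)
      have z1 : fE f η x d = 0 := by by_contra h; exact hx (hsx _ _ h)
      have z2 : fE f η (x + y) d = 0 := by by_contra h; exact hx' (hsx _ _ h)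
      rw [z1, z2]

theorem sb2 (hO : OpStmt F) {f g : F × F → ℂ} (hf : Test f) (hg : Test g) {η : F} (hη : η ≠ 0) :
    ∃ J, ((∀ x, SB J (fE f η x)) ∧ ∀ d, SB J fun x => fE f η x d) ∧
      (∀ x, SB J (fE g η x)) ∧ ∀ d, SB J fun x => fE g η x d := by
  obtain ⟨J, h1, h2⟩ := sb hO hf hη
  obtain ⟨J', g1, g2⟩ := sb hO hg hη
  exact ⟨J + J', ⟨fun x => sb_mono (h1 x) (by omega), fun d => sb_mono (h2 d) (by omega)⟩,
    fun x => sb_mono (g1 x) (by omega), fun d => sb_mono (g2 d) (by omega)⟩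

variable (hM : MeanStmt F) (hO : OpStmt F)
include hM hO

theorem lam_add {f g : F × F → ℂ} (hf : Test f) (hg : Test g) : LamF (f + g) = LamF f + LamF g := by
  simp only [LamF]
  rw [← Finset.sum_add_distrib]
  refine Finset.sum_congr rfl fun η hη => ?_
  obtain ⟨J, ⟨h1, h2⟩, g1, g2⟩ := sb2 hO hf hg (Ar.E_unit η hη).1
  rw [← mul_add, ← I2_add hM h1 h2 g1 g2]
  simp only [fE, Pi.add_apply, add_mul]

theorem lam_smul (a : ℂ) {f : F × F → ℂ} (hf : Test f) : LamF (fun u => a * f u) = a * LamF f := by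
  simp only [LamF]
  rw [Finset.mul_sum]
  refine Finset.sum_congr rfl fun η hη => ?_
  obtain ⟨J, h1, h2⟩ := sb hO hf (Ar.E_unit η hη).1
  rw [mul_left_comm, ← I2_smul hM h1 h2]
  simp only [fE, mul_assoc]

theorem lam_nT {f : F × F → ℂ} (hf : Test f) (p : F) : LamF (rho (nT p : SL F) f) = LamF f := by
  rw [hO.rho_nT f p (test_zero hf)]
  simp only [LamF]
  refine Finset.sum_congr rfl fun η hη => ?_
  have hη0 := (Ar.E_unit η hη).1
  obtain ⟨J, h1, -⟩ := sb hO hf hη0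
  congr 2
  funext x
  rw [← shift hM (h1 x) (η * x ^ 3 * p)]
  congr 1
  funext d
  rcases eq_or_ne x 0 with rfl | hx
  · simp only [fE_zero, zero_pow three_ne_zero, mul_zero, zero_mul, add_zero]
  · simp only [fE_ne _ hη0 hx]

theorem lam_scale {f : F × F → ℂ} (hf : Test f) {a b : F} (ha : a ≠ 0) (hb : b ≠ 0) :
    LamF (fun u => f (a ^ 3 * u.1, b ^ 3 * u.2)) =
      (((absS a)⁻¹ * (absS b ^ 3)⁻¹ : ℝ) : ℂ) * LamF f := by
  simp only [LamF]
  rw [Finset.mul_sum]
  refine Finset.sum_congr rfl fun η hη => ?_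
  have hη0 := (Ar.E_unit η hη).1
  obtain ⟨J, h1, h2⟩ := sb hO hf hη0
  rw [mul_left_comm, ← absS_pow, ← I2_scale hM h1 h2 ha (pow_ne_zero 3 hb)]
  congr 2
  funext x
  congr 1
  funext d
  rcases eq_or_ne x 0 with rfl | hx
  · simp only [fE_zero, mul_zero]
    rcases eq_or_ne d 0 with rfl | hd
    · simp only [mul_zero]
    · rw [cc_congr (inv_ne_zero hd) hη0 (triv_cube hb).inv triv_one (x' := (b ^ 3 * d)⁻¹) (y' := η)
        (by rw [mul_inv, mul_comm]) (mul_one _).symm]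
  · simp only [fE_ne _ hη0 hx, fE_ne _ hη0 (mul_ne_zero ha hx)]
    congr 2
    ring

omit hM hO [NumberField F] [Emb F] [Ar F] in
theorem gam_det (α : F) {β : F} (hβ : β ≠ 0) : (gam α β).det = 1 := by
  rw [gam, Matrix.det_fin_two_of]; field_simp; ring

omit hM hO [NumberField F] [Emb F] [Ar F] in
theorem rmul_gam (α β c d : F) : rmul (c, d) (gam α β) = (-(d * β), c * β⁻¹ + d * α) := by
  simp [rmul, gam]

omit hM hO [NumberField F] [Emb F] [Ar F] in
theorem gam_row (α : F) {β : F} (hβ : β ≠ 0) : XK (gam α β 1 0, gam α β 1 1) = -β := by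
  simp only [gam, Matrix.of_apply, Matrix.cons_val', Matrix.cons_val_zero, Matrix.cons_val_one,
    Matrix.cons_val_fin_one]
  exact XK_of_ne (neg_ne_zero.2 hβ) _

omit hM hO [NumberField F] [Emb F] [Ar F] in
theorem row_ne {α β c d : F} (hβ : β ≠ 0) (h : (c, d) ≠ 0) :
    (-(d * β), c * β⁻¹ + d * α) ≠ (0 : F × F) := by
  intro h0
  have h1 : -(d * β) = 0 := congrArg Prod.fst h0
  have h2 : c * β⁻¹ + d * α = 0 := congrArg Prod.snd h0
  have hd : d = 0 := by simpa [hβ] using h1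
  rw [hd, zero_mul, add_zero] at h2
  have hc : c = 0 := by simpa [hβ] using h2
  exact h (Prod.ext hc hd)

omit hM hO in
theorem rho_gam (f : F × F → ℂ) (α : F) {β : F} (hβ : β ≠ 0) (c d : F) :
    rho (gam α β) f (c, d) = f (-(d * β), c * β⁻¹ + d * α) *
      conj (Ar.cc (XK (-(d * β), c * β⁻¹ + d * α) / XK (c, d))
        (XK (-(d * β), c * β⁻¹ + d * α) / -β)) := by
  rw [rho, rmul_gam, gam_row α hβ]

theorem P1 {f : F × F → ℂ} (hf : Test f) {m : F} (α : F) {β : F} (hm : m ≠ 0) (hβ : β ≠ 0) :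
    CF f (m ^ 3 * α) (m ^ 3 * β) = ((absS m ^ 2)⁻¹ : ℝ) * CF f α β := by
  have hmβ : m ^ 3 * β ≠ 0 := mul_ne_zero (pow_ne_zero _ hm) hβ
  have key : rho (gam (m ^ 3 * α) (m ^ 3 * β)) f =
      fun u => rho (gam α β) f (m⁻¹ ^ 3 * u.1, m ^ 3 * u.2) := by
    funext ⟨c, d⟩
    rw [rho_gam f _ hmβ, rho_gam f _ hβ]
    have e : (-(d * (m ^ 3 * β)), c * (m ^ 3 * β)⁻¹ + d * (m ^ 3 * α)) =
        (-(m ^ 3 * d * β), m⁻¹ ^ 3 * c * β⁻¹ + m ^ 3 * d * α) :=
      Prod.ext (by ring) (by field_simp)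
    rcases eq_or_ne (c, d) 0 with h0 | h0
    · obtain ⟨rfl, rfl⟩ := Prod.mk.inj h0
      have h00 : f (0, 0) = 0 := test_zero hf
      simp [h00]
    have hw := XK_ne (row_ne (α := m ^ 3 * α) hmβ h0)
    obtain ⟨s, hs, es⟩ := XK_cube (inv_ne_zero hm) hm c d
    rw [es, ← e]
    congr 2
    symm
    exact cc_congr (div_ne_zero hw (XK_ne h0)) (div_ne_zero hw (neg_ne_zero.2 hmβ)) hs.inv
      (triv_cube hm) (by rw [div_mul_eq_div_div, div_eq_mul_inv]) (by field_simp)
  rw [CF, key, lam_scale hM hO (hO.test_rho f _ (gam_det α hβ) hf) (inv_ne_zero hm) hm, CF,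
    absS_inv hm]
  congr 2
  have := (absS_pos hm).ne'
  field_simp

theorem P2 {f : F × F → ℂ} (hf : Test f) {m : F} (α : F) {β : F} (hm : m ≠ 0) (hβ : β ≠ 0) :
    CF (opC m f) (m ^ 3 * α) β = ((absS m ^ 3)⁻¹ : ℝ) * CF f α β := by
  have key : rho (gam (m ^ 3 * α) β) (opC m f) =
      fun u => rho (gam α β) f (1 ^ 3 * u.1, m ^ 3 * u.2) := by
    funext ⟨c, d⟩
    rw [rho_gam _ _ hβ, rho_gam f _ hβ, opC]
    have e : (-(m ^ 3 * d * β), 1 ^ 3 * c * β⁻¹ + m ^ 3 * d * α) =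
        (m ^ 3 * -(d * β), 1 ^ 3 * (c * β⁻¹ + d * (m ^ 3 * α))) :=
      Prod.ext (by ring) (by ring)
    rcases eq_or_ne (c, d) 0 with h0 | h0
    · obtain ⟨rfl, rfl⟩ := Prod.mk.inj h0
      have h00 : f (0, 0) = 0 := test_zero hf
      simp [h00]
    have hw := XK_ne (row_ne (α := m ^ 3 * α) hβ h0)
    obtain ⟨s, hs, es⟩ := XK_cube one_ne_zero hm c d
    obtain ⟨s', hs', es'⟩ := XK_cube hm one_ne_zero (-(d * β)) (c * β⁻¹ + d * (m ^ 3 * α))
    rw [es, e, es']
    congr 2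
    · rw [one_pow, one_mul]
    symm
    exact cc_congr (div_ne_zero hw (XK_ne h0)) (div_ne_zero hw (neg_ne_zero.2 hβ)) (hs'.mul hs.inv)
      hs' (by have := hs.1; have := XK_ne h0; field_simp) (by ring)
  rw [CF, key, lam_scale hM hO (hO.test_rho f _ (gam_det α hβ) hf) one_ne_zero hm, CF, absS_one]
  congr 2
  simp

omit hM hO in
theorem P3_aux {t β X U : F} (ht : t ≠ 0) (hβ : β ≠ 0) (hX : X ≠ 0) (hU : U ≠ 0) :
    Ar.cc t X * conj (Ar.cc (X / U) (X / (t * β))) =
      conj (Ar.cc β t) * conj (Ar.cc (t * t * X / U) (t * t * X / β)) := by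
  have htt := mul_ne_zero ht ht
  have httX := mul_ne_zero htt hX
  have htβ := mul_ne_zero ht hβ
  rw [conj_cc (div_ne_zero hX hU) (div_ne_zero hX htβ), conj_cc hβ ht,
    conj_cc (div_ne_zero httX hU) (div_ne_zero httX hβ)]
  simp only [div_eq_mul_inv]
  simp (disch := simp only [ne_eq, mul_eq_zero, inv_eq_zero, ht, hβ, hX, hU, or_self, not_false_eq_true])
    only [Ar.cc_mul_left, Ar.cc_mul_right, cc_inv_left, cc_inv_right, cc_self]
  rw [cc_swap_eq ht hX, cc_swap_eq ht hβ]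
  have h1 := Ar.cc_cube t X ht hX
  have h2 := Ar.cc_cube t β ht hβ
  generalize Ar.cc t X = a at *
  generalize Ar.cc t β = b at *
  calc _ = (a ^ 3) ^ 3 * (Ar.cc U t ^ 8 * Ar.cc U X ^ 4 * Ar.cc X β ^ 4 * Ar.cc U β ^ 8) := by ring
    _ = (a ^ 3) ^ 4 * (b ^ 3) ^ 4 *
      (Ar.cc U t ^ 8 * Ar.cc U X ^ 4 * Ar.cc X β ^ 4 * Ar.cc U β ^ 8) := by rw [h1, h2]; ring
    _ = _ := by ring

theorem P3 {f : F × F → ℂ} (hf : Test f) {t : F} (α : F) {β : F} (ht : t ≠ 0) (hβ : β ≠ 0) :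
    CF (opT t f) (t ^ 2 * α) (t * β) = ((absS t ^ 3)⁻¹ : ℝ) * conj (Ar.cc β t) * CF f α β := by
  have htβ := mul_ne_zero ht hβ
  have key : rho (gam (t ^ 2 * α) (t * β)) (opT t f) =
      fun u => conj (Ar.cc β t) * rho (gam α β) f (1 ^ 3 * u.1, t ^ 3 * u.2) := by
    funext ⟨c, d⟩
    rw [rho_gam _ _ htβ, rho_gam f _ hβ, opT]
    have e : (-(t ^ 3 * d * β), 1 ^ 3 * c * β⁻¹ + t ^ 3 * d * α) =
        (t ^ 2 * -(d * (t * β)), t * (c * (t * β)⁻¹ + d * (t ^ 2 * α))) :=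
      Prod.ext (by ring) (by field_simp)
    rcases eq_or_ne (c, d) 0 with h0 | h0
    · obtain ⟨rfl, rfl⟩ := Prod.mk.inj h0
      have h00 : f (0, 0) = 0 := test_zero hf
      simp [h00]
    have hw := XK_ne (row_ne (α := t ^ 2 * α) htβ h0)
    have hU := XK_ne h0
    obtain ⟨s, hs, es⟩ := XK_cube one_ne_zero ht c d
    obtain ⟨s', hs', es'⟩ : ∃ s', Triv s' ∧
        XK (t ^ 2 * -(d * (t * β)), t * (c * (t * β)⁻¹ + d * (t ^ 2 * α))) =
          t * t * XK (-(d * (t * β)), c * (t * β)⁻¹ + d * (t ^ 2 * α)) * s' := by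
      rcases eq_or_ne (-(d * (t * β))) 0 with h1 | h1
      · refine ⟨_, (triv_cube ht).inv, ?_⟩
        rw [h1, mul_zero, XK_zero, XK_zero, mul_inv]
        field_simp
      · refine ⟨_, triv_one, ?_⟩
        rw [XK_of_ne h1, XK_of_ne (mul_ne_zero (pow_ne_zero _ ht) h1)]
        ring
    rw [es, e, es']
    generalize XK (-(d * (t * β)), c * (t * β)⁻¹ + d * (t ^ 2 * α)) = X at hw
    generalize XK (c, d) = U at hU
    have httX := mul_ne_zero (mul_ne_zero ht ht) hw
    rw [cc_congr (div_ne_zero hw hU) (div_ne_zero hw htβ) triv_one triv_neg_one (x' := X / U)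
        (y' := X / -(t * β)) (by ring) (by rw [div_neg]; ring),
      cc_congr (div_ne_zero httX hU) (div_ne_zero httX hβ) (hs'.mul hs.inv) (hs'.mul triv_neg_one)
        (x' := t * t * X * s' / (U * s)) (y' := t * t * X * s' / -β)
        (by have := hs.1; field_simp) (by rw [div_neg]; ring), mul_assoc, P3_aux ht hβ hw hU]
    ring
  have hT := hO.test_rho f _ (gam_det α hβ) hf
  have hT2 : Test fun u : F × F => rho (gam α β) f (1 ^ 3 * u.1, t ^ 3 * u.2) := by
    have h := hO.test_opS _ t ht (hO.test_opC _ t⁻¹ (inv_ne_zero ht) hT)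
    convert h using 2 with u
    simp only [opS, opC]
    congr 2
    field_simp
  rw [CF, key, lam_smul hM hO _ hT2, lam_scale hM hO hT one_ne_zero ht, CF, absS_one]
  push_cast
  ring

omit hM in
theorem P0 {f : F × F → ℂ} {j : ℕ} (hf : TestFn j f) (α : F) {β x : F} (hβ : β ≠ 0)
    (hx : Deep j x) : CF f (α + x * β) β = CF f α β := by
  have e : gam (α + x * β) β = gam α β * ((nT (-x) : SL F) : Mat F) := by
    ext i k
    fin_cases i <;> fin_cases k <;> simp [gam, nT, mkSL, Matrix.mul_apply, Fin.sum_univ_two]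
    ring
  have hk : KJ j (nT (-x)) := by
    intro i k
    fin_cases i <;> fin_cases k
    · simpa [nT, mkSL] using deep_zero j
    · simpa [nT, mkSL] using deep_neg hx
    · simpa [nT, mkSL] using deep_zero j
    · simpa [nT, mkSL] using deep_zero j
  rw [CF, CF, e, hO.rho_mul_nT f _ _ (gam_det α hβ) (test_zero ⟨j, hf⟩), hf.inv _ hk]

/-! ## the basic test function -/

omit hM hO in
theorem row_KJ {j : ℕ} {u : F × F} {a b c d : F} (ha : a ∈ 𝐋) (hb : Deep j b) (hc : Deep j c)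
    (hd : PJ j d) (hd' : d ∈ 𝐋) (h1 : Deep j u.1) (h2 : PJ j u.2) (h2' : u.2 ∈ 𝐋) :
    Deep j (u.1 * a + u.2 * c) ∧ PJ j (u.1 * b + u.2 * d) := by
  refine ⟨deep_add (deep_mul h1 ha) (by rw [mul_comm]; exact deep_mul hc h2'), ?_⟩
  have : u.1 * b + u.2 * d - 1 = u.1 * b + ((u.2 - 1) * d + (d - 1)) := by ring
  rw [PJ, this]
  exact deep_add (deep_mul h1 (deep_L hb)) (deep_add (deep_mul h2 hd') hd)

/-- The basic test function of level `j`. -/
def f0 (j : ℕ) : F × F → ℂ := {u : F × F | Deep j u.1 ∧ PJ j u.2}.indicator fun _ => 1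

omit hM in
theorem testFn_f0 {j : ℕ} (hj : Ar.kc F ≤ j) : TestFn j (f0 j : F × F → ℂ) := by
  have hj1 : 1 ≤ j := Ar.one_le_kc.trans hj
  refine ⟨hj, ⟨1, fun u => ?_⟩, fun u hu => ?_, fun k hk => ?_⟩
  · rw [f0]
    by_cases h : u ∈ {u : F × F | Deep j u.1 ∧ PJ j u.2}
    · rw [Set.indicator_of_mem h, norm_one]
    · rw [Set.indicator_of_notMem h, norm_zero]; exact zero_le_one
  · obtain ⟨h1, h2⟩ : u ∈ {u : F × F | Deep j u.1 ∧ PJ j u.2} := Set.mem_of_indicator_ne_zero hu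
    obtain ⟨n2, i2, l2⟩ := PJ_unit hj1 h2
    refine ⟨Subring.mul_mem _ (Npow_L j) (deep_L h1), Subring.mul_mem _ (Npow_L j) l2,
      0, Subring.zero_mem _, 𝐍 ^ j * u.2⁻¹, Subring.mul_mem _ (Npow_L j) i2, ?_⟩
    field_simp
    ring
  · have ka : PJ j (k 0 0) := by simpa [PJ] using hk 0 0
    have kb : Deep j (k 0 1) := by simpa using hk 0 1
    have kc : Deep j (k 1 0) := by simpa using hk 1 0
    have kd : PJ j (k 1 1) := by simpa [PJ] using hk 1 1
    have hdet : k 0 0 * k 1 1 - k 0 1 * k 1 0 = 1 := by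
      have := k.det_coe
      rwa [Matrix.det_fin_two] at this
    obtain ⟨na, -, la⟩ := PJ_unit hj1 ka
    obtain ⟨nd, -, ld⟩ := PJ_unit hj1 kd
    funext u
    rw [rho]
    change f0 j (u.1 * k 0 0 + u.2 * k 1 0, u.1 * k 0 1 + u.2 * k 1 1) *
      conj (Ar.cc (XK (u.1 * k 0 0 + u.2 * k 1 0, u.1 * k 0 1 + u.2 * k 1 1) / XK u)
        (XK (u.1 * k 0 0 + u.2 * k 1 0, u.1 * k 0 1 + u.2 * k 1 1) / XK (k 1 0, k 1 1))) = f0 j u
    generalize k 0 0 = a at *
    generalize k 0 1 = b at *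
    generalize k 1 0 = c at *
    generalize k 1 1 = d at *
    obtain ⟨x, y⟩ := u
    dsimp only
    by_cases h : (x, y) ∈ {u : F × F | Deep j u.1 ∧ PJ j u.2}
    · obtain ⟨ny, -, ly⟩ := PJ_unit hj1 h.2
      have h' : (x * a + y * c, x * b + y * d) ∈ {u : F × F | Deep j u.1 ∧ PJ j u.2} :=
        row_KJ la kb kc kd ld h.1 h.2 ly
      have ta := triv_PJ hj ka
      have td := triv_PJ hj kd
      have ty : Triv y := triv_PJ hj h.2
      have tw : Triv (x * b + y * d) := triv_PJ hj h'.2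
      rw [f0, Set.indicator_of_mem h, Set.indicator_of_mem h', one_mul]
      suffices hs : Ar.cc (XK (x * a + y * c, x * b + y * d) / XK (x, y))
          (XK (x * a + y * c, x * b + y * d) / XK (c, d)) = 1 by rw [hs, map_one]
      rcases eq_or_ne c 0 with rfl | nc
      · rcases eq_or_ne x 0 with rfl | nx
        · simp only [zero_mul, mul_zero, add_zero, zero_add, XK_zero]
          rw [cc_congr one_ne_zero one_ne_zero td.inv ty.inv (by have := ty.1; field_simp)
            (by field_simp), cc_self one_ne_zero]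
        · simp only [mul_zero, add_zero, XK_zero]
          rw [XK_of_ne (mul_ne_zero nx na), XK_of_ne nx, mul_div_cancel_left₀ _ nx]
          exact ta.2 _ (div_ne_zero (mul_ne_zero nx na) (inv_ne_zero nd))
      · rw [XK_of_ne nc]
        rcases eq_or_ne x 0 with rfl | nx
        · simp only [zero_mul, zero_add, XK_zero]
          rw [XK_of_ne (mul_ne_zero ny nc), mul_div_cancel_right₀ _ nc]
          exact ty.right (div_ne_zero (mul_ne_zero ny nc) (inv_ne_zero ny))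
        · rw [XK_of_ne nx]
          rcases eq_or_ne (x * a + y * c) 0 with h0 | h0
          · have ex : x = -(y * c) / a := by field_simp; linear_combination h0
            rw [h0, XK_zero, cc_congr (inv_ne_zero nc) (inv_ne_zero nc)
              (((tw.inv.mul ta).mul ty.inv).mul triv_neg_one) tw.inv ?_ (by rw [div_eq_mul_inv, mul_comm]),
              cc_self (inv_ne_zero nc)]
            generalize x * b + y * d = w at tw
            have := tw.1
            rw [ex]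
            field_simp
          · rw [XK_of_ne h0]
            have st := hO.steinberg (x * a / (x * a + y * c)) (y * c / (x * a + y * c))
              (div_ne_zero (mul_ne_zero nx na) h0) (div_ne_zero (mul_ne_zero ny nc) h0)
              (by field_simp)
            have n1 := div_ne_zero h0 nx
            have n2 := div_ne_zero h0 nc
            rw [cc_congr (inv_ne_zero n1) (inv_ne_zero n2) ta ty (by field_simp) (by field_simp),
              cc_inv_left n1 (inv_ne_zero n2), cc_inv_right n1 n2] at st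
            have h3 := Ar.cc_cube _ _ n1 n2
            linear_combination st - Ar.cc ((x * a + y * c) / x) ((x * a + y * c) / c) * h3
    · have h' : (x * a + y * c, x * b + y * d) ∉ {u : F × F | Deep j u.1 ∧ PJ j u.2} := by
        intro h'
        have := row_KJ ld (deep_neg kb) (deep_neg kc) ka la h'.1 h'.2 (PJ_unit hj1 h'.2).2.2
        refine h ⟨?_, ?_⟩
        · convert this.1 using 1
          linear_combination (-x) * hdet
        · convert this.2 using 1
          linear_combination (-y) * hdet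
      rw [f0, Set.indicator_of_notMem h, Set.indicator_of_notMem h', zero_mul]

theorem lam_f0 {j : ℕ} (hj : Ar.kc F ≤ j) : ∃ r : ℝ, 0 < r ∧ LamF (f0 j : F × F → ℂ) = r := by
  have hj1 : 1 ≤ j := Ar.one_le_kc.trans hj
  have hT : Test (f0 j : F × F → ℂ) := ⟨j, testFn_f0 hO hj⟩
  have key : ∀ η : F, η ≠ 0 → ∃ r : ℝ, 0 < r ∧
      intS (fun x => intS fun d => fE (f0 j) η x d) = r := by
    intro η hη
    obtain ⟨J, h1, h2⟩ := sb hO hT hη
    have e : ∀ x d, fE (f0 j) η x d = {x : F | Deep j (η * x ^ 3)}.indicator (fun _ => (1 : ℂ)) x *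
        {d : F | PJ j d}.indicator (fun _ => (1 : ℂ)) d := by
      intro x d
      by_cases hd : PJ j d
      · have td := triv_PJ hj hd
        have e1 : fE (f0 j) η x d = f0 j (η * x ^ 3, d) := by
          rcases eq_or_ne x 0 with rfl | hx
          · rw [fE_zero, td.inv.2 _ hη, mul_one, zero_pow three_ne_zero, mul_zero]
          · exact fE_ne _ hη hx d
        rw [e1, Set.indicator_of_mem (show d ∈ {d : F | PJ j d} from hd), mul_one, f0]
        by_cases hx : Deep j (η * x ^ 3)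
        · rw [Set.indicator_of_mem (show x ∈ {x : F | Deep j (η * x ^ 3)} from hx),
            Set.indicator_of_mem (show (η * x ^ 3, d) ∈ {u : F × F | Deep j u.1 ∧ PJ j u.2} from
              ⟨hx, hd⟩)]
        · rw [Set.indicator_of_notMem (show x ∉ {x : F | Deep j (η * x ^ 3)} from hx),
            Set.indicator_of_notMem (fun h => hx h.1)]
      · rw [Set.indicator_of_notMem (show d ∉ {d : F | PJ j d} from hd), mul_zero, fE, f0,
          Set.indicator_of_notMem (fun h => hd h.2), zero_mul]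
    have x0 : (0 : F) ∈ {x : F | Deep j (η * x ^ 3)} := by
      show Deep j (η * 0 ^ 3)
      rw [zero_pow three_ne_zero, mul_zero]; exact deep_zero j
    have d1 : (1 : F) ∈ {d : F | PJ j d} := by
      show Deep j (1 - 1)
      rw [sub_self]; exact deep_zero j
    have s1 : SB J ({d : F | PJ j d}.indicator fun _ => (1 : ℂ)) := by
      have := h1 0
      rw [show fE (f0 j) η 0 = {d : F | PJ j d}.indicator fun _ => (1 : ℂ) from funext fun d => by
        rw [e, Set.indicator_of_mem x0, one_mul]] at this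
      exact this
    have s2 : SB J ({x : F | Deep j (η * x ^ 3)}.indicator fun _ => (1 : ℂ)) := by
      have := h2 1
      simp only [e, Set.indicator_of_mem d1, mul_one] at this
      exact this
    obtain ⟨r1, p1, q1⟩ := intS_pos hM s1 d1 (Subring.one_mem _)
    obtain ⟨r2, p2, q2⟩ := intS_pos hM s2 x0 (Subring.zero_mem _)
    refine ⟨r1 * r2, mul_pos p1 p2, ?_⟩
    simp only [e, intS_smul hM s1, q1]
    simp only [mul_comm _ (r1 : ℂ)]
    rw [intS_smul hM s2, q2]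
    push_cast
    ring
  choose! r hr using key
  obtain ⟨η₀, ⟨h0, -⟩, -⟩ := Ar.E_rep (1 : F) one_ne_zero (Subring.one_mem _)
    (by rw [inv_one]; exact Subring.one_mem _)
  have hp : ∀ η ∈ (Ar.E : Finset F), 0 < nF η ^ (-(1 / 3) : ℝ) * r η := fun η hη =>
    mul_pos (Real.rpow_pos_of_pos (lt_of_le_of_ne (M82.nF_nonneg η)
      (M82.nF_ne (Ar.E_unit η hη).1).symm) _) (hr η (Ar.E_unit η hη).1).1
  refine ⟨∑ η ∈ (Ar.E : Finset F), nF η ^ (-(1 / 3) : ℝ) * r η, Finset.sum_pos hp ⟨η₀, h0⟩, ?_⟩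
  rw [LamF, Complex.ofReal_sum]
  refine Finset.sum_congr rfl fun η hη => ?_
  rw [(hr η (Ar.E_unit η hη).1).2, Complex.ofReal_mul]

end I54

open I54 in
/-- **Leaf B2.** -/
theorem intStmt_54 (F : Type) [Field F] [NumberField F] [Emb F] [Ar F] (hM : MeanStmt F)
    (hO : OpStmt F) : IntStmt F where
  per _ _ h := per h
  shift _ _ b h := shift hM h b
  scale _ _ _ h hm := scale hM h hm
  coset _ _ _ _ h hm0 hm hb := ⟨per_cl h hm0 hm hb, coset hM h hm0 hm hb⟩
  sb _ hf _ hη := sb hO hf hη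
  lam_add _ _ hf hg := lam_add hM hO hf hg
  lam_smul a _ hf := lam_smul hM hO a hf
  lam_nT _ p hf := lam_nT hM hO hf p
  lam_opC f m hf hm := by
    have h := lam_scale hM hO hf hm one_ne_zero
    simp only [one_pow, one_mul, absS_one, inv_one, mul_one] at h
    exact h
  lam_opS f m hf hm := by
    have h := lam_scale hM hO hf hm hm
    rw [← mul_inv, ← pow_succ'] at h
    exact h
  P0 _ _ α _ _ hf hβ hx := P0 hO hf α hβ hx
  P1 _ _ α _ hf hm hβ := P1 hM hO hf α hm hβ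
  P2 _ _ α _ hf hm hβ := P2 hM hO hf α hm hβ
  P3 _ _ α _ hf ht hβ := P3 hM hO hf α ht hβ
  basic := by
    obtain ⟨r, hr, e⟩ := lam_f0 hM hO (le_refl (Ar.kc F))
    exact ⟨_, ⟨_, testFn_f0 hO le_rfl⟩, by rw [e]; exact_mod_cast hr.ne'⟩

end Crest.Agent.T27.TH
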