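import Crest.Agent.T27.UnfB_89

/-!
# Unfolding, part C: the pairing of an invariant function with the incomplete Eisenstein series
-/

set_option autoImplicit false

noncomputable section

namespace Crest.Agent.T27.TH.U89

open scoped ComplexConjugate ENNReal Topology
open MeasureTheory Filter NumberField

theorem integrable_dexp (a : ℝ) (k : ℕ) (hk : 0 < k) :
    Integrable fun l : ℝ => Real.exp (-(k * l)) * Real.exp (-Real.exp (a - l)) := by
  have hc : Continuous fun l : ℝ => Real.exp (-(k * l)) * Real.exp (-Real.exp (a - l)) := by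
    fun_prop
  have hk' : (0 : ℝ) < k := by exact_mod_cast hk
  rw [← integrableOn_univ, ← Set.Iic_union_Ioi (a := (0 : ℝ))]
  refine IntegrableOn.union ?_ ?_
  · refine ((integrableOn_exp_Iic 0).const_mul
      (((k + 1).factorial : ℝ) * Real.exp (-((k + 1 : ℕ) * a)))).mono' hc.aestronglyMeasurable
      (Eventually.of_forall fun l => ?_)
    rw [Real.norm_of_nonneg (by positivity)]
    have h1 := Real.pow_div_factorial_le_exp (Real.exp (a - l)) (Real.exp_pos _).le (k + 1)
    have h2 : (0 : ℝ) < (k + 1).factorial := by positivity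
    rw [div_le_iff₀ h2, ← Real.exp_nat_mul] at h1
    have h3 : Real.exp (-(k * l)) = Real.exp (((k + 1 : ℕ) : ℝ) * (a - l)) *
        (Real.exp (-((k + 1 : ℕ) * a)) * Real.exp l) := by
      rw [← Real.exp_add, ← Real.exp_add]; congr 1; push_cast; ring
    have h4 : Real.exp (Real.exp (a - l)) * Real.exp (-Real.exp (a - l)) = 1 := by
      rw [← Real.exp_add]; simp
    rw [h3]
    calc Real.exp (((k + 1 : ℕ) : ℝ) * (a - l)) * (Real.exp (-((k + 1 : ℕ) * a)) * Real.exp l) *
          Real.exp (-Real.exp (a - l))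
        ≤ Real.exp (Real.exp (a - l)) * (k + 1).factorial *
          (Real.exp (-((k + 1 : ℕ) * a)) * Real.exp l) * Real.exp (-Real.exp (a - l)) := by
          gcongr
      _ = _ := by
          linear_combination ((k + 1).factorial * (Real.exp (-((k + 1 : ℕ) * a)) * Real.exp l)) * h4
  · refine (exp_neg_integrableOn_Ioi 0 hk').mono' hc.aestronglyMeasurable
      (Eventually.of_forall fun l => ?_)
    rw [Real.norm_of_nonneg (by positivity), neg_mul]
    exact mul_le_of_le_one_right (Real.exp_pos _).le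
      (Real.exp_le_one_iff.2 (neg_nonpos.2 (Real.exp_pos _).le))

theorem integrable_ker1 (a : ℝ) : Integrable fun l : ℝ => (1 + Real.exp l) * (1 + Real.exp (-l)) *
    (Real.exp (-Real.exp (a - l)) * Real.exp (-2 * l)) := by
  have h := (((integrable_dexp a 2 two_pos).const_mul 2).add (integrable_dexp a 1 one_pos)).add
    (integrable_dexp a 3 three_pos)
  refine h.congr (Eventually.of_forall fun l => ?_)
  have e1 : Real.exp (-((1 : ℕ) * l)) = Real.exp l * Real.exp (-2 * l) := by
    rw [← Real.exp_add]; congr 1; push_cast; ring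
  have e2 : Real.exp (-((2 : ℕ) * l)) = Real.exp (-2 * l) := by
    congr 1; push_cast; ring
  have e3 : Real.exp (-((3 : ℕ) * l)) = Real.exp (-l) * Real.exp (-2 * l) := by
    rw [← Real.exp_add]; congr 1; push_cast; ring
  have e4 : Real.exp l * Real.exp (-l) = 1 := by rw [← Real.exp_add]; simp
  simp only [Pi.add_apply, e1, e2, e3]
  linear_combination (-(Real.exp (-Real.exp (a - l)) * Real.exp (-2 * l))) * e4

variable {F : Type} [Field F] [NumberField F] [Emb F]

/-- The polynomial majorant. -/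
def Bd (l : Pl F → ℝ) : ℝ := ∏ j, (1 + Real.exp (l j)) * (1 + Real.exp (-l j))

/-- The seed. -/
def sd (v l : Pl F → ℝ) : ℝ := Real.exp (-∑ j, Real.exp (v j - l j))

omit [Emb F] in
theorem Bd_pos (l : Pl F → ℝ) : 0 < Bd l := Finset.prod_pos fun _ _ => by positivity

omit [Emb F] in
theorem sd_pos (v l : Pl F → ℝ) : 0 < sd v l := Real.exp_pos _

omit [Emb F] in
theorem integrable_ker (v : Pl F → ℝ) :
    Integrable fun l : Pl F → ℝ => Bd l * (sd v l * Real.exp (-2 * ∑ j, l j)) := by
  have h := Integrable.fintype_prod (μ := fun _ : Pl F => (volume : Measure ℝ))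
    (fun j => integrable_ker1 (v j))
  refine h.congr (Eventually.of_forall fun l => ?_)
  simp only [Bd, sd, Finset.prod_mul_distrib, ← Real.exp_sum, Finset.mul_sum,
    Finset.sum_neg_distrib]

theorem det_map (γ : SL F) (j : Pl F) : ((γ : Mat F).map (Emb.σ j)).det = 1 := by
  have h := (Emb.σ j : F →+* ℂ).map_det (γ : Mat F)
  rw [RingHom.mapMatrix_apply, γ.det_coe, map_one] at h
  exact h.symm

theorem Qv_smul (v : Pl F → ℝ) (γ : SL F) (w : HH F) (u : F × F) :
    Qv v (γ • w) u = Qv v w (rmul u (γ : Mat F)) := by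
  unfold Qv
  refine Finset.sum_congr rfl fun j _ => ?_
  rw [smul_def, act, R17.Qf_actC (by rw [det_map]; exact one_ne_zero), det_map, norm_one, div_one]
  simp [rmul, em]

theorem Qv_row (v : Pl F → ℝ) (γ : SL F) (w : HH F) :
    Real.exp (-Qv v w (row γ)) = sd v fun j => ((γ • w) j).2 := by
  have : row γ = rmul (0, 1) (γ : Mat F) := by simp [row, rmul]
  rw [this, ← Qv_smul, sd, Qv]
  congr 2
  refine Finset.sum_congr rfl fun j _ => ?_
  simp only [em, map_zero, map_one, R17.Qf_zero_left, norm_one, R17.hy, Real.exp_sub]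
  ring

theorem nT_smul (t : F) (w : HH F) : nT t • w = fun j => ((w j).1 + em t j, (w j).2) := by
  funext j
  have h := R17.actC_upper one_ne_zero one_ne_zero (em t j) (w j).1 (R17.hy_pos (w j))
  rw [R17.hp_hy] at h
  have e : ((nT t : SL F) : Mat F).map (Emb.σ j) = !![1, em t j; 0, 1] := by
    ext a b
    fin_cases a <;> fin_cases b <;> simp [em]
  rw [smul_def, act, e, h]
  simp [R17.hp, R17.hy]

omit [NumberField F] [Emb F] in
theorem measurable_pt (l : Pl F → ℝ) : Measurable fun z : Pl F → ℂ => pt z l :=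
  measurable_pi_lambda _ fun j => (measurable_pi_apply j).prodMk measurable_const

/-- One cusp. -/
theorem cusp (hL : LatStmt F) (hG : GeomStmt F) {Δ : Subgroup (SL F)} {γ : SL F}
    {β : (Pl F → ℂ) → ℝ} (hβ : Wt (Lc Δ γ) β) {G : HH F → ℂ} {N : ℕ}
    {A : F → (Pl F → ℝ) → ℂ} {C : ℝ} (hN : N ≠ 0) (hGm : Measurable G)
    (hinv : ∀ δ ∈ Δ, ∀ w, G (δ • w) = G w) (hA : HasExp N (fun w => G (γ⁻¹ • w)) A)
    (hC : ∀ w : HH F, ‖G (γ⁻¹ • w)‖ ≤ C * Bd fun j => (w j).2) (v : Pl F → ℝ) :
    Integrable (fun w => G w * (β (fun j => ((γ • w) j).1) * sd v fun j => ((γ • w) j).2 : ℝ))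
      (μHH F) ∧
    Integrable (fun l => A 0 l * (sd v l * Real.exp (-2 * ∑ j, l j) : ℝ)) ∧
    ∫ w, G w * (β (fun j => ((γ • w) j).1) * sd v fun j => ((γ • w) j).2 : ℝ) ∂μHH F =
      (∫ z, β z : ℝ) * ∫ l, A 0 l * (sd v l * Real.exp (-2 * ∑ j, l j) : ℝ) := by
  have hmp : ∀ g : SL F, MeasurePreserving (fun w : HH F => g • w) (μHH F) (μHH F) := fun g =>
    hG.meas g (by simp)
  have hC0 : 0 ≤ C := by
    have := (norm_nonneg _).trans (hC fun _ => (0, 0))
    exact nonneg_of_mul_nonneg_left this (Bd_pos _)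
  let ψ : HH F → ℂ := fun w => G (γ⁻¹ • w) * (β (fun j => (w j).1) * sd v fun j => (w j).2 : ℝ)
  have hsd : Continuous (sd v) := by unfold sd; fun_prop
  have hBd : Continuous (Bd : (Pl F → ℝ) → ℝ) := by unfold Bd; fun_prop
  have m1 : Measurable fun w : HH F => β fun j => (w j).1 := hβ.meas.comp (by fun_prop)
  have m2 : Measurable fun w : HH F => sd v fun j => (w j).2 := hsd.measurable.comp (by fun_prop)
  have m3 : Measurable fun w : HH F => Bd fun j => (w j).2 := hBd.measurable.comp (by fun_prop)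
  have hψm : Measurable ψ :=
    (hGm.comp (hmp γ⁻¹).measurable).mul (Complex.measurable_ofReal.comp (m1.mul m2))
  -- integrability of the unfolded function
  have hψ : Integrable ψ (μHH F) := by
    refine ⟨hψm.aestronglyMeasurable, ?_⟩
    have h1 : ∫⁻ w, ‖ψ w‖ₑ ∂μHH F ≤ ∫⁻ w, ENNReal.ofReal (β (fun j => (w j).1)) *
        ENNReal.ofReal (C * Bd (fun j => (w j).2) * sd v fun j => (w j).2) ∂μHH F := by
      refine lintegral_mono fun w => ?_
      rw [← ofReal_norm, ← ENNReal.ofReal_mul (hβ.nonneg _)]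
      refine ENNReal.ofReal_le_ofReal ?_
      have h2 := hβ.nonneg fun j => (w j).1
      have h3 := sd_pos v fun j => (w j).2
      simp only [ψ]
      rw [norm_mul, Complex.norm_real, Real.norm_of_nonneg (by positivity)]
      calc _ ≤ C * Bd (fun j => (w j).2) * (β (fun j => (w j).1) * sd v fun j => (w j).2) := by
            gcongr; exact hC w
        _ = _ := by ring
    refine lt_of_le_of_lt h1 ?_
    rw [hG.lint (fun w => ENNReal.ofReal (β (fun j => (w j).1)) *
        ENNReal.ofReal (C * Bd (fun j => (w j).2) * sd v fun j => (w j).2))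
      (m1.ennreal_ofReal.mul ((measurable_const.mul m3).mul m2).ennreal_ofReal)]
    simp only [pt]
    have h4 : ∀ l : Pl F → ℝ, (∫⁻ z : Pl F → ℂ, ENNReal.ofReal (β z) *
        ENNReal.ofReal (C * Bd l * sd v l)) * ENNReal.ofReal (Real.exp (-2 * ∑ j, l j)) =
        (∫⁻ z : Pl F → ℂ, ENNReal.ofReal (β z)) *
          ENNReal.ofReal (C * (Bd l * (sd v l * Real.exp (-2 * ∑ j, l j)))) := by
      intro l
      have := Bd_pos l
      have := sd_pos v l
      rw [lintegral_mul_const _ hβ.meas.ennreal_ofReal, mul_assoc,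
        ← ENNReal.ofReal_mul (by positivity)]
      congr 2; ring
    simp only [h4]
    rw [lintegral_const_mul' _ _ hβ.int.lintegral_lt_top.ne]
    exact ENNReal.mul_lt_top hβ.int.lintegral_lt_top
      ((integrable_ker v).const_mul C).lintegral_lt_top
  -- the inner integral
  have hin : ∀ l, ∫ z, (β z : ℂ) * G (γ⁻¹ • pt z l) = (∫ z, β z : ℝ) * A 0 l := by
    intro l
    refine hβ.mean_series hL hN (hA.2.2 l).1 (fun r hr => hA.2.1 r l hr) (hA.2.2 l).2 ?_
    intro z t ht
    have e1 : pt (z + em t) l = nT t • pt z l := by rw [nT_smul]; rfl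
    have e2 : γ⁻¹ * nT t = (γ⁻¹ * nT t * γ) * γ⁻¹ := by group
    rw [e1, ← mul_smul, e2, mul_smul, hinv _ ht]
  have hA0 : ∀ l, ‖A 0 l‖ ≤ C * Bd l := by
    intro l
    have h1 : ‖∫ z, (β z : ℂ) * G (γ⁻¹ • pt z l)‖ ≤ ∫ z, β z * (C * Bd l) := by
      refine norm_integral_le_of_norm_le (hβ.int.mul_const _) (Eventually.of_forall fun z => ?_)
      rw [norm_mul, Complex.norm_real, Real.norm_of_nonneg (hβ.nonneg z)]
      exact mul_le_mul_of_nonneg_left (hC (pt z l)) (hβ.nonneg z)
    rw [hin, integral_mul_const, norm_mul, Complex.norm_real, Real.norm_of_nonneg hβ.pos.le] at h1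
    exact le_of_mul_le_mul_left h1 hβ.pos
  have e0 : ∀ w, G w * (β (fun j => ((γ • w) j).1) * sd v fun j => ((γ • w) j).2 : ℝ) =
      ψ (γ • w) := fun w => by simp only [ψ, inv_smul_smul]
  simp only [e0]
  refine ⟨(hmp γ).integrable_comp_of_integrable hψ, ?_, ?_⟩
  · refine ((integrable_ker v).const_mul C).mono'
      ((hA.1 0).mul (Complex.measurable_ofReal.comp
        (hsd.measurable.mul (by fun_prop)))).aestronglyMeasurable
      (Eventually.of_forall fun l => ?_)
    have := sd_pos v l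
    rw [norm_mul, Complex.norm_real, Real.norm_of_nonneg (by positivity), ← mul_assoc C]
    exact mul_le_mul_of_nonneg_right (hA0 l) (by positivity)
  · have h1 : ∫ w, ψ (γ • w) ∂μHH F = ∫ w, ψ w ∂μHH F := by
      conv_rhs => rw [← (hmp γ).map_eq,
        integral_map (hmp γ).measurable.aemeasurable hψm.aestronglyMeasurable]
    rw [h1, hG.int _ hψ, ← integral_const_mul]
    congr 1
    funext l
    have h2 : ∀ z, ψ (pt z l) = (β z : ℂ) * G (γ⁻¹ • pt z l) * (sd v l : ℂ) := fun z => by
      simp only [ψ, pt]; push_cast; ring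
    simp only [h2]
    rw [integral_mul_const, hin]
    push_cast; ring

end Crest.Agent.T27.TH.U89

namespace Crest.Agent.T27.TH

open scoped ComplexConjugate ENNReal Topology
open MeasureTheory Filter NumberField U89

/-- **Leaf A2a**. -/
theorem unfold_89 (F : Type) [Field F] [NumberField F] [Emb F] (hL : LatStmt F) (hR : RowStmt F)
    (hG : GeomStmt F) : UnfoldStmt F := by
  classical
  intro ξ hξ
  obtain ⟨I₀, hI₀⟩ := exists_orbits hξ
  choose β hβ using exists_wt_cusp hR hξ
  obtain ⟨M, hM, hsupp⟩ := hξ.supp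
  let I := I₀.filter fun γ => ξ (row γ) ≠ 0
  have hI : ∀ u, ξ u = ∑ γ ∈ I, ξ (row γ) * (Orb (Del ξ) γ).indicator 1 u := by
    intro u
    rw [hI₀ u, Finset.sum_filter_of_ne fun γ _ h => left_ne_zero_of_mul h]
  refine ⟨I, fun γ => conj (ξ (row γ)) * (∫ z, β γ z : ℝ), ?_⟩
  intro G N A C hN hGm hinv hA hC v
  have hmp : ∀ g : SL F, MeasurePreserving (fun w : HH F => g • w) (μHH F) (μHH F) := fun g =>
    hG.meas g (by simp)
  have : Countable (SL F) := inferInstanceAs (Countable {g : Fin 2 → Fin 2 → F // _})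
  have hw := hG.wt (Del ξ) inf_le_right
  set E : ℝ := Real.exp (4 / 3 * ∑ j, v j) with hE
  let φ : SL F → HH F → ℝ := fun γ w =>
    β γ (fun j => ((γ • w) j).1) * sd v fun j => ((γ • w) j).2
  have hc := fun γ (hγ : γ ∈ I) => cusp hL hG (hβ γ) hN hGm hinv (hA γ hγ) (hC γ hγ) v
  have hker : ∀ l : Pl F → ℝ,
      (Real.exp (4 / 3 * ∑ j, v j - ∑ j, Real.exp (v j - l j) - 2 * ∑ j, l j) : ℂ) =
        (E : ℂ) * (sd v l * Real.exp (-2 * ∑ j, l j) : ℝ) := by
    intro l
    rw [← Complex.ofReal_mul, hE, sd, ← Real.exp_add, ← Real.exp_add]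
    congr 2; ring
  -- summability over the orbits
  have hs : ∀ γ ∈ I, ∀ w : HH F,
      Summable ((Orb (Del ξ) γ).indicator fun u => Real.exp (-Qv v w u)) := by
    intro γ hγ w
    refine Summable.of_nonneg_of_le
      (fun u => Set.indicator_nonneg (fun _ _ => (Real.exp_pos _).le) u) (fun u => ?_)
      (hG.summ M v w hM)
    refine Set.indicator_le_indicator_of_subset ?_ (fun _ => (Real.exp_pos _).le) u
    rintro _ ⟨δ, hδ, rfl⟩
    have h := hsupp (row (γ * δ)) (by rw [xi_row hδ]; exact (Finset.mem_filter.1 hγ).2)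
    exact ⟨h.1, h.2.1⟩
  have hP : ∀ γ ∈ I, ∀ w : HH F, HasSum (fun δ : Del ξ => φ γ (δ • w))
      (∑' u, (Orb (Del ξ) γ).indicator (fun u => Real.exp (-Qv v w u)) u) := by
    intro γ hγ w
    have h := hasSum_poinc (β := β γ) (sh := fun t z => z + em t) (hβ γ).nonneg (hβ γ).sum
      (z := fun g j => ((g • w) j).1) (fun t g => by
        funext j; rw [mul_smul, nT_smul]; rfl) (fun u => (Real.exp_pos _).le) (hs γ hγ w)
    simp only [Qv_row, mul_smul] at h
    exact h
  have hth : ∀ w, thY ξ v w = (E : ℂ) * ∑ γ ∈ I, ξ (row γ) * (∑' δ : Del ξ, φ γ (δ • w) : ℝ) := by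
    intro w
    rw [thY]
    congr 1
    have e1 : ∀ u, ξ u * (Real.exp (-Qv v w u) : ℂ) = ∑ γ ∈ I, ξ (row γ) *
        ((Orb (Del ξ) γ).indicator (fun u => Real.exp (-Qv v w u)) u : ℝ) := by
      intro u
      rw [hI u, Finset.sum_mul]
      refine Finset.sum_congr rfl fun γ _ => ?_
      by_cases h : u ∈ Orb (Del ξ) γ <;> simp [h]
    simp only [e1]
    rw [Summable.tsum_finsetSum fun γ hγ =>
      (Complex.summable_ofReal.2 (hs γ hγ w)).mul_left _]
    refine Finset.sum_congr rfl fun γ hγ => ?_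
    rw [tsum_mul_left, (hP γ hγ w).tsum_eq, Complex.ofReal_tsum]
  have hun := fun γ (hγ : γ ∈ I) => hw.integral_unfold (μ := μHH F) (fun δ => hmp δ)
    (φ := fun w => G w * (φ γ w : ℝ)) (by
      have hsd : Continuous (sd v) := by unfold sd; fun_prop
      have m1 : Measurable fun w : HH F => β γ fun j => (w j).1 := (hβ γ).meas.comp (by fun_prop)
      have m2 : Measurable fun w : HH F => sd v fun j => (w j).2 :=
        hsd.measurable.comp (by fun_prop)
      exact hGm.mul (Complex.measurable_ofReal.comp ((m1.mul m2).comp (hmp γ).measurable)))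
    (hc γ hγ).1
  have hpt : ∀ w, (wOf (Del ξ) w : ℂ) * (G w * conj (thY ξ v w)) = ∑ γ ∈ I,
      ((E : ℂ) * conj (ξ (row γ))) * ((wOf (Del ξ) w : ℂ) *
        ∑' δ : Del ξ, G (δ • w) * (φ γ (δ • w) : ℝ)) := by
    intro w
    have e1 : ∀ δ : Del ξ, G (δ • w) = G w := fun δ => hinv δ δ.2 w
    simp only [e1, tsum_mul_left, ← Complex.ofReal_tsum]
    rw [hth, map_mul, map_sum, Complex.conj_ofReal, Finset.mul_sum, Finset.mul_sum, Finset.mul_sum]
    refine Finset.sum_congr rfl fun γ _ => ?_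
    rw [map_mul, Complex.conj_ofReal]; ring
  simp only [hpt, hker]
  refine ⟨integrable_finsetSum _ fun γ hγ => (hun γ hγ).1.const_mul _, fun γ hγ => ?_, ?_⟩
  · simpa only [mul_left_comm (E : ℂ)] using (hc γ hγ).2.1.const_mul (E : ℂ)
  · rw [integral_finsetSum _ fun γ hγ => (hun γ hγ).1.const_mul _]
    refine Finset.sum_congr rfl fun γ hγ => ?_
    rw [integral_const_mul, (hun γ hγ).2, (hc γ hγ).2.2]
    simp only [mul_left_comm _ (E : ℂ)]
    rw [integral_const_mul]
    ring

end Crest.Agent.T27.TH
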