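import Crest.Agent.T27.Vor2_57
import Crest.Agent.T27.ThB_54

/-!
# Row 27, theta leaf D (helper57): the additive Voronoi formula `VorStmt`
-/

set_option autoImplicit false

noncomputable section

namespace Crest.Agent.T27.TH

open scoped ComplexConjugate
open NumberField Vor57

variable {F : Type} [Field F] [NumberField F] [Emb F] [Ar F]

namespace V57

theorem N_ne : (Ar.N F : F) ≠ 0 := Nat.cast_ne_zero.2 (by have := Ar.two_le (F := F); omega)

theorem mem_L_of_int {x : F} (hx : IsIntegral ℤ x) : x ∈ (Ar.L : Subring F) :=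
  (Ar.mem_L x).2 ⟨1, Nat.coprime_one_left _, by simpa using hx⟩

theorem Deep.mono {j j' : ℕ} {x : F} (h : Deep j' x) (hj : j ≤ j') : Deep j x := by
  obtain ⟨y, hy, rfl⟩ := h
  obtain ⟨k, rfl⟩ := Nat.exists_eq_add_of_le hj
  exact ⟨(Ar.N F : F) ^ k * y, Subring.mul_mem _ (Subring.pow_mem _ (natCast_mem _ _) _) hy, by ring⟩

theorem deep_zero (j : ℕ) : Deep j (0 : F) := ⟨0, Subring.zero_mem _, by simp⟩

theorem test_zero {f : F × F → ℂ} (hf : Test f) : f 0 = 0 := by
  obtain ⟨j, hj⟩ := hf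
  by_contra h
  obtain ⟨-, -, a, -, b, -, e⟩ := hj.supp 0 h
  refine pow_ne_zero j (N_ne (F := F)) ?_
  rw [← e, Prod.fst_zero, Prod.snd_zero, mul_zero, mul_zero, add_zero]

theorem rho_nT_deep {f : F × F → ℂ} {j : ℕ} (hf : TestFn j f) {p : F} (hp : Deep j p) :
    rho ((nT p : SL F) : Mat F) f = f := by
  refine hf.inv _ fun i i' => ?_
  fin_cases i <;> fin_cases i' <;> simp [nT, mkSL, deep_zero, hp]

/-- The support of the coefficients is bounded at the primes of `S`. -/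
theorem supp_L (hA : TauStmt F) {ξ : F × F → ℂ} (hξ : Good ξ) :
    ∃ k : ℕ, ∀ r, tau ξ r ≠ 0 → (Ar.N F : F) ^ k * r ∈ (Ar.L : Subring F) := by
  obtain ⟨M, hM, hs⟩ := hA.supp ξ hξ
  obtain ⟨k, hk⟩ := Ar.pow_mem_L (M : F)⁻¹
  refine ⟨k, fun r hr => ?_⟩
  have hM' : (M : F) ≠ 0 := Nat.cast_ne_zero.2 hM
  rw [show (Ar.N F : F) ^ k * r = (Ar.N F : F) ^ k * (M : F)⁻¹ * (M * r) by field_simp]
  exact Subring.mul_mem _ hk (mem_L_of_int (hs r hr))

theorem psi_eq {k : ℕ} {r c t l : F} (hr : r ∈ (Ar.R : Subring F))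
    (hk : (Ar.N F : F) ^ k * r ∈ (Ar.L : Subring F)) (ht : t ∈ (Ar.R : Subring F)) (hl : Deep k l)
    (h : c = t + l) : Ar.psi (r * c) = eF (r * l) := by
  obtain ⟨l', hl', rfl⟩ := hl
  rw [h, mul_add, Ar.psi_add, Ar.psi_R _ (Subring.mul_mem _ hr ht), one_mul, Ar.psi_L]
  rw [show r * ((Ar.N F : F) ^ k * l') = (Ar.N F : F) ^ k * r * l' by ring]
  exact Subring.mul_mem _ hk hl'

end V57

open V57 in
/-- **Leaf D.** -/
theorem vor_57 (F : Type) [Field F] [NumberField F] [Emb F] [Ar F] (hL : LatStmt F)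
    (hT : ThetaStmt F) (hA : TauStmt F) (hO : OpStmt F) (hC : CuspStmt F) : VorStmt F := by
  intro f hf D a δ y hD hDR haR hδR hyR hdet x hx
  obtain ⟨κ₀, -, hC⟩ := hC
  have hdg : (gam 0 D).det = 1 := by simp [gam, hD]
  have hf' : Test (opW D f) := hO.test_rho f _ hdg hf
  obtain ⟨hg, -, -, -, hR⟩ := hC f hf
  obtain ⟨hg', -, -, -, hR'⟩ := hC _ hf'
  obtain ⟨k, hk⟩ := supp_L hA hg
  obtain ⟨k', hk'⟩ := supp_L hA hg'
  obtain ⟨j, hj⟩ := id hf
  obtain ⟨j', hj'⟩ := id hf'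
  obtain ⟨t, ht, l, hl, e⟩ := Ar.approx (a / D) ((Ar.N F : F) ^ (j + k)) (pow_ne_zero _ N_ne)
  obtain ⟨t', ht', l', hl', e'⟩ :=
    Ar.approx (-δ / D) ((Ar.N F : F) ^ (j' + k')) (pow_ne_zero _ N_ne)
  set q := (Ar.N F : F) ^ (j + k) * l with hq
  set p := (Ar.N F : F) ^ (j' + k') * l' with hp
  have dq : Deep (j + k) q := ⟨l, hl, rfl⟩
  have dp : Deep (j' + k') p := ⟨l', hl', rfl⟩
  have dq' : Deep j (-q) := Deep.mono ⟨-l, Subring.neg_mem _ hl, by rw [hq]; ring⟩
    (Nat.le_add_right j k)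
  have ea : a = D * t + D * q := by rw [← mul_add, ← e]; field_simp
  have eδ : δ = -(D * t') - D * p := by
    rw [← neg_add', ← mul_add, ← e']; field_simp
  -- the matrix
  set σ : SL F := mkSL (a - D * t) (y - t * δ + t' * a - D * t * t') D (δ + D * t')
    (by linear_combination hdet) with hσ
  have s00 : σ 0 0 = a - D * t := rfl
  have s10 : σ 1 0 = D := rfl
  have s11 : σ 1 1 = δ + D * t' := rfl
  have hinv : ((σ⁻¹ : SL F) : Mat F) =
      !![δ + D * t', -(y - t * δ + t' * a - D * t * t'); -D, a - D * t] := by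
    rw [Matrix.SpecialLinearGroup.coe_inv, Matrix.adjugate_fin_two]
    rfl
  have hbr : ((σ⁻¹ : SL F) : Mat F) =
      ((nT p : SL F) : Mat F) * (gam 0 D * ((nT (-q) : SL F) : Mat F)) := by
    rw [hinv]
    refine Matrix.ext fun i i' => ?_
    fin_cases i <;> fin_cases i' <;>
      simp [nT, mkSL, gam, Matrix.mul_apply, Fin.sum_univ_two]
    · rw [eδ]; ring
    · field_simp
      rw [ea, eδ] at hdet
      rw [ea, eδ]
      linear_combination hdet
    · rw [ea]; ring
  have hInR : InR ((σ⁻¹ : SL F) : Mat F) := by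
    rw [hinv]
    have m := @Subring.mul_mem F _ Ar.R
    intro i i'
    fin_cases i <;> fin_cases i'
    · exact Subring.add_mem _ hδR (m hDR ht')
    · exact Subring.neg_mem _ (Subring.sub_mem _ (Subring.add_mem _
        (Subring.sub_mem _ hyR (m ht hδR)) (m ht' haR)) (m (m hDR ht) ht'))
    · exact Subring.neg_mem _ hDR
    · exact Subring.sub_mem _ haR (m hDR ht)
  have hrho : rho ((σ⁻¹ : SL F) : Mat F) f = opW D f := by
    rw [hbr, hO.rho_nT_mul f _ p (by rw [Matrix.det_mul, hdg, Matrix.SpecialLinearGroup.det_coe,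
      one_mul]) (test_zero hf), hO.rho_mul_nT f _ _ hdg (test_zero hf), rho_nT_deep hj dq']
    exact rho_nT_deep hj' (Deep.mono dp (Nat.le_add_right _ _))
  have hsy : syR (((σ⁻¹ : SL F) : Mat F) 1 0, ((σ⁻¹ : SL F) : Mat F) 1 1) = Ar.sy a D := by
    have hm : (-1 : F) ∈ (Ar.R : Subring F) := Subring.neg_mem _ (Subring.one_mem _)
    have h1 : a - D * t ∈ (Ar.R : Subring F) :=
      Subring.sub_mem _ haR (Subring.mul_mem _ hDR ht)
    rw [hinv, syR, if_neg (by simpa using hD)]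
    show Ar.sy (a - D * t) (-D) = _
    rw [← neg_one_mul D, Ar.sy_mul_right _ h1 _ hm _ hDR (by simp) hD,
      Ar.sy_unit _ h1 _ hm (by simp) (by simp), one_mul, sub_eq_add_neg, ← mul_neg,
      Ar.sy_congr _ haR _ hDR _ (Subring.neg_mem _ ht) hD]
  have key := voronoi_57 hL hT hA hg σ hD true hx
  rw [hO.master f _ (Matrix.SpecialLinearGroup.det_coe _) hInR, hrho, hsy, s00, s10, s11] at key
  simp only [hA.tau_smul _ _ hg', cjb, Bool.not_true, cond_true, cond_false] at key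
  have e1 : (a - D * t) / D = q := by rw [ea]; field_simp; ring
  have e2 : -(δ + D * t') / D = p := by rw [eδ]; field_simp; ring
  rw [e1, e2] at key
  refine (tsum_congr fun r => ?_).trans (key.trans ?_)
  · by_cases h0 : tau (xiF f) r = 0
    · simp [tt, h0]
    rw [mul_div_assoc, psi_eq (hR r h0) (hk r h0) ht (Deep.mono dq (Nat.le_add_left _ _)) e, tt,
      U1V, Complex.ofReal_prod]
    simp only [bb]
    ring
  · rw [← Finset.prod_inv_distrib, ← Finset.prod_mul_distrib, mul_comm (Ar.sy a D), mul_assoc,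
      ← tsum_mul_left (a := Ar.sy a D)]
    congr 1
    · exact Finset.prod_congr rfl fun j _ => by rw [← neg_inv, mul_inv, neg_mul]
    · refine tsum_congr fun ν => ?_
      by_cases h0 : tau (xiF (opW D f)) ν = 0
      · simp [tt, h0]
      rw [show -(ν * δ / D) = ν * (-δ / D) by ring, psi_eq (hR' ν h0) (hk' ν h0) ht'
        (Deep.mono dp (Nat.le_add_left _ _)) e', tt, U1V, Complex.ofReal_prod,
        Finset.prod_congr rfl fun j _ => show (R17.U1 (4 * Real.pi ^ 2 / ‖em D j‖ ^ 4 *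
          ‖em ν j‖ ^ 2 / x j) : ℂ) = R17.U1 (bb ν j / (‖em D j‖ ^ 4 * x j)) by
          rw [bb]; congr 2; ring]
      ring

end Crest.Agent.T27.TH
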