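import Crest.Agent.T27.ThL_80
import Crest.Agent.T27.Mean_82
import Crest.Agent.T27.Row_93
import Crest.Agent.T27.DensB_92
import Crest.Agent.T27.FourB_78
import Crest.Agent.T27.Box_86
import Crest.Agent.T27.Unf_89
import Crest.Agent.T27.ThA5b_53
import Crest.Agent.T27.Tau_73
import Crest.Agent.T27.ThInt2_54
import Crest.Agent.T27.LamD_98
import Crest.Agent.T27.Cusp_78
import Crest.Agent.T27.Main_94
import Crest.Agent.T27.Vor3_57

/-!
# Row 27, theta function: integration of the leaves (conditional form)
-/

set_option autoImplicit false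

namespace Crest.Agent.T27.TH

variable (F : Type) [Field F] [NumberField F] [Emb F]

/-- All statements of part A. -/
structure AllA : Prop where
  lat : LatStmt F
  mean : MeanStmt F
  row : RowStmt F
  dens : DensStmt F
  geom : GeomStmt F
  theta : ThetaStmt F
  tau : TauStmt F

/-- All statements of part B. -/
structure AllB [Ar F] : Prop extends AllA F where
  op : OpStmt F
  int : IntStmt F
  lam : LamStmt F
  cusp : CuspStmt F
  hecke : HeckeStmt F
  main : MainStmt F
  vor : VorStmt F

theorem allA_of_geom (hG : GeomStmt F) : AllA F := by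
  have hL := latStmt_80 F
  have hM := mean_82 F hL
  have hR := row_93 F hM
  have hD := dens_92 F hL
  have hT := theta_53 F hL hR hD hG (unfold_89 F hL hR hG) (box_86 F hG) (fourier_78 F hL hM hR hG)
  exact ⟨hL, hM, hR, hD, hG, hT, tauStmt_73 F hR hD hT⟩

theorem allB_of [Ar F] (hA : AllA F) (hO : OpStmt F)
    (hH : OpStmt F → IntStmt F → CuspStmt F → HeckeStmt F) : AllB F := by
  have hI := intStmt_54 F hA.mean hO
  have hΛ := lam_98 F hA.mean hI hA.dens.kc0.2.2.1
  have hC := cusp_78 F hO hI hΛ hA.tau hA.theta hA.dens hA.row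
  have hH' := hH hO hI hC
  exact ⟨hA, hO, hI, hΛ, hC, hH', main_94 F hA.lat hA.mean hA.theta hA.tau hO hI hC hH',
    vor_57 F hA.lat hA.theta hA.tau hO hC⟩

end Crest.Agent.T27.TH
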