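import Crest.Agent.PVc.R17.ThetaUnf
import Crest.Agent.PVc.R17.ThetaDens

/-!
# Row 27, cubic theta function over a totally complex field `F`, part A: the abstract theta function

No arithmetic here.  A *row function* `ξ : F × F → ℂ` which is admissible (`Adm`: bounded, supported
in a lattice on rows of bounded content, invariant under a finite-index subgroup of `SL₂(𝒪_F)`) and
whose constant terms have densities at all cusps (`Good`) has a theta function `Th ξ` with Fourier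
coefficients `tau ξ r`.  Logarithmic coordinates everywhere: `Y_j = exp (v j)`, heights
`y_j = exp (l j)`, `lg c j = log |c_j|²`.

Definitions and the statements of the leaves (`…Stmt : Prop`, one field `F` at a time).
DO NOT change a definition of this file.
-/

set_option autoImplicit false

noncomputable section

namespace Crest.Agent.T27.TH

open scoped ComplexConjugate ENNReal Topology
open MeasureTheory Filter NumberField

/-- A totally complex number field with a chosen embedding for each infinite place. -/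
class Emb (F : Type) [Field F] [NumberField F] where
  σ : InfinitePlace F → F →+* ℂ
  mk_σ : ∀ v, InfinitePlace.mk (σ v) = v
  tc : IsTotallyComplex F

/-- The infinite places. -/
abbrev Pl (F : Type) [Field F] : Type := InfinitePlace F

variable {F : Type} [Field F] [NumberField F] [Emb F]

/-! ## coordinates, norm, additive character, lattices, mean values -/

/-- The Minkowski embedding. -/
def em (x : F) : Pl F → ℂ := fun j => Emb.σ j x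

/-- `|N_{F/ℚ} x|`. -/
def nF (x : F) : ℝ := ∏ j, ‖em x j‖ ^ 2

/-- `log |x_j|²`. -/
def lg (x : F) : Pl F → ℝ := fun j => Real.log (‖em x j‖ ^ 2)

/-- `e(z) = exp(2πi ∑_j (z_j + conj z_j))`. -/
def eV (z : Pl F → ℂ) : ℂ := Complex.exp (4 * Real.pi * Complex.I * ((∑ j, (z j).re : ℝ) : ℂ))

/-- `e(Tr x)`. -/
def eF (x : F) : ℂ := eV (em x)

/-- The argument `∏_j x_j / |x_j|`. -/
def argF (x : F) : ℂ := ∏ j, em x j / (‖em x j‖ : ℂ)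

/-- The lattice `N 𝒪_F`. -/
def latt (F : Type) [Field F] (N : ℕ) : AddSubgroup F where
  carrier := {x | ∃ y : F, IsIntegral ℤ y ∧ x = N * y}
  zero_mem' := ⟨0, isIntegral_zero, by simp⟩
  add_mem' := by
    rintro _ _ ⟨y, hy, rfl⟩ ⟨z, hz, rfl⟩
    exact ⟨y + z, hy.add hz, by ring⟩
  neg_mem' := by
    rintro _ ⟨y, hy, rfl⟩
    exact ⟨-y, hy.neg, by ring⟩

/-- `φ` is `N 𝒪`-periodic and supported in `N⁻¹ 𝒪`. -/
def PerS (φ : F → ℂ) (N : ℕ) : Prop :=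
  N ≠ 0 ∧ (∀ x, ∀ y ∈ latt F N, φ (x + y) = φ x) ∧ ∀ x, φ x ≠ 0 → IsIntegral ℤ ((N : F) * x)

/-- `φ` is periodic and supported in a lattice. -/
def Per (φ : F → ℂ) : Prop := ∃ N, PerS φ N

/-- The mean value computed at level `N`. -/
def meanN (N : ℕ) (φ : F → ℂ) : ℂ :=
  ((N : ℂ) ^ Module.finrank ℚ F)⁻¹ * ∑ᶠ q : F ⧸ latt F N, φ q.out

open Classical in
/-- The mean value (density, `𝒪_F` has density `1`). -/
def mean (φ : F → ℂ) : ℂ := if h : Per φ then meanN h.choose φ else 0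

/-! ## kernels and weak densities -/

/-- The moment `∫ k(X) ∏ X_j^{1/3} dX/X`. -/
def Mo (k : (Pl F → ℝ) → ℝ) : ℝ := ∫ x : Pl F → ℝ, k x * Real.exp ((∑ j, x j) / 3)

/-- The smoothed sum `(N Y)^{1/3} ∑_c g(c) k(Y |c|²)`. -/
def Sk (g : F → ℂ) (k : (Pl F → ℝ) → ℝ) (v : Pl F → ℝ) : ℂ :=
  (Real.exp ((∑ j, v j) / 3) : ℂ) * ∑' c : F, g c * (k (v + lg c) : ℂ)

/-- Admissible kernels. -/
def KC (k : (Pl F → ℝ) → ℝ) : Prop :=
  Measurable k ∧ (∀ x, 0 ≤ k x) ∧ 0 < Mo k ∧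
    ∀ A : Pl F → ℝ, (∀ j, 0 < A j) → ∃ C : ℝ, ∀ x, k x ≤ C * Real.exp (-∑ j, A j * x j)

/-- Bounded sequences supported on the non-zero points of a lattice. -/
def BddL (g : F → ℂ) : Prop :=
  ∃ (M : ℕ) (B : ℝ), M ≠ 0 ∧ (∀ c, ‖g c‖ ≤ B) ∧ ∀ c, g c ≠ 0 → c ≠ 0 ∧ IsIntegral ℤ ((M : F) * c)

/-- The point `v - s (1, …, 1)` of the ray through `v`. -/
def ray (v : Pl F → ℝ) (s : ℝ) : Pl F → ℝ := fun j => v j - s

/-- Density `t` for the kernel `k`: bounded, and convergent along every ray. -/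
def WDk (g : F → ℂ) (k : (Pl F → ℝ) → ℝ) (t : ℂ) : Prop :=
  (∃ C : ℝ, ∀ v, ‖Sk g k v‖ ≤ C) ∧
    ∀ v, Tendsto (fun s : ℝ => Sk g k (ray v s)) atTop (𝓝 (t * (Mo k : ℂ)))

/-- Weak density. -/
def WD (g : F → ℂ) (t : ℂ) : Prop := ∃ k, KC k ∧ WDk g k t

/-- The kernel `exp(-∑ X_j)`. -/
def k0 (x : Pl F → ℝ) : ℝ := Real.exp (-∑ j, Real.exp (x j))

/-- The kernel produced by Poisson summation at the (logarithmic) heights `l`. -/
def Fk (l b x : Pl F → ℝ) : ℝ :=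
  ∏ j, Real.exp (l j) * Real.exp (-Real.exp (l j) * (Real.exp (x j) + b j * Real.exp (-x j)))

/-- `4π² |r_j|²`. -/
def bb (r : F) : Pl F → ℝ := fun j => 4 * Real.pi ^ 2 * ‖em r j‖ ^ 2

/-- The radial part of the Fourier expansion. -/
def MkV (l b : Pl F → ℝ) : ℝ := ∏ j, R17.Mk (Real.exp (l j)) (b j)

/-- The box `∏ [a_j, a_j + L]`. -/
def box (a : Pl F → ℝ) (L : ℝ) : Set (Pl F → ℝ) := Set.pi Set.univ fun j => Set.Icc (a j) (a j + L)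

/-! ## row functions -/

/-- Matrices over `F`. -/
abbrev Mat (F : Type) : Type := Matrix (Fin 2) (Fin 2) F

/-- `SL₂(F)`. -/
abbrev SL (F : Type) [Field F] : Type := Matrix.SpecialLinearGroup (Fin 2) F

/-- Row times matrix. -/
def rmul (u : F × F) (g : Mat F) : F × F :=
  (u.1 * g 0 0 + u.2 * g 1 0, u.1 * g 0 1 + u.2 * g 1 1)

/-- `(tr ξ g)(u) = ξ(u g)`. -/
def tr (ξ : F × F → ℂ) (g : Mat F) : F × F → ℂ := fun u => ξ (rmul u g)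

omit [NumberField F] [Emb F] in
theorem rmul_one (u : F × F) : rmul u 1 = u := by simp [rmul]

omit [NumberField F] [Emb F] in
theorem rmul_mul (u : F × F) (g h : Mat F) : rmul u (g * h) = rmul (rmul u g) h := by
  simp only [rmul, Matrix.mul_apply, Fin.sum_univ_two]
  congr 1 <;> ring

omit [NumberField F] [Emb F] in
theorem tr_one (ξ : F × F → ℂ) : tr ξ 1 = ξ := by funext u; rw [tr, rmul_one]

omit [NumberField F] [Emb F] in
theorem tr_mul (ξ : F × F → ℂ) (g h : Mat F) : tr ξ (g * h) = tr (tr ξ h) g := by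
  funext u; simp only [tr, rmul_mul]

/-- The matrix `(a b; c d)` as an element of `SL₂(F)`. -/
def mkSL (a b c d : F) (h : a * d - b * c = 1) : SL F :=
  ⟨!![a, b; c, d], by rw [Matrix.det_fin_two_of]; exact h⟩

/-- The translation by `t`. -/
def nT (t : F) : SL F := mkSL 1 t 0 1 (by ring)

/-- `SL₂(𝒪_F)`. -/
def Gam0 (F : Type) [Field F] : Subgroup (SL F) where
  carrier := {g | ∀ i j, IsIntegral ℤ (g i j)}
  one_mem' := by
    intro i j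
    fin_cases i <;> fin_cases j <;> simp [isIntegral_one, isIntegral_zero]
  mul_mem' := by
    intro g h hg hh i j
    rw [Matrix.SpecialLinearGroup.coe_mul, Matrix.mul_apply, Fin.sum_univ_two]
    exact ((hg _ _).mul (hh _ _)).add ((hg _ _).mul (hh _ _))
  inv_mem' := by
    intro g hg i j
    rw [Matrix.SpecialLinearGroup.coe_inv, Matrix.adjugate_fin_two]
    fin_cases i <;> fin_cases j
    · simpa using hg 1 1
    · simpa using (hg 0 1).neg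
    · simpa using (hg 1 0).neg
    · simpa using hg 0 0

/-- The stabiliser of a row function in `SL₂(F)`. -/
def Stab (ξ : F × F → ℂ) : Subgroup (SL F) where
  carrier := {g | tr ξ (g : Mat F) = ξ}
  one_mem' := tr_one ξ
  mul_mem' := by
    intro g h hg hh
    have hg' : tr ξ (g : Mat F) = ξ := hg
    have hh' : tr ξ (h : Mat F) = ξ := hh
    show tr ξ ((g * h : SL F) : Mat F) = ξ
    rw [Matrix.SpecialLinearGroup.coe_mul, tr_mul, hh', hg']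
  inv_mem' := by
    intro g hg
    have hg' : tr ξ (g : Mat F) = ξ := hg
    show tr ξ ((g⁻¹ : SL F) : Mat F) = ξ
    conv_lhs => rw [← hg']
    rw [← tr_mul, ← Matrix.SpecialLinearGroup.coe_mul, inv_mul_cancel,
      Matrix.SpecialLinearGroup.coe_one, tr_one]

/-- The discrete group attached to `ξ`. -/
def Del (ξ : F × F → ℂ) : Subgroup (SL F) := Stab ξ ⊓ Gam0 F

/-- Admissible row functions. -/
structure Adm (ξ : F × F → ℂ) : Prop where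
  bdd : ∃ B : ℝ, ∀ u, ‖ξ u‖ ≤ B
  supp : ∃ M : ℕ, M ≠ 0 ∧ ∀ u, ξ u ≠ 0 → IsIntegral ℤ ((M : F) * u.1) ∧
    IsIntegral ℤ ((M : F) * u.2) ∧
      ∃ a b : F, IsIntegral ℤ a ∧ IsIntegral ℤ b ∧ a * u.1 + b * u.2 = M
  fin : (Stab ξ).relIndex (Gam0 F) ≠ 0

open Classical in
/-- The "Gauss sums": mean over `d` of `ξ(c, d) e(r d / c)`. -/
def mf (ξ : F × F → ℂ) (r c : F) : ℂ :=
  if c = 0 then 0 else mean fun d => ξ (c, d) * eF (r * d / c)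

/-- Admissible, and the constant terms at all cusps have a density for the kernel `k0`. -/
def Good (ξ : F × F → ℂ) : Prop :=
  Adm ξ ∧ ∀ γ : SL F, ∃ t : ℂ, WDk (mf (tr ξ (γ : Mat F)) 0) k0 t

/-- The Fourier coefficients of the theta function of `ξ`. -/
def tau (ξ : F × F → ℂ) (r : F) : ℂ := Classical.epsilon (WD (mf ξ r))

/-! ## the product of hyperbolic spaces -/

/-- `(ℍ³)^r` in the coordinates `(z_j, log y_j)`. -/
abbrev HH (F : Type) [Field F] : Type := Pl F → R17.H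

/-- The point with coordinates `z` and logarithmic heights `l`. -/
def pt (z : Pl F → ℂ) (l : Pl F → ℝ) : HH F := fun j => (z j, l j)

/-- The invariant measure. -/
def μHH (F : Type) [Field F] [NumberField F] : Measure (HH F) := Measure.pi fun _ => R17.μH

/-- The action of a matrix of non-zero determinant. -/
def act (g : Mat F) (w : HH F) : HH F := fun j => R17.actC (g.map (Emb.σ j)) (w j)

theorem det_map_ne {g : Mat F} (hg : g.det ≠ 0) (j : Pl F) : (g.map (Emb.σ j)).det ≠ 0 := by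
  have h := (Emb.σ j : F →+* ℂ).map_det g
  rw [RingHom.mapMatrix_apply] at h
  rw [← h]
  exact (map_ne_zero _).2 hg

theorem act_one (w : HH F) : act 1 w = w := by
  funext j
  rw [act, Matrix.map_one _ (map_zero _) (map_one _), R17.actC_one]

theorem act_mul {g h : Mat F} (hg : g.det ≠ 0) (hh : h.det ≠ 0) (w : HH F) :
    act (g * h) w = act g (act h w) := by
  funext j
  simp only [act]
  rw [Matrix.map_mul, R17.actC_mul (det_map_ne hg j) (det_map_ne hh j)]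

instance : MulAction (SL F) (HH F) where
  smul σ w := act (σ : Mat F) w
  one_smul w := act_one w
  mul_smul σ τ w := act_mul (by rw [σ.det_coe]; exact one_ne_zero)
    (by rw [τ.det_coe]; exact one_ne_zero) w

theorem smul_def (σ : SL F) (w : HH F) : σ • w = act (σ : Mat F) w := rfl

/-- `∑_j Y_j Q_{w_j}(u_j)`. -/
def Qv (v : Pl F → ℝ) (w : HH F) (u : F × F) : ℝ :=
  ∑ j, Real.exp (v j) * R17.Qf (w j) (em u.1 j) (em u.2 j)

/-- The incomplete Eisenstein series. -/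
def thY (ξ : F × F → ℂ) (v : Pl F → ℝ) (w : HH F) : ℂ :=
  (Real.exp (4 / 3 * ∑ j, v j) : ℂ) * ∑' u : F × F, ξ u * (Real.exp (-Qv v w u) : ℂ)

/-- The contribution of the rows `(0, d)`. -/
def E0 (ξ : F × F → ℂ) (v l : Pl F → ℝ) : ℂ :=
  (Real.exp (4 / 3 * ∑ j, v j) : ℂ) *
    ∑' d : F, ξ (0, d) * (Real.exp (-∑ j, Real.exp (v j - l j) * ‖em d j‖ ^ 2) : ℂ)

open Classical in
/-- The Fourier coefficient of `thY ξ v` (`κ = π^r / covol 𝒪_F`). -/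
def Acoef (κ : ℝ) (ξ : F × F → ℂ) (v : Pl F → ℝ) (r : F) (l : Pl F → ℝ) : ℂ :=
  (if r = 0 then E0 ξ v l else 0) + (κ : ℂ) * Sk (mf ξ r) (Fk l (bb r)) v

/-- The theta function. -/
def Th (ξ : F × F → ℂ) (w : HH F) : ℂ :=
  ∑' r : F, tau ξ r * (MkV (fun j => (w j).2) (bb r) : ℂ) * eV (fun j => em r j * (w j).1)

/-- A weight for a subgroup `Δ` of `SL₂(𝒪_F)`. -/
def wOf (Δ : Subgroup (SL F)) (w : HH F) : ℝ :=
  Real.exp (-(Qv 0 w (1, 0) + Qv 0 w (0, 1))) /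
    ∑' δ : Δ, Real.exp (-(Qv 0 ((δ : SL F) • w) (1, 0) + Qv 0 ((δ : SL F) • w) (0, 1)))

/-- The square of the norm on `Δ \ HH`. -/
def N2 (Δ : Subgroup (SL F)) (f : HH F → ℂ) : ℝ≥0∞ :=
  ∫⁻ w, ENNReal.ofReal (wOf Δ w) * ‖f w‖ₑ ^ 2 ∂μHH F

/-- `f` has the absolutely convergent Fourier expansion `A`, with frequencies in `N⁻¹ 𝒪`. -/
def HasExp (N : ℕ) (f : HH F → ℂ) (A : F → (Pl F → ℝ) → ℂ) : Prop :=
  (∀ r, Measurable (A r)) ∧ (∀ r l, A r l ≠ 0 → IsIntegral ℤ ((N : F) * r)) ∧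
    ∀ l, (Summable fun r => ‖A r l‖) ∧
      ∀ z, f (pt z l) = ∑' r : F, A r l * eV (fun j => em r j * z j)

/-! ## statements of the leaves -/

variable (F)

/-- **Leaf L** (lattices). -/
structure LatStmt : Prop where
  nF_eq : ∀ x : F, nF x = |((Algebra.norm ℚ x : ℚ) : ℝ)|
  eF_eq : ∀ x : F, eF x = Complex.exp (2 * Real.pi * Complex.I * ((Algebra.trace ℚ F x : ℚ) : ℂ))
  one_le : ∀ x : F, x ≠ 0 → IsIntegral ℤ x → 1 ≤ nF x
  /-- lattice points in an arbitrary box -/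
  count : ∀ M : ℕ, M ≠ 0 → ∃ C : ℝ, ∀ (z : Pl F → ℂ) (T : Pl F → ℝ) (S : Finset F),
    (∀ j, 0 ≤ T j) → (∀ x ∈ S, IsIntegral ℤ ((M : F) * x) ∧ ∀ j, ‖em x j - z j‖ ^ 2 ≤ T j) →
      (S.card : ℝ) ≤ C * (1 + ∏ j, T j)
  /-- non-zero lattice points in a box centred at `0` -/
  count0 : ∀ M : ℕ, M ≠ 0 → ∃ C : ℝ, ∀ (T : Pl F → ℝ) (S : Finset F),
    (∀ j, 0 ≤ T j) → (∀ x ∈ S, x ≠ 0 ∧ IsIntegral ℤ ((M : F) * x) ∧ ∀ j, ‖em x j‖ ^ 2 ≤ T j) →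
      (S.card : ℝ) ≤ C * ∏ j, T j
  /-- the basic lattice sum, uniformly in the shape -/
  lsum : ∀ M : ℕ, M ≠ 0 → ∀ a b : ℝ, a < 1 → 1 < b → ∃ C : ℝ, ∀ (v : Pl F → ℝ) (S : Finset F),
    (∀ x ∈ S, x ≠ 0 ∧ IsIntegral ℤ ((M : F) * x)) →
      ∑ x ∈ S, ∏ j, min (Real.exp (-a * (v j + lg x j))) (Real.exp (-b * (v j + lg x j))) ≤
        C * Real.exp (-∑ j, v j)

/-- **Leaf M** (calculus of mean values). -/
structure MeanStmt : Prop where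
  mono : ∀ (φ : F → ℂ) (N N' : ℕ), PerS φ N → N' ≠ 0 → N ∣ N' → PerS φ N'
  eq : ∀ (φ : F → ℂ) (N : ℕ), PerS φ N → mean φ = meanN N φ
  /-- evaluation on any system of representatives of `N⁻¹𝒪 / N𝒪` (or of the part met by the support) -/
  sum : ∀ (φ : F → ℂ) (N : ℕ) (S : Finset F), PerS φ N →
    (∀ x ∈ S, ∀ y ∈ S, x - y ∈ latt F N → x = y) → (∀ x, φ x ≠ 0 → ∃ y ∈ S, x - y ∈ latt F N) →
      mean φ = ((N : ℂ) ^ Module.finrank ℚ F)⁻¹ * ∑ x ∈ S, φ x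
  reps : ∀ N : ℕ, N ≠ 0 → ∃ S : Finset F, S.card = N ^ (2 * Module.finrank ℚ F) ∧
    (∀ x ∈ S, IsIntegral ℤ ((N : F) * x)) ∧ (∀ x ∈ S, ∀ y ∈ S, x - y ∈ latt F N → x = y) ∧
      ∀ x : F, IsIntegral ℤ ((N : F) * x) → ∃ y ∈ S, x - y ∈ latt F N
  add : ∀ φ ψ : F → ℂ, Per φ → Per ψ → Per (φ + ψ) ∧ mean (φ + ψ) = mean φ + mean ψ
  smul : ∀ (a : ℂ) (φ : F → ℂ), Per φ → Per (fun x => a * φ x) ∧ mean (fun x => a * φ x) = a * mean φ
  shift : ∀ (φ : F → ℂ) (b : F), Per φ → Per (fun x => φ (x + b)) ∧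
    mean (fun x => φ (x + b)) = mean φ
  scale : ∀ (φ : F → ℂ) (e : F), Per φ → e ≠ 0 → Per (fun x => φ (e * x)) ∧
    mean (fun x => φ (e * x)) = (nF e : ℂ) * mean φ
  /-- the bound only depends on the support -/
  norm_le : ∀ (φ : F → ℂ) (M : ℕ) (B : ℝ), M ≠ 0 → (∀ x, ‖φ x‖ ≤ B) →
    (∀ x, φ x ≠ 0 → IsIntegral ℤ ((M : F) * x)) → ‖mean φ‖ ≤ B * (M : ℝ) ^ Module.finrank ℚ F
  char : ∀ (φ : F → ℂ) (r : F), Per φ → Per (fun x => φ x * eF (r * x))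
  /-- orthogonality -/
  char_zero : ∀ (φ : F → ℂ) (r t : F), Per φ → (∀ x, φ (x + t) = φ x) → eF (r * t) ≠ 1 →
    mean (fun x => φ x * eF (r * x)) = 0
  /-- a frequency killing `N𝒪` has bounded denominator -/
  dual : ∃ D : ℕ, D ≠ 0 ∧ ∀ r : F, (∀ t : F, IsIntegral ℤ t → eF (r * t) = 1) →
    IsIntegral ℤ ((D : F) * r)
  fubini : ∀ (Φ : F → F → ℂ) (N : ℕ), (∀ y, PerS (fun x => Φ x y) N) → (∀ x, PerS (Φ x) N) →
    PerS (fun x => mean (Φ x)) N ∧ PerS (fun y => mean fun x => Φ x y) N ∧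
      mean (fun x => mean (Φ x)) = mean fun y => mean fun x => Φ x y

/-- **Leaf R** (row functions: closure properties, elementary properties of `mf`). -/
structure RowStmt : Prop where
  adm_add : ∀ ξ ξ' : F × F → ℂ, Adm ξ → Adm ξ' → Adm (ξ + ξ')
  adm_smul : ∀ (a : ℂ) (ξ : F × F → ℂ), Adm ξ → Adm (fun u => a * ξ u)
  adm_tr : ∀ (ξ : F × F → ℂ) (g : Mat F), Adm ξ → g.det ≠ 0 → Adm (tr ξ g)
  /-- principal congruence subgroups have finite index -/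
  cong : ∀ (N : ℕ) (Δ : Subgroup (SL F)), N ≠ 0 →
    (∀ g ∈ Gam0 F, (∀ i j, g i j - (1 : Mat F) i j ∈ latt F N) → g ∈ Δ) → Δ.relIndex (Gam0 F) ≠ 0
  transl : ∀ ξ : F × F → ℂ, Adm ξ → ∃ N : ℕ, N ≠ 0 ∧ ∀ t ∈ latt F N, nT t ∈ Del ξ
  per : ∀ ξ : F × F → ℂ, Adm ξ → ∀ c : F, c ≠ 0 → Per fun d => ξ (c, d)
  bddL : ∀ ξ : F × F → ℂ, Adm ξ → ∃ (M : ℕ) (B : ℝ), M ≠ 0 ∧ ∀ r, (∀ c, ‖mf ξ r c‖ ≤ B) ∧
    ∀ c, mf ξ r c ≠ 0 → c ≠ 0 ∧ IsIntegral ℤ ((M : F) * c) ∧ IsIntegral ℤ ((M : F) * r)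
  mf_add : ∀ ξ ξ' : F × F → ℂ, Adm ξ → Adm ξ' → ∀ r, mf (ξ + ξ') r = mf ξ r + mf ξ' r
  mf_smul : ∀ (a : ℂ) (ξ : F × F → ℂ), Adm ξ → ∀ r c, mf (fun u => a * ξ u) r c = a * mf ξ r c
  mf_tri : ∀ (ξ : F × F → ℂ), Adm ξ → ∀ ρ b e r c : F, ρ ≠ 0 → e ≠ 0 →
    mf (tr ξ !![ρ, b; 0, e]) r c = (nF e : ℂ) * eF (-(r * b / e)) * mf ξ (r * ρ / e) (c * ρ)

/-- **Leaf A4** (weak densities). -/
structure DensStmt : Prop where
  kc0 : KC (k0 : (Pl F → ℝ) → ℝ)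
  unique : ∀ (g : F → ℂ) (t t' : ℂ), BddL g → WD g t → WD g t' → t = t'
  add : ∀ (g g' : F → ℂ) (t t' : ℂ), BddL g → BddL g' → WD g t → WD g' t' → WD (g + g') (t + t')
  smul : ∀ (a : ℂ) (g : F → ℂ) (t : ℂ), WD g t → WD (fun c => a * g c) (a * t)
  addk : ∀ (g g' : F → ℂ) (k : (Pl F → ℝ) → ℝ) (t t' : ℂ), BddL g → BddL g' → KC k →
    WDk g k t → WDk g' k t' → WDk (g + g') k (t + t')
  smulk : ∀ (a : ℂ) (g : F → ℂ) (k : (Pl F → ℝ) → ℝ) (t : ℂ), WDk g k t →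
    WDk (fun c => a * g c) k (a * t)
  scalek : ∀ (g : F → ℂ) (k : (Pl F → ℝ) → ℝ) (t : ℂ) (ρ : F), ρ ≠ 0 → (∀ c, g c ≠ 0 → c ≠ 0) →
    WDk g k t → WDk (fun c => g (c * ρ)) k (((nF ρ ^ (1 / 3 : ℝ) : ℝ) : ℂ) * t)
  /-- the shape of the limit -/
  limit : ∀ (g : F → ℂ) (b : Pl F → ℝ), BddL g → (∀ j, 0 ≤ b j) →
    (∀ (a : Pl F → ℝ) (L : ℝ), ∃ C : ℝ≥0∞, C ≠ ⊤ ∧ ∀ v : Pl F → ℝ, ∑ j, v j ≤ 0 →
      ∫⁻ l in box a L, ‖Sk g (Fk l b) v‖ₑ ^ 2 ≤ C) →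
    (∀ (a : Pl F → ℝ) (L : ℝ) (v v' : Pl F → ℝ) (ε : ℝ≥0∞), 0 < ε → ∃ s₀ : ℝ, ∀ s ≥ s₀, ∀ s' ≥ s₀,
      ∫⁻ l in box a L, ‖Sk g (Fk l b) (ray v s) - Sk g (Fk l b) (ray v' s')‖ₑ ^ 2 ≤ ε) →
    ∃ t : ℂ, WD g t ∧ ∀ (a : Pl F → ℝ) (L : ℝ) (v : Pl F → ℝ),
      Tendsto (fun s : ℝ => ∫⁻ l in box a L, ‖Sk g (Fk l b) (ray v s) - t * (MkV l b : ℂ)‖ₑ ^ 2)
        atTop (𝓝 0)

/-- **Leaf A1** (geometry of `HH`, automorphy and size of `thY`). -/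
structure GeomStmt : Prop where
  meas : ∀ g : Mat F, g.det ≠ 0 → MeasurePreserving (act g) (μHH F) (μHH F)
  cont : ∀ g : Mat F, g.det ≠ 0 → Continuous (act g : HH F → HH F)
  /-- `μHH = dz dl e^{-2 ∑ l}` -/
  lint : ∀ f : HH F → ℝ≥0∞, Measurable f → ∫⁻ w, f w ∂μHH F =
    ∫⁻ l : Pl F → ℝ, (∫⁻ z : Pl F → ℂ, f (pt z l)) * ENNReal.ofReal (Real.exp (-2 * ∑ j, l j))
  int : ∀ f : HH F → ℂ, Integrable f (μHH F) → ∫ w, f w ∂μHH F =
    ∫ l : Pl F → ℝ, (∫ z : Pl F → ℂ, f (pt z l)) * (Real.exp (-2 * ∑ j, l j) : ℂ)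
  wt : ∀ Δ : Subgroup (SL F), Δ ≤ Gam0 F → R17.IsWt Δ (wOf Δ : HH F → ℝ)
  summ : ∀ (M : ℕ) (v : Pl F → ℝ) (w : HH F), M ≠ 0 → Summable fun u : F × F =>
    {u : F × F | IsIntegral ℤ ((M : F) * u.1) ∧ IsIntegral ℤ ((M : F) * u.2)}.indicator
      (fun u => Real.exp (-Qv v w u)) u
  aut : ∀ (ξ : F × F → ℂ) (γ : SL F) (v : Pl F → ℝ) (w : HH F),
    thY (tr ξ (γ : Mat F)) v (γ • w) = thY ξ v w
  thY_cont : ∀ (ξ : F × F → ℂ) (v : Pl F → ℝ), Adm ξ → Continuous (thY ξ v)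
  thY_le : ∀ (ξ : F × F → ℂ) (v : Pl F → ℝ), Adm ξ → ∃ C : ℝ, ∀ w : HH F,
    ‖thY ξ v w‖ ≤ C * ∏ j, (1 + Real.exp (w j).2) * (1 + Real.exp (-(w j).2))

/-- **Leaf A2a** (unfolding): pairing of an invariant function with `thY ξ v`.  `G ∘ γ⁻¹` is
expanded at finitely many cusps, only the constant terms `A γ 0` survive. -/
def UnfoldStmt : Prop :=
  ∀ ξ : F × F → ℂ, Adm ξ → ∃ (I : Finset (SL F)) (a : SL F → ℂ),
    ∀ (G : HH F → ℂ) (N : ℕ) (A : SL F → F → (Pl F → ℝ) → ℂ) (C : ℝ), N ≠ 0 → Measurable G →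
      (∀ δ ∈ Del ξ, ∀ w, G (δ • w) = G w) →
      (∀ γ ∈ I, HasExp N (fun w => G (γ⁻¹ • w)) (A γ)) →
      (∀ γ ∈ I, ∀ w : HH F, ‖G (γ⁻¹ • w)‖ ≤
        C * ∏ j, (1 + Real.exp (w j).2) * (1 + Real.exp (-(w j).2))) →
      ∀ v : Pl F → ℝ,
        Integrable (fun w => (wOf (Del ξ) w : ℂ) * (G w * conj (thY ξ v w))) (μHH F) ∧
        (∀ γ ∈ I, Integrable fun l : Pl F → ℝ => A γ 0 l *
          (Real.exp (4 / 3 * ∑ j, v j - ∑ j, Real.exp (v j - l j) - 2 * ∑ j, l j) : ℂ)) ∧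
        ∫ w, (wOf (Del ξ) w : ℂ) * (G w * conj (thY ξ v w)) ∂μHH F =
          ∑ γ ∈ I, a γ * ∫ l : Pl F → ℝ, A γ 0 l *
            (Real.exp (4 / 3 * ∑ j, v j - ∑ j, Real.exp (v j - l j) - 2 * ∑ j, l j) : ℂ)

/-- **Leaf A2b** (Parseval on boxes, multiplicity). -/
structure BoxStmt : Prop where
  /-- from the global norm to the coefficients -/
  box_le : ∀ (Δ : Subgroup (SL F)) (L : ℝ), Δ ≤ Gam0 F → ∃ C : ℝ, 0 < C ∧
    ∀ (N : ℕ) (f : HH F → ℂ) (A : F → (Pl F → ℝ) → ℂ) (a : Pl F → ℝ), N ≠ 0 → Measurable f →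
      (∀ δ ∈ Δ, ∀ w, ‖f (δ • w)‖ = ‖f w‖) → HasExp N f A →
      ∑' r : F, ∫⁻ l in box a L, ‖A r l‖ₑ ^ 2 ≤
        ENNReal.ofReal (C * (1 + Real.exp (2 * ∑ j, a j))) * N2 Δ f
  /-- from the coefficients to the norm on a compact set -/
  compact_le : ∀ (K : Set (HH F)) (N : ℕ), IsCompact K → N ≠ 0 →
    ∃ (C : ℝ) (a : Pl F → ℝ) (L : ℝ), ∀ (f : HH F → ℂ) (A : F → (Pl F → ℝ) → ℂ), Measurable f →
      HasExp N f A →
      ∫⁻ w in K, ‖f w‖ₑ ^ 2 ∂μHH F ≤ ENNReal.ofReal C * ∑' r : F, ∫⁻ l in box a L, ‖A r l‖ₑ ^ 2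

/-- **Leaf A3** (Fourier expansion by Poisson summation). -/
def FourierStmt : Prop :=
  ∃ κ : ℝ, 0 < κ ∧ ∀ ξ : F × F → ℂ, Adm ξ → ∃ N : ℕ, N ≠ 0 ∧
    ∀ v : Pl F → ℝ, HasExp N (thY ξ v) (Acoef κ ξ v)

/-- **Leaf A5** (the theta function): everything the arithmetic part needs. -/
structure ThetaStmt : Prop where
  spec : ∀ ξ : F × F → ℂ, Good ξ → ∀ r, WD (mf ξ r) (tau ξ r)
  bound : ∀ ξ : F × F → ℂ, Good ξ → ∃ C : ℝ, ∀ r : F, r ≠ 0 →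
    ‖tau ξ r‖ ^ 2 * nF r ^ (1 / 3 : ℝ) ≤ C * (1 + nF r)
  aut : ∀ ξ : F × F → ℂ, Good ξ → ∀ (γ : SL F) (w : HH F), Th (tr ξ (γ : Mat F)) (γ • w) = Th ξ w
  vanish : ∀ ξ : F × F → ℂ, Good ξ → (∀ γ : SL F, tau (tr ξ (γ : Mat F)) 0 = 0) →
    ∀ r, tau ξ r = 0

/-- **Leaf A6** (formal properties of `Good` and `tau`; from `RowStmt`, `DensStmt`, `ThetaStmt`). -/
structure TauStmt : Prop where
  good_add : ∀ ξ ξ' : F × F → ℂ, Good ξ → Good ξ' → Good (ξ + ξ')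
  good_smul : ∀ (a : ℂ) (ξ : F × F → ℂ), Good ξ → Good (fun u => a * ξ u)
  good_tr : ∀ (ξ : F × F → ℂ) (g : Mat F), Good ξ → g.det ≠ 0 → Good (tr ξ g)
  good_zero : Good (0 : F × F → ℂ)
  tau_zero : ∀ r, tau (0 : F × F → ℂ) r = 0
  tau_add : ∀ ξ ξ' : F × F → ℂ, Good ξ → Good ξ' → ∀ r, tau (ξ + ξ') r = tau ξ r + tau ξ' r
  tau_smul : ∀ (a : ℂ) (ξ : F × F → ℂ), Good ξ → ∀ r, tau (fun u => a * ξ u) r = a * tau ξ r
  tau_tri : ∀ ξ : F × F → ℂ, Good ξ → ∀ ρ b e r : F, ρ ≠ 0 → e ≠ 0 →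
    tau (tr ξ !![ρ, b; 0, e]) r =
      ((nF e * nF ρ ^ (1 / 3 : ℝ) : ℝ) : ℂ) * eF (-(r * b / e)) * tau ξ (r * ρ / e)
  tau_ct : ∀ (ξ : F × F → ℂ) (t : ℂ), Good ξ → WDk (mf ξ 0) k0 t → tau ξ 0 = t
  supp : ∀ ξ : F × F → ℂ, Good ξ → ∃ M : ℕ, M ≠ 0 ∧ ∀ r, tau ξ r ≠ 0 → IsIntegral ℤ ((M : F) * r)
  /-- a theta function with a non-zero constant term is not reduced to it -/
  nonconst : ∀ ξ : F × F → ℂ, Good ξ → tau ξ 0 ≠ 0 → ∃ r, r ≠ 0 ∧ tau ξ r ≠ 0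

end Crest.Agent.T27.TH
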