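import Crest.Agent.T27.GsNorm_79
import Crest.Agent.T27.Gauss_55
import Crest.Agent.T27.Sar_77
import Crest.Agent.T27.ThA_54

/-!
# Row 27: the angular character `arg` of the frame is the archimedean argument on `1 + N Λ`
-/

set_option autoImplicit false

noncomputable section

namespace Crest.Agent.T27

open Finset NumberField
open scoped ComplexConjugate

variable {F : Type} [Field F] [NumberField F]

theorem alphaF_eq_prod_79 [TH.Emb F] {w : F} (hσ : ∀ v, TH.Emb.σ v w = omC) (x : F) :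
    alphaF w x = ∏ v, TH.em x v := by
  symm
  refine prod_bij (fun v _ => TH.Emb.σ v) (fun v _ => mem_emb3.2 (hσ v)) (fun v _ v' _ h => ?_)
    (fun τ hτ => ⟨InfinitePlace.mk τ, mem_univ _, ?_⟩) fun _ _ => rfl
  · rw [← TH.Emb.mk_σ v, ← TH.Emb.mk_σ v', h]
  · rcases InfinitePlace.mk_eq_iff.1 (TH.Emb.mk_σ (InfinitePlace.mk τ)) with h | h
    · exact h
    · exfalso
      have h1 := mem_emb3.1 hτ
      rw [← h, ComplexEmbedding.conjugate_coe_eq, hσ] at h1
      exact omC_ne_conj_79 h1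

theorem argF_eq_79 [TH.Emb F] {w : F} (hσ : ∀ v, TH.Emb.σ v w = omC) (x : F) :
    TH.argF x = alphaF w x / (‖alphaF w x‖ : ℂ) := by
  rw [alphaF_eq_prod_79 hσ, TH.argF, prod_div_distrib, norm_prod, Complex.ofReal_prod]

theorem argF_mul_79 [TH.Emb F] (x y : F) : TH.argF (x * y) = TH.argF x * TH.argF y := by
  rw [TH.argF, TH.argF, TH.argF, ← prod_mul_distrib]
  refine prod_congr rfl fun v _ => ?_
  simp only [TH.em, map_mul, norm_mul, Complex.ofReal_mul, mul_div_mul_comm]

theorem norm_argF_79 [TH.Emb F] {x : F} (hx : x ≠ 0) : ‖TH.argF x‖ = 1 := by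
  rw [TH.argF, norm_prod]
  refine prod_eq_one fun v _ => ?_
  rw [norm_div, Complex.norm_real, norm_norm]
  exact div_self (norm_ne_zero_iff.2 ((map_ne_zero (TH.Emb.σ v)).2 hx))

variable [Fr0]

omit [NumberField F] in
theorem exists_hom_79 {N : ℕ} (j : O →+* F) (hj : Function.Injective j)
    (hr : ∀ x, x ∈ j.range ↔ x ∈ RS F N) : ∃ i : 𝓞 F →+* O, ∀ x, j (i x) = x := by
  have h : ∀ x : 𝓞 F, ∃ y, j y = x := fun x => (hr x).2 (coe_mem_LocS x)
  choose i hi using h
  exact ⟨{ toFun := i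
           map_one' := hj (by simp [hi])
           map_mul' := fun x y => hj (by simp [hi])
           map_zero' := hj (by simp [hi])
           map_add' := fun x y => hj (by simp [hi]) }, hi⟩

/-- the normalised Jacobi sum of a prime of the frame -/
theorem arg1_eq_79 (i : 𝓞 F →+* O) {w : 𝓞 F} (hw : w ^ 2 + w + 1 = 0) (hiw : i w = om) {p : O}
    (hp : Prime p) (hp' : Primary p) (hs : ∀ y : O, ∃ x, p ∣ y - i x) :
    arg1 p = R17.arg (AP hw ((Ideal.span {p}).comap i)) := by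
  obtain ⟨χ, -, hχ⟩ := exists_mulChar_cub hp hp'
  have := Fact.mk hp.ne_zero
  let _ := Fintype.ofFinite (O ⧸ Ideal.span {p})
  have hm := PrincipalIdealRing.isMaximal_of_irreducible hp.irreducible
  let _ := Ideal.Quotient.field (Ideal.span {p})
  have hq : Fintype.card (O ⧸ Ideal.span {p}) = nm p := by
    rw [← card_quot hp.ne_zero, Nat.card_eq_fintype_card]
  let ρ : 𝓞 F →+* O ⧸ Ideal.span {p} := (Ideal.Quotient.mk _).comp i
  have hρ : Function.Surjective ρ := fun y => by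
    obtain ⟨y, rfl⟩ := Ideal.Quotient.mk_surjective y
    obtain ⟨x, hx⟩ := hs y
    exact ⟨x, (Ideal.Quotient.eq.2 (Ideal.mem_span_singleton.2 hx)).symm⟩
  have hker : RingHom.ker ρ = (Ideal.span {p}).comap i := by
    rw [← RingHom.comap_ker, Ideal.mk_ker]
  have hP : ((Ideal.span {p}).comap i).IsMaximal := hker ▸ RingHom.ker_isMaximal_of_surjective ρ hρ
  have hc : Fintype.card (O ⧸ Ideal.span {p}) = Ideal.absNorm ((Ideal.span {p}).comap i) := by
    rw [← hker, Ideal.absNorm_apply, Submodule.cardQuot_apply, ← Nat.card_eq_fintype_card]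
    exact (Nat.card_congr (RingHom.quotientKerEquivOfSurjective hρ).toEquiv).symm
  have h3 : (3 : 𝓞 F) ∉ (Ideal.span {p}).comap i := fun h => by
    rw [Ideal.mem_comap, map_ofNat, Ideal.mem_span_singleton] at h
    exact hp.not_isUnit (isUnit_of_dvd_unit h isUnit_three)
  have hcub : IsCub (ρ w) χ := fun a ha => by
    obtain ⟨a, rfl⟩ := Ideal.Quotient.mk_surjective a
    have h1 : ¬ p ∣ a := fun h =>
      ha (Ideal.Quotient.eq_zero_iff_mem.2 (Ideal.mem_span_singleton.2 h))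
    obtain ⟨k, hk⟩ := SymbolAux.exists_cub hp hp' h1
    refine ⟨k, ?_, by rw [hχ, cub_prime hp hp', SymbolAux.cub1_of_dvd hp hp' hk]; rfl⟩
    rw [hq, RingHom.comp_apply, hiw, ← map_pow, ← map_pow]
    exact Ideal.Quotient.eq.2 (Ideal.mem_span_singleton.2 hk)
  obtain ⟨h1, h2, -⟩ := jacobi_AP hw h3 ρ (fun x hx => by rwa [← hker] at hx) hc hcub
  have h4 : ∑ x ∈ res p, cub1 p x * cub1 p (1 - x) = jacobiSum χ χ := by
    rw [jacobiSum, ← sum_res_eq_quot hp.ne_zero]
    refine sum_congr rfl fun x _ => ?_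
    rw [← map_one (Ideal.Quotient.mk (Ideal.span {p})), ← map_sub, hχ, hχ, cub_prime hp hp',
      cub_prime hp hp']
  rw [arg1, h4, h1, neg_neg, R17.arg, R17.norm_ι, R17.nr, h2, hq]

omit [Fr0] in
theorem R17_arg_prod_79 {α : Type*} (s : Finset α) (f : α → R17.O) (e : α → ℕ) :
    R17.arg (∏ a ∈ s, f a ^ e a) = ∏ a ∈ s, R17.arg (f a) ^ e a := by
  simp only [R17.arg, map_prod, map_pow, norm_prod, norm_pow, Complex.ofReal_prod,
    Complex.ofReal_pow, prod_div_distrib, div_pow]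

/-- `arg` on integers `≡ 1 (mod N)` -/
theorem arg_eq_alpha_79 {N : ℕ} (h3 : 3 ∣ N) (hN : N ≠ 0) (j : O →+* F)
    (hj : Function.Injective j) (hr : ∀ x, x ∈ j.range ↔ x ∈ RS F N) {n : O} {t : F}
    (ht : IsIntegral ℤ t) (hn : j n = 1 + N * t) :
    arg n = alphaF (j om) (j n) / (‖alphaF (j om) (j n)‖ : ℂ) := by
  obtain ⟨i, hi⟩ := exists_hom_79 j hj hr
  have hwi : IsIntegral ℤ (j om) := by
    refine IsIntegral.of_pow three_pos ?_
    rw [← map_pow, om_cube, map_one]; exact isIntegral_one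
  let w : 𝓞 F := ⟨j om, hwi⟩
  have hiw : i w = om := hj (hi w)
  have hii : Function.Injective i := fun x y h => RingOfIntegers.ext (by rw [← hi, ← hi, h])
  have hw : w ^ 2 + w + 1 = 0 := hii (by simpa [hiw] using om_sq_add)
  have hNF : (N : F) ≠ 0 := Nat.cast_ne_zero.2 hN
  have hNu : IsUnit (N : O) := by
    obtain ⟨y, hy⟩ := (hr (N : F)⁻¹).2 (mem_RS.2 ⟨1, by
      rw [pow_one, mul_inv_cancel₀ hNF]; exact isIntegral_one⟩)
    exact IsUnit.of_mul_eq_one y (hj (by rw [map_mul, map_natCast, hy, map_one,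
      mul_inv_cancel₀ hNF]))
  have hden : ∀ y : O, ∃ (k : ℕ) (a : 𝓞 F), (N : O) ^ k * y = i a := fun y => by
    obtain ⟨k, a, h⟩ := exists_eq_of_mem_RS ((hr (j y)).1 ⟨y, rfl⟩)
    exact ⟨k, a, hj (by rw [hi, ← h, map_mul, map_pow, map_natCast])⟩
  let _ : Algebra (𝓞 F) O := i.toAlgebra
  have hloc : IsLocalization (Submonoid.powers (N : 𝓞 F)) O :=
    { map_units := by
        rintro ⟨_, k, rfl⟩
        show IsUnit (i _)
        rw [map_pow, map_natCast]; exact hNu.pow k
      surj := fun y => by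
        obtain ⟨k, a, h⟩ := hden y
        refine ⟨⟨a, ⟨_, k, rfl⟩⟩, ?_⟩
        show y * i _ = i a
        rw [← h, map_pow, map_natCast, mul_comm]
      exists_of_eq := fun h => ⟨1, by rw [hii h]⟩ }
  have hcm : ∀ I : Ideal (𝓞 F), IsCoprime I (Ideal.span {(N : 𝓞 F)}) →
      (I.map i).comap i = I := fun I hI => by
    refine le_antisymm (fun x hx => ?_) Ideal.le_comap_map
    obtain ⟨_, ⟨k, rfl⟩, h⟩ := (IsLocalization.algebraMap_mem_map_algebraMap_iff
      (Submonoid.powers (N : 𝓞 F)) O I x).1 hx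
    have h1 := Ideal.isCoprime_iff_exists.1 (hI.pow_right (n := k))
    obtain ⟨a, ha, b, hb, hab⟩ := h1
    rw [Ideal.span_singleton_pow, Ideal.mem_span_singleton] at hb
    obtain ⟨c, rfl⟩ := hb
    have : x = x * a + c * ((N : 𝓞 F) ^ k * x) := by linear_combination (-x) * hab
    rw [this]
    exact I.add_mem (I.mul_mem_left _ ha) (I.mul_mem_left _ h)
  -- the primes below
  have hmax : ∀ p : O, Prime p → ((Ideal.span {p}).comap i).IsMaximal ∧
      (N : 𝓞 F) ∉ (Ideal.span {p}).comap i := fun p hp => by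
    have h1 : (Ideal.span {p}).IsPrime := (Ideal.span_singleton_prime hp.ne_zero).2 hp
    refine ⟨(Ideal.comap_isPrime i _).isMaximal fun h => ?_, fun h => ?_⟩
    · obtain ⟨k, a, ha⟩ := hden p
      have h2 : a ∈ (Ideal.span {p}).comap i := by
        rw [Ideal.mem_comap, ← ha]; exact Ideal.mem_span_singleton.2 (dvd_mul_left _ _)
      rw [h, Ideal.mem_bot] at h2
      rw [h2, map_zero] at ha
      exact mul_ne_zero (hNu.pow k).ne_zero hp.ne_zero ha
    · rw [Ideal.mem_comap, map_natCast, Ideal.mem_span_singleton] at h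
      exact hp.not_isUnit (isUnit_of_dvd_unit h hNu)
  have hcop : ∀ p : O, Prime p →
      IsCoprime ((Ideal.span {p}).comap i) (Ideal.span {(N : 𝓞 F)}) := fun p hp => by
    obtain ⟨h1, h2⟩ := hmax p hp
    rw [Ideal.isCoprime_iff_sup_eq]
    exact h1.out.2 _ (lt_of_le_of_ne le_sup_left fun h => h2 (h ▸ Ideal.mem_sup_right
      (Ideal.mem_span_singleton_self _)))
  have hs : ∀ p : O, Prime p → ∀ y : O, ∃ x, p ∣ y - i x := fun p hp y => by
    obtain ⟨k, a, ha⟩ := hden y
    obtain ⟨b, hb, c, hc, hbc⟩ := Ideal.isCoprime_iff_exists.1 ((hcop p hp).pow_right (n := k))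
    rw [Ideal.span_singleton_pow, Ideal.mem_span_singleton] at hc
    obtain ⟨d, rfl⟩ := hc
    have h1 := congrArg i hbc
    rw [map_add, map_mul, map_pow, map_natCast, map_one] at h1
    refine ⟨d * a, ?_⟩
    have : y - i (d * a) = i b * y := by rw [map_mul, ← ha]; linear_combination (-y) * h1
    rw [this]
    exact (Ideal.mem_span_singleton.1 (Ideal.mem_comap.1 hb)).mul_right _
  let x : 𝓞 F := 1 + N * ⟨t, ht⟩
  have hx : i x = n := hj (by rw [hi, hn]; rfl)
  have hxF : (x : F) = j n := by rw [← hx, hi]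
  have hx3 : (3 : 𝓞 F) ∣ x - 1 := by
    obtain ⟨c, rfl⟩ := h3
    exact ⟨c * ⟨t, ht⟩, by simp only [x]; push_cast; ring⟩
  have hn0 : n ≠ 0 := by
    rintro rfl
    have h1 := (primary_nu hw hx3).ne_zero
    have h2 := R17.ι_injective.ne h1
    rw [ι_nu, map_zero, hxF, map_zero] at h2
    have h4 := norm_alphaF_sq (hw_coe_79 hw) (0 : F)
    rw [Algebra.norm_zero, Rat.cast_zero] at h4
    exact h2 (norm_eq_zero.1 (pow_eq_zero_iff two_ne_zero |>.1 h4))
  obtain ⟨u, hu, hun⟩ := exists_eq_unit_prod hn0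
  have hfac : Ideal.span {x} = ∏ p ∈ pf n, ((Ideal.span {p}).comap i) ^ vp p n := by
    rw [← hcm (Ideal.span {x}) ((Ideal.isCoprime_span_singleton_iff _ _).2
      ⟨1, -⟨t, ht⟩, by simp only [x]; ring⟩), ← hcm (∏ p ∈ pf n, _)
      (IsCoprime.prod_left fun p hp => (hcop p (BasicB.pf_sub hp).1).pow_left)]
    congr 1
    rw [Ideal.map_span, Set.image_singleton, hx]
    have h1 : ∀ p : O, ((Ideal.span {p}).comap i).map i = Ideal.span {p} := fun p =>
      IsLocalization.map_under (Submonoid.powers (N : 𝓞 F)) O (Ideal.span {p})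
    have h2 : (∏ p ∈ pf n, ((Ideal.span {p}).comap i) ^ vp p n).map i =
        ∏ p ∈ pf n, (Ideal.span {p}) ^ vp p n := by
      rw [← Ideal.mapHom_apply, map_prod]
      exact prod_congr rfl fun p _ => by rw [map_pow, Ideal.mapHom_apply, h1]
    rw [h2]
    simp only [Ideal.span_singleton_pow, Ideal.prod_span_singleton]
    conv_lhs => rw [hun]
    exact Ideal.span_singleton_mul_left_unit hu _
  have hne : ∀ p ∈ pf n, (Ideal.span {p}).comap i ≠ 0 := fun p hp =>
    Ring.ne_bot_of_isMaximal_of_not_isField (hmax p (BasicB.pf_sub hp).1).1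
      (RingOfIntegers.not_isField F)
  have hA : AI hw (Ideal.span {x}) = ∏ p ∈ pf n, AP hw ((Ideal.span {p}).comap i) ^ vp p n := by
    rw [hfac, AI_prod hw _ _ fun p hp => pow_ne_zero _ (hne p hp)]
    refine prod_congr rfl fun p hp => ?_
    rw [AI_pow hw (hne p hp), AI_prime hw (Ideal.prime_of_isPrime (hne p hp)
      (hmax p (BasicB.pf_sub hp).1).1.isPrime)]
  have h5 : alphaF (j om) (j n) = R17.ι (AI hw (Ideal.span {x})) := by
    rw [ι_AI hw hx3, hxF]; rfl
  rw [h5, arg, if_neg hn0, hA]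
  refine Eq.trans (prod_congr rfl fun p hp => ?_) (R17_arg_prod_79 _ _ _).symm
  rw [arg1_eq_79 i hw hiw (BasicB.pf_sub hp).1 (BasicB.pf_sub hp).2 (hs p (BasicB.pf_sub hp).1)]

variable [TH.Emb F]

theorem arg_eq_argF_79 {N : ℕ} (h3 : 3 ∣ N) (hN : N ≠ 0) (j : O →+* F)
    (hj : Function.Injective j) (hr : ∀ x, x ∈ j.range ↔ x ∈ RS F N)
    (hσ : ∀ v, TH.Emb.σ v (j om) = omC) {n : O} {t : F}
    (ht : IsIntegral ℤ t) (hn : j n = 1 + N * t) : arg n = TH.argF (j n) := by
  rw [argF_eq_79 hσ, arg_eq_alpha_79 h3 hN j hj hr ht hn]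

/-- `arg / argF` is invariant under `1 + N Λ` -/
theorem arg_class_79 {N : ℕ} (h3 : 3 ∣ N) (hN : N ≠ 0) (j : O →+* F)
    (hj : Function.Injective j) (hr : ∀ x, x ∈ j.range ↔ x ∈ RS F N)
    (hσ : ∀ v, TH.Emb.σ v (j om) = omC) {n n' : O} {l : F} (hl : l ∈ LS F N)
    (h : j n' = j n * (1 + N * l)) :
    arg n' * conj (TH.argF (j n')) = arg n * conj (TH.argF (j n)) := by
  obtain ⟨d, hd, hdl⟩ := mem_LS.1 hl
  obtain ⟨u, v, huv⟩ := bezout_cast hd F
  obtain ⟨a, ha⟩ := (hr (d * l)).2 (mem_LocS_of_isIntegral hdl)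
  have h1 : j (u * d) = 1 + N * (-v : F) := by
    rw [map_mul, map_intCast, map_natCast]; linear_combination huv
  have h2 : j (u * d + N * (u * a)) = 1 + N * (-v + u * (d * l)) := by
    rw [map_add, h1, map_mul, map_mul, map_natCast, map_intCast, ha]; ring
  have hv : IsIntegral ℤ (-v : F) := (isIntegral_algebraMap (R := ℤ)).neg
  have e1 := arg_eq_argF_79 h3 hN j hj hr hσ hv h1
  have e2 := arg_eq_argF_79 h3 hN j hj hr hσ
    (hv.add ((isIntegral_algebraMap (R := ℤ)).mul hdl)) h2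
  have h4 : n' * (u * d) = n * (u * d + N * (u * a)) := hj (by
    simp only [map_mul, map_add, map_intCast, map_natCast, h, ha]; ring)
  have hz : ∀ {y : O} {t : F}, IsIntegral ℤ t → j y = 1 + N * t → j y ≠ 0 := by
    intro y t ht hy h0
    have h5 : IsIntegral ℤ ((N : F)⁻¹) := by
      have : (N : F)⁻¹ = -t := by
        rw [hy] at h0
        exact inv_eq_of_mul_eq_one_right (by linear_combination -h0)
      rw [this]; exact ht.neg
    have h6 : IsIntegral ℤ ((N : ℚ)⁻¹) :=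
      (isIntegral_algebraMap_iff (algebraMap ℚ F).injective).1 (by simpa using h5)
    obtain ⟨c, hc⟩ := IsIntegrallyClosed.isIntegral_iff.1 h6
    have h7 : (N : ℤ) * c = 1 := by
      have : (N : ℚ) * c = 1 := by
        rw [show (c : ℚ) = (N : ℚ)⁻¹ from hc, mul_inv_cancel₀ (Nat.cast_ne_zero.2 hN)]
      exact_mod_cast this
    have h8 : (3 : ℤ) ∣ 1 := h7 ▸ (Int.natCast_dvd_natCast.2 h3).mul_right c
    omega
  have k1 : ∀ {y : O}, j y ≠ 0 → TH.argF (j y) * conj (TH.argF (j y)) = 1 := fun hy => by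
    rw [Complex.mul_conj, Complex.normSq_eq_norm_sq, norm_argF_79 hy]; simp
  have k2 := k1 (hz hv h1)
  have k3 := k1 (hz (hv.add ((isIntegral_algebraMap (R := ℤ)).mul hdl)) h2)
  have e3 := congrArg arg h4
  have e4 := congrArg (fun y => conj (TH.argF (j y))) h4
  simp only [map_mul j n', map_mul j n, argF_mul_79, map_mul (starRingEnd ℂ)] at e4
  rw [arg_mul, arg_mul n, e1, e2] at e3
  calc arg n' * conj (TH.argF (j n'))
      = (arg n' * TH.argF (j (u * d))) * (conj (TH.argF (j n')) * conj (TH.argF (j (u * d)))) := by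
        linear_combination (-(arg n' * conj (TH.argF (j n')))) * k2
    _ = _ := by
        rw [e3, e4]
        linear_combination (arg n * conj (TH.argF (j n))) * k3

end Crest.Agent.T27
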