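import Crest.Agent.T27.VorT_57
import Crest.Agent.T27.Mdl_77
import Crest.Agent.T27.GsArg_79

/-!
# Row 27, leaf R3 (helper57): the class map and the angular character of a model frame in the
language of `TH.Ar`
-/

set_option autoImplicit false
set_option linter.unusedSectionVars false

noncomputable section

namespace Crest.Agent.T27.TH

open scoped ComplexConjugate
open NumberField

variable [Fr0] {F : Type} [Field F] [NumberField F] [Emb F] [A : Ar F]

/-- The dictionary together with the description of the classes and of `arg`. -/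
structure Link (J : ℕ) (j : O →+* F) : Prop extends Dict j where
  one_le : 1 ≤ J
  cls_of : ∀ m n, m ≠ 0 → PJ J (j n / j m) → cls m = cls n
  ex_of_cls : ∀ m n, m ≠ 0 → cls m = cls n → ∃ w, IsUnit w ∧ cls w = 1 ∧ PJ J (j (w * n) / j m)
  cc_one : ∀ v, IsUnit v → cls v = 1 → ∀ y : F, y ≠ 0 → Ar.cc (j v) y = 1
  arg_cls : ∀ n n', n ≠ 0 → PJ 1 (j n' / j n) →
    arg n' * conj (argF (j n')) = arg n * conj (argF (j n))

/-- A model frame is linked to the arithmetic data of `exists_ar60`. -/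
theorem lk_of_model {N J : ℕ} {j : O →+* F} (h : IsModel F N J j) (hJ : 1 ≤ J) (hN : A.N = N)
    (hR : A.R = RS F N) (hL : A.L = LS F N)
    (hsy : ∀ x n : O, n ≠ 0 → A.sy (j x) (j n) = conj (cub n x))
    (hpsi : ∀ x n : O, A.psi (j x / j n) = eq x n)
    (hcc : ∀ t ∈ Co F N J, ∀ y : F, y ≠ 0 → A.cc t y = 1)
    (hσ : ∀ v, Emb.σ v (j om) = omC) : Link J j := by
  have hG := h.good
  have hP : ∀ {K : ℕ} {x : F}, PJ K x ↔ ∃ l ∈ LS F N, x = 1 + (N : F) ^ K * l := fun {K x} => by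
    rw [PJ, Deep, hN, hL]
    exact exists_congr fun l => and_congr_right fun _ => sub_eq_iff_eq_add'
  refine ⟨⟨h.inj, fun x => by rw [hR]; exact h.range x, hsy, fun x n _ => hpsi x n⟩, hJ,
    fun m n hm hp => ?_, fun m n hm e => ?_, fun v hv h1 y hy => ?_, fun n n' hn hp => ?_⟩
  · obtain ⟨l, hl, e⟩ := hP.1 hp
    obtain ⟨h0, h1⟩ := one_add_pow_mul_LS (F := F) (N := N) (j := J) (by omega) hl
    refine h.cls_eq_of_mem_PJ hm (p := Units.mk0 _ h0) ⟨⟨add_mem (one_mem _)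
      (mul_mem (pow_mem (natCast_mem _ N) J) hl), h1⟩, l, hl, rfl⟩ ?_
    rw [Units.val_mk0, ← e, mul_div_cancel₀ _ (h.ne_zero hm)]
  · obtain ⟨v, hv, h1, p, hp, e⟩ := h.exists_unit_of_cls_eq hm e
    obtain ⟨w, hw⟩ := hv.exists_left_inv
    refine ⟨w, IsUnit.of_mul_eq_one v hw, ?_, hP.2 ?_⟩
    · have := congrArg cls hw
      rwa [map_mul, h1, mul_one, map_one] at this
    · obtain ⟨-, l, hl, e'⟩ := hp
      refine ⟨l, hl, ?_⟩
      rw [← e', map_mul, e, ← mul_assoc, ← mul_assoc, ← map_mul, hw, map_one, one_mul,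
        mul_div_cancel_left₀ _ (h.ne_zero hm)]
  · obtain ⟨u, hu, e⟩ := h.unit_cls_iff.1 ⟨hv, h1⟩
    rw [e]
    exact hcc u (Up_le_Co hu) y hy
  · obtain ⟨l, hl, e⟩ := hP.1 hp
    refine arg_class_79 ((by norm_num : 3 ∣ 6).trans hG.six) hG.ne j h.inj h.range hσ hl ?_
    rw [pow_one] at e
    rw [← e, mul_div_cancel₀ _ (h.ne_zero hn)]

end Crest.Agent.T27.TH
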