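import Crest.Agent.T27.Fr_55

/-!
# Row 27: what the instance has to give for `KerAx` (helper63; definitions only)

`kerAx_of_base_63` (file `KerGC_63`) builds `KerAx g m` from a base kernel `G` with `BasePoi G V`
and from `ZGrow`.
-/

set_option autoImplicit false

noncomputable section

namespace Crest.Agent.T27

variable [Fr0]

open Classical in
/-- Continuation of `(s - 1) ∑_{c primary} N c^{-s}` to `Re s > 0`, at most exponential growth. -/
def ZGrow : Prop :=
  ∃ f : ℂ → ℂ, DifferentiableOn ℂ f {s | 0 < s.re} ∧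
    (∀ s : ℂ, 1 < s.re → f s = (s - 1) * ∑' c : O, if Primary c then (nr c : ℂ) ^ (-s) else 0) ∧
    ∀ a : ℝ, 0 < a → ∃ C : ℝ, ∀ s : ℂ, a ≤ s.re → s.re ≤ 4 → ‖f s‖ ≤ C * Real.exp (C * |s.im|)

open Classical in
/-- Poisson summation over the primary elements (= the ideals) for periodic functions which are
invariant under all units, with the base kernel `G` and the weight `V` of the zero term. -/
def BasePoi (G : ℝ → ℝ) (V : ℝ) : Prop :=
  ∀ (q : O) (F : O → ℂ) (X : ℝ), q ≠ 0 → (∀ x y, q ∣ x - y → F x = F y) →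
    (∀ u x, IsUnit u → F (u * x) = F x) → 0 < X →
    (V : ℂ) * F 0 + ∑' n : O, (if Primary n then F n * (G (nr n / X) : ℂ) else 0) =
      (X / nr q : ℝ) * ((V : ℂ) * ft q F 0 +
        ∑' h : O, if Primary h then ft q F h * (G (X * nr h / nr q) : ℂ) else 0)

end Crest.Agent.T27
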