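import Crest.Agent.T27.HeckeF_87
import Crest.Agent.T27.Mdl_77
import Crest.Agent.T27.KerDefs_63

/-!
# Row 27: `ZGrow` for the number-field model (helper63)

The sum over primary elements is the Dedekind zeta function without the Euler factors at the
primes dividing `N`.
-/

set_option autoImplicit false
set_option linter.unusedSectionVars false

noncomputable section

open Complex NumberField

namespace Crest.Agent.T27

namespace ZG63

open HeckeD87 HeckeF87

variable {K : Type*} [Field K] [NumberField K]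

open Classical in
/-- the indicator of the ideals not divisible by the members of `S` -/
def ind (S : Finset (Ideal (𝓞 K))) (A : Ideal (𝓞 K)) : ℂ := if ∀ P ∈ S, ¬ P ∣ A then 1 else 0

theorem norm_ind (S : Finset (Ideal (𝓞 K))) (A : Ideal (𝓞 K)) : ‖ind S A‖ ≤ 1 := by
  unfold ind
  split_ifs <;> simp

/-- the zeta function without the Euler factors at `S` -/
def Z (S : Finset (Ideal (𝓞 K))) (s : ℂ) : ℂ :=
  ∑' A : Ideal (𝓞 K), ind S A * (Ideal.absNorm A : ℂ) ^ (-s)

theorem ind_mul {S : Finset (Ideal (𝓞 K))} {P : Ideal (𝓞 K)} (hP : Prime P)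
    (hS : ∀ Q ∈ S, Prime Q) (hPS : P ∉ S) (A : Ideal (𝓞 K)) : ind S (P * A) = ind S A := by
  have : (∀ Q ∈ S, ¬ Q ∣ P * A) ↔ ∀ Q ∈ S, ¬ Q ∣ A := by
    refine forall₂_congr fun Q hQ => not_congr ⟨fun h => ?_, fun h => h.mul_left _⟩
    rcases (hS Q hQ).dvd_or_dvd h with h | h
    · have e : Q = P := associated_iff_eq.1 ((hS Q hQ).associated_of_dvd hP h)
      exact absurd (e ▸ hQ) hPS
    · exact h
  unfold ind
  by_cases h : ∀ Q ∈ S, ¬ Q ∣ A
  · rw [if_pos h, if_pos (this.2 h)]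
  · rw [if_neg h, if_neg (mt this.1 h)]

open Classical in
theorem Z_insert {S : Finset (Ideal (𝓞 K))} {P : Ideal (𝓞 K)} (hP : Prime P)
    (hS : ∀ Q ∈ S, Prime Q) (hPS : P ∉ S) {s : ℂ} (hs : 1 < s.re) :
    Z (insert P S) s = (1 - (Ideal.absNorm P : ℂ) ^ (-s)) * Z S s := by
  set ψ : Ideal (𝓞 K) → ℂ := fun A => if P ∣ A then ind S A else 0 with hψ
  have hψ1 : ∀ A, ‖ψ A‖ ≤ 1 := fun A => by
    simp only [hψ]
    split_ifs
    · exact norm_ind _ _
    · simp
  have h1 : ∀ A, ind S A = ind (insert P S) A + ψ A := fun A => by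
    simp only [hψ, ind, Finset.forall_mem_insert]
    by_cases h : P ∣ A <;> simp [h]
  have h2 : Z S s = Z (insert P S) s + ∑' A, ψ A * (Ideal.absNorm A : ℂ) ^ (-s) := by
    rw [Z, Z, ← (summable_psi (norm_ind _) hs).tsum_add (summable_psi hψ1 hs)]
    exact tsum_congr fun A => by rw [h1 A, add_mul]
  have hinj : Function.Injective fun A : Ideal (𝓞 K) => P * A :=
    fun A B e => mul_left_cancel₀ hP.ne_zero e
  have h3 : ∑' A, ψ A * (Ideal.absNorm A : ℂ) ^ (-s) = (Ideal.absNorm P : ℂ) ^ (-s) * Z S s := by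
    rw [← hinj.tsum_eq (f := fun A => ψ A * (Ideal.absNorm A : ℂ) ^ (-s)), Z, ← tsum_mul_left]
    · refine tsum_congr fun A => ?_
      simp only [hψ, dvd_mul_right, if_true, ind_mul hP hS hPS, map_mul, Nat.cast_mul,
        natCast_mul_natCast_cpow]
      ring
    · intro A hA
      by_contra hn
      have : ¬ P ∣ A := fun ⟨B, e⟩ => hn ⟨B, e.symm⟩
      simp [hψ, this] at hA
  rw [h3] at h2
  linear_combination -h2

theorem Z_eq (S : Finset (Ideal (𝓞 K))) (hS : ∀ Q ∈ S, Prime Q) {s : ℂ} (hs : 1 < s.re) :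
    Z S s = (∏ P ∈ S, (1 - (Ideal.absNorm P : ℂ) ^ (-s))) * dedekindZeta K s := by
  classical
  induction S using Finset.induction_on with
  | empty => simp [Z, ind, dedekindZeta_eq hs]
  | insert P S hPS ih =>
    have h1 : ∀ Q ∈ S, Prime Q := fun Q hQ => hS Q (Finset.mem_insert_of_mem hQ)
    have := Z_insert (hS P (Finset.mem_insert_self _ _)) h1 hPS hs
    rw [Finset.prod_insert hPS, mul_assoc, ← ih h1]
    convert this

theorem exists_S {M : Ideal (𝓞 K)} (hM : M ≠ ⊥) : ∃ S : Finset (Ideal (𝓞 K)),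
    (∀ Q ∈ S, Prime Q) ∧ ∀ A, IsCoprime A M ↔ ∀ P ∈ S, ¬ P ∣ A := by
  classical
  refine ⟨(UniqueFactorizationMonoid.normalizedFactors M).toFinset, fun Q hQ =>
    UniqueFactorizationMonoid.prime_of_normalized_factor Q (Multiset.mem_toFinset.1 hQ),
    fun A => ⟨fun h P hP hPA => ?_, fun h => ?_⟩⟩
  · have hP' := Multiset.mem_toFinset.1 hP
    exact (UniqueFactorizationMonoid.prime_of_normalized_factor P hP').not_isUnit
      (h.isUnit_of_dvd' hPA (UniqueFactorizationMonoid.dvd_of_mem_normalizedFactors hP'))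
  · rw [Ideal.isCoprime_iff_sup_eq]
    by_contra hn
    obtain ⟨P, hP, hle⟩ := Ideal.exists_le_maximal _ hn
    refine h P (Multiset.mem_toFinset.2 ?_) (Ideal.dvd_iff_le.2 (le_sup_left.trans hle))
    exact (Ideal.mem_normalizedFactors_iff hM).2 ⟨hP.isPrime, le_sup_right.trans hle⟩

theorem norm_factor {P : Ideal (𝓞 K)} (hP : P ≠ 0) {s : ℂ} (hs : 0 < s.re) :
    ‖1 - (Ideal.absNorm P : ℂ) ^ (-s)‖ ≤ 2 := by
  refine (norm_sub_le _ _).trans ?_
  rw [norm_one, norm_ideal_cpow P hs]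
  have h1 : (1 : ℝ) ≤ Ideal.absNorm P := by
    exact_mod_cast Nat.one_le_iff_ne_zero.2 (fun e => hP (Ideal.absNorm_eq_zero_iff.1 e))
  have := Real.rpow_le_one_of_one_le_of_nonpos h1 (neg_nonpos.2 hs.le)
  linarith

/-- one continuation with bounds on all strips -/
theorem zeta_all (K : Type*) [Field K] [NumberField K] :
    ∃ f : ℂ → ℂ, DifferentiableOn ℂ f {s | 0 < s.re} ∧
      (∀ s : ℂ, 1 < s.re → f s = (s - 1) * dedekindZeta K s) ∧
      ∀ a : ℝ, 0 < a → ∃ C : ℝ, 0 < C ∧ ∀ s : ℂ, a ≤ s.re → s.re ≤ 4 →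
        ‖f s‖ ≤ C * Real.exp (C * |s.im|) := by
  obtain ⟨_, _, h1⟩ := zetaCont_gen (a := 1) one_pos
  obtain ⟨f, hf, hfe, _⟩ := h1 K
  refine ⟨f, hf, hfe, fun a ha => ?_⟩
  obtain ⟨C, hC, h2⟩ := zetaCont_gen ha
  obtain ⟨g, hg, hge, hgb⟩ := h2 K
  have ho : IsOpen {s : ℂ | 0 < s.re} := isOpen_lt continuous_const continuous_re
  have hfg : Set.EqOn f g {s : ℂ | 0 < s.re} := by
    refine (hf.analyticOnNhd ho).eqOn_of_preconnected_of_eventuallyEq (hg.analyticOnNhd ho)
      (convex_halfSpace_re_gt 0).isPreconnected (z₀ := 2) (by simp) ?_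
    have : {s : ℂ | 1 < s.re} ∈ nhds (2 : ℂ) :=
      (isOpen_lt continuous_const continuous_re).mem_nhds (by simp)
    filter_upwards [this] with s hs
    rw [hfe s hs, hge s hs]
  have hn0 : (0 : ℝ) ≤ Module.finrank ℚ K := Nat.cast_nonneg _
  generalize (Module.finrank ℚ K : ℝ) = n at hgb hn0
  set A : ℝ := Real.exp (C * (Real.log |(discr K : ℝ)| + n)) with hA
  have hA0 : 0 < A := Real.exp_pos _
  refine ⟨A + C * n, by positivity, fun s h1 h4 => ?_⟩
  rw [hfg (show 0 < s.re by linarith)]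
  refine (hgb s h1 h4).trans ?_
  have e : C * (Real.log |(discr K : ℝ)| + n * (1 + |s.im|)) =
      C * (Real.log |(discr K : ℝ)| + n) + C * n * |s.im| := by ring
  rw [e, Real.exp_add]
  have : 0 ≤ C * n := by positivity
  have ht := abs_nonneg s.im
  gcongr <;> linarith

end ZG63

open ZG63 in
/-- **`ZGrow` holds in the number-field model.** -/
theorem zGrow_63 [Fr0] {F : Type*} [Field F] [NumberField F] {N J : ℕ} {j : O →+* F}
    (h : IsModel F N J j) : ZGrow := by
  classical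
  have hN : Ideal.span {(N : 𝓞 F)} ≠ ⊥ := by
    rw [Ne, Ideal.span_singleton_eq_bot]
    exact_mod_cast h.good.ne
  obtain ⟨S, hS, hco⟩ := exists_S hN
  obtain ⟨f, hf, hfe, hfb⟩ := zeta_all F
  have hne : ∀ P ∈ S, (Ideal.absNorm P : ℂ) ≠ 0 := fun P hP => by
    exact_mod_cast fun e => (hS P hP).ne_zero (Ideal.absNorm_eq_zero_iff.1 e)
  refine ⟨fun s => (∏ P ∈ S, (1 - (Ideal.absNorm P : ℂ) ^ (-s))) * f s, ?_, fun s hs => ?_,
    fun a ha => ?_⟩
  · refine DifferentiableOn.mul (Differentiable.differentiableOn ?_) hf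
    refine Differentiable.fun_finsetProd fun P hP => ?_
    exact (differentiable_const _).sub (differentiable_id.neg.const_cpow (Or.inl (hne P hP)))
  · have e1 : (∑' c : O, if Primary c then (nr c : ℂ) ^ (-s) else 0) = Z S s := by
      have e2 : (∑' c : O, if Primary c then (nr c : ℂ) ^ (-s) else 0) =
          ∑' c : {n : O | Primary n}, (Ideal.absNorm (h.id c) : ℂ) ^ (-s) := by
        rw [tsum_subtype {n : O | Primary n} fun c => (Ideal.absNorm (h.id c) : ℂ) ^ (-s)]
        refine tsum_congr fun c => ?_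
        simp only [Set.indicator, Set.mem_ofPred_eq, h.absNorm_id, nr, ofReal_natCast]
      have e3 := (h.bijOn_id.equiv _).tsum_eq
        (fun I => (Ideal.absNorm (I : Ideal (𝓞 F)) : ℂ) ^ (-s))
      rw [e2]
      refine Eq.trans e3 ?_
      rw [tsum_subtype {I : Ideal (𝓞 F) | IsCoprime I (Ideal.span {(N : 𝓞 F)})}
        fun I => (Ideal.absNorm I : ℂ) ^ (-s)]
      refine tsum_congr fun A => ?_
      simp only [Set.indicator, Set.mem_ofPred_eq, ind, hco]
      split_ifs <;> simp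
    show _ * f s = _
    rw [e1, Z_eq S hS hs, hfe s hs]
    ring
  · obtain ⟨C, hC, hb⟩ := hfb a ha
    refine ⟨2 ^ S.card * C, fun s h1 h4 => ?_⟩
    have h2 : ‖∏ P ∈ S, (1 - (Ideal.absNorm P : ℂ) ^ (-s))‖ ≤ 2 ^ S.card := by
      rw [norm_prod, ← Finset.prod_const]
      exact Finset.prod_le_prod (fun _ _ => norm_nonneg _) fun P hP =>
        norm_factor (hS P hP).ne_zero (by linarith)
    have h3 : (1 : ℝ) ≤ 2 ^ S.card := one_le_pow₀ (by norm_num)
    have h5 : C ≤ 2 ^ S.card * C := le_mul_of_one_le_left hC.le h3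
    have ht := abs_nonneg s.im
    rw [norm_mul, mul_assoc]
    refine mul_le_mul h2 ((hb s h1 h4).trans ?_) (norm_nonneg _) (by positivity)
    gcongr

end Crest.Agent.T27
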