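import Crest.Agent.T27.Cheb_52
import Crest.Agent.T27.HeckeG_87
import Crest.Agent.T27.Inst_77
import Crest.Agent.T27.LnkC_61
import Crest.Agent.T27.LnkAr_60
import Crest.Agent.T27.GauMdl_58
import Crest.Agent.T27.Cnt_21
import Crest.Agent.T27.CoreAll_51
import Crest.Agent.T27.End_84
import Crest.Agent.T27.KerGC_63
import Crest.Agent.T27.ZGr_63
import Crest.Agent.T27.ThG1_80
import Crest.Agent.T27.ThAll0_54
import Crest.Agent.T27.VorL_57

/-!
# Row 27: assembly (helper49)

`ChebG` from the five remaining leaves.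
-/

set_option autoImplicit false

noncomputable section

namespace Crest.Agent.T27

open NumberField

/-- the base kernel of the model -/
def BaseModel : Prop :=
  ∀ [Fr0] (F : Type) [Field F] [NumberField F] (N J : ℕ) (j : O →+* F), IsModel F N J j →
    ∃ (G : ℝ → ℝ) (V : ℝ), K63.Base G ∧ 0 < V ∧ BasePoi G V

/-- the quadratic large sieve on every frame -/
def LS2All : Prop := ∀ [Fr], LS2Stmt

/-- the theta function over every field -/
def ThetaAll : Prop :=
  ∀ (F : Type) [Field F] [NumberField F] [TH.Emb F] [TH.Ar F], TH.AllB F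

/-- the reflection formula of the model -/
def ReflModel : Prop :=
  ∀ [Fr] (F : Type) [Field F] [NumberField F] [TH.Emb F] [TH.Ar F] (J : ℕ) (j : O →+* F),
    TH.Link J j → TH.AllB F → ReflStmt

theorem omC_sq_add_49 : omC ^ 2 + omC + 1 = 0 := by
  have h : Real.sqrt 3 * Real.sqrt 3 = 3 := Real.mul_self_sqrt (by norm_num)
  apply Complex.ext
  · simp [omC, sq]; nlinarith
  · simp [omC, sq]; ring

theorem mobFr_model_49 (hRec : Rc.RecStmt) (hL : LS2All) (hT : ThetaAll) (hR : ReflModel)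
    [Fr] {F : Type} [Field F] [NumberField F] {N : ℕ} {j : O →+* F} (hm : IsModel F N 6 j) :
    MobFr := by
  obtain ⟨e, he⟩ := TH.G.exists_Emb (F := F) (ω := j om) hm.om_sq omC_sq_add_49
  obtain ⟨A, h1, h2, h3, -, h5, h6, -, h8, -⟩ := exists_ar60 hRec hm (by norm_num)
  exact mobFr_of_refl_51 hL
    (hR F 6 j (TH.lk_of_model hm (by norm_num) h1 h2 h3 h5 h6 h8 he) (hT F))

theorem invZeta_49 (hRec : Rc.RecStmt) (hB : BaseModel) (hL : LS2All) (hT : ThetaAll)
    (hR : ReflModel) : InvZeta (1 / 12) := by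
  intro F _ _ ⟨w, hw⟩
  obtain ⟨N, -, hN⟩ := exists_sgood F (M := 1) one_ne_zero
  obtain ⟨fr, j, hm, -⟩ := model_77 F N 6 w hw
  obtain ⟨R, hRA⟩ := recAx_model hRec hm (by norm_num)
  obtain ⟨G₀, V, b1, b2, b3⟩ := hB F N 6 j hm
  obtain ⟨g, m, hKA⟩ := kerAx_of_base_63 b1 b2 b3 (zGrow_63 hm)
  let inst : Fr :=
    { toFr0 := fr, RsF := R, g4F := Qn, gwF := g, melF := m, recAx := hRA,
      gauAx := gauAx_model_58 hm le_rfl hRA, kerAx := hKA, cntAx := cntAx_21 hKA }
  have hm' : @IsModel inst.toFr0 F _ _ N 6 j := hm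
  obtain ⟨G, hG, hG'⟩ := @invZeta_model_84 inst F _ _ N 6 j hm'
    (@mobFr_model_49 hRec hL hT hR inst F _ _ N j hm')
  exact ⟨G, by simpa only [show (1 : ℝ) - 1 / 12 = 11 / 12 by norm_num] using hG, hG'⟩

theorem chebG_49 (hRec : Rc.RecStmt) (hB : BaseModel) (hL : LS2All) (hT : ThetaAll)
    (hR : ReflModel) : ChebG :=
  chebG_52 (by norm_num) (invZeta_49 hRec hB hL hT hR) zetaCont_87 lCont_87

end Crest.Agent.T27
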