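import Crest.Agent.T27.ThA_54
import Crest.Agent.T27.HeckeB_87

/-!
# Row 27, theta leaf A3, part 1 (helper78): Poisson summation in the language of `ThA_54`

`poisson_latt`: shifted Gaussian on `N 𝒪_F`;  `poisson_per`: a periodic function against a shifted
Gaussian.
-/

set_option autoImplicit false
set_option linter.unusedSectionVars false

noncomputable section

namespace Crest.Agent.T27.TH.Four78

open scoped ComplexConjugate ENNReal Topology nonZeroDivisors
open MeasureTheory Filter NumberField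
open Crest.Agent.T27.HeckeB87

variable {F : Type} [Field F] [NumberField F] [Emb F]

theorem countable (F : Type) [Field F] [NumberField F] : Countable F :=
  Finsupp.Countable.of_moduleFinite (R := ℚ)

theorem conj_ne (j : Pl F) :
    ComplexEmbedding.conjugate (Emb.σ j : F →+* ℂ) ≠ Emb.σ j := by
  have := Emb.tc (F := F)
  exact fun h => IsTotallyComplex.complexEmbedding_not_isReal _ (ComplexEmbedding.isReal_iff.2 h)

/-- The complex embeddings come in pairs. -/
def embEquiv (F : Type) [Field F] [NumberField F] [Emb F] : Pl F ⊕ Pl F ≃ (F →+* ℂ) :=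
  Equiv.ofBijective (Sum.elim (fun j => Emb.σ j) fun j => ComplexEmbedding.conjugate (Emb.σ j)) (by
    constructor
    · rintro (i | i) (j | j) h <;> simp only [Sum.elim_inl, Sum.elim_inr] at h
      · have h1 := congrArg InfinitePlace.mk h
        rw [Emb.mk_σ, Emb.mk_σ] at h1
        rw [h1]
      · have h1 := congrArg InfinitePlace.mk h
        rw [InfinitePlace.mk_conjugate_eq, Emb.mk_σ, Emb.mk_σ] at h1
        subst h1
        exact absurd h.symm (conj_ne i)
      · have h1 := congrArg InfinitePlace.mk h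
        rw [InfinitePlace.mk_conjugate_eq, Emb.mk_σ, Emb.mk_σ] at h1
        subst h1
        exact absurd h (conj_ne i)
      · have h1 := congrArg InfinitePlace.mk h
        rw [InfinitePlace.mk_conjugate_eq, InfinitePlace.mk_conjugate_eq, Emb.mk_σ, Emb.mk_σ] at h1
        rw [h1]
    · intro φ
      rcases InfinitePlace.mk_eq_iff.1 (Emb.mk_σ (InfinitePlace.mk φ)) with h | h
      · exact ⟨Sum.inl _, h⟩
      · exact ⟨Sum.inr _, h⟩)

theorem embEquiv_inl (j : Pl F) : embEquiv F (Sum.inl j) = Emb.σ j := rfl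

theorem embEquiv_inr (j : Pl F) :
    embEquiv F (Sum.inr j) = ComplexEmbedding.conjugate (Emb.σ j) := rfl

theorem sum_pairs {M : Type*} [AddCommMonoid M] (f : (F →+* ℂ) → M) :
    ∑ φ, f φ = ∑ j : Pl F, (f (Emb.σ j) + f (ComplexEmbedding.conjugate (Emb.σ j))) := by
  rw [← (embEquiv F).sum_comp, Fintype.sum_sum_type, Finset.sum_add_distrib]
  rfl

/-- The point of `F ⊗ ℝ` with coordinates `x`. -/
def ext (x : Pl F → ℂ) (φ : F →+* ℂ) : ℂ :=
  Sum.elim x (fun j => conj (x j)) ((embEquiv F).symm φ)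

theorem ext_σ (x : Pl F → ℂ) (j : Pl F) : ext x (Emb.σ j) = x j := by
  rw [ext, ← embEquiv_inl, Equiv.symm_apply_apply, Sum.elim_inl]

theorem ext_conj_σ (x : Pl F → ℂ) (j : Pl F) :
    ext x (ComplexEmbedding.conjugate (Emb.σ j)) = conj (x j) := by
  rw [ext, ← embEquiv_inr, Equiv.symm_apply_apply, Sum.elim_inr]

theorem ext_conj (x : Pl F → ℂ) (φ : F →+* ℂ) :
    ext x (ComplexEmbedding.conjugate φ) = conj (ext x φ) := by
  obtain ⟨p, rfl⟩ := (embEquiv F).surjective φ
  rcases p with j | j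
  · rw [embEquiv_inl, ext_conj_σ, ext_σ]
  · rw [embEquiv_inr, ext_conj_σ, ComplexEmbedding.involutive_conjugate F, ext_σ, Complex.conj_conj]

theorem eV_eq (z : Pl F → ℂ) :
    eV z = Complex.exp (2 * Real.pi * Complex.I * ∑ j, (z j + conj (z j))) := by
  unfold eV
  congr 1
  simp only [Complex.add_conj, Complex.ofReal_sum, Complex.ofReal_mul, Complex.ofReal_ofNat,
    ← Finset.mul_sum]
  ring

theorem eF_eq (x : F) :
    eF x = Complex.exp (2 * Real.pi * Complex.I * ((Algebra.trace ℚ F x : ℚ) : ℂ)) := by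
  rw [eF, eV_eq, trace_eq, sum_pairs]
  rfl

theorem eV_add (z z' : Pl F → ℂ) : eV (fun j => z j + z' j) = eV z * eV z' := by
  unfold eV
  rw [← Complex.exp_add]
  congr 1
  simp only [Complex.add_re, Finset.sum_add_distrib, Complex.ofReal_add]
  ring

theorem norm_eV (z : Pl F → ℂ) : ‖eV z‖ = 1 := by
  unfold eV
  rw [show 4 * (Real.pi : ℂ) * Complex.I * ((∑ j, (z j).re : ℝ) : ℂ) =
    ((4 * Real.pi * ∑ j, (z j).re : ℝ) : ℂ) * Complex.I by push_cast; ring]
  exact Complex.norm_exp_ofReal_mul_I _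

theorem eV_zero : eV (fun _ : Pl F => (0 : ℂ)) = 1 := by simp [eV]

theorem em_add (x y : F) (j : Pl F) : em (x + y) j = em x j + em y j := map_add _ _ _
theorem em_mul (x y : F) (j : Pl F) : em (x * y) j = em x j * em y j := map_mul _ _ _
theorem em_zero (j : Pl F) : em (0 : F) j = 0 := map_zero _
theorem em_ne {x : F} (hx : x ≠ 0) (j : Pl F) : em x j ≠ 0 := (map_ne_zero _).2 hx
theorem em_div (x y : F) (j : Pl F) : em (x / y) j = em x j / em y j := map_div₀ _ _ _

theorem eF_add (x y : F) : eF (x + y) = eF x * eF y := by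
  rw [eF, eF, eF, ← eV_add]
  congr 1
  funext j
  exact em_add x y j

theorem eF_eq_one_iff (x : F) : eF x = 1 ↔ ∃ n : ℤ, Algebra.trace ℚ F x = n := by
  rw [eF_eq, Complex.exp_eq_one_iff]
  refine exists_congr fun n => ?_
  have h : (2 * Real.pi * Complex.I : ℂ) ≠ 0 := Complex.two_pi_I_ne_zero
  rw [mul_comm (n : ℂ), mul_right_inj' h]
  exact_mod_cast Iff.rfl

/-- The constant `π^r / covol 𝒪_F`. -/
def kap (F : Type) [Field F] [NumberField F] : ℝ :=
  (2 * Real.pi) ^ Fintype.card (Pl F) / Real.sqrt |(discr F : ℝ)|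

theorem kap_pos (F : Type) [Field F] [NumberField F] : 0 < kap F :=
  div_pos (by positivity) (Real.sqrt_pos.2 abs_discr_pos)

/-- The fractional ideal `N 𝒪`. -/
def JN (F : Type) [Field F] [NumberField F] {N : ℕ} (hN : N ≠ 0) : FI F :=
  Units.mk0 (FractionalIdeal.spanSingleton (𝓞 F)⁰ (N : F))
    (FractionalIdeal.spanSingleton_ne_zero_iff.2 (Nat.cast_ne_zero.2 hN))

theorem mem_JN {N : ℕ} (hN : N ≠ 0) (x : F) : x ∈ el (JN F hN) ↔ x ∈ latt F N := by
  change x ∈ FractionalIdeal.spanSingleton (𝓞 F)⁰ (N : F) ↔ _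
  rw [FractionalIdeal.mem_spanSingleton]
  constructor
  · rintro ⟨z, rfl⟩
    exact ⟨z, z.2, by rw [Algebra.smul_def, mul_comm]⟩
  · rintro ⟨y, hy, rfl⟩
    exact ⟨⟨y, hy⟩, mul_comm y (N : F)⟩

theorem mem_dl_JN {N : ℕ} (hN : N ≠ 0) (k : F) :
    k ∈ el (dl (JN F hN)) ↔ ∀ t ∈ latt F N, eF (k * t) = 1 := by
  change k ∈ FractionalIdeal.dual ℤ ℚ ((JN F hN : FI F) : FractionalIdeal (𝓞 F)⁰ F) ↔ _
  rw [FractionalIdeal.mem_dual (JN F hN).ne_zero]
  refine forall_congr' fun t => imp_congr (mem_JN hN t) ?_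
  rw [eF_eq_one_iff, Algebra.traceForm_apply]
  exact exists_congr fun n => by rw [eq_intCast]; exact eq_comm

theorem cov_JN {N : ℕ} (hN : N ≠ 0) :
    cov (JN F hN) = (N : ℝ) ^ Module.finrank ℚ F * Real.sqrt |(discr F : ℝ)| := by
  unfold cov nm
  congr 1
  change ((FractionalIdeal.absNorm (FractionalIdeal.spanSingleton (𝓞 F)⁰ (N : F)) : ℚ) : ℝ) = _
  rw [FractionalIdeal.absNorm_span_singleton, show (N : F) = algebraMap ℚ F N by simp,
    Algebra.norm_algebraMap]
  push_cast
  rw [abs_of_nonneg (by positivity)]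

/-- The Gaussian `exp(-∑ a_j |x_j + d_j|²)`. -/
def gau (a : Pl F → ℝ) (x : Pl F → ℂ) (d : F) : ℝ :=
  Real.exp (-∑ j, a j * ‖x j + em d j‖ ^ 2)

/-- Its Fourier transform, up to the constant. -/
def gft (a : Pl F → ℝ) (k : F) : ℝ := ∏ j, (a j)⁻¹ * Real.exp (-(bb k j / a j))

theorem gau_pos (a : Pl F → ℝ) (x : Pl F → ℂ) (d : F) : 0 < gau a x d := Real.exp_pos _

theorem gz_eq (a : Pl F → ℝ) (x : Pl F → ℂ) (d : F) :
    gz (fun w => a w / (2 * Real.pi)) (fun φ => ext x φ + φ d) = gau a x d := by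
  unfold gz gau
  congr 2
  rw [sum_pairs, Finset.mul_sum]
  refine Finset.sum_congr rfl fun j _ => ?_
  have h : conj (x j) + (ComplexEmbedding.conjugate (Emb.σ j : F →+* ℂ)) d =
      conj (x j + em d j) := by
    rw [map_add]; rfl
  beta_reduce
  rw [InfinitePlace.mk_conjugate_eq, Emb.mk_σ, ext_σ, ext_conj_σ, h, Complex.norm_conj]
  have := Real.pi_pos
  change Real.pi * (a j / (2 * Real.pi) * ‖x j + em d j‖ ^ 2 +
    a j / (2 * Real.pi) * ‖x j + em d j‖ ^ 2) = _
  field_simp
  ring

theorem gs_eq' {a : Pl F → ℝ} (ha : ∀ j, 0 < a j) (k : F) :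
    gs (fun w => (a w / (2 * Real.pi))⁻¹) k = ∏ j, Real.exp (-(bb k j / a j)) := by
  rw [← Real.exp_sum]
  unfold gs gz
  congr 1
  rw [sum_pairs, Finset.mul_sum, ← Finset.sum_neg_distrib]
  refine Finset.sum_congr rfl fun j _ => ?_
  have h : (ComplexEmbedding.conjugate (Emb.σ j : F →+* ℂ)) k = conj (em k j) := rfl
  beta_reduce
  rw [InfinitePlace.mk_conjugate_eq, Emb.mk_σ, h, Complex.norm_conj]
  have := Real.pi_pos
  have := ha j
  unfold bb
  change -(Real.pi * ((a j / (2 * Real.pi))⁻¹ * ‖em k j‖ ^ 2 +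
    (a j / (2 * Real.pi))⁻¹ * ‖em k j‖ ^ 2)) = _
  field_simp
  ring

open Classical in
/-- **Poisson summation** for a shifted Gaussian on `N 𝒪_F`. -/
theorem poisson_latt {N : ℕ} (hN : N ≠ 0) {a : Pl F → ℝ} (ha : ∀ j, 0 < a j) (x : Pl F → ℂ) :
    Summable (fun t : latt F N => gau a x t) ∧
    HasSum (fun k : F => if ∀ t ∈ latt F N, eF (k * t) = 1 then
        ((kap F / (N : ℝ) ^ Module.finrank ℚ F * gft a k : ℝ) : ℂ) * eV (fun j => em k j * x j)
        else 0)
      (∑' t : latt F N, (gau a x t : ℂ)) := by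
  have hpi := Real.pi_pos
  have htc := Emb.tc (F := F)
  obtain ⟨h1, h2⟩ := theta_ideal (JN F hN) (t := fun w => a w / (2 * Real.pi))
    (fun w => div_pos (ha w) (by positivity)) (z := ext x) (ext_conj x)
  simp only [gz_eq] at h1 h2
  let e : el (JN F hN) ≃ latt F N := Equiv.subtypeEquivRight (mem_JN hN)
  have he : ∀ t, ((e t : latt F N) : F) = t := fun _ => rfl
  refine ⟨e.summable_iff.1 h1, ?_⟩
  rw [← e.tsum_eq]
  simp only [he]
  have h3 := (hasSum_subtype_iff_indicator (s := el (dl (JN F hN))) (f := fun k : F =>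
    ((kap F / (N : ℝ) ^ Module.finrank ℚ F * gft a k : ℝ) : ℂ) * eV (fun j => em k j * x j))
    (a := ∑' t : el (JN F hN), (gau a x t : ℂ))).1 (by
      convert h2 using 2 with k
      simp only [Function.comp]
      congr 1
      · congr 1
        rw [gs_eq' ha, cov_JN, gft, Finset.prod_mul_distrib, ← mul_assoc]
        congr 1
        have e1 : Real.sqrt (∏ w : InfinitePlace F, (a w / (2 * Real.pi)) ^ w.mult) =
            ∏ w, a w / (2 * Real.pi) := by
          simp only [IsTotallyComplex.mult_eq]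
          rw [Finset.prod_pow, Real.sqrt_sq (Finset.prod_nonneg fun w _ =>
            (div_pos (ha w) (by positivity)).le)]
        rw [e1, Finset.prod_div_distrib, Finset.prod_const, Finset.card_univ, Finset.prod_inv_distrib,
          kap]
        have h4 : 0 < Real.sqrt |(discr F : ℝ)| := Real.sqrt_pos.2 abs_discr_pos
        have h5 : 0 < ∏ w, a w := Finset.prod_pos fun w _ => ha w
        have h6 : (0 : ℝ) < N := by exact_mod_cast Nat.pos_of_ne_zero hN
        field_simp
      · rw [eV_eq, sum_pairs]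
        congr 2
        refine Finset.sum_congr rfl fun j _ => ?_
        rw [ext_σ, ext_conj_σ, map_mul, mul_comm (x j), mul_comm (conj (x j))]
        rfl)
  convert h3 using 2 with k
  rw [Set.indicator_apply]
  simp only [mem_dl_JN]

/-- **Poisson summation** for a periodic function against a shifted Gaussian. -/
theorem poisson_per (hM : MeanStmt F) {φ : F → ℂ} (hφ : Per φ) {a : Pl F → ℝ} (ha : ∀ j, 0 < a j)
    (x : Pl F → ℂ) :
    Summable (fun d : F => φ d * (gau a x d : ℂ)) ∧
    HasSum (fun k : F => (kap F : ℂ) * (mean (fun d => φ d * eF (k * d)) * (gft a k : ℂ)) *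
        eV (fun j => em k j * x j))
      (∑' d : F, φ d * (gau a x d : ℂ)) := by
  classical
  obtain ⟨N, hP⟩ := hφ
  have hN := hP.1
  obtain ⟨S, -, -, hS1, hS2⟩ := hM.reps N hN
  have hS3 : ∀ d, φ d ≠ 0 → ∃ y ∈ S, d - y ∈ latt F N := fun d hd => hS2 d (hP.2.2 d hd)
  have eg : ∀ s t : F, gau a (fun j => x j + em s j) t = gau a x (s + t) := fun s t => by
    simp only [gau, em_add, add_assoc]
  -- the sum over one coset
  have c1 : ∀ s : F, HasSum (fun d : F => if d - s ∈ latt F N then φ d * (gau a x d : ℂ) else 0)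
      (φ s * ∑' t : latt F N, (gau a (fun j => x j + em s j) t : ℂ)) := by
    intro s
    have h1 := (poisson_latt hN ha fun j => x j + em s j).1
    have h2 := (Complex.summable_ofReal.2 h1).hasSum.mul_left (φ s)
    have hi : Function.Injective fun t : latt F N => s + (t : F) := fun t t' h =>
      Subtype.ext (add_left_cancel h)
    rw [← hi.hasSum_iff]
    · refine h2.congr_fun fun t => ?_
      simp only [Function.comp, add_sub_cancel_left, t.2, if_true, hP.2.1 s t t.2, eg]
    · intro d hd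
      rw [if_neg]
      intro h
      exact hd ⟨⟨d - s, h⟩, by simp⟩
  have c2 := hasSum_sum (s := S) fun s _ => c1 s
  have c3 : ∀ d : F, ∑ s ∈ S, (if d - s ∈ latt F N then φ d * (gau a x d : ℂ) else 0) =
      φ d * (gau a x d : ℂ) := by
    intro d
    by_cases hd : φ d = 0
    · simp [hd]
    · obtain ⟨y, hy, hy'⟩ := hS3 d hd
      rw [Finset.sum_eq_single_of_mem y hy, if_pos hy']
      intro b hb hne
      rw [if_neg]
      intro h
      refine hne (hS1 b hb y hy ?_)
      have := (latt F N).sub_mem hy' h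
      rwa [sub_sub_sub_cancel_left] at this
  simp only [c3] at c2
  refine ⟨c2.summable, ?_⟩
  rw [c2.tsum_eq]
  have c4 := hasSum_sum (s := S) fun s _ =>
    (poisson_latt hN ha fun j => x j + em s j).2.mul_left (φ s)
  refine c4.congr_fun fun k => ?_
  by_cases hk : ∀ t ∈ latt F N, eF (k * t) = 1
  · have hP' : PerS (fun d => φ d * eF (k * d)) N :=
      ⟨hN, fun d t ht => by beta_reduce; rw [hP.2.1 d t ht, mul_add, eF_add, hk t ht, mul_one],
        fun d hd => hP.2.2 d (left_ne_zero_of_mul hd)⟩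
    rw [hM.sum _ N S hP' hS1 fun d hd => hS3 d (left_ne_zero_of_mul hd)]
    simp only [if_pos hk, Finset.mul_sum, Finset.sum_mul]
    refine Finset.sum_congr rfl fun s _ => ?_
    have e1 : eV (fun j => em k j * (x j + em s j)) = eV (fun j => em k j * x j) * eF (k * s) := by
      rw [eF, ← eV_add]
      congr 1
      funext j
      rw [em_mul, mul_add]
    rw [e1]
    push_cast
    ring
  · simp only [if_neg hk, mul_zero, Finset.sum_const_zero]
    push Not at hk
    obtain ⟨t, ht, ht'⟩ := hk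
    rw [hM.char_zero φ k t ⟨N, hP⟩ (fun d => hP.2.1 d t ht) ht']
    simp

end Crest.Agent.T27.TH.Four78
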