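import Mathlib

/-!
# Row 27: the abstract frame for the analytic core (port of `PVc/R17/Defs.lean`)

`Fr0` is the algebraic data (model: `O = O_F[1/N]`, a principal ideal domain with finite quotients,
`6` invertible, `ω ∈ O`), `Fr` adds reciprocity, the quadratic Gauss sum, the radial kernel and
Poisson summation over the rows.  Every file of the port starts with `variable [Fr]` (or `[Fr0]`);
the names are those of `Crest.Agent.R17`.  Differences with `R17`:
* no `λ`, no prime `-2`; infinitely many units.  Rows are the elements of `Rep`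
  (`0` and `u * n`, `u ∈ U0`, `n` primary), `ball X` only contains elements of `Rep`;
  a sum over all rows is written `∑' k : O, f k * gr k (nr k / X)` (`gr k x = 1_{Rep k} gw x`);
* congruences modulo `4`, `72`, `M` become `cls m = cls n` (`cls : O →*₀ WithZero Cl`);
* `Rs` is a sextic bicharacter (`Rs m n * Rs n m = 1`), the quadratic sign is `Rq = Rs ^ 3`;
* the constant `7` becomes `c7`; `gw 0 = 1` but `gw` is unbounded at `0⁺`.
-/

set_option autoImplicit false

noncomputable section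

namespace Crest.Agent.T27

open scoped ComplexConjugate

/-- The algebraic data. -/
class Fr0 where
  /-- the ring -/
  OF : Type
  [cr : CommRing OF]
  [dom : IsDomain OF]
  [pid : IsPrincipalIdealRing OF]
  [cnt : Countable OF]
  [inf : Infinite OF]
  fin_quot : ∀ n : OF, n ≠ 0 → Finite (OF ⧸ Ideal.span {n})
  /-- a primitive cube root of unity -/
  omF : OF
  omF_sq_add : omF ^ 2 + omF + 1 = 0
  unit_six : IsUnit (6 : OF)
  /-- primary elements: a multiplicative system of generators of the non-zero ideals -/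
  PrimF : OF → Prop
  prim_one : PrimF 1
  prim_mul : ∀ m n, PrimF m → PrimF n → PrimF (m * n)
  prim_ne : ∀ n, PrimF n → n ≠ 0
  prim_assoc : ∀ m n, PrimF m → PrimF n → Associated m n → m = n
  prim_ex : ∀ n, n ≠ 0 → ∃ u, IsUnit u ∧ PrimF (u * n)
  /-- the finite class group -/
  ClF : Type
  [clg : CommGroup ClF]
  [clf : Finite ClF]
  /-- the class map -/
  clsF : OF →*₀ WithZero ClF
  clsF_ne : ∀ n, n ≠ 0 → clsF n ≠ 0
  clsF_surj : Function.Surjective clsF
  /-- being primary up to a unit of trivial class is a condition on the class -/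
  clsF_prim : ∀ m n v, PrimF m → PrimF n → IsUnit v → clsF (v * m) = clsF n → clsF v = 1
  /-- a transversal of the units modulo the units of trivial class -/
  U0F : Finset OF
  one_mem_U0F : 1 ∈ U0F
  unit_U0F : ∀ u ∈ U0F, IsUnit u
  ex_U0F : ∀ v, IsUnit v → ∃ u ∈ U0F, clsF u = clsF v
  inj_U0F : ∀ u ∈ U0F, ∀ u' ∈ U0F, clsF u = clsF u' → u = u'
  /-- the additive character `e(x / n)` -/
  eqF : OF → OF → ℂ
  eqF_add : ∀ x y n, eqF (x + y) n = eqF x n * eqF y n
  eqF_self : ∀ x n, eqF (n * x) n = 1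
  eqF_mul : ∀ g x n, g ≠ 0 → eqF (g * x) (g * n) = eqF x n
  eqF_norm : ∀ x n, ‖eqF x n‖ = 1
  eqF_nondeg : ∀ k n, n ≠ 0 → (∀ x, eqF (k * x) n = 1) → n ∣ k
  /-- counting of ideals -/
  kp : ℕ
  fin_prim : ∀ X : ℕ, {n | PrimF n ∧ Nat.card (OF ⧸ Ideal.span {n}) ≤ X}.Finite
  card_prim : ∀ X : ℕ, {n | PrimF n ∧ Nat.card (OF ⧸ Ideal.span {n}) ≤ X}.ncard ≤ kp * X

section Defs

variable [Fr0]

/-- The ring of the frame. -/
abbrev O : Type := Fr0.OF

instance : CommRing O := Fr0.cr
instance : IsDomain O := Fr0.dom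
instance : IsPrincipalIdealRing O := Fr0.pid
instance : Countable O := Fr0.cnt
instance : Infinite O := Fr0.inf
instance : DecidableEq O := Classical.decEq O

/-- The finite class group. -/
abbrev Cl : Type := Fr0.ClF

instance : CommGroup Cl := Fr0.clg
instance : Finite Cl := Fr0.clf

/-- The class map. -/
def cls : O →*₀ WithZero Cl := Fr0.clsF

/-- `ω`, a primitive cube root of unity. -/
def om : O := Fr0.omF

/-- The norm. -/
def nm (z : O) : ℕ := Nat.card (O ⧸ Ideal.span {z})

/-- The norm as a real number. -/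
abbrev nr (z : O) : ℝ := (nm z : ℝ)

open Classical in
/-- Exact division (`0` if the division is not exact). -/
instance : Div O := ⟨fun a b => if h : b ≠ 0 ∧ b ∣ a then h.2.choose else 0⟩

/-- The chosen representative modulo `n`. -/
instance : Mod O := ⟨fun x n => Quotient.out (Ideal.Quotient.mk (Ideal.span {n}) x)⟩

/-- Primary elements. -/
def Primary (n : O) : Prop := Fr0.PrimF n

/-- The transversal of the units. -/
def U0 : Finset O := Fr0.U0F

/-- The rows: `0` and the products `u n`, `u ∈ U0`, `n` primary. -/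
def Rep (k : O) : Prop := k = 0 ∨ ∃ u ∈ U0, ∃ n, Primary n ∧ k = u * n

/-- The primary elements of norm at most `X`. -/
def pball (X : ℕ) : Finset O := (Fr0.fin_prim X).toFinset

/-- The rows of norm at most `X`. -/
def ball (X : ℕ) : Finset O := insert 0 (Finset.image₂ (· * ·) U0 (pball X))

/-- The counting constant is `c7 = kk + 7`. -/
def kk : ℕ := U0.card * Fr0.kp

/-- The counting constant. -/
scoped notation "c7" => ((kk : ℝ) + 7)

/-- The non-zero rows of norm at most `A`. -/
def rows (A : ℝ) : Finset O := (ball ⌊A⌋₊).erase 0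

open Classical in
/-- The primary prime divisors of `n` (empty for `n = 0`). -/
def pf (n : O) : Finset O := (ball (nm n)).filter (fun p => Prime p ∧ Primary p ∧ p ∣ n)

/-- The `p`-adic valuation (for `n ≠ 0`, `p` prime). -/
def vp (p n : O) : ℕ := multiplicity p n

/-- The radical (product of the primary prime divisors). -/
def rad (n : O) : O := ∏ p ∈ pf n, p

open Classical in
/-- The Möbius function (used on primary elements). -/
def mu (n : O) : ℂ := if Squarefree n then (-1) ^ (pf n).card else 0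

open Classical in
/-- A complete residue system modulo `n ≠ 0`. -/
def res (n : O) : Finset O :=
  if h : n ≠ 0 then
    (@Set.toFinite _ (Set.univ : Set (O ⧸ Ideal.span {n}))
      (by have := Fr0.fin_quot n h; infer_instance)).toFinset.image Quotient.out
  else ∅

end Defs

/-- The complex number `ω = (-1 + √3 i)/2`. -/
def omC : ℂ := ⟨-1 / 2, Real.sqrt 3 / 2⟩

/-- The log-Gaussian weight `W(y) y^s = exp(-(log y)² + s log y)`. -/
def Wc (y : ℝ) (s : ℂ) : ℂ := Complex.exp (-((Real.log y : ℂ)) ^ 2 + s * (Real.log y : ℂ))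

/-- Its Mellin transform: `∫_0^∞ Wc y 0 · y^{s-1} dy = √π exp(s²/4)`. -/
def Wm (s : ℂ) : ℂ := (Real.sqrt Real.pi : ℂ) * Complex.exp (s ^ 2 / 4)

section Defs2

variable [Fr0]

open Classical in
/-- Cubic residue character modulo a prime `p`: `cub1 p a ≡ a ^ ((N p - 1)/3) (mod p)`. -/
def cub1 (p a : O) : ℂ :=
  ∑ k ∈ Finset.range 3, if p ∣ a ^ ((nm p - 1) / 3) - om ^ k then omC ^ k else 0

open Classical in
/-- Quadratic residue character modulo a prime `p`. -/
def quad1 (p a : O) : ℂ :=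
  if p ∣ a then 0 else if p ∣ a ^ ((nm p - 1) / 2) - 1 then 1 else -1

/-- The cubic residue symbol `(a / n)₃` (depends only on the ideal `(n)`). -/
def cub (n a : O) : ℂ := ∏ p ∈ pf n, cub1 p a ^ vp p n

/-- The quadratic residue symbol `(a / n)₂`. -/
def quad (n a : O) : ℂ := ∏ p ∈ pf n, quad1 p a ^ vp p n

/-- The sextic residue symbol `χ_n(a) = (a / n)₆`: `χ² = cub`, `χ³ = quad`. -/
def sym (n a : O) : ℂ := quad n a * conj (cub n a)

/-- `e(x / n)`. -/
def eq (x n : O) : ℂ := Fr0.eqF x n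

/-- Gauss sum `∑_{x mod n} χ_n(x)^j e(k x / n)` of the `j`-th power of the sextic symbol
(zero-extended also for `j = 0`: the summand is `0` unless `x` is coprime to `n`). -/
def gs (j : ℕ) (n k : O) : ℂ := ∑ x ∈ res n, sym n x ^ (j + 6) * eq (k * x) n

/-- Normalised Gauss sum `γ_j(n)`. -/
def gam (j : ℕ) (n : O) : ℂ := gs j n 1 / (Real.sqrt (nr n) : ℂ)

/-- Cubic Gauss sum `∑_{x mod n} (x/n)₃ e(k x / n)`. -/
def gc (n k : O) : ℂ := ∑ x ∈ res n, cub n x * eq (k * x) n

/-- Minus the normalised cubic Jacobi sum of a prime. -/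
def arg1 (p : O) : ℂ :=
  -(∑ x ∈ res p, cub1 p x * cub1 p (1 - x)) / (Real.sqrt (nr p) : ℂ)

/-- The angular character `α(n)` (depends only on the ideal `(n)`). -/
def arg (n : O) : ℂ := if n = 0 then 0 else ∏ p ∈ pf n, arg1 p ^ vp p n

/-- The finite Fourier transform modulo `q`. -/
def ft (q : O) (f : O → ℂ) (h : O) : ℂ := ∑ x ∈ res q, f x * eq (h * x) q

/-- For an index `μ = m d³` (`m` squarefree): the part `m`. -/
def sq1 (n : O) : O := ∏ p ∈ (pf n).filter (fun p => vp p n % 3 = 1), p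

/-- For an index `μ = m d³` (`m` squarefree): the part `d`. -/
def cu (n : O) : O := ∏ p ∈ pf n, p ^ (vp p n / 3)

open Classical in
/-- The cubic theta coefficient with angular factor: for primary `μ = m d³`, `m` squarefree,
`th μ = γ₂(m) √(N d) conj α(μ)`, and `0` on all other elements. -/
def th (n : O) : ℂ :=
  if Primary n ∧ ∀ p ∈ pf n, vp p n % 3 ≠ 2 then
    gc (sq1 n) 1 / (Real.sqrt (nr (sq1 n)) : ℂ) * (Real.sqrt (nr (cu n)) : ℂ) * conj (arg n)
  else 0

open Classical in
/-- The class of `n`, or `0` if `n` is not coprime to `M`. -/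
def clz (M : O) : O →* WithZero Cl where
  toFun n := if IsCoprime n M then cls n else 0
  map_one' := by rw [if_pos isCoprime_one_left, map_one]
  map_mul' m n := by
    by_cases hm : IsCoprime m M
    · by_cases hn : IsCoprime n M
      · rw [if_pos hm, if_pos hn, if_pos (hm.mul_left hn), map_mul]
      · rw [if_neg hn, mul_zero, if_neg fun h => hn h.of_mul_left_right]
    · rw [if_neg hm, zero_mul, if_neg fun h => hm h.of_mul_left_left]

/-- Class characters (the modulus `M` only enters through a coprimality condition). -/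
abbrev Chr (_M : O) : Type := MulChar (WithZero Cl) ℂ

/-- Value of a character. -/
def ev {M : O} (ν : Chr M) (n : O) : ℂ := ν (clz M n)

/-- Admissible moduli: units (e.g. `M = 1`). -/
structure Adm (M : O) : Prop where
  left : M ≠ 0
  right : (72 : O) ∣ M
  unit : IsUnit M

open Classical in
/-- The row character `n ↦ ν(n) conj χ_n(a)` on primary `n` (zero elsewhere). -/
def rc {M : O} (ν : Chr M) (a n : O) : ℂ := if Primary n then ev ν n * conj (sym n a) else 0

/-- Möbius sum of the row `a` at scale `D` with weight `W(y) y^s`. -/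
def Mob {M : O} (ν : Chr M) (a : O) (D : ℝ) (s : ℂ) : ℂ :=
  ∑' n : O, mu n * rc ν a n * Wc (nr n / D) s

/-- Exceptional rows: away from `M` the row is a sixth power (includes `a = 0`). -/
def Exc (M a : O) : Prop := ∀ p ∈ pf a, ¬ p ∣ M → 6 ∣ vp p a

open Classical in
/-- The completed, marked cubic-theta sum of the dual row `r`:
`∑_{z ∈ Zs} c(z) ∑_{μ, z ∣ μ} th(μ) φ(μ) χ_μ(r) W_s(N μ / (D N z))`. -/
def Tc (φ : O → ℂ) (Zs : Finset O) (c : O → ℂ) (D : ℝ) (s : ℂ) (r : O) : ℂ :=
  ∑ z ∈ Zs, c z * ∑' n : O, if z ∣ n then th n * φ n * sym n r * Wc (nr n / (D * nr z)) s else 0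

/-- `φ` is bounded by `1`, a class function and supported on the elements coprime to `M`
(used for units `M` only). -/
def PerB (M : O) (φ : O → ℂ) : Prop :=
  (∀ n, ‖φ n‖ ≤ 1) ∧ (∀ n n', cls n = cls n' → φ n = φ n') ∧ ∀ n, ¬ IsCoprime n M → φ n = 0

/-- Squarefree primary elements coprime to `M`. -/
def SP (M n : O) : Prop := Primary n ∧ Squarefree n ∧ IsCoprime n M

/-- Invariance under the units of trivial class. -/
def UInv (f : O → ℂ) : Prop := ∀ u x, IsUnit u → cls u = 1 → f (u * x) = f x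

open Classical in
/-- A profile restricted to the rows. -/
def grp (g : ℝ → ℝ) (k : O) (x : ℝ) : ℝ := if Rep k then g x else 0

/-- Reciprocity with the bicharacter `R`. -/
structure RecAx (R : O → O → ℂ) : Prop where
  congr : ∀ m m' n n', cls m = cls m' → cls n = cls n' → R m n = R m' n'
  mul_left : ∀ m m' n, m ≠ 0 → m' ≠ 0 → n ≠ 0 → R (m * m') n = R m n * R m' n
  anti : ∀ m n, m ≠ 0 → n ≠ 0 → R m n * R n m = 1
  pow_six : ∀ m n, m ≠ 0 → n ≠ 0 → R m n ^ 6 = 1
  self : ∀ n, n ≠ 0 → R n n = sym n (-1)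
  recip : ∀ m n, m ≠ 0 → n ≠ 0 → IsCoprime m n → sym m n = R m n * sym n m

/-- The quadratic Gauss sum `g` is a class function. -/
structure GauAx (R : O → O → ℂ) (g : O → ℂ) : Prop where
  congr : ∀ n n', cls n = cls n' → g n = g n'
  norm : ∀ n, n ≠ 0 → ‖g n‖ = 1
  mul : ∀ m n, m ≠ 0 → n ≠ 0 → g (m * n) = g m * g n * R m n ^ 3
  mul_sq : ∀ n y, n ≠ 0 → y ≠ 0 → g (n * y ^ 2) = g n
  three : ∀ n, Primary n → Squarefree n → gam 3 n = g n

open Classical in
/-- The radial kernel `g`, its Mellin transform `m`, and Poisson summation over the rows. -/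
structure KerAx (g : ℝ → ℝ) (m : ℂ → ℂ) : Prop where
  pos : ∀ x, 0 < g x
  zero : g 0 = 1
  anti : AntitoneOn g (Set.Ioi 0)
  le_rpow : ∀ A : ℝ, 0 < A → ∃ C : ℝ, 0 < C ∧ ∀ x : ℝ, 0 < x → g x ≤ C * x ^ (-A)
  mel_cont : ∀ σ : ℝ, 0 < σ → Continuous fun u : ℝ => m (σ + u * Complex.I)
  mel_int : ∀ σ : ℝ, 0 < σ → ∀ J : ℕ,
    MeasureTheory.Integrable fun u : ℝ => ‖m (σ + u * Complex.I)‖ * (1 + |u|) ^ J
  mel_eq : ∀ x σ : ℝ, 0 < x → 0 < σ → (g x : ℂ) = (1 / (2 * Real.pi) : ℂ) *
    ∫ u : ℝ, m (σ + u * Complex.I) * (x : ℂ) ^ (-(σ + u * Complex.I))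
  er : ∃ κ : ℝ, ∀ θ : ℝ, 0 < θ → θ ≤ 1 / 2 → ∃ C : ℝ, 0 < C ∧ ∀ y : ℝ, 0 < y →
    |(∑' c : O, if Primary c then g (y * nr c ^ 2) else 0) - κ / Real.sqrt y| ≤
      C * min (y ^ (-θ)) (Real.sqrt y)⁻¹
  poisson : ∀ (q : O) (f : O → ℂ) (X : ℝ), q ≠ 0 → (∀ x y, q ∣ x - y → f x = f y) → UInv f →
    0 < X → ∑' k : O, f k * (grp g k (nr k / X) : ℂ) =
      (X / nr q : ℝ) * ∑' h : O, ft q f h * (grp g h (X * nr h / nr q) : ℂ)

/-- Lower bound for the number of ideals. -/
def CntAx : Prop := ∃ c : ℝ, 0 < c ∧ ∀ X : ℕ, c * X ≤ ((pball X).card : ℝ)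

end Defs2

/-- The frame. -/
class Fr extends Fr0 where
  /-- the reciprocity factor -/
  RsF : O → O → ℂ
  /-- the quadratic Gauss sum -/
  g4F : O → ℂ
  /-- the radial kernel -/
  gwF : ℝ → ℝ
  /-- its Mellin transform -/
  melF : ℂ → ℂ
  recAx : RecAx RsF
  gauAx : GauAx RsF g4F
  kerAx : KerAx gwF melF
  cntAx : CntAx

section Defs3

variable [Fr]

/-- The reciprocity factor: `sym m n = Rs m n * sym n m`. -/
def Rs (m n : O) : ℂ := Fr.RsF m n

/-- The quadratic reciprocity sign: `quad m n = Rq m n * quad n m`. -/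
def Rq (m n : O) : ℂ := Rs m n ^ 3

/-- The normalised quadratic Gauss sum as a class function. -/
def g4 (n : O) : ℂ := Fr.g4F n

/-- The self-dual radial kernel (applied to norms). -/
def gw (x : ℝ) : ℝ := Fr.gwF x

/-- Its Mellin transform. -/
def mel (s : ℂ) : ℂ := Fr.melF s

/-- The kernel restricted to the rows: `gr k x = gw x` if `Rep k`, and `0` otherwise. -/
def gr (k : O) (x : ℝ) : ℝ := grp gw k x

end Defs3

end Crest.Agent.T27
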