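import Crest.Agent.T27.Gauss_55

/-!
# Row 27 frame: `GauAx` from reciprocity and the class invariance of the quadratic Gauss sum
-/

set_option autoImplicit false

noncomputable section

namespace Crest.Agent.T27

open scoped ComplexConjugate

variable [Fr0]

/-- The normalised quadratic Gauss sum. -/
def Qn (n : O) : ℂ := (∑ x ∈ res n, eq (x ^ 2) n) / (Real.sqrt (nr n) : ℂ)

namespace G82

/-- `∑_{x mod n} e(a x² / n)`. -/
def Qa (a n : O) : ℂ := ∑ x ∈ res n, eq (a * x ^ 2) n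

theorem Qn_eq (n : O) : Qn n = Qa 1 n / (Real.sqrt (nr n) : ℂ) := by
  simp only [Qn, Qa, one_mul]

theorem sqrt_ne {n : O} (hn : n ≠ 0) : (Real.sqrt (nr n) : ℂ) ≠ 0 := by
  exact_mod_cast (Real.sqrt_pos.2 (nr_pos hn)).ne'

theorem sqrt_mul (m n : O) :
    (Real.sqrt (nr (m * n)) : ℂ) = (Real.sqrt (nr m) : ℂ) * (Real.sqrt (nr n) : ℂ) := by
  rw [nr_mul, Real.sqrt_mul (Nat.cast_nonneg _), Complex.ofReal_mul]

theorem sqrt_sq (y : O) : (Real.sqrt (nr (y ^ 2)) : ℂ) = nm y := by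
  rw [nr_pow, Real.sqrt_sq (Nat.cast_nonneg _)]
  simp

theorem per (a n x y : O) (h : n ∣ x - y) : eq (a * x ^ 2) n = eq (a * y ^ 2) n :=
  eq_congr (h.trans ⟨a * (x + y), by ring⟩)

theorem Qa_crt {m n : O} (hm : m ≠ 0) (hn : n ≠ 0) (h : IsCoprime m n) (a : O) :
    Qa a (m * n) = Qa (a * n) m * Qa (a * m) n := by
  rw [Qa, sum_res_crt hm hn h _ (per a (m * n)), Qa, Qa, Finset.sum_mul_sum]
  refine Finset.sum_congr rfl fun x _ => Finset.sum_congr rfl fun y _ => ?_
  rw [← eq_crt hm hn]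
  exact eq_congr ⟨2 * a * x * y, by ring⟩

theorem Qa_unit_mul {u n : O} (hu : IsUnit u) (hn : n ≠ 0) (a : O) :
    Qa (u * a) (u * n) = Qa a n := by
  rw [Qa, Qa, sum_res_assoc (m := n) (n := u * n) hn (associated_unit_mul_right n u hu)
    _ (per a n)]
  refine Finset.sum_congr rfl fun x _ => ?_
  rw [mul_assoc, eq_mul_mul hu.ne_zero]

theorem Qa_mul_sq {a n y : O} (hn : n ≠ 0) (hy : y ≠ 0) (h : IsCoprime a y) :
    Qa a (n * y ^ 2) = nm y * Qa a n := by
  classical
  have hny := mul_ne_zero hn hy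
  have e0 : n * y ^ 2 = n * y * y := by ring
  have h2 : ∀ x, y ∣ 2 * a * x ↔ y ∣ x := fun x =>
    ⟨fun hd => ((isCoprime_of_isUnit y isUnit_two).mul_right h.symm).dvd_of_dvd_mul_left hd,
      fun hd => hd.mul_left _⟩
  have e1 : ∀ x, ∑ t ∈ res y, eq (a * (x + n * y * t) ^ 2) (n * y * y) =
      nm y * if y ∣ x then eq (a * x ^ 2) (n * y * y) else 0 := fun x => by
    have : ∀ t, eq (a * (x + n * y * t) ^ 2) (n * y * y) =
        eq (a * x ^ 2) (n * y * y) * eq (2 * a * x * t) y := fun t => by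
      rw [← eq_mul_mul hny (2 * a * x * t) y, ← eq_add]
      exact eq_congr ⟨a * n * t ^ 2, by ring⟩
    simp only [this, ← Finset.mul_sum, sum_res_eq_char hy, h2]
    split_ifs <;> ring
  have hper : ∀ x x', y * n ∣ x - x' → (if y ∣ x then eq (a * x ^ 2) (n * y * y) else 0) =
      if y ∣ x' then eq (a * x' ^ 2) (n * y * y) else 0 := fun x x' hd => by
    obtain ⟨t, ht⟩ := hd
    obtain rfl : x = x' + y * n * t := by rw [← ht]; ring
    by_cases hx : y ∣ x'
    · rw [if_pos hx, if_pos (hx.add ⟨n * t, by ring⟩)]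
      obtain ⟨z, rfl⟩ := hx
      exact eq_congr ⟨a * (2 * z * t + n * t ^ 2), by ring⟩
    · rw [if_neg hx, if_neg fun h' => hx ((dvd_add_left ⟨n * t, by ring⟩).1 h')]
  rw [Qa, e0, sum_res_mul hny hy _ (per a _), Finset.sum_congr rfl fun x _ => e1 x,
    ← Finset.mul_sum, mul_comm n y, sum_res_mul hy hn _ (by rwa [mul_comm y n] at hper ⊢)]
  congr 1
  have e2 : ∀ x, ∑ t ∈ res n, (if y ∣ x + y * t then eq (a * (x + y * t) ^ 2) (y * n * y) else 0) =
      if y ∣ 0 - x then Qa a n else 0 := fun x => by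
    rw [zero_sub, dvd_neg]
    by_cases hx : y ∣ x
    · rw [if_pos hx]
      obtain ⟨z, rfl⟩ := hx
      rw [Qa, ← sum_res_affine hn _ (per a n) isCoprime_one_left z]
      refine Finset.sum_congr rfl fun t _ => ?_
      rw [if_pos ⟨z + t, by ring⟩, ← eq_mul_mul (mul_ne_zero hy hy) (a * (1 * t + z) ^ 2) n]
      congr 1 <;> ring
    · rw [if_neg hx]
      exact Finset.sum_eq_zero fun t _ =>
        if_neg fun h' => hx ((dvd_add_left (dvd_mul_right y t)).1 h')
  rw [Finset.sum_congr rfl fun x _ => e2 x]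
  exact Gauss_delta (f := fun _ => Qa a n) hy (fun _ _ _ => rfl) 0

theorem sum_sq_prime {p : O} (hp : Prime p) (h : Primary p) (f : O → ℂ)
    (hf : ∀ x y, p ∣ x - y → f x = f y) :
    ∑ x ∈ res p, f (x ^ 2) = ∑ x ∈ res p, (quad p x + 1) * f x := by
  classical
  have hp0 := hp.ne_zero
  have : Fact (p ≠ 0) := ⟨hp0⟩
  have : (Ideal.span {p}).IsMaximal :=
    PrincipalIdealRing.isMaximal_of_irreducible hp.irreducible
  let : Field (O ⧸ Ideal.span {p}) := Ideal.Quotient.field _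
  let : Fintype (O ⧸ Ideal.span {p}) := Fintype.ofFinite _
  have hc : Fintype.card (O ⧸ Ideal.span {p}) = nm p := by
    rw [← Nat.card_eq_fintype_card, card_quot hp0]
  have h6 := (nm_prime_mod_six hp h).1
  have hF : ringChar (O ⧸ Ideal.span {p}) ≠ 2 := by
    rw [Ne, FiniteField.even_card_iff_char_two, hc]
    omega
  have hq : ∀ a, quad p a =
      (quadraticChar (O ⧸ Ideal.span {p}) (Ideal.Quotient.mk _ a) : ℤ) := by
    intro a
    rw [Symbol_quad_prime hp h, quad1]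
    by_cases ha : p ∣ a
    · rw [if_pos ha, Ideal.Quotient.eq_zero_iff_mem.2 (Ideal.mem_span_singleton.2 ha)]
      simp
    · have ha' : Ideal.Quotient.mk (Ideal.span {p}) a ≠ 0 := fun h0 =>
        ha (Ideal.mem_span_singleton.1 (Ideal.Quotient.eq_zero_iff_mem.1 h0))
      rw [if_neg ha, quadraticChar_eq_pow_of_char_ne_two hF ha', hc,
        show nm p / 2 = (nm p - 1) / 2 by omega, ← map_pow,
        ← map_one (Ideal.Quotient.mk (Ideal.span {p})), Ideal.Quotient.mk_eq_mk_iff_sub_mem,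
        Ideal.mem_span_singleton]
      split_ifs <;> simp
  let g : O ⧸ Ideal.span {p} → ℂ := fun t => f (Quotient.out t)
  have hg : ∀ x, g (Ideal.Quotient.mk _ x) = f x := fun x => hf _ _
    (Ideal.mem_span_singleton.1 ((Ideal.Quotient.mk_eq_mk_iff_sub_mem _ _).1
      (Ideal.Quotient.mk_out _)))
  have h1 := sum_res_eq_quot hp0 fun t => g (t ^ 2)
  have h2 := sum_res_eq_quot hp0 fun t =>
    (((quadraticChar (O ⧸ Ideal.span {p}) t : ℤ) : ℂ) + 1) * g t
  simp only [← map_pow, hg, ← hq] at h1 h2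
  rw [h1, h2, ← Finset.sum_fiberwise Finset.univ (fun t : O ⧸ Ideal.span {p} => t ^ 2)]
  refine Finset.sum_congr rfl fun t _ => ?_
  rw [Finset.sum_congr rfl (g := fun _ => g t) fun x hx => by rw [(Finset.mem_filter.1 hx).2],
    Finset.sum_const, nsmul_eq_mul]
  have h3 := quadraticChar_card_sqrts hF t
  rw [Set.toFinset_ofPred] at h3
  congr 1
  exact_mod_cast h3

theorem Qa_prime {p : O} (hp : Prime p) (h : Primary p) {a : O} (ha : IsCoprime a p) :
    Qa a p = quad p a * gs 3 p 1 := by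
  have h1 := sum_sq_prime hp h (fun x => eq (a * x) p) fun x y hxy =>
    eq_congr (by rw [← mul_sub]; exact hxy.mul_left _)
  have h2 := sum_res_eq_char hp.ne_zero a
  rw [if_neg fun hd => hp.not_isUnit (ha.isUnit_of_dvd' hd dvd_rfl)] at h2
  have h3 := gs_mul_unit 3 h.po ha 1
  rw [one_mul, sym_pow_three h, conj_quad] at h3
  rw [← h3, Qa, h1, gs]
  simp only [add_mul, one_mul, Finset.sum_add_distrib, h2, add_zero,
    sym_pow_add_six h _ three_ne_zero, sym_pow_three h]

theorem Qa_one (a : O) : Qa a 1 = 1 := by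
  have h := sum_res_eq_char (n := (1 : O)) one_ne_zero 0
  rw [if_pos (one_dvd _)] at h
  rw [Qa, Finset.sum_congr rfl fun x _ => eq_congr (y := 0 * x) (one_dvd _), h]
  simp

theorem Qa_sqfree {n : O} (hn : Primary n) (hs : Squarefree n) {a : O} (ha : IsCoprime a n) :
    Qa a n = quad n a * gs 3 n 1 := by
  refine Primary.induction
    (P := fun n => Squarefree n → ∀ a, IsCoprime a n → Qa a n = quad n a * gs 3 n 1) ?_ ?_ hn hs a ha
  · intro _ a _
    rw [Qa_one, quad_unit_left isUnit_one, gs_one, one_mul]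
  · intro p n hp hp' hn ih hs a ha
    have hc : IsCoprime p n := (squarefree_mul_iff.1 hs).1.isCoprime
    rw [Qa_crt hp.ne_zero hn.ne_zero hc, Qa_prime hp hp' (ha.of_mul_right_left.mul_left hc.symm),
      ih (squarefree_mul_iff.1 hs).2.2 _ (ha.of_mul_right_right.mul_left hc),
      gs_mul 3 hp'.po hn.po hc, sym_pow_three hp', sym_pow_three hn, quad_mul_right',
      quad_mul_right', quad_mul_left hp.ne_zero hn.ne_zero]
    ring

/-- Every non-zero element is a unit times a squarefree primary element times a square. -/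
theorem exists_sq {n : O} (hn : n ≠ 0) : ∃ u r c : O, IsUnit u ∧ Primary r ∧ Squarefree r ∧
    c ≠ 0 ∧ n = u * r * c ^ 2 := by
  obtain ⟨u, m, hu, hm, rfl⟩ := exists_eq_unit_mul_primary hn
  have h1 := squarefree_prod_primes (s := (pf m).filter fun p => vp p m % 2 = 1)
    fun q hq => BasicB.pf_sub (Finset.mem_filter.1 hq).1
  refine ⟨u, _, _, hu, h1.2.1, h1.1,
    (BasicB.primary_prod_pow (s := pf m) (fun _ => BasicB.pf_sub) fun p => vp p m / 2).ne_zero,
    ?_⟩
  rw [mul_assoc]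
  congr 1
  refine (BasicB.eq_mod_mul_div hm 2).trans ?_
  congr 1
  rw [Finset.prod_filter]
  refine Finset.prod_congr rfl fun p _ => ?_
  split_ifs with h2
  · rw [h2, pow_one]
  · rw [show vp p m % 2 = 0 by omega, pow_zero]

theorem Qa_eval {u r c a : O} (hu : IsUnit u) (hr : Primary r) (hs : Squarefree r) (hc : c ≠ 0)
    (ha : IsCoprime a r) (hac : IsCoprime a c) :
    Qa a (u * r * c ^ 2) = nm c * (quad r u * quad r a * gs 3 r 1) := by
  obtain ⟨v, hv⟩ := hu.exists_right_inv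
  have hv' : IsUnit v := IsUnit.of_mul_eq_one_right u hv
  have h1 : quad r v = quad r u := by
    have h2 := quad_sq hr (isCoprime_of_isUnit r hu)
    have h3 : quad r u * quad r v = 1 := by rw [← quad_mul_right', hv, quad_one_right]
    linear_combination quad r u * h3 - quad r v * h2
  rw [Qa_mul_sq (mul_ne_zero hu.ne_zero hr.ne_zero) hc hac,
    show Qa a (u * r) = Qa (u * (v * a)) (u * r) by rw [← mul_assoc, hv, one_mul],
    Qa_unit_mul hu hr.ne_zero, Qa_sqfree hr hs ((isCoprime_of_isUnit r hv').symm.mul_left ha),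
    quad_mul_right', h1]

theorem Qa_eq {n a : O} (hn : n ≠ 0) (ha : IsCoprime a n) : Qa a n = quad n a * Qa 1 n := by
  obtain ⟨u, r, c, hu, hr, hs, hc, rfl⟩ := exists_sq hn
  have h1 : IsCoprime a r := ha.of_mul_right_left.of_mul_right_right
  have h2 : IsCoprime a c := by
    have := ha.of_mul_right_right
    rw [sq] at this
    exact this.of_mul_right_left
  rw [Qa_eval hu hr hs hc h1 h2, Qa_eval hu hr hs hc isCoprime_one_left isCoprime_one_left,
    quad_mul_left (mul_ne_zero hu.ne_zero hr.ne_zero) (pow_ne_zero _ hc), quad_unit_mul_left hu,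
    sq c, quad_mul_left hc hc, ← sq, quad_sq' hc h2.symm, quad_one_right]
  ring

theorem Qn_three {n : O} (hn : Primary n) (hs : Squarefree n) : gam 3 n = Qn n := by
  rw [Qn_eq, Qa_sqfree hn hs isCoprime_one_left, quad_one_right, one_mul, gam]

theorem Qn_mul_sq {n y : O} (hn : n ≠ 0) (hy : y ≠ 0) : Qn (n * y ^ 2) = Qn n := by
  have h0 : (nm y : ℂ) ≠ 0 := Nat.cast_ne_zero.2 fun h => hy (nm_eq_zero.1 h)
  rw [Qn_eq, Qn_eq, Qa_mul_sq hn hy isCoprime_one_left, sqrt_mul, sqrt_sq, mul_comm,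
    mul_div_mul_right _ _ h0]

theorem Qn_unit_mul {u r : O} (hu : IsUnit u) (hr : Primary r) (hs : Squarefree r) :
    Qn (u * r) = quad r u * gam 3 r := by
  have h := Qa_eval (a := 1) hu hr hs one_ne_zero isCoprime_one_left isCoprime_one_left
  rw [one_pow, mul_one, quad_one_right] at h
  rw [Qn_eq, h, nr_unit_mul hu, gam]
  simp only [BasicA.nm_of_isUnit isUnit_one, Nat.cast_one]
  ring

theorem norm_Qn {n : O} (hn : n ≠ 0) : ‖Qn n‖ = 1 := by
  obtain ⟨u, r, c, hu, hr, hs, hc, rfl⟩ := exists_sq hn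
  rw [Qn_mul_sq (mul_ne_zero hu.ne_zero hr.ne_zero) hc, Qn_unit_mul hu hr hs, norm_mul,
    norm_gam (by omega) hr.po hs, mul_one, ← sym_pow_three hr, norm_pow,
    norm_sym hr (isCoprime_of_isUnit r hu), one_pow]

theorem Qn_one : Qn 1 = 1 := by
  rw [← Qn_three primary_one squarefree_one, gam_one]

theorem Qn_sq {n : O} (hn : n ≠ 0) : Qn n ^ 2 * quad n (-1) = 1 := by
  have h1 : conj (Qn n) = quad n (-1) * Qn n := by
    rw [Qn_eq, map_div₀, Complex.conj_ofReal, ← mul_div_assoc,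
      ← Qa_eq hn isCoprime_one_left.neg_left, Qa, Qa, map_sum]
    congr 1
    exact Finset.sum_congr rfl fun x _ => by rw [← eq_neg, neg_mul]
  have h2 := Gauss_conj_mul (norm_Qn hn)
  rw [h1] at h2
  linear_combination h2

theorem Qn_coprime {m n : O} (hm : m ≠ 0) (hn : n ≠ 0) (h : IsCoprime m n) :
    Qn (m * n) = Qn m * Qn n * (quad m n * quad n m) := by
  rw [Qn_eq, Qn_eq, Qn_eq, Qa_crt hm hn h, one_mul, one_mul, Qa_eq hm h.symm, Qa_eq hn h, sqrt_mul]
  ring

section rec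

variable {R : O → O → ℂ} (hR : RecAx R)
include hR

theorem R_mul_right {m n n' : O} (hm : m ≠ 0) (hn : n ≠ 0) (hn' : n' ≠ 0) :
    R m (n * n') = R m n * R m n' := by
  have h1 := hR.anti m (n * n') hm (mul_ne_zero hn hn')
  have h2 := hR.anti m n hm hn
  have h3 := hR.anti m n' hm hn'
  rw [hR.mul_left n n' m hn hn' hm] at h1
  linear_combination R m n * R m n' * h1 - R m (n * n') * R m n' * R n' m * h2 - R m (n * n') * h3

theorem R3_sq {m n : O} (hm : m ≠ 0) (hn : n ≠ 0) : R m n ^ 3 * R m n ^ 3 = 1 := by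
  rw [← pow_add]
  exact hR.pow_six m n hm hn

theorem R3_comm {m n : O} (hm : m ≠ 0) (hn : n ≠ 0) : R m n ^ 3 = R n m ^ 3 := by
  have h1 : R m n ^ 3 * R n m ^ 3 = 1 := by rw [← mul_pow, hR.anti m n hm hn, one_pow]
  have h2 := R3_sq hR hn hm
  linear_combination R n m ^ 3 * h1 - R m n ^ 3 * h2

theorem R3_coprime {m n : O} (hm : m ≠ 0) (hn : n ≠ 0) (h : IsCoprime m n) :
    quad m n * quad n m = R m n ^ 3 := by
  rw [← sym_pow_three' hm, hR.recip m n hm hn h, mul_pow, sym_pow_three' hn, mul_assoc, ← sq,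
    quad_sq' hn h.symm, mul_one]

theorem R3_mul_sq_left {m y n : O} (hm : m ≠ 0) (hy : y ≠ 0) (hn : n ≠ 0) :
    R (m * y ^ 2) n ^ 3 = R m n ^ 3 := by
  rw [hR.mul_left _ _ _ hm (pow_ne_zero _ hy) hn, sq, hR.mul_left _ _ _ hy hy hn, mul_pow, mul_pow,
    R3_sq hR hy hn, mul_one]

theorem Qn_mul {m n : O} (hm : m ≠ 0) (hn : n ≠ 0) : Qn (m * n) = Qn m * Qn n * R m n ^ 3 := by
  have key : ∀ m n : O, Squarefree m → Squarefree n → Qn (m * n) = Qn m * Qn n * R m n ^ 3 := by
    intro m n hm hn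
    let _ : GCDMonoid O := IsBezout.toGCDDomain O
    obtain ⟨m', n', h1, h2, h3⟩ := extract_gcd m n
    generalize gcd m n = d at h1 h2
    subst h1 h2
    have hc : IsCoprime m' n' := (gcd_isUnit_iff m' n').1 h3
    have hd : d ≠ 0 := left_ne_zero_of_mul hm.ne_zero
    have hm' : m' ≠ 0 := right_ne_zero_of_mul hm.ne_zero
    have hn' : n' ≠ 0 := right_ne_zero_of_mul hn.ne_zero
    have c1 : IsCoprime d m' := (squarefree_mul_iff.1 hm).1.isCoprime
    have c2 : IsCoprime d n' := (squarefree_mul_iff.1 hn).1.isCoprime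
    have e1 := Qn_sq hd
    rw [← sym_pow_three' hd, ← hR.self d hd] at e1
    have e2 := R3_sq hR hd hn'
    have e3 := R3_sq hR hd hm'
    rw [show d * m' * (d * n') = m' * n' * d ^ 2 by ring, Qn_mul_sq (mul_ne_zero hm' hn') hd,
      Qn_coprime hm' hn' hc, Qn_coprime hd hm' c1, Qn_coprime hd hn' c2, R3_coprime hR hm' hn' hc,
      R3_coprime hR hd hm' c1, R3_coprime hR hd hn' c2,
      hR.mul_left _ _ _ hd hm' (mul_ne_zero hd hn'), R_mul_right hR hd hd hn',
      R_mul_right hR hm' hd hn', mul_pow, mul_pow, mul_pow, R3_comm hR hm' hd]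
    generalize R d n' ^ 3 = A at *
    generalize R d m' ^ 3 = B at *
    generalize R d d ^ 3 = C at *
    linear_combination (-(Qn m' * Qn n' * R m' n' ^ 3)) *
      (A * A * (B * B) * e1 + B * B * e2 + e3)
  obtain ⟨u, r, c, hu, -, hs, hc, rfl⟩ := exists_sq hm
  obtain ⟨u', r', c', hu', -, hs', hc', rfl⟩ := exists_sq hn
  have s1 : Squarefree (u * r) := (squarefree_mul_iff.2 ⟨hu.isRelPrime_left, hu.squarefree, hs⟩)
  have s2 : Squarefree (u' * r') :=
    (squarefree_mul_iff.2 ⟨hu'.isRelPrime_left, hu'.squarefree, hs'⟩)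
  rw [show u * r * c ^ 2 * (u' * r' * c' ^ 2) = u * r * (u' * r') * (c * c') ^ 2 by ring,
    Qn_mul_sq (mul_ne_zero s1.ne_zero s2.ne_zero) (mul_ne_zero hc hc'), Qn_mul_sq s1.ne_zero hc,
    Qn_mul_sq s2.ne_zero hc', R3_mul_sq_left hR s1.ne_zero hc hn, R3_comm hR s1.ne_zero hn,
    R3_mul_sq_left hR s2.ne_zero hc' s1.ne_zero, R3_comm hR s2.ne_zero s1.ne_zero, key _ _ s1 s2]

end rec

end G82

/-- **`GauAx`** from reciprocity and the class invariance of the quadratic Gauss sum. -/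
theorem gauAx_of_82 {R : O → O → ℂ} (hR : RecAx R)
    (hQ : ∀ n n' : O, n ≠ 0 → n' ≠ 0 → cls n = cls n' → Qn n = Qn n') : GauAx R Qn where
  congr n n' h := by
    by_cases hn' : n' = 0
    · rw [hn', map_zero, cls_eq_zero] at h
      rw [h, hn']
    · exact hQ n n' (ne_zero_of_cls_eq h hn') hn' h
  norm _ hn := G82.norm_Qn hn
  mul _ _ hm hn := G82.Qn_mul hR hm hn
  mul_sq _ _ hn hy := G82.Qn_mul_sq hn hy
  three _ hn hs := G82.Qn_three hn hs

end Crest.Agent.T27
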