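import Mathlib

/-!
# Row 27: averages of periodic functions on abelian groups (for Milgram's formula)

`HasAvg f c`: `f` factors through a finite quotient and `c` is its mean value there.
-/

set_option autoImplicit false

noncomputable section

namespace Crest.Agent.T27.G58

/-- Mean value of a function on a finite type. -/
def mean {A : Type} [Fintype A] (g : A → ℂ) : ℂ := (∑ a, g a) / (Fintype.card A : ℂ)

theorem mean_comp_surj {A B : Type} [AddCommGroup A] [AddCommGroup B] [Fintype A] [Fintype B]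
    (π : A →+ B) (hπ : Function.Surjective π) (g : B → ℂ) : mean (fun a => g (π a)) = mean g := by
  classical
  set c : ℕ := (Finset.univ.filter fun a => π a = 0).card with hc
  have hf : ∀ b, (Finset.univ.filter fun a => π a = b).card = c := fun b =>
    AddMonoidHom.card_fiber_eq_of_mem_range π (hπ b) ⟨0, map_zero π⟩
  have key : ∀ h : B → ℂ, ∑ a, h (π a) = c * ∑ b, h b := fun h => by
    rw [← Finset.sum_fiberwise' Finset.univ π h, Finset.mul_sum]
    refine Finset.sum_congr rfl fun b _ => ?_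
    rw [Finset.sum_const, hf, nsmul_eq_mul]
  have h1 : (Fintype.card A : ℂ) = c * Fintype.card B := by
    simpa using key fun _ => 1
  have hc0 : (c : ℂ) ≠ 0 := by
    intro h
    rw [h, zero_mul] at h1
    exact Fintype.card_ne_zero (by exact_mod_cast h1)
  rw [mean, mean, key, h1, mul_div_mul_left _ _ hc0]

theorem mean_prod {A B : Type} [Fintype A] [Fintype B] (g : A → ℂ) (h : B → ℂ) :
    mean (fun x : A × B => g x.1 * h x.2) = mean g * mean h := by
  rw [mean, mean, mean, Fintype.sum_prod_type, Fintype.card_prod, div_mul_div_comm,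
    Finset.sum_mul_sum]
  push_cast
  rfl

theorem mean_pi {ι : Type} [Fintype ι] [DecidableEq ι] {A : Type} [Fintype A] (g : ι → A → ℂ) :
    mean (fun x : ι → A => ∏ i, g i (x i)) = ∏ i, mean (g i) := by
  simp only [mean]
  rw [Finset.prod_div_distrib, Finset.prod_univ_sum, Fintype.piFinset_univ, Fintype.card_pi]
  push_cast
  rfl

/-- `f` factors through a finite quotient, on which its mean value is `c`. -/
def HasAvg {M : Type} [AddCommGroup M] (f : M → ℂ) (c : ℂ) : Prop :=
  ∃ (A : Type) (_ : AddCommGroup A) (_ : Fintype A) (π : M →+ A) (g : A → ℂ),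
    Function.Surjective π ∧ (∀ x, f x = g (π x)) ∧ mean g = c

theorem HasAvg.mk' {M A : Type} [AddCommGroup M] [AddCommGroup A] [Fintype A] (π : M →+ A)
    (hπ : Function.Surjective π) {f : M → ℂ} (g : A → ℂ) (h : ∀ x, f x = g (π x)) :
    HasAvg f (mean g) := ⟨A, _, _, π, g, hπ, h, rfl⟩

theorem HasAvg.unique {M : Type} [AddCommGroup M] {f : M → ℂ} {c d : ℂ} (hc : HasAvg f c)
    (hd : HasAvg f d) : c = d := by
  classical
  obtain ⟨A, _, _, π, g, hπ, hg, rfl⟩ := hc
  obtain ⟨B, _, _, ρ, h, hρ, hh, rfl⟩ := hd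
  set C := (π.prod ρ).range
  have : Fintype C := Fintype.ofFinite C
  let p1 : C →+ A := (AddMonoidHom.fst A B).comp C.subtype
  let p2 : C →+ B := (AddMonoidHom.snd A B).comp C.subtype
  have s1 : Function.Surjective p1 := fun a => by
    obtain ⟨x, rfl⟩ := hπ a
    exact ⟨⟨(π.prod ρ) x, x, rfl⟩, rfl⟩
  have s2 : Function.Surjective p2 := fun b => by
    obtain ⟨x, rfl⟩ := hρ b
    exact ⟨⟨(π.prod ρ) x, x, rfl⟩, rfl⟩
  rw [← mean_comp_surj p1 s1, ← mean_comp_surj p2 s2]
  congr 1
  funext z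
  obtain ⟨_, x, rfl⟩ := z
  exact (hg x).symm.trans (hh x)

theorem HasAvg.comp {M M' : Type} [AddCommGroup M] [AddCommGroup M'] {f : M → ℂ} {c : ℂ}
    (hc : HasAvg f c) (p : M' →+ M) (hp : Function.Surjective p) : HasAvg (fun x => f (p x)) c := by
  obtain ⟨A, _, _, π, g, hπ, hg, rfl⟩ := hc
  exact HasAvg.mk' (π.comp p) (hπ.comp hp) g fun x => hg _

theorem HasAvg.congr {M : Type} [AddCommGroup M] {f f' : M → ℂ} {c : ℂ} (hc : HasAvg f c)
    (h : ∀ x, f' x = f x) : HasAvg f' c := by
  rw [show f' = f from funext h]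
  exact hc

/-- Transfer to the range of an injective homomorphism. -/
theorem HasAvg.range {M V : Type} [AddCommGroup M] [AddCommGroup V] (p : M →+ V)
    (hp : Function.Injective p) {φ : V → ℂ} {c : ℂ} (hc : HasAvg (fun x => φ (p x)) c) :
    HasAvg (fun y : p.range => φ y) c := by
  let e := AddMonoidHom.ofInjective hp
  refine (hc.comp e.symm.toAddMonoidHom e.symm.surjective).congr fun y => ?_
  obtain ⟨x, rfl⟩ := e.surjective y
  simp [e, AddMonoidHom.ofInjective_apply]

/-- Existence of the average for a function periodic under a subgroup of finite index. -/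
theorem exists_hasAvg {M A : Type} [AddCommGroup M] [AddCommGroup A] [Finite A] (π : M →+ A)
    (hπ : Function.Surjective π) {f : M → ℂ} (h : ∀ x y, π x = π y → f x = f y) :
    ∃ c, HasAvg f c := by
  have := Fintype.ofFinite A
  refine ⟨_, HasAvg.mk' π hπ (fun a => f (Function.surjInv hπ a)) fun x => h _ _ ?_⟩
  rw [Function.surjInv_eq hπ]

/-- Chinese remainder theorem for averages. -/
theorem hasAvg_mul {M A B : Type} [AddCommGroup M] [AddCommGroup A] [AddCommGroup B] [Fintype A]
    [Fintype B] (π : M →+ A) (hπ : Function.Surjective π) (ρ : M →+ B)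
    (hρ : Function.Surjective ρ) (hcrt : ∀ x, ∃ k, π k = 0 ∧ ρ k = ρ x) (g : A → ℂ) (h : B → ℂ) :
    HasAvg (fun x => g (π x) * h (ρ x)) (mean g * mean h) := by
  rw [← mean_prod]
  refine HasAvg.mk' (π.prod ρ) (fun ⟨a, b⟩ => ?_) _ fun x => rfl
  obtain ⟨x, rfl⟩ := hπ a
  obtain ⟨y, rfl⟩ := hρ b
  obtain ⟨k, h1, h2⟩ := hcrt (y - x)
  refine ⟨x + k, Prod.ext ?_ ?_⟩
  · simp [h1]
  · simp [h2]

/-- A quadratic character of an abelian group. -/
structure QCh (V : Type) [AddCommGroup V] where
  φ : V → ℂ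
  β : V → V → ℂ
  φ_zero : φ 0 = 1
  φ_add : ∀ x y, φ (x + y) = φ x * φ y * β x y
  β_add : ∀ x x' y, β (x + x') y = β x y * β x' y

namespace QCh

variable {V : Type} [AddCommGroup V] (q : QCh V)

/-- The orthogonal of an isotropic subgroup. -/
def orth (L : AddSubgroup V) (hL : ∀ h ∈ L, q.φ h = 1) : AddSubgroup V where
  carrier := {y | ∀ h ∈ L, q.β y h = 1}
  zero_mem' := fun h hh => by
    have := q.φ_add 0 h
    rw [zero_add, q.φ_zero, hL h hh] at this
    simpa using this.symm
  add_mem' := fun {a b} ha hb h hh => by rw [q.β_add, ha h hh, hb h hh, one_mul]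
  neg_mem' := fun {a} ha h hh => by
    have h0 := q.φ_add 0 h
    rw [zero_add, q.φ_zero, hL h hh] at h0
    have := q.β_add (-a) a h
    rw [neg_add_cancel, ha h hh, mul_one] at this
    rw [← this]
    simpa using h0.symm

theorem le_orth (L : AddSubgroup V) (hL : ∀ h ∈ L, q.φ h = 1) : L ≤ q.orth L hL := by
  intro a ha h hh
  have := q.φ_add a h
  rw [hL _ (L.add_mem ha hh), hL a ha, hL h hh] at this
  simpa using this.symm

/-- `M` contains the orthogonal of an isotropic subgroup. -/
def Large (M : AddSubgroup V) : Prop :=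
  ∃ L : AddSubgroup V, (∀ h ∈ L, q.φ h = 1) ∧ ∀ y, (∀ h ∈ L, q.β y h = 1) → y ∈ M

/-- Isotropic reduction. -/
theorem red (L : AddSubgroup V) (hL : ∀ h ∈ L, q.φ h = 1) (M : AddSubgroup V)
    (hM : q.orth L hL ≤ M) {c : ℂ} (hc : HasAvg (fun y : M => q.φ y) c) :
    ∃ r : ℝ, 0 < r ∧ ∃ d, HasAvg (fun y : q.orth L hL => q.φ y) d ∧ c = r * d := by
  classical
  obtain ⟨A, _, _, π, g, hπ, hg, rfl⟩ := hc
  set D := q.orth L hL with hD
  have hLM : L ≤ M := (q.le_orth L hL).trans hM
  let j : D →+ A := π.comp (AddSubgroup.inclusion hM)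
  let l : L →+ A := π.comp (AddSubgroup.inclusion hLM)
  have : Fintype j.range := Fintype.ofFinite _
  have : Fintype l.range := Fintype.ofFinite _
  have hker : ∀ y : M, π y ∈ j.range → (y : V) ∈ D := by
    rintro y ⟨d, hd⟩
    have hk : π (y - AddSubgroup.inclusion hM d) = 0 := by rw [map_sub, sub_eq_zero]; exact hd.symm
    set k := y - AddSubgroup.inclusion hM d with hk'
    have h1 : (k : V) ∈ D := fun h hh => by
      have e1 : q.φ k = 1 := by
        have := hg k
        rw [hk, ← map_zero π, ← hg 0] at this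
        exact this.trans q.φ_zero
      have e2 := hg (k + ⟨h, hLM hh⟩)
      rw [map_add, hk, zero_add, ← hg] at e2
      simp only [AddSubgroup.coe_add] at e2
      rw [q.φ_add, e1, hL h hh] at e2
      simpa using e2
    have : (y : V) = k + d := by simp [hk']
    rw [this]
    exact D.add_mem h1 d.2
  have hlj : ∀ b : l.range, (b : A) ∈ j.range := by
    rintro ⟨_, h, rfl⟩
    exact ⟨⟨h, q.le_orth L hL h.2⟩, rfl⟩
  have inner : ∀ a, a ∉ j.range → ∑ b : l.range, g (a + b) = 0 := by
    intro a ha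
    obtain ⟨y, rfl⟩ := hπ a
    have hy : (y : V) ∉ D := fun h => ha ⟨⟨y, h⟩, rfl⟩
    obtain ⟨h0, hh0, hζ⟩ : ∃ h0 ∈ L, q.β y h0 ≠ 1 := by
      by_contra hcon
      push Not at hcon
      exact hy hcon
    set b0 : l.range := ⟨l ⟨h0, hh0⟩, _, rfl⟩
    have e1 : ∑ b : l.range, g (π y + (b + b0 : l.range)) = ∑ b : l.range, g (π y + b) :=
      Equiv.sum_comp (Equiv.addRight b0) fun b : l.range => g (π y + b)
    have e2 : ∀ b : l.range, g (π y + (b + b0 : l.range)) = q.β y h0 * g (π y + b) := by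
      rintro ⟨_, h, rfl⟩
      have a1 := hg (y + ⟨h, hLM h.2⟩ + ⟨h0, hLM hh0⟩)
      have a2 := hg (y + ⟨h, hLM h.2⟩)
      simp only [map_add, AddSubgroup.coe_add] at a1 a2
      rw [q.φ_add, q.β_add, hL h0 hh0, q.le_orth L hL h.2 h0 hh0, a2, add_assoc] at a1
      refine a1.symm.trans ?_
      change _ = _ * g (π y + π ⟨h, hLM h.2⟩)
      ring
    rw [Finset.sum_congr rfl fun b _ => e2 b, ← Finset.mul_sum] at e1
    have : (q.β y h0 - 1) * ∑ b : l.range, g (π y + b) = 0 := by rw [sub_mul, e1, one_mul, sub_self]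
    exact (mul_eq_zero.1 this).resolve_left (sub_ne_zero.2 hζ)
  have outer : ∑ a ∈ Finset.univ.filter (fun a => a ∉ j.range), g a = 0 := by
    have e1 : ∀ b : l.range, ∑ a ∈ Finset.univ.filter (fun a => a ∉ j.range), g (a + b) =
        ∑ a ∈ Finset.univ.filter (fun a => a ∉ j.range), g a := fun b => by
      refine Finset.sum_equiv (Equiv.addRight (b : A)) (fun a => ?_) fun a _ => rfl
      simp only [Finset.mem_filter, Finset.mem_univ, true_and, Equiv.coe_addRight]
      rw [j.range.add_mem_cancel_right (hlj b)]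
    have e2 : ∑ b : l.range, ∑ a ∈ Finset.univ.filter (fun a => a ∉ j.range), g (a + b) = 0 := by
      rw [Finset.sum_comm]
      exact Finset.sum_eq_zero fun a ha => inner a (Finset.mem_filter.1 ha).2
    rw [Finset.sum_congr rfl fun b _ => e1 b, Finset.sum_const, Finset.card_univ, nsmul_eq_mul] at e2
    exact (mul_eq_zero.1 e2).resolve_left (by exact_mod_cast Fintype.card_ne_zero)
  have h1 : (0 : ℝ) < Fintype.card j.range := by exact_mod_cast Fintype.card_pos
  have h2 : (0 : ℝ) < Fintype.card A := by exact_mod_cast Fintype.card_pos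
  refine ⟨Fintype.card j.range / Fintype.card A, div_pos h1 h2, mean fun a : j.range => g a,
    HasAvg.mk' j.rangeRestrict j.rangeRestrict_surjective _ fun y => hg ⟨y, hM y.2⟩, ?_⟩
  have e3 : ∑ a, g a = ∑ a : j.range, g a := by
    rw [← Finset.sum_filter_add_sum_filter_not Finset.univ (fun a => a ∈ j.range), outer, add_zero]
    exact Finset.sum_subtype _ (by simp) _
  have h1' : (Fintype.card j.range : ℂ) ≠ 0 := by exact_mod_cast h1.ne'
  rw [mean, mean, e3]
  push_cast
  field_simp

/-- The averages over two large subgroups differ by a positive factor. -/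
theorem two_large {M M' : AddSubgroup V} (hM : q.Large M) (h : M ≤ M') {c c' : ℂ}
    (hc : HasAvg (fun y : M => q.φ y) c) (hc' : HasAvg (fun y : M' => q.φ y) c') :
    ∃ r : ℝ, 0 < r ∧ c = r * c' := by
  obtain ⟨L, hL, hD⟩ := hM
  obtain ⟨r, hr, d, hd, rfl⟩ := q.red L hL M hD hc
  obtain ⟨r', hr', d', hd', rfl⟩ := q.red L hL M' (fun y hy => h (hD y hy)) hc'
  rw [hd.unique hd']
  refine ⟨r / r', div_pos hr hr', ?_⟩
  have : (r' : ℂ) ≠ 0 := by exact_mod_cast hr'.ne'
  push_cast
  field_simp

end QCh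

end Crest.Agent.T27.G58
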