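import Crest.Agent.T27.GsO_58

/-!
# Row 27: the normalised quadratic Gauss sum over `R = O_F[1/N]` is a class function

`SAr R Λ N ψ` collects the properties of `R = O[1/N]`, `Λ = O_S` and `ψ = ψ^S` that are used.
`gq ψ n = (#R/n)^{-1/2} ∑_{x mod n} ψ(x²/n)`; `norm_gq`, `gq_class`.
-/

set_option autoImplicit false
set_option linter.unusedSectionVars false

noncomputable section

namespace Crest.Agent.T27.G58

open NumberField
open scoped ComplexConjugate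

variable {F : Type} [Field F] [NumberField F]

/-- The `S`-arithmetic setting. -/
structure SAr (R Λ : Subring F) (N : ℕ) (ψ : F → ℂ) : Prop where
  intR : ∀ y, IsIntegral ℤ y → y ∈ R
  intL : ∀ y, IsIntegral ℤ y → y ∈ Λ
  inter : ∀ y, y ∈ R → y ∈ Λ → IsIntegral ℤ y
  split : ∀ y, ∃ l ∈ Λ, y - l ∈ R
  pow : ∀ y, ∃ k : ℕ, (N : F) ^ k * y ∈ Λ
  invN : (N : F)⁻¹ ∈ R
  ne : N ≠ 0
  dvd : 2 * discr F ∣ (N : ℤ)
  pid : IsPrincipalIdealRing Λ
  psi : ∀ l ∈ Λ, ∀ r ∈ R, ψ (l + r) = eT l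

/-- The normalised quadratic Gauss sum. -/
def gq (ψ : F → ℂ) {R : Subring F} (n : R) : ℂ :=
  (∑ᶠ x : R ⧸ Ideal.span {n}, ψ (((x.out : R) : F) ^ 2 / n)) /
    (Real.sqrt (Nat.card (R ⧸ Ideal.span {n})) : ℂ)

/-- The complementary character. -/
def co (ψ : F → ℂ) (y : F) : ℂ := eT y * ψ (-y)

namespace SAr

variable {R Λ : Subring F} {N : ℕ} {ψ : F → ℂ} (h : SAr R Λ N ψ)

include h

theorem castne : (N : F) ≠ 0 := by exact_mod_cast h.ne

theorem psi' {y l : F} (hl : l ∈ Λ) (hr : y - l ∈ R) : ψ y = eT l := by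
  rw [← h.psi l hl _ hr, add_sub_cancel]

theorem psi_add (x y : F) : ψ (x + y) = ψ x * ψ y := by
  obtain ⟨l, hl, hr⟩ := h.split x
  obtain ⟨l', hl', hr'⟩ := h.split y
  rw [h.psi' hl hr, h.psi' hl' hr', ← eT_add]
  exact h.psi' (add_mem hl hl') (by convert add_mem hr hr' using 1; ring)

theorem psi_R {r : F} (hr : r ∈ R) : ψ r = 1 := by
  rw [h.psi' (zero_mem _) (by simpa using hr), eT_zero]

theorem psi_zero : ψ 0 = 1 := h.psi_R (zero_mem _)

theorem psi_L {l : F} (hl : l ∈ Λ) : ψ l = eT l := h.psi' hl (by simp)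

theorem norm_psi (y : F) : ‖ψ y‖ = 1 := by
  obtain ⟨l, hl, hr⟩ := h.split y
  rw [h.psi' hl hr, norm_eT]

theorem psi_congr {x y : F} (hr : x - y ∈ R) : ψ x = ψ y := by
  rw [show x = y + (x - y) by ring, h.psi_add, h.psi_R hr, mul_one]

theorem co_add (x y : F) : co ψ (x + y) = co ψ x * co ψ y := by
  rw [co, co, co, neg_add, h.psi_add, eT_add]
  ring

theorem co_L {l : F} (hl : l ∈ Λ) : co ψ l = 1 := by
  rw [co, h.psi_L (neg_mem hl), ← eT_add, add_neg_cancel, eT_zero]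

theorem co_zero : co ψ 0 = 1 := h.co_L (zero_mem _)

theorem co_R {r : F} (hr : r ∈ R) : co ψ r = eT r := by
  rw [co, h.psi_R (neg_mem hr), mul_one]

theorem co_congr {x y : F} (hl : x - y ∈ Λ) : co ψ x = co ψ y := by
  rw [show x = y + (x - y) by ring, h.co_add, h.co_L hl, mul_one]

theorem psi_mul_co (y : F) : ψ y * co ψ y = eT y := by
  rw [co, mul_left_comm, ← h.psi_add, add_neg_cancel, h.psi_zero, mul_one]

theorem nd_psi {y : F} (hy : ∀ z, IsIntegral ℤ z → ψ (2 * y * z) = 1) : y ∈ R := by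
  obtain ⟨l, hl, hr⟩ := h.split y
  have h1 := nd_eT h.dvd (y := l) fun z hz => by
    rw [← hy z hz, eq_comm]
    refine h.psi' (mul_mem (mul_mem (ofNat_mem _ 2) hl) (h.intL z hz)) ?_
    convert mul_mem (mul_mem (ofNat_mem _ 2) hr) (h.intR z hz) using 1
    ring
  have h2 : l ∈ R := by
    have := mul_mem h.invN (h.intR _ h1)
    rwa [inv_mul_cancel_left₀ h.castne] at this
  simpa using add_mem hr h2

theorem nd_co {y : F} (hy : ∀ z, IsIntegral ℤ z → co ψ (2 * y * z) = 1) : (N : F) * y ∈ Λ := by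
  obtain ⟨l, hl, hr⟩ := h.split y
  have h1 := nd_eT h.dvd (y := y - l) fun z hz => by
    rw [← hy z hz, ← h.co_R (mul_mem (mul_mem (ofNat_mem _ 2) hr) (h.intR z hz))]
    refine h.co_congr ?_
    convert neg_mem (mul_mem (mul_mem (ofNat_mem _ 2) hl) (h.intL z hz)) using 1
    ring
  convert add_mem (h.intL _ h1) (mul_mem (natCast_mem Λ N) hl) using 1
  ring

theorem pow_le {y : F} {k j : ℕ} (hy : (N : F) ^ k * y ∈ Λ) (hkj : k ≤ j) : (N : F) ^ j * y ∈ Λ := by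
  obtain ⟨i, rfl⟩ := Nat.exists_eq_add_of_le' hkj
  rw [pow_add, mul_assoc]
  exact mul_mem (pow_mem (natCast_mem Λ N) i) hy

/-- `F = n R + m Λ`. -/
theorem split2 {n m : F} (hn : n ≠ 0) (hm : m ≠ 0) (x : F) :
    ∃ r ∈ R, ∃ l ∈ Λ, x = n * r + m * l := by
  obtain ⟨k, hk⟩ := h.pow (n / m)
  obtain ⟨l, hl, hr⟩ := h.split (x / (n * N ^ k))
  refine ⟨_, mul_mem (pow_mem (natCast_mem R N) k) hr, _, mul_mem hk hl, ?_⟩
  have := h.castne
  field_simp
  ring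

/-- The map `u ↦ u / N^j` from `O` to `R`. -/
def toR (j : ℕ) : 𝓞 F →+ R where
  toFun u := ⟨(N : F)⁻¹ ^ j * u, mul_mem (pow_mem h.invN j) (h.intR _ u.isIntegral_coe)⟩
  map_zero' := Subtype.ext (by simp)
  map_add' u v := Subtype.ext (by simp [mul_add])

/-- The inclusion of `O` in `Λ`. -/
def toL : 𝓞 F →+ Λ where
  toFun u := ⟨u, h.intL _ u.isIntegral_coe⟩
  map_zero' := Subtype.ext (by simp)
  map_add' u v := Subtype.ext (by simp)

/-- The reduction `O → R / n`. -/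
def pA (n : R) (j : ℕ) : 𝓞 F →+ R ⧸ Ideal.span {n} :=
  (Ideal.Quotient.mk (Ideal.span {n})).toAddMonoidHom.comp (h.toR j)

/-- The reduction `O → Λ / m`. -/
def pB (m : Λ) : 𝓞 F →+ Λ ⧸ Ideal.span {m} :=
  (Ideal.Quotient.mk (Ideal.span {m})).toAddMonoidHom.comp h.toL

omit h in
theorem mk_eq {S : Subring F} {n x y : S} (r : F) (hr : r ∈ S) (e : (x : F) = y + n * r) :
    Ideal.Quotient.mk (Ideal.span {n}) x = Ideal.Quotient.mk (Ideal.span {n}) y := by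
  rw [Ideal.Quotient.eq, Ideal.mem_span_singleton]
  exact ⟨⟨r, hr⟩, Subtype.ext (by simp [e])⟩

omit h in
theorem out_eq {S : Subring F} (n x : S) :
    ∃ r ∈ S, (((Ideal.Quotient.mk (Ideal.span {n}) x).out : S) : F) = x + n * r := by
  obtain ⟨r, hr⟩ := Ideal.mem_span_singleton.1
    (Ideal.Quotient.eq.1 (Ideal.Quotient.mk_out (Ideal.Quotient.mk (Ideal.span {n}) x)))
  refine ⟨r, r.2, ?_⟩
  have := congrArg (fun z : S => (z : F)) hr
  simp only [AddSubgroupClass.coe_sub, Subring.coe_mul] at this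
  linear_combination this

theorem pA_surj {n : R} (hn : n ≠ 0) (j : ℕ) : Function.Surjective (h.pA n j) := by
  intro a
  obtain ⟨x, rfl⟩ := Ideal.Quotient.mk_surjective a
  have hn' : (n : F) ≠ 0 := by simpa using hn
  obtain ⟨r, hr, l, hl, e⟩ := h.split2 hn' one_ne_zero ((N : F) ^ j * x)
  have hu : IsIntegral ℤ l := h.inter _ (by
    rw [show l = (N : F) ^ j * x - n * r by rw [e]; ring]
    exact sub_mem (mul_mem (pow_mem (natCast_mem R N) j) x.2) (mul_mem n.2 hr)) hl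
  refine ⟨⟨l, hu⟩, (mk_eq ((N : F)⁻¹ ^ j * r) (mul_mem (pow_mem h.invN j) hr) ?_).symm⟩
  change (x : F) = (N : F)⁻¹ ^ j * l + _
  have := h.castne
  rw [inv_pow]
  field_simp
  linear_combination e

theorem pB_surj {m : Λ} (hm : m ≠ 0) : Function.Surjective (h.pB m) := by
  intro a
  obtain ⟨x, rfl⟩ := Ideal.Quotient.mk_surjective a
  have hm' : (m : F) ≠ 0 := by simpa using hm
  obtain ⟨r, hr, l, hl, e⟩ := h.split2 one_ne_zero hm' (x : F)
  have hu : IsIntegral ℤ r := h.inter _ hr (by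
    rw [show r = x - m * l by rw [e]; ring]
    exact sub_mem x.2 (mul_mem m.2 hl))
  refine ⟨⟨r, hu⟩, (mk_eq l hl ?_).symm⟩
  change (x : F) = r + _
  rw [e, one_mul]

theorem crt {n : R} (hn : n ≠ 0) (j : ℕ) {m : Λ} (hm : m ≠ 0) (x : 𝓞 F) :
    ∃ k, h.pA n j k = 0 ∧ h.pB m k = h.pB m x := by
  have hm' : (m : F) ≠ 0 := by simpa using hm
  have hn' : (n : F) ≠ 0 := by simpa using hn
  obtain ⟨r, hr, l, hl, e⟩ := h.split2 hn' hm' (x : F)
  have hu : IsIntegral ℤ ((n : F) * r) := h.inter _ (mul_mem n.2 hr) (by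
    rw [show (n : F) * r = x - m * l by rw [e]; ring]
    exact sub_mem (h.intL _ x.isIntegral_coe) (mul_mem m.2 hl))
  refine ⟨⟨_, hu⟩, ?_, (mk_eq l hl e).symm⟩
  rw [← map_zero (Ideal.Quotient.mk (Ideal.span {n}))]
  refine mk_eq ((N : F)⁻¹ ^ j * r) (mul_mem (pow_mem h.invN j) hr) ?_
  change (N : F)⁻¹ ^ j * (n * r) = _
  simp only [ZeroMemClass.coe_zero]
  ring

theorem finite_R {n : R} (hn : n ≠ 0) : Finite (R ⧸ Ideal.span {n}) := by
  have hn' : (n : F) ≠ 0 := by simpa using hn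
  obtain ⟨k, hk⟩ := h.pow (n : F)
  have hu := h.inter _ (mul_mem (pow_mem (natCast_mem R N) k) n.2) hk
  refine finite_of_surj _ (h.pA_surj hn 0) (m := ⟨_, hu⟩) (fun e => ?_) fun u => ?_
  · exact mul_ne_zero (pow_ne_zero k h.castne) hn' (congrArg (fun z : 𝓞 F => (z : F)) e)
  · rw [← map_zero (Ideal.Quotient.mk (Ideal.span {n}))]
    refine mk_eq ((N : F) ^ k * u)
      (mul_mem (pow_mem (natCast_mem R N) k) (h.intR _ u.isIntegral_coe)) ?_
    change (N : F)⁻¹ ^ 0 * ((N : F) ^ k * n * u) = _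
    simp only [ZeroMemClass.coe_zero]
    ring

theorem finite_L (J : ℕ) : Finite (Λ ⧸ Ideal.span {(N : Λ) ^ J}) := by
  have hN : (N : Λ) ^ J ≠ 0 := pow_ne_zero _ (by exact_mod_cast h.ne)
  refine finite_of_surj _ (h.pB_surj hN) (m := (N : 𝓞 F) ^ J)
    (pow_ne_zero _ (by exact_mod_cast h.ne)) fun u => ?_
  rw [← map_zero (Ideal.Quotient.mk (Ideal.span {(N : Λ) ^ J}))]
  refine mk_eq u (h.intL _ u.isIntegral_coe) ?_
  change (((N : 𝓞 F) ^ J * u : 𝓞 F) : F) = _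
  simp

/-- The quadratic character on `Λ / N^J`. -/
def gB (ψ : F → ℂ) (c : F) (m : Λ) (b : Λ ⧸ Ideal.span {m}) : ℂ := co ψ (c * ((b.out : Λ) : F) ^ 2)

theorem gB_mk {c : F} {m : Λ} (hc : m * c ∈ Λ) (x : Λ) :
    gB ψ c m (Ideal.Quotient.mk _ x) = co ψ (c * (x : F) ^ 2) := by
  obtain ⟨r, hr, e⟩ := out_eq m x
  rw [gB, e]
  refine h.co_congr ?_
  convert mul_mem hc (add_mem (mul_mem (mul_mem (ofNat_mem Λ 2) x.2) hr)
    (mul_mem m.2 (pow_mem hr 2))) using 1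
  ring

theorem avgL {c : F} {J : ℕ} (hc : (N : F) ^ J * c ∈ Λ)
    [Fintype (Λ ⧸ Ideal.span {(N : Λ) ^ J})] :
    HasAvg (fun u : Λ => co ψ (c * (u : F) ^ 2)) (mean (gB ψ c ((N : Λ) ^ J))) :=
  HasAvg.mk' (Ideal.Quotient.mk (Ideal.span {(N : Λ) ^ J})).toAddMonoidHom
    Ideal.Quotient.mk_surjective (gB ψ c ((N : Λ) ^ J)) fun x =>
    (h.gB_mk (m := (N : Λ) ^ J) (by simpa using hc) x).symm

theorem exists_avgL (c : F) : ∃ d, HasAvg (fun u : Λ => co ψ (c * (u : F) ^ 2)) d := by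
  obtain ⟨J, hJ⟩ := h.pow c
  have := h.finite_L J
  have := Fintype.ofFinite (Λ ⧸ Ideal.span {(N : Λ) ^ J})
  exact ⟨_, h.avgL hJ⟩

/-- The additive character on `R / n`. -/
def gA (ψ : F → ℂ) (n : R) (a : R ⧸ Ideal.span {n}) : ℂ := ψ (((a.out : R) : F) / n)

theorem gA_mk {n : R} (hn : n ≠ 0) (x : R) : gA ψ n (Ideal.Quotient.mk _ x) = ψ ((x : F) / n) := by
  have hn' : (n : F) ≠ 0 := by simpa using hn
  obtain ⟨r, hr, e⟩ := out_eq n x
  rw [gA, e]
  refine h.psi_congr ?_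
  convert hr using 1
  field_simp
  ring

theorem gA_sq {n : R} (hn : n ≠ 0) (a : R ⧸ Ideal.span {n}) :
    gA ψ n (1 * a ^ 2) = ψ (((a.out : R) : F) ^ 2 / n) := by
  conv_lhs => rw [← Ideal.Quotient.mk_out a, one_mul, ← map_pow, h.gA_mk hn]
  simp

theorem gq_eq {n : R} (hn : n ≠ 0) [Fintype (R ⧸ Ideal.span {n})] :
    gq ψ n = (∑ a, gA ψ n (1 * a ^ 2)) / (Real.sqrt (Fintype.card (R ⧸ Ideal.span {n})) : ℂ) := by
  rw [gq, finsum_eq_sum_of_fintype, Nat.card_eq_fintype_card]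
  simp only [h.gA_sq hn]

theorem norm_gq {n : R} (hn : n ≠ 0) : ‖gq ψ n‖ = 1 := by
  have := h.finite_R hn
  have := Fintype.ofFinite (R ⧸ Ideal.span {n})
  have hn' : (n : F) ≠ 0 := by simpa using hn
  have h0 : gA ψ n 0 = 1 := by
    rw [← map_zero (Ideal.Quotient.mk (Ideal.span {n})), h.gA_mk hn]
    simpa using h.psi_zero
  have hadd : ∀ x y, gA ψ n (x + y) = gA ψ n x * gA ψ n y := fun x y => by
    obtain ⟨x, rfl⟩ := Ideal.Quotient.mk_surjective x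
    obtain ⟨y, rfl⟩ := Ideal.Quotient.mk_surjective y
    rw [← map_add, h.gA_mk hn, h.gA_mk hn, h.gA_mk hn, ← h.psi_add, ← add_div]
    rfl
  have key := (qc (gA ψ n) h0 hadd 1).norm_sum (fun x => h.norm_psi _) fun a ha => by
    obtain ⟨a, rfl⟩ := Ideal.Quotient.mk_surjective a
    by_contra hcon
    push Not at hcon
    refine ha ?_
    have h1 := h.nd_psi (y := (a : F) / n) fun z hz => by
      have := hcon (Ideal.Quotient.mk _ ⟨z, h.intR z hz⟩)
      change gA ψ n (2 * 1 * _ * _) = 1 at this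
      rw [mul_one, ← map_ofNat (Ideal.Quotient.mk (Ideal.span {n})) 2, ← map_mul, ← map_mul,
        h.gA_mk hn] at this
      rw [← this]
      congr 1
      change _ = (2 * z * a : F) / n
      ring
    rw [← map_zero (Ideal.Quotient.mk (Ideal.span {n}))]
    refine mk_eq _ h1 ?_
    simp only [ZeroMemClass.coe_zero]
    field_simp
    ring
  have hpos : (0 : ℝ) < Real.sqrt (Fintype.card (R ⧸ Ideal.span {n})) :=
    Real.sqrt_pos.2 (by exact_mod_cast Fintype.card_pos)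
  rw [h.gq_eq hn, norm_div, Complex.norm_real, Real.norm_of_nonneg hpos.le, div_eq_one_iff_eq hpos.ne']
  exact key

theorem key {w : F} (hw : w ^ 2 + w + 1 = 0) {n : R} (hn : n ≠ 0) {n0 t : F} (hn0 : n0 ∈ Λ)
    (e : (n : F) = n0 * t ^ 2) {d : ℂ}
    (hd : HasAvg (fun u : Λ => co ψ ((n0 * N ^ 2)⁻¹ * (u : F) ^ 2)) d) :
    ∃ r : ℝ, 0 < r ∧ gq ψ n * d = r := by
  have := h.finite_R hn
  have := Fintype.ofFinite (R ⧸ Ideal.span {n})
  have hn' : (n : F) ≠ 0 := by simpa using hn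
  have hN := h.castne
  have h00 : n0 ≠ 0 := left_ne_zero_of_mul (e ▸ hn')
  have ht : t ≠ 0 := fun h0 => hn' (by rw [e, h0]; ring)
  obtain ⟨k1, hk1⟩ := h.pow (n : F)
  obtain ⟨k2, hk2⟩ := h.pow t
  set j := k1 + k2 with hj
  set m : F := (N : F) ^ (2 * j) * n with hm
  have hm0 : m ≠ 0 := mul_ne_zero (pow_ne_zero _ hN) hn'
  have hmi : IsIntegral ℤ m :=
    h.inter _ (mul_mem (pow_mem (natCast_mem R N) _) n.2) (h.pow_le hk1 (by omega))
  set c : F := (m * N ^ 2)⁻¹ with hc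
  obtain ⟨J, hJ⟩ := h.pow c
  have := h.finite_L J
  have := Fintype.ofFinite (Λ ⧸ Ideal.span {(N : Λ) ^ J})
  have hNJ : (N : Λ) ^ J ≠ 0 := pow_ne_zero _ (by exact_mod_cast h.ne)
  have h1 := hasAvg_mul _ (h.pA_surj hn (j + 1)) _ (h.pB_surj hNJ) (h.crt hn (j + 1) hNJ)
    (fun a => gA ψ n (1 * a ^ 2)) (gB ψ c ((N : Λ) ^ J))
  obtain ⟨r, hr, e1⟩ := mil_O hw h.ne h.dvd hmi hm0 (h1.congr fun u => by
    rw [← hc, ← h.psi_mul_co]
    congr 1
    · change _ = gA ψ n (1 * Ideal.Quotient.mk _ (h.toR (j + 1) u) ^ 2)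
      rw [one_mul, ← map_pow (Ideal.Quotient.mk (Ideal.span {n})), h.gA_mk hn]
      congr 1
      change _ = ((N : F)⁻¹ ^ (j + 1) * u) ^ 2 / n
      rw [hc, hm, inv_pow]
      field_simp
      ring
    · exact (h.gB_mk (by simpa using hJ) (h.toL u)).symm)
  set τ : F := ((N : F) ^ j * t)⁻¹ with hτ
  have hτ0 : τ ≠ 0 := inv_ne_zero (mul_ne_zero (pow_ne_zero _ hN) ht)
  let q := qc (co ψ) h.co_zero h.co_add (n0 * N ^ 2)⁻¹
  let p0 : Λ →+ F := Λ.subtype.toAddMonoidHom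
  let p1 : Λ →+ F := (AddMonoidHom.mulLeft τ).comp p0
  have hL : q.Large p0.range := by
    refine ⟨((AddMonoidHom.mulLeft (n0 * N)).comp p0).range, ?_, fun y hy => ?_⟩
    · rintro _ ⟨u, rfl⟩
      change co ψ ((n0 * N ^ 2)⁻¹ * (n0 * N * u) ^ 2) = 1
      refine h.co_L ?_
      rw [show (n0 * N ^ 2)⁻¹ * (n0 * N * u) ^ 2 = n0 * u ^ 2 by field_simp]
      exact mul_mem hn0 (pow_mem u.2 2)
    · have := h.nd_co (y := y / N) fun z hz => by
        have h2 := hy _ ⟨⟨z, h.intL z hz⟩, rfl⟩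
        change co ψ (2 * (n0 * N ^ 2)⁻¹ * y * (n0 * N * z)) = 1 at h2
        rw [← h2]
        congr 1
        field_simp
      rw [mul_div_cancel₀ _ hN] at this
      exact ⟨⟨y, this⟩, rfl⟩
  have hle : p0.range ≤ p1.range := by
    rintro _ ⟨u, rfl⟩
    refine ⟨⟨(N : F) ^ j * t * u, mul_mem (h.pow_le hk2 (by omega)) u.2⟩, ?_⟩
    change τ * ((N : F) ^ j * t * u) = u
    rw [hτ]
    field_simp
  obtain ⟨s, hs, e2⟩ := q.two_large hL hle
    (HasAvg.range p0 Subtype.val_injective (φ := q.φ) hd)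
    (HasAvg.range p1 ((mul_right_injective₀ hτ0).comp Subtype.val_injective) (φ := q.φ)
      ((h.avgL hJ).congr fun u => by
        change co ψ ((n0 * N ^ 2)⁻¹ * (τ * u) ^ 2) = _
        congr 1
        rw [hc, hm, hτ, e]
        field_simp
        ring))
  have hpos : (0 : ℝ) < Fintype.card (R ⧸ Ideal.span {n}) := by exact_mod_cast Fintype.card_pos
  have hs0 := Real.sqrt_pos.2 hpos
  refine ⟨s * r * (Fintype.card (R ⧸ Ideal.span {n}) /
    Real.sqrt (Fintype.card (R ⧸ Ideal.span {n}))), by positivity, ?_⟩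
  have h3 : (Fintype.card (R ⧸ Ideal.span {n}) : ℂ) ≠ 0 := by exact_mod_cast hpos.ne'
  have h4 : ((Real.sqrt (Fintype.card (R ⧸ Ideal.span {n})) : ℝ) : ℂ) ≠ 0 := by
    exact_mod_cast hs0.ne'
  rw [h.gq_eq hn, e2]
  push_cast
  rw [← e1, show (mean fun a => gA ψ n (1 * a ^ 2)) =
    (∑ a, gA ψ n (1 * a ^ 2)) / (Fintype.card (R ⧸ Ideal.span {n}) : ℂ) from rfl]
  field_simp

theorem exists_decomp {n : F} (hn : n ≠ 0) :
    ∃ n0 t : F, n0 ∈ Λ ∧ N * n0⁻¹ ∈ Λ ∧ n = n0 * t ^ 2 := by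
  have := h.pid
  have hN := h.castne
  obtain ⟨k, hk⟩ := h.pow n
  have h1 : (N : F) ^ (2 * k) * n ∈ Λ := h.pow_le hk (by omega)
  have h2 : (⟨_, h1⟩ : Λ) ≠ 0 := fun e =>
    mul_ne_zero (pow_ne_zero _ hN) hn (congrArg Subtype.val e)
  obtain ⟨b, d, e, hd⟩ := exists_sq_mul _ h2
  have hd0 : (d : F) ≠ 0 := by simpa using hd.ne_zero
  obtain ⟨i, hi⟩ := h.pow (d : F)⁻¹
  have h3 : d ∣ (N : Λ) ^ (i + 1) :=
    ⟨⟨_, h.pow_le hi (Nat.le_succ i)⟩, Subtype.ext (by simp; field_simp)⟩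
  obtain ⟨a, ha⟩ := (hd.dvd_pow_iff_dvd (Nat.succ_ne_zero i)).1 h3
  refine ⟨d, b / N ^ k, d.2, ?_, ?_⟩
  · have : (N : F) = d * a := by simpa using congrArg Subtype.val ha
    rw [show N * (d : F)⁻¹ = a by rw [this]; field_simp]
    exact a.2
  · have : (N : F) ^ (2 * k) * n = b ^ 2 * d := by simpa using congrArg Subtype.val e
    field_simp
    linear_combination this

theorem inv_mem {l : F} (hl : l ∈ Λ) (hk : 1 + N * l ≠ 0) : (1 + N * l)⁻¹ ∈ Λ := by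
  obtain ⟨i, hi⟩ := h.pow (1 + N * l)⁻¹
  have hkL : 1 + N * l ∈ Λ := add_mem (one_mem _) (mul_mem (natCast_mem Λ N) hl)
  have h1 : IsCoprime (⟨_, hkL⟩ : Λ) ((N : Λ) ^ i) :=
    IsCoprime.pow_right ⟨1, -⟨l, hl⟩, Subtype.ext (by simp; ring)⟩
  obtain ⟨a, b, hab⟩ := h1
  have h2 : (a : F) * (1 + N * l) + b * N ^ i = 1 := by simpa using congrArg Subtype.val hab
  convert add_mem a.2 (mul_mem b.2 hi) using 1
  field_simp
  linear_combination -h2

/-- The normalised quadratic Gauss sum is a class function. -/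
theorem gq_class {w : F} (hw : w ^ 2 + w + 1 = 0) {n n' : R} (hn' : n' ≠ 0) {s l : F}
    (hl : l ∈ Λ) (e : (n' : F) = n * (1 + N ^ 3 * l) * s ^ 2) : gq ψ n' = gq ψ n := by
  have hn'F : (n' : F) ≠ 0 := by simpa using hn'
  have hnF : (n : F) ≠ 0 := fun h0 => hn'F (by rw [e, h0]; ring)
  have hn : n ≠ 0 := by simpa using hnF
  have hk : (1 + N ^ 3 * l : F) ≠ 0 := fun h0 => hn'F (by rw [e, h0]; ring)
  have hN := h.castne
  obtain ⟨n0, t, h1, h2, e1⟩ := h.exists_decomp hnF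
  have h00 : n0 ≠ 0 := left_ne_zero_of_mul (e1 ▸ hnF)
  obtain ⟨d, hd⟩ := h.exists_avgL (n0 * N ^ 2)⁻¹
  have hl2 : (N : F) ^ 2 * l ∈ Λ := mul_mem (pow_mem (natCast_mem Λ N) 2) hl
  have e3 : (1 + N ^ 3 * l : F) = 1 + N * (N ^ 2 * l) := by ring
  have hki : (1 + N ^ 3 * l : F)⁻¹ ∈ Λ := by
    rw [e3]
    exact h.inv_mem hl2 (e3 ▸ hk)
  have hkL : (1 + N ^ 3 * l : F) ∈ Λ :=
    add_mem (one_mem _) (mul_mem (pow_mem (natCast_mem Λ N) 3) hl)
  obtain ⟨r, hr, a1⟩ := h.key hw hn h1 e1 hd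
  obtain ⟨r', hr', a2⟩ := h.key hw hn' (n0 := n0 * (1 + N ^ 3 * l)) (t := t * s) (mul_mem h1 hkL)
    (by rw [e, e1]; ring) (hd.congr fun u => h.co_congr (by
      convert neg_mem (mul_mem (mul_mem (mul_mem h2 hki) hl) (pow_mem u.2 2)) using 1
      field_simp
      ring))
  have b1 := congrArg norm a1
  have b2 := congrArg norm a2
  rw [norm_mul, h.norm_gq (by assumption), one_mul, Complex.norm_real,
    Real.norm_of_nonneg (by positivity)] at b1 b2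
  have hd0 : d ≠ 0 := by
    rw [← norm_ne_zero_iff, b1]
    exact hr.ne'
  refine mul_right_cancel₀ hd0 ?_
  rw [a1, a2, ← b1, ← b2]

end SAr

end Crest.Agent.T27.G58
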