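import Crest.Agent.PVc.R17.Basic

/-!
# Row 27: the cubic Jacobi sum of a finite field over `ℤ[ω]`

If `φ : ℤ[ω] → K` is a ring homomorphism to a finite field with kernel generated by the primary
prime `π` and `#K = (N π)^f`, then the Jacobi sum of the cubic residue character is `-π^f`.
-/

set_option autoImplicit false

noncomputable section

namespace Crest.Agent.T27

open R17 Finset
open scoped ComplexConjugate

theorem omC_prim_79 : IsPrimitiveRoot omC 3 := by
  have h : omC ^ 2 + omC + 1 = 0 := by linear_combination omC_mul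
  refine (IsPrimitiveRoot.iff three_pos).2 ⟨by linear_combination (omC - 1) * h, fun l h0 h3 e => ?_⟩
  interval_cases l
  · rw [pow_one] at e
    norm_num [e] at h
  · have : omC = -2 := by linear_combination h - e
    norm_num [this] at h

theorem conj_omC_79 : conj omC = omC ^ 2 := by
  rw [pow_two, omC_mul]
  apply Complex.ext
  · simp [omC]; norm_num
  · simp [omC]

/-- the ring homomorphism `ℤ[ω] → S` given by a root of `X² + X + 1` -/
def phiO {S : Type*} [CommRing S] (w : S) (hw : w ^ 2 + w + 1 = 0) : O →+* S where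
  toFun z := (z.re : S) + (z.im : S) * w
  map_one' := by simp [QuadraticAlgebra.re_one, QuadraticAlgebra.im_one]
  map_mul' z y := by
    simp only [QuadraticAlgebra.re_mul, QuadraticAlgebra.im_mul]
    push_cast
    linear_combination (-(z.im : S) * y.im) * hw
  map_zero' := by simp
  map_add' z y := by
    simp only [QuadraticAlgebra.re_add, QuadraticAlgebra.im_add]; push_cast; ring

theorem phiO_om {S : Type*} [CommRing S] (w : S) (hw : w ^ 2 + w + 1 = 0) : phiO w hw om = w := by
  simp [phiO, om]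

theorem hom_apply_79 {S : Type*} [CommRing S] (φ : O →+* S) (z : O) :
    φ z = (z.re : S) + (z.im : S) * φ om := by
  have : z = (z.re : O) + (z.im : O) * om := by
    ext <;> simp [om]
  conv_lhs => rw [this]
  simp

theorem hom_ext_79 {S : Type*} [CommRing S] {φ ψ : O →+* S} (h : φ om = ψ om) : φ = ψ :=
  RingHom.ext fun z => by rw [hom_apply_79 φ, hom_apply_79 ψ, h]

/-- `χ` is the cubic residue character of `K` attached to the cube root of unity `w` -/
def IsCub {K : Type*} [Field K] [Fintype K] (w : K) (χ : MulChar K ℂ) : Prop :=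
  ∀ a : K, a ≠ 0 → ∃ k : ℕ, a ^ ((Fintype.card K - 1) / 3) = w ^ k ∧ χ a = omC ^ k

theorem sum_pow_79 (K : Type*) [Field K] [Fintype K] {i : ℕ} (hi : i ≠ 0) :
    ∑ x : K, x ^ i = if Fintype.card K - 1 ∣ i then -1 else 0 := by
  classical
  let φ : Kˣ ↪ K := ⟨fun x ↦ x, Units.val_injective⟩
  have : univ.map φ = univ \ {0} := by
    ext x
    simpa only [mem_map, mem_univ, Function.Embedding.coeFn_mk, true_and, mem_sdiff,
      mem_singleton, φ] using! isUnit_iff_ne_zero
  calc
    ∑ x : K, x ^ i = ∑ x ∈ univ \ {(0 : K)}, x ^ i := by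
      rw [← sum_sdiff ({0} : Finset K).subset_univ, sum_singleton, zero_pow hi, add_zero]
    _ = ∑ x : Kˣ, (x ^ i : K) := by simp [φ, ← this, univ.sum_map φ]
    _ = _ := FiniteField.sum_pow_units K i

theorem sum_poly_79 (K : Type*) [Field K] [Fintype K] {m : ℕ} (hm : m ≠ 0)
    (h : Fintype.card K - 1 = 3 * m) :
    ∑ x : K, x ^ (2 * m) * (1 - x) ^ (2 * m) = (-1) ^ (m + 1) * ((2 * m).choose m : K) := by
  simp only [sub_pow, mul_sum]
  rw [sum_comm, sum_eq_single m]
  · have := sum_pow_79 K (i := 2 * m + (2 * m - m)) (by omega)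
    rw [h, if_pos ⟨1, by omega⟩] at this
    simp only [pow_add] at this
    calc _ = (-1) ^ (m + 2 * m) * ((2 * m).choose m : K) * ∑ x : K, x ^ (2 * m) * x ^ (2 * m - m) := by
          rw [mul_sum]
          exact sum_congr rfl fun x _ => by ring
      _ = _ := by rw [this, pow_add, pow_mul]; ring
  · intro i hi him
    have hi' := mem_range.1 hi
    have := sum_pow_79 K (i := 2 * m + (2 * m - i)) (by omega)
    rw [h, if_neg] at this
    · simp only [pow_add] at this
      calc _ = (-1) ^ (i + 2 * m) * ((2 * m).choose i : K) *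
              ∑ x : K, x ^ (2 * m) * x ^ (2 * m - i) := by
            rw [mul_sum]
            exact sum_congr rfl fun x _ => by ring
        _ = 0 := by rw [this, mul_zero]
    · rintro ⟨c, hc⟩
      rcases Nat.lt_trichotomy c 1 with h1 | h1 | h1
      · have : c = 0 := by omega
        subst this; omega
      · subst h1; omega
      · have : 3 * m * 2 ≤ 3 * m * c := Nat.mul_le_mul_left _ h1
        omega
  · intro h1
    exact absurd (mem_range.2 (by omega)) h1

theorem not_dvd_choose_79 {p t : ℕ} (hp : p.Prime) (ht : p = 3 * t + 1) :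
    ∀ (f m : ℕ), p ^ f = 3 * m + 1 → ¬ p ∣ (2 * m).choose m := by
  have := Fact.mk hp
  intro f
  induction f with
  | zero =>
    intro m hm
    rw [pow_zero] at hm
    have : m = 0 := by omega
    subst this
    simpa using hp.one_lt.ne'
  | succ f ih =>
    intro m hm
    obtain ⟨n, hn⟩ : ∃ n, p ^ f = 3 * n + 1 := by
      have h1 : p ^ f % 3 = 1 := by
        rw [Nat.pow_mod, show p % 3 = 1 by omega]; simp
      exact ⟨p ^ f / 3, by omega⟩
    have hmn : m = t + p * n := by
      rw [pow_succ, hn] at hm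
      have : (3 * n + 1) * p = 3 * (p * n) + p := by ring
      omega
    have h1 := Choose.choose_modEq_choose_mod_mul_choose_div_nat (p := p) (n := 2 * m) (k := m)
    have e1 : 2 * m = 2 * t + p * (2 * n) := by rw [hmn]; ring
    have e2 : (2 * m) % p = 2 * t := by
      rw [e1, Nat.add_mul_mod_self_left, Nat.mod_eq_of_lt (by omega)]
    have e3 : (2 * m) / p = 2 * n := by
      rw [e1, Nat.add_mul_div_left _ _ hp.pos, Nat.div_eq_of_lt (by omega), zero_add]
    have e4 : m % p = t := by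
      rw [hmn, Nat.add_mul_mod_self_left, Nat.mod_eq_of_lt (by omega)]
    have e5 : m / p = n := by
      rw [hmn, Nat.add_mul_div_left _ _ hp.pos, Nat.div_eq_of_lt (by omega), zero_add]
    rw [e2, e3, e4, e5] at h1
    intro hd
    have h2 : p ∣ (2 * t).choose t * (2 * n).choose n :=
      (Nat.modEq_zero_iff_dvd.1 (h1.symm.trans (Nat.modEq_zero_iff_dvd.2 hd)))
    rcases (Nat.Prime.dvd_mul hp).1 h2 with h3 | h3
    · have h4 : (2 * t).choose t ∣ (2 * t).factorial :=
        Dvd.intro _ (by rw [← mul_assoc]; exact Nat.choose_mul_factorial_mul_factorial (by omega))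
      have := (Nat.Prime.dvd_factorial hp).1 (h3.trans h4)
      omega
    · exact ih n hn h3

section
variable {K : Type*} [Field K] [Fintype K]

theorem card_mod_79 {w : K} (hw : w ^ 2 + w + 1 = 0) (h3 : (3 : K) ≠ 0) :
    ∃ m, m ≠ 0 ∧ Fintype.card K - 1 = 3 * m := by
  classical
  have hw1 : w ≠ 1 := by
    rintro rfl
    apply h3; linear_combination hw
  have hw3 : w ^ 3 = 1 := by linear_combination (w - 1) * hw
  have hw0 : w ≠ 0 := by rintro rfl; simp at hw3
  have := Fact.mk Nat.prime_three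
  have h1 : orderOf (Units.mk0 w hw0) = 3 :=
    orderOf_eq_prime (Units.ext (by simpa using hw3)) fun h => hw1 (congrArg Units.val h)
  have h2 := orderOf_dvd_card (x := Units.mk0 w hw0)
  rw [h1, Fintype.card_units] at h2
  obtain ⟨m, hm⟩ := h2
  have := Fintype.one_lt_card (α := K)
  exact ⟨m, by omega, hm⟩

theorem IsCub.orderOf {w : K} (hw : w ^ 2 + w + 1 = 0) (h3 : (3 : K) ≠ 0) {χ : MulChar K ℂ}
    (hχ : IsCub w χ) : orderOf χ = 3 := by
  classical
  obtain ⟨m, hm0, hm⟩ := card_mod_79 hw h3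
  have := Fact.mk Nat.prime_three
  refine orderOf_eq_prime ?_ fun h => ?_
  · refine MulChar.ext fun a => ?_
    obtain ⟨k, -, hk⟩ := hχ a a.ne_zero
    rw [MulChar.pow_apply_coe, hk, MulChar.one_apply_coe, ← pow_mul, mul_comm, pow_mul,
      omC_prim_79.pow_eq_one, one_pow]
  · obtain ⟨g, hg⟩ := IsCyclic.exists_generator (α := Kˣ)
    have ho : _root_.orderOf g = 3 * m := by
      rw [orderOf_eq_card_of_forall_mem_zpowers hg, Nat.card_eq_fintype_card, Fintype.card_units, hm]
    obtain ⟨k, hk1, hk2⟩ := hχ g g.ne_zero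
    rw [h, MulChar.one_apply_coe] at hk2
    obtain ⟨j, rfl⟩ := (omC_prim_79.pow_eq_one_iff_dvd k).1 hk2.symm
    have hw3 : w ^ 3 = 1 := by linear_combination (w - 1) * hw
    rw [hm, Nat.mul_div_cancel_left _ three_pos, pow_mul, hw3, one_pow] at hk1
    have h4 : g ^ m = 1 := Units.ext (by simpa using hk1)
    have := Nat.le_of_dvd (Nat.pos_of_ne_zero hm0) (orderOf_dvd_of_pow_eq_one h4)
    omega

/-- the cubic residue character exists -/
theorem exists_isCub {w : K} (hw : w ^ 2 + w + 1 = 0) (h3 : (3 : K) ≠ 0) :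
    ∃ χ : MulChar K ℂ, IsCub w χ := by
  classical
  obtain ⟨m, hm0, hm⟩ := card_mod_79 hw h3
  have hw1 : w ≠ 1 := by
    rintro rfl
    apply h3; linear_combination hw
  have hw3 : w ^ 3 = 1 := by linear_combination (w - 1) * hw
  have := Fact.mk Nat.prime_three
  have hp : IsPrimitiveRoot w 3 := by
    rw [← orderOf_eq_prime hw3 hw1]; exact IsPrimitiveRoot.orderOf w
  have hk : ∀ a : Kˣ, ∃ k : ℕ, (a : K) ^ m = w ^ k := fun a => by
    have h1 : ((a : K) ^ m) ^ 3 = 1 := by
      rw [← pow_mul, mul_comm, ← hm]; exact FiniteField.pow_card_sub_one_eq_one _ a.ne_zero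
    obtain ⟨k, -, hk⟩ := hp.eq_pow_of_pow_eq_one h1
    exact ⟨k, hk.symm⟩
  choose k hk using hk
  have hc : ∀ i j : ℕ, w ^ i = w ^ j → omC ^ i = omC ^ j := fun i j h => by
    have h1 : i % 3 = j % 3 := by
      apply hp.pow_inj (Nat.mod_lt _ three_pos) (Nat.mod_lt _ three_pos)
      rw [← pow_eq_pow_mod _ hw3, ← pow_eq_pow_mod _ hw3, h]
    rw [pow_eq_pow_mod i omC_prim_79.pow_eq_one, pow_eq_pow_mod j omC_prim_79.pow_eq_one, h1]
  have h0 : omC ≠ 0 := omC_prim_79.ne_zero three_ne_zero
  let g : Kˣ →* ℂˣ :=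
    { toFun := fun a => Units.mk0 omC h0 ^ k a
      map_one' := Units.ext (by
        simpa using hc (k 1) 0 (by rw [← hk 1]; simp))
      map_mul' := fun a b => Units.ext (by
        simpa [pow_add] using hc (k (a * b)) (k a + k b) (by
          rw [← hk, pow_add, ← hk, ← hk, Units.val_mul, mul_pow])) }
  refine ⟨MulChar.ofUnitHom g, fun a ha => ⟨k (Units.mk0 a ha), ?_, ?_⟩⟩
  · rw [hm, Nat.mul_div_cancel_left _ three_pos]; exact hk (Units.mk0 a ha)
  · have := MulChar.ofUnitHom_coe g (Units.mk0 a ha)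
    simpa [g] using this

/-- the cubic Jacobi sum -/
theorem jacobi_79 (φ : O →+* K) {π : O} (hπ : Prime π) (hp : Primary π) (hφ : φ π = 0) {f : ℕ}
    (hf : Fintype.card K = nm π ^ f) {χ : MulChar K ℂ} (hχ : IsCub (φ om) χ) :
    jacobiSum χ χ = -ι π ^ f := by
  classical
  have hker : ∀ z, φ z = 0 → π ∣ z := fun z hz => by
    by_contra h
    obtain ⟨u, v, huv⟩ := hπ.irreducible.coprime_iff_not_dvd.2 h
    have := congrArg φ huv
    simp [hφ, hz] at this
  have hw : φ om ^ 2 + φ om + 1 = 0 := by simpa using congrArg φ om_sq_add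
  have h3 : (3 : K) ≠ 0 := fun h => by
    have h1 : π ∣ 3 := hker 3 (by rw [map_ofNat]; exact h)
    exact hπ.not_isUnit (hp.isCoprime_three.isUnit_of_dvd h1)
  obtain ⟨m, hm0, hm⟩ := card_mod_79 hw h3
  have ho := hχ.orderOf hw h3
  have hχ3 : χ ^ 3 = 1 := ho ▸ pow_orderOf_eq_one χ
  have hc : ∀ x, ∃ c : O, ι c = χ x ∧ φ c = x ^ m ∧ ι (c ^ 2) = conj (χ x) := fun x => by
    by_cases hx : x = 0
    · exact ⟨0, by simp [hx, χ.map_zero], by simp [hx, hm0], by simp [hx, χ.map_zero]⟩
    · obtain ⟨k, hk1, hk2⟩ := hχ x hx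
      rw [hm, Nat.mul_div_cancel_left _ three_pos] at hk1
      refine ⟨om ^ k, by rw [map_pow, ι_om, hk2], by rw [map_pow, hk1], ?_⟩
      rw [hk2, map_pow, map_pow, map_pow, ι_om, conj_omC_79, ← pow_mul, ← pow_mul, mul_comm]
  choose c hc hc' hc'' using hc
  set J := ∑ x, c x * c (1 - x) with hJ
  set J' := ∑ x, c x ^ 2 * c (1 - x) ^ 2 with hJ'
  have h1 : ι J = jacobiSum χ χ := by simp only [hJ, map_sum, map_mul, hc, jacobiSum]
  have h1' : J' = cj J := ι_injective (by
    rw [ι_cj, h1]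
    simp only [hJ', map_sum, map_mul, hc'', jacobiSum])
  have h2 : φ J' = (-1) ^ (m + 1) * ((2 * m).choose m : K) := by
    rw [← sum_poly_79 K hm0 hm]
    simp only [hJ', map_sum, map_mul, map_pow, hc', ← pow_mul, mul_comm m 2]
  have h4 : Primary (-J) := by
    obtain ⟨z, hz, e⟩ := exists_jacobiSum_eq_neg_one_add (χ := χ) (ψ := χ) (n := 3) (by omega)
      hχ3 hχ3 ⟨m, hm⟩ omC_prim_79
    obtain ⟨w, rfl⟩ : z ∈ ι.toIntAlgHom.range :=
      Algebra.adjoin_le (Set.singleton_subset_iff.2 (ι.toIntAlgHom.mem_range.2 ⟨om, ι_om⟩)) hz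
    have : J = -1 + w * (om - 1) ^ 2 := ι_injective (by simpa [h1, ι_om] using e)
    exact ⟨w * om, by linear_combination -this - w * om_sq_add⟩
  have hne : ∀ j, 0 < j → j < 3 → χ ^ j ≠ 1 := fun j h0 hj =>
    pow_ne_one_of_lt_orderOf h0.ne' (ho ▸ hj)
  obtain ⟨e, hpp, he⟩ := FiniteField.card K (ringChar K)
  have h5 : nm J = nm π ^ f := by
    have hinv : χ⁻¹ = χ ^ 2 := by
      rw [inv_eq_iff_mul_eq_one, ← pow_succ', hχ3]
    have e1 := jacobiSum_mul_jacobiSum_inv (χ := χ) (φ := χ)
      (by rw [ringChar.eq_zero]; exact hpp.ne_zero.symm)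
      (pow_one χ ▸ hne 1 one_pos (by omega)) (pow_one χ ▸ hne 1 one_pos (by omega))
      (pow_two χ ▸ hne 2 two_pos (by omega))
    have e2 : ι J' = jacobiSum χ⁻¹ χ⁻¹ := by
      simp only [hJ', map_sum, map_mul, map_pow, hc, jacobiSum, hinv,
        MulChar.pow_apply' _ two_ne_zero]
    rw [← h1, ← e2, ← map_mul, h1', mul_cj, map_natCast, hf] at e1
    exact_mod_cast e1
  have h6 : J * J' = (π * cj π) ^ f := by
    rw [h1', mul_cj, h5, mul_cj]; push_cast; rfl
  have hπp : π ∣ (ringChar K : O) := hker _ (by rw [map_natCast]; exact ringChar.Nat.cast_ringChar)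
  have hn1 : nm π ≠ 1 := fun h => hπ.not_isUnit (isUnit_iff_nm.2 h)
  have hn0 : nm π ≠ 0 := fun h => hπ.ne_zero (nm_eq_zero.1 h)
  have hass : Associated J (π ^ f) := by
    have h7 : nm π ∣ ringChar K ^ 2 := by rw [← nm_natCast]; exact nm_dvd_of_dvd hπp
    obtain ⟨j, hj, hj'⟩ := (Nat.dvd_prime_pow hpp).1 h7
    interval_cases j
    · exact absurd hj' hn1
    · rw [pow_one] at hj'
      have h8 : ¬ π ∣ J' := by
        rintro ⟨t, ht⟩
        rw [ht, map_mul, hφ, zero_mul] at h2
        have h9 : (((2 * m).choose m : ℕ) : K) = 0 := by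
          rcases mul_eq_zero.1 h2.symm with h | h
          · exact absurd h (pow_ne_zero _ (neg_ne_zero.2 one_ne_zero))
          · exact h
        have h10 := nm_prime_mod hπ hp
        have h11 := Fintype.one_lt_card (α := K)
        refine not_dvd_choose_79 hpp (t := ringChar K / 3) (by omega) f m (by rw [← hj']; omega) ?_
        exact (ringChar.spec K _).1 h9
      have h9 : π ^ f ∣ J := by
        refine (hπ.irreducible.coprime_iff_not_dvd.2 h8).pow_left.dvd_of_dvd_mul_right ?_
        rw [h6, mul_pow]; exact dvd_mul_right _ _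
      obtain ⟨t, ht⟩ := h9
      have h10 : IsUnit t := by
        rw [ht, nm_mul, nm_pow] at h5
        exact isUnit_iff_nm.2 ((mul_eq_left₀ (pow_ne_zero _ hn0)).1 h5)
      rw [ht]; exact (associated_mul_unit_right _ _ h10).symm
    · obtain ⟨t, ht⟩ := hπp
      have h8 : IsUnit t := by
        have := congrArg nm ht
        rw [nm_natCast, nm_mul, ← hj'] at this
        exact isUnit_iff_nm.2 ((mul_eq_left₀ hn0).1 this.symm)
      have h9 : J ∣ π ^ (2 * f) := by
        have e1 : J * J' = π ^ (2 * f) * t ^ (2 * f) := by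
          rw [h6, mul_cj, hj', ← mul_pow, ← ht]; push_cast; rw [← pow_mul]
        exact (h8.pow _).dvd_mul_right.1 (e1 ▸ dvd_mul_right J J')
      obtain ⟨i, -, hi⟩ := (dvd_prime_pow hπ _).1 h9
      have h10 : nm J = nm π ^ i := by
        rw [← nm_pow]
        exact Nat.dvd_antisymm (nm_dvd_of_dvd hi.dvd) (nm_dvd_of_dvd hi.symm.dvd)
      have h11 : i = f := Nat.pow_right_injective (by omega) (h10.symm.trans h5)
      rwa [h11] at hi
  rw [← h1, ← map_pow, ← h4.eq_of_associated (hp.pow f) hass.neg_left, map_neg, neg_neg]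

/-- the cube of the cubic Gauss sum -/
theorem gauss_cube_79 (φ : O →+* K) {π : O} (hπ : Prime π) (hp : Primary π) (hφ : φ π = 0) {f : ℕ}
    (hf : Fintype.card K = nm π ^ f) {χ : MulChar K ℂ} (hχ : IsCub (φ om) χ)
    {ψ : AddChar K ℂ} (hψ : ψ ≠ 1) :
    gaussSum χ ψ ^ 3 = -(ι π ^ f) * (Fintype.card K : ℂ) := by
  have hw : φ om ^ 2 + φ om + 1 = 0 := by simpa using congrArg φ om_sq_add
  have h3 : (3 : K) ≠ 0 := fun h => by
    obtain ⟨u, v, huv⟩ := hp.isCoprime_three
    have := congrArg φ huv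
    simp [hφ, map_ofNat, h] at this
  have ho := hχ.orderOf hw h3
  have := gaussSum_pow_eq_prod_jacobiSum (χ := χ) (by omega) (AddChar.IsPrimitive.of_ne_one hψ)
  have e : χ (-1) = 1 := by
    have h1 : χ (-1) ^ 3 = 1 := by
      rw [← MulChar.pow_apply' _ three_ne_zero, ← ho, pow_orderOf_eq_one,
        MulChar.one_apply (isUnit_one.neg)]
    rw [← map_pow, show (-1 : K) ^ 3 = -1 by norm_num] at h1
    exact h1
  rw [ho, e] at this
  rw [this, ← jacobi_79 φ hπ hp hφ hf hχ]
  simp [mul_comm]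

end

end Crest.Agent.T27
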