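import Crest.Agent.T27.GsAvg_58
import Crest.Agent.R017.QSh_411

/-!
# Row 27: Milgram's formula (phase form) for rational quadratic forms of signature zero
-/

set_option autoImplicit false

noncomputable section

namespace Crest.Agent.T27.G58

open Complex
open scoped Real ComplexConjugate

/-- `e(t) = exp(2 π i t)`. -/
def e (t : ℚ) : ℂ := cexp (2 * π * I * (t : ℂ))

theorem e_add (s t : ℚ) : e (s + t) = e s * e t := by
  rw [e, e, e, ← Complex.exp_add]
  congr 1
  push_cast
  ring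

theorem e_zero : e 0 = 1 := by simp [e]

theorem e_int (k : ℤ) : e k = 1 := by
  rw [e, show (2 * π * I * ((k : ℚ) : ℂ) : ℂ) = k * (2 * π * I) by push_cast; ring]
  exact Complex.exp_int_mul_two_pi_mul_I k

theorem e_add_int (t : ℚ) (k : ℤ) : e (t + k) = e t := by rw [e_add, e_int, mul_one]

theorem e_eq_one_iff {t : ℚ} : e t = 1 ↔ ∃ k : ℤ, t = k := by
  refine ⟨fun h => ?_, by rintro ⟨k, rfl⟩; exact e_int k⟩
  obtain ⟨k, hk⟩ := Complex.exp_eq_one_iff.1 h
  refine ⟨k, ?_⟩
  have h2 : (2 * π * I : ℂ) ≠ 0 := by simp [Real.pi_ne_zero]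
  have : (t : ℂ) = k := mul_left_cancel₀ h2 (by rw [hk]; ring)
  exact_mod_cast this

theorem e_neg (t : ℚ) : e (-t) = conj (e t) := by
  rw [e, e, ← Complex.exp_conj]
  congr 1
  simp [map_ofNat]

theorem norm_e (t : ℚ) : ‖e t‖ = 1 := by
  rw [e, show (2 * π * I * (t : ℂ) : ℂ) = ((2 * π * t : ℝ) : ℂ) * I by push_cast; ring]
  exact Complex.norm_exp_ofReal_mul_I _

theorem e_sum {ι : Type} (s : Finset ι) (t : ι → ℚ) : e (∑ i ∈ s, t i) = ∏ i ∈ s, e (t i) := by
  classical
  induction s using Finset.induction_on with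
  | empty => simp [e_zero]
  | insert a s ha ih => rw [Finset.sum_insert ha, Finset.prod_insert ha, e_add, ih]

theorem HasAvg.conj {M : Type} [AddCommGroup M] {f : M → ℂ} {c : ℂ} (hc : HasAvg f c) :
    HasAvg (fun x => conj (f x)) (conj c) := by
  obtain ⟨A, _, _, p, g, hp, hg, rfl⟩ := hc
  have : (starRingEnd ℂ) (mean g) = mean fun a => (starRingEnd ℂ) (g a) := by simp [mean]
  rw [this]
  exact HasAvg.mk' p hp _ fun x => by rw [hg]

theorem HasAvg.pi {ι : Type} [Fintype ι] [DecidableEq ι] {M : Type} [AddCommGroup M]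
    {f : ι → M → ℂ} {c : ι → ℂ} (h : ∀ i, HasAvg (f i) (c i)) :
    HasAvg (fun x : ι → M => ∏ i, f i (x i)) (∏ i, c i) := by
  choose A i1 i2 p g hp hg hc using h
  have key : mean (fun x : ∀ i, A i => ∏ i, g i (x i)) = ∏ i, c i := by
    simp only [← hc, mean]
    rw [Finset.prod_div_distrib, Finset.prod_univ_sum, Fintype.piFinset_univ, Fintype.card_pi]
    push_cast
    rfl
  rw [← key]
  refine HasAvg.mk' (AddMonoidHom.pi fun i => (p i).comp (Pi.evalAddMonoidHom (fun _ => M) i))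
    (fun a => ?_) _ fun x => Finset.prod_congr rfl fun i _ => hg i _
  choose x hx using fun i => hp i (a i)
  exact ⟨x, funext hx⟩

theorem avg_pos {m : ℕ} (hm : 0 < m) :
    ∃ r : ℝ, 0 < r ∧ HasAvg (fun k : ℤ => e ((k : ℚ) ^ 2 / (4 * m))) (r * (1 + I)) := by
  have hn : 0 < 4 * m := by omega
  have : NeZero (4 * m) := ⟨hn.ne'⟩
  have hnr : (0 : ℝ) < (4 * m : ℕ) := by exact_mod_cast hn
  have hmq : (m : ℚ) ≠ 0 := by exact_mod_cast hm.ne'
  have hL := Crest.Agent.R017.QS411.landsberg hn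
  set n := 4 * m with hndef
  have hs : (Real.sqrt n : ℝ) ≠ 0 := (Real.sqrt_pos.2 hnr).ne'
  have hsC : ((Real.sqrt n : ℝ) : ℂ) ≠ 0 := by exact_mod_cast hs
  have hsq : ((Real.sqrt n : ℝ) : ℂ) ^ 2 = n := by
    rw [← ofReal_pow, Real.sq_sqrt hnr.le]; push_cast; rfl
  have hI2 : (I : ℂ) ^ 2 = -1 := I_sq
  have h1 : (-2 * I / n : ℂ) = ((1 - I) / (Real.sqrt n : ℝ)) ^ 2 := by
    rw [div_pow, hsq]
    congr 1
    linear_combination -hI2
  have h2 : (-2 * I / n : ℂ) ^ (1 / 2 : ℂ) = (1 - I) / (Real.sqrt n : ℝ) := by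
    rw [h1]
    have : (1 / 2 : ℂ) = (2⁻¹ : ℂ) := by norm_num
    rw [this]
    refine Complex.sq_cpow_two_inv ?_
    rw [Complex.div_ofReal_re]
    simp
    exact hn
  have h1I : (1 - I : ℂ) ≠ 0 := by
    intro h
    have := congrArg Complex.re h
    simp at this
  have h3 : cexp (-(π * I * n / 2)) = 1 := by
    rw [show (-(π * I * n / 2) : ℂ) = ((-m : ℤ) : ℂ) * (2 * π * I) by
      rw [hndef]; push_cast; ring]
    exact Complex.exp_int_mul_two_pi_mul_I _
  rw [h2, one_div_div, h3] at hL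
  have hL' : ∑ a : ZMod n, e (((a.val : ℕ) : ℚ) ^ 2 / (4 * m)) = Real.sqrt n * (1 + I) := by
    have e1 : ∑ a : ZMod n, e (((a.val : ℕ) : ℚ) ^ 2 / (4 * m)) =
        ∑ r ∈ Finset.range n, cexp (2 * π * I * (r : ℂ) ^ 2 / n) := by
      refine Finset.sum_bij (fun a _ => a.val) (fun a _ => Finset.mem_range.2 a.val_lt)
        (fun a _ b _ h => ZMod.val_injective n h) (fun r hr => ⟨r, Finset.mem_univ _, ?_⟩)
        fun a _ => ?_
      · exact ZMod.val_cast_of_lt (Finset.mem_range.1 hr)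
      · have hn4 : (n : ℂ) = 4 * m := by rw [hndef]; push_cast; rfl
        rw [e, hn4]
        congr 1
        push_cast
        ring
    rw [e1, hL]
    field_simp
    linear_combination hI2
  refine ⟨Real.sqrt n / n, div_pos (Real.sqrt_pos.2 hnr) hnr, ?_⟩
  have hmean : ((Real.sqrt n / n : ℝ) : ℂ) * (1 + I) =
      mean fun a : ZMod n => e (((a.val : ℕ) : ℚ) ^ 2 / (4 * m)) := by
    rw [mean, hL', ZMod.card]
    push_cast
    ring
  rw [hmean]
  refine HasAvg.mk' (Int.castAddHom (ZMod n)) (ZMod.intCast_surjective) _ fun k => ?_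
  obtain ⟨j, hj⟩ : (n : ℤ) ∣ k - ((k : ZMod n).val : ℤ) := by
    rw [← ZMod.intCast_zmod_eq_zero_iff_dvd]
    simp
  have hk : (k : ℚ) = (((k : ZMod n).val : ℕ) : ℚ) + 4 * m * j := by
    have : k = ((k : ZMod n).val : ℤ) + 4 * m * j := by
      rw [hndef] at hj
      push_cast at hj
      linear_combination hj
    exact_mod_cast this
  set v : ℕ := (k : ZMod n).val
  change e _ = e (((v : ℕ) : ℚ) ^ 2 / (4 * m))
  rw [hk, ← e_add_int (((v : ℕ) : ℚ) ^ 2 / (4 * m)) (2 * v * j + 4 * m * j ^ 2)]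
  congr 1
  push_cast
  field_simp
  ring

/-- The phase attached to a weight. -/
def ph (a : ℚ) : ℂ := if 0 < a then 1 + I else if a < 0 then 1 - I else 1

theorem avg_one {a : ℚ} (h : a ≠ 0 → ∃ m : ℤ, 1 / (4 * a) = m) :
    ∃ r : ℝ, 0 < r ∧ HasAvg (fun k : ℤ => e (a * (k : ℚ) ^ 2)) (r * ph a) := by
  rcases lt_trichotomy a 0 with ha | rfl | ha
  · obtain ⟨m, hm⟩ := h ha.ne
    have h0 : (m : ℚ) < 0 := by rw [← hm]; exact div_neg_of_pos_of_neg one_pos (by linarith)
    have h1 : 0 < (-m).toNat := by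
      have : m < 0 := by exact_mod_cast h0
      omega
    have h2 : (((-m).toNat : ℕ) : ℚ) = -m := by
      have : m < 0 := by exact_mod_cast h0
      have : (((-m).toNat : ℕ) : ℤ) = -m := by omega
      exact_mod_cast this
    obtain ⟨r, hr, hc⟩ := avg_pos h1
    refine ⟨r, hr, ?_⟩
    have := hc.conj
    simp only [map_mul, conj_ofReal, map_add, map_one, conj_I] at this
    rw [ph, if_neg ha.not_gt, if_pos ha, sub_eq_add_neg]
    refine this.congr fun k => ?_
    rw [← e_neg, h2, ← hm]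
    congr 1
    have := ha.ne
    field_simp
  · refine ⟨1, one_pos, ?_⟩
    have := HasAvg.mk' (M := ℤ) (0 : ℤ →+ PUnit) (fun _ => ⟨0, rfl⟩)
      (f := fun k : ℤ => e (0 * (k : ℚ) ^ 2)) (fun _ => 1) fun k => by simp [e_zero]
    simpa [mean, ph] using this
  · obtain ⟨m, hm⟩ := h ha.ne'
    have h0 : (0 : ℚ) < m := by rw [← hm]; positivity
    have h1 : 0 < m.toNat := by
      have : 0 < m := by exact_mod_cast h0
      omega
    have h2 : ((m.toNat : ℕ) : ℚ) = m := by
      have : 0 < m := by exact_mod_cast h0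
      have : ((m.toNat : ℕ) : ℤ) = m := by omega
      exact_mod_cast this
    obtain ⟨r, hr, hc⟩ := avg_pos h1
    refine ⟨r, hr, ?_⟩
    rw [ph, if_pos ha]
    refine hc.congr fun k => ?_
    rw [h2, ← hm]
    congr 1
    have := ha.ne'
    field_simp

theorem prod_ph {ι : Type} [Fintype ι] (a : ι → ℚ)
    (h : {i | 0 < a i}.ncard = {i | a i < 0}.ncard) :
    ∏ i, ph (a i) = (2 : ℂ) ^ {i | 0 < a i}.ncard := by
  classical
  have e1 : ∀ i, ph (a i) = (if 0 < a i then 1 + I else 1) * (if a i < 0 then 1 - I else 1) := by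
    intro i
    rw [ph]
    by_cases h1 : 0 < a i
    · simp [h1, h1.not_gt]
    · simp [h1]
  have c1 : ∀ (p : ι → Prop) [DecidablePred p],
      (Finset.univ.filter p).card = {i | p i}.ncard := fun p _ => by
    rw [← Set.ncard_coe_finset]
    congr 1
    ext i
    simp
  simp only [e1, Finset.prod_mul_distrib, Finset.prod_ite, Finset.prod_const, one_pow, mul_one, c1]
  rw [← h, ← mul_pow]
  congr 1
  linear_combination -I_sq

theorem exists_den {ι : Type} [Finite ι] (x : ι → ℚ) :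
    ∃ K : ℕ, 0 < K ∧ ∀ i, ∃ z : ℤ, K * x i = z := by
  have := Fintype.ofFinite ι
  refine ⟨∏ i, (x i).den, Finset.prod_pos fun i _ => (x i).pos, fun i => ?_⟩
  obtain ⟨c, hc⟩ := Finset.dvd_prod_of_mem (fun i => (x i).den) (Finset.mem_univ i)
  refine ⟨c * (x i).num, ?_⟩
  rw [hc]
  push_cast
  rw [← Rat.mul_den_eq_num]
  ring

variable {V : Type} [AddCommGroup V] [Module ℚ V]

/-- The quadratic character of a rational quadratic form. -/
def qch (Q : QuadraticForm ℚ V) : QCh V where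
  φ x := e (Q x)
  β x y := e (QuadraticMap.polar Q x y)
  φ_zero := by simp [e_zero]
  φ_add x y := by
    rw [← e_add, ← e_add, QuadraticMap.polar]
    congr 1
    ring
  β_add x x' y := by rw [QuadraticMap.polar_add_left, e_add]

/-- **Milgram's formula** (phase form, signature zero). -/
theorem milgram [FiniteDimensional ℚ V] (Q : QuadraticForm ℚ V) (T : V ≃ₗ[ℚ] V) {a : ℚ}
    (ha : 0 < a) (hT : ∀ x, Q (T x) = -a * Q x) {M : AddSubgroup V} (hfg : M.FG)
    (hM : (qch Q).Large M) {c : ℂ} (hc : HasAvg (fun y : M => e (Q y)) c) :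
    ∃ r : ℝ, 0 < r ∧ c = r := by
  classical
  obtain ⟨w, ⟨E⟩⟩ := Q.equivalent_weightedSumSquares
  have hE : ∀ x, Q x = ∑ i, w i * (E x i) ^ 2 := fun x => by
    rw [← E.map_app, QuadraticMap.weightedSumSquares_apply]
    simp [sq]
  have hsig : {i | 0 < w i}.ncard = {i | w i < 0}.ncard := by
    have h1 := QuadraticForm.sigPos_of_equiv_weightedSumSquares (Q := Q) (w := w) ⟨E⟩
    have h2 := QuadraticForm.sigPos_of_equiv_weightedSumSquares (Q := Q) (w := fun i => -a * w i)
      ⟨⟨T.symm.trans E.toLinearEquiv, fun x => by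
        obtain ⟨y, rfl⟩ := T.surjective x
        rw [hT, hE, QuadraticMap.weightedSumSquares_apply, Finset.mul_sum]
        refine Finset.sum_congr rfl fun i _ => ?_
        simp [sq, mul_assoc]⟩⟩
    rw [← h1, h2]
    congr 1
    ext i
    simp only [Set.mem_ofPred_eq]
    constructor
    · intro h
      by_contra h'
      nlinarith [mul_nonneg ha.le (not_lt.1 h')]
    · intro h
      nlinarith [mul_pos ha (neg_pos.2 h)]
  obtain ⟨S, hS⟩ := hfg
  obtain ⟨K, hK, hz⟩ := exists_den (ι := (S × Fin (Module.finrank ℚ V)) ⊕ Fin (Module.finrank ℚ V))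
    (Sum.elim (fun p => E p.1 p.2) fun i => 1 / (4 * w i))
  have hKq : (K : ℚ) ≠ 0 := by exact_mod_cast hK.ne'
  let p : (Fin (Module.finrank ℚ V) → ℤ) →+ V :=
    { toFun := fun x => E.symm fun i => x i / K
      map_zero' := by
        simp only [Pi.zero_apply, Int.cast_zero, zero_div]
        exact map_zero E.symm
      map_add' := fun x y => by
        rw [← map_add]
        congr 1
        funext i
        simp [add_div] }
  have hp : ∀ x, E (p x) = fun i => (x i : ℚ) / K := fun x => E.apply_symm_apply _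
  have hpi : Function.Injective p := fun x y h => by
    funext i
    have := congrFun ((hp x).symm.trans ((congrArg E h).trans (hp y))) i
    simpa [hKq] using this
  have hle : M ≤ p.range := by
    rw [← hS, AddSubgroup.closure_le]
    intro y hy
    choose z hz' using fun i => hz (Sum.inl (⟨y, hy⟩, i))
    refine ⟨z, E.injective ?_⟩
    change E (p z) = E y
    rw [hp]
    funext i
    rw [← hz' i]
    simp [hKq]
  have h1 : ∀ i, ∃ r : ℝ, 0 < r ∧
      HasAvg (fun k : ℤ => e (w i / K ^ 2 * (k : ℚ) ^ 2)) (r * ph (w i / K ^ 2)) := fun i => by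
    refine avg_one fun h => ?_
    obtain ⟨z, hz'⟩ := hz (Sum.inr i)
    have hw : w i ≠ 0 := fun h0 => h (by simp [h0])
    refine ⟨K * z, ?_⟩
    push_cast
    rw [← hz']
    simp only [Sum.elim_inr]
    field_simp
  choose r hr hav using h1
  have h2 : HasAvg (fun x => e (Q (p x))) (∏ i, (r i * ph (w i / K ^ 2))) :=
    (HasAvg.pi hav).congr fun x => by
      rw [hE, e_sum, hp]
      refine Finset.prod_congr rfl fun i _ => ?_
      congr 1
      field_simp
  obtain ⟨s, hs, rfl⟩ := (qch Q).two_large hM hle hc (h2.range p hpi (φ := fun x => e (Q x)))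
  have hK2 : (0 : ℚ) < K ^ 2 := by positivity
  have e1 : {i | 0 < w i / K ^ 2} = {i | 0 < w i} := by
    ext i
    simp [div_pos_iff_of_pos_right hK2]
  have e2 : {i | w i / K ^ 2 < 0} = {i | w i < 0} := by
    ext i
    simp [div_neg_iff, hK2, hK2.not_gt]
  rw [Finset.prod_mul_distrib, prod_ph _ (by rw [e1, e2, hsig])]
  refine ⟨s * ((∏ i, r i) * 2 ^ {i | 0 < w i / K ^ 2}.ncard),
    mul_pos hs (mul_pos (Finset.prod_pos fun i _ => hr i) (by positivity)), ?_⟩
  push_cast
  rfl

end Crest.Agent.T27.G58
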