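import Crest.Agent.T27.GsCls_58
import Crest.Agent.T27.GauAx_82
import Crest.Agent.T27.Sar2_77

/-!
# Row 27: the quadratic Gauss sum `Qn` of a frame `O ≅ O_F[1/N]` is a class function
-/

set_option autoImplicit false
set_option linter.unusedSectionVars false

noncomputable section

namespace Crest.Agent.T27.G58

open NumberField

variable {F : Type} [Field F] [NumberField F] {N : ℕ} [hG : SGood F N]

theorem sAr_pow {k : ℕ} (hk : k ≠ 0) (hd : 2 * discr F ∣ ((N ^ k : ℕ) : ℤ)) :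
    SAr (RS F N) (LS F N) (N ^ k) (psiS N) where
  intR _ := mem_LocS_of_isIntegral
  intL _ := mem_LocS_of_isIntegral
  inter _ := isIntegral_of_mem_RS_LS
  split y := ⟨_, sPart_spec hG.ne y⟩
  pow y := by
    obtain ⟨i, hi⟩ := exists_pow_mul_mem_LS hG.ne y
    obtain ⟨k, rfl⟩ := Nat.exists_eq_succ_of_ne_zero hk
    refine ⟨i, ?_⟩
    rw [show (((N ^ (k + 1) : ℕ) : F)) ^ i * y = (N : F) ^ (k * i) * ((N : F) ^ i * y) by
      push_cast; ring]
    exact mul_mem (pow_mem (natCast_mem _ N) _) hi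
  invN := inv_mem_RS_of_dvd (k := k) dvd_rfl
  ne := pow_ne_zero k hG.ne
  dvd := hd
  pid := inferInstance
  psi _ hl _ hr := psiS_add_of_mem hG.ne hl hr

theorem two_discr_dvd : 2 * discr F ∣ ((N ^ 2 : ℕ) : ℤ) := by
  have h1 : (2 : ℤ) ∣ N := by exact_mod_cast (Dvd.dvd.trans (by norm_num) hG.six : 2 ∣ N)
  have h2 : discr F ∣ (N : ℤ) := Int.natAbs_dvd.1 (by exact_mod_cast hG.disc)
  push_cast
  rw [sq]
  exact mul_dvd_mul h1 h2

variable [Fr0] {j : O →+* F}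

theorem Qn_eq_gq (E : O ≃+* RS F N) (hE : ∀ x, (E x : F) = j x)
    (heq : ∀ x n, eq x n = psiS N (j x / j n)) {n : O} (hn : n ≠ 0) :
    Qn n = gq (psiS N) (E n) := by
  have h := sAr_pow (F := F) (N := N) two_ne_zero two_discr_dvd
  have hn' : E n ≠ 0 := by simpa using hn
  have : Fact (n ≠ 0) := ⟨hn⟩
  have := Fintype.ofFinite (O ⧸ Ideal.span {n})
  have := h.finite_R hn'
  have := Fintype.ofFinite (RS F N ⧸ Ideal.span {E n})
  let Φ : (O ⧸ Ideal.span {n}) ≃+* (RS F N ⧸ Ideal.span {E n}) :=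
    Ideal.quotientEquiv _ _ E (by simp [Ideal.map_span])
  have hΦ : ∀ x, Φ (Ideal.Quotient.mk _ x) = Ideal.Quotient.mk _ (E x) := fun x => rfl
  rw [h.gq_eq hn', Qn, ← Equiv.sum_comp Φ.toEquiv, ← sum_res_eq_quot hn,
    ← Fintype.card_congr Φ.toEquiv, ← Nat.card_eq_fintype_card, card_quot hn]
  congr 1
  refine Finset.sum_congr rfl fun x _ => ?_
  change _ = SAr.gA (psiS N) (E n) (1 * Φ (Ideal.Quotient.mk _ x) ^ 2)
  rw [hΦ, one_mul, ← map_pow (Ideal.Quotient.mk (Ideal.span {E n})), h.gA_mk hn', heq, ← map_pow E,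
    hE, hE]

/-- The class function property, at level `3 k` when `2 disc ∣ N^k`. -/
theorem Qn_class (E : O ≃+* RS F N) (hE : ∀ x, (E x : F) = j x)
    (heq : ∀ x n, eq x n = psiS N (j x / j n)) {k J : ℕ} (hk : k ≠ 0)
    (hd : 2 * discr F ∣ ((N ^ k : ℕ) : ℤ)) (hJ : 3 * k ≤ J) {m n : O} (hn : n ≠ 0) {s l : F}
    (hl : l ∈ LS F N) (e : j n = j m * (1 + (N : F) ^ J * l) * s ^ 2) : Qn n = Qn m := by
  have hn' : E n ≠ 0 := by simpa using hn
  have hm : m ≠ 0 := by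
    rintro rfl
    refine hn' (Subtype.ext ?_)
    rw [hE, e]
    simp
  have hw : j om ^ 2 + j om + 1 = 0 := by simpa using congrArg j om_sq_add
  obtain ⟨i, rfl⟩ := Nat.exists_eq_add_of_le hJ
  rw [Qn_eq_gq E hE heq hn, Qn_eq_gq E hE heq hm]
  refine (sAr_pow hk hd).gq_class hw hn' (s := s) (l := (N : F) ^ i * l)
    (mul_mem (pow_mem (natCast_mem _ N) i) hl) ?_
  rw [hE, hE, e]
  push_cast
  ring

end Crest.Agent.T27.G58
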