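import Crest.Agent.T27.GsJac_79

/-!
# Row 27: the relative norm to `ℤ[ω]` and the Jacobi sum character of a number field `F ∋ ω`

`alphaF w x = ∏_{σ w = ω} σ x`; `nu w hw : 𝓞 F →* ℤ[ω]` is the relative norm; `AI w hw I` is the
product of the numbers `π ^ f` (minus the cubic Jacobi sums) over the prime factors of `I`.
Main result: `nu x = AI (x)` for `x ≡ 1 (mod 3)`.
-/

set_option autoImplicit false

noncomputable section

namespace Crest.Agent.T27

open R17 Finset NumberField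
open scoped ComplexConjugate nonZeroDivisors

theorem dvd_of_integral_79 {a b : O} (hb : b ≠ 0) {α : ℂ} (hα : IsIntegral ℤ α)
    (h : ι a = ι b * α) : b ∣ a := by
  obtain ⟨k, _, _, _⟩ : ∃ (k : Type) (_ : Field k) (_ : Algebra O k), IsFractionRing O k :=
    ⟨FractionRing O, inferInstance, inferInstance, inferInstance⟩
  let j : k →+* ℂ := IsFractionRing.lift ι_injective
  have hj : ∀ z : O, j (algebraMap O k z) = ι z := IsFractionRing.lift_algebraMap ι_injective
  have hb' : ι b ≠ 0 := (map_ne_zero_iff ι ι_injective).2 hb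
  have hbk : algebraMap O k b ≠ 0 := (map_ne_zero_iff _ (IsFractionRing.injective O k)).2 hb
  have h1 : j (algebraMap O k a / algebraMap O k b) = α := by
    rw [map_div₀, hj, hj, h, mul_div_cancel_left₀ _ hb']
  have h2 : IsIntegral ℤ (algebraMap O k a / algebraMap O k b) :=
    (isIntegral_algHom_iff j.toIntAlgHom j.injective).1 (by
      show IsIntegral ℤ (j _)
      rw [h1]; exact hα)
  obtain ⟨y, hy⟩ := IsIntegrallyClosed.isIntegral_iff.1 (h2.tower_top (A := O))
  refine ⟨y, IsFractionRing.injective O k ?_⟩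
  rw [map_mul, hy, mul_div_cancel₀ _ hbk]

theorem hom_inj_79 {S : Type*} [CommRing S] [IsDomain S] [CharZero S] (φ : O →+* S) :
    Function.Injective φ := by
  refine (injective_iff_map_eq_zero _).2 fun z hz => ?_
  have h := congrArg φ (mul_cj z)
  rw [map_mul, hz, zero_mul, map_natCast] at h
  exact nm_eq_zero.1 (Nat.cast_eq_zero.1 h.symm)

theorem prod_sub_prod_79 {α : Type*} (s : Finset α) (a b : α → ℂ) (c : ℂ)
    (ha : ∀ i, IsIntegral ℤ (a i)) (hb : ∀ i, IsIntegral ℤ (b i))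
    (h : ∀ i ∈ s, ∃ β, IsIntegral ℤ β ∧ a i - b i = c * β) :
    ∃ β, IsIntegral ℤ β ∧ ∏ i ∈ s, a i - ∏ i ∈ s, b i = c * β := by
  classical
  induction s using Finset.induction_on with
  | empty => exact ⟨0, isIntegral_zero, by simp⟩
  | insert i s hi ih =>
    obtain ⟨β, hβ, e⟩ := ih fun j hj => h j (mem_insert_of_mem hj)
    obtain ⟨γ, hγ, e'⟩ := h i (mem_insert_self _ _)
    refine ⟨a i * β + γ * ∏ j ∈ s, b j,
      ((ha i).mul hβ).add (hγ.mul (IsIntegral.prod _ fun j _ => hb j)), ?_⟩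
    rw [prod_insert hi, prod_insert hi]
    linear_combination a i * e + (∏ j ∈ s, b j) * e'

variable {F : Type*} [Field F] [NumberField F]

open Classical in
/-- the embeddings sending `w` to `ω` -/
def emb3 (w : F) : Finset (F →+* ℂ) := univ.filter fun σ => σ w = omC

/-- the product of the conjugates over the embeddings sending `w` to `ω` -/
def alphaF (w x : F) : ℂ := ∏ σ ∈ emb3 w, σ x

theorem mem_emb3 {w : F} {σ : F →+* ℂ} : σ ∈ emb3 w ↔ σ w = omC := by simp [emb3]

theorem alphaF_mul (w x y : F) : alphaF w (x * y) = alphaF w x * alphaF w y := by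
  simp only [alphaF, map_mul, prod_mul_distrib]

theorem alphaF_one (w : F) : alphaF w 1 = 1 := by simp [alphaF]

theorem alphaF_ne_zero (w : F) {x : F} (hx : x ≠ 0) : alphaF w x ≠ 0 :=
  prod_ne_zero_iff.2 fun σ _ => (map_ne_zero σ).2 hx

theorem omC_ne_conj_79 : conj omC ≠ omC := by
  rw [conj_omC_79]
  intro h
  have := omC_prim_79.pow_inj (i := 2) (j := 1) (by norm_num) (by norm_num) (by rwa [pow_one])
  omega

theorem emb_cases_79 {w : F} (hw : w ^ 2 + w + 1 = 0) (σ : F →+* ℂ) :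
    σ w = omC ∨ conj (σ w) = omC := by
  have h1 : σ w ^ 2 + σ w + 1 = 0 := by simpa using congrArg σ hw
  have h2 : (σ w - omC) * (σ w - conj omC) = 0 := by
    rw [conj_omC_79]
    linear_combination h1 + (omC - 1 - σ w) * omC_mul
  rcases mul_eq_zero.1 h2 with h | h
  · exact Or.inl (sub_eq_zero.1 h)
  · exact Or.inr (by rw [sub_eq_zero.1 h, Complex.conj_conj])

theorem alphaF_mul_conj {w : F} (hw : w ^ 2 + w + 1 = 0) (x : F) :
    alphaF w x * conj (alphaF w x) = (Algebra.norm ℚ x : ℂ) := by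
  classical
  have h1 : ((Algebra.norm ℚ x : ℚ) : ℂ) = ∏ σ : F →+* ℂ, σ x := by
    have := Algebra.norm_eq_prod_embeddings ℚ ℂ x
    rw [eq_ratCast] at this
    rw [this, ← Fintype.prod_equiv (RingHom.equivRatAlgHom F ℂ) (fun f => f x) (fun φ => φ x)
      fun _ => by simp [RingHom.equivRatAlgHom_apply]]
  rw [h1, ← prod_filter_mul_prod_filter_not univ (fun σ : F →+* ℂ => σ w = omC), alphaF, map_prod]
  congr 1
  refine prod_nbij' ComplexEmbedding.conjugate ComplexEmbedding.conjugate ?_ ?_ ?_ ?_ ?_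
  · intro σ hσ
    simp only [mem_filter, mem_univ, true_and, ComplexEmbedding.conjugate_coe_eq,
      mem_emb3.1 hσ]
    exact omC_ne_conj_79
  · intro σ hσ
    exact mem_emb3.2 ((emb_cases_79 hw σ).resolve_left (mem_filter.1 hσ).2)
  · intro σ _; exact ComplexEmbedding.involutive_conjugate F σ
  · intro σ _; exact ComplexEmbedding.involutive_conjugate F σ
  · intro σ _; rfl

theorem norm_alphaF_sq {w : F} (hw : w ^ 2 + w + 1 = 0) (x : F) :
    ‖alphaF w x‖ ^ 2 = (Algebra.norm ℚ x : ℝ) := by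
  have := alphaF_mul_conj hw x
  rw [Complex.mul_conj, Complex.normSq_eq_norm_sq] at this
  exact_mod_cast this

theorem exists_alphaF {w : F} (hw : w ^ 2 + w + 1 = 0) {x : F} (hx : IsIntegral ℤ x) :
    ∃ z : O, ι z = alphaF w x := by
  classical
  obtain ⟨k, _, _, _⟩ : ∃ (k : Type) (_ : Field k) (_ : Algebra O k), IsFractionRing O k :=
    ⟨FractionRing O, inferInstance, inferInstance, inferInstance⟩
  let φ : O →+* F := phiO w hw
  let jF : k →+* F := IsFractionRing.lift (hom_inj_79 φ)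
  let jC : k →+* ℂ := IsFractionRing.lift ι_injective
  have hF : ∀ z : O, jF (algebraMap O k z) = φ z := IsFractionRing.lift_algebraMap _
  have hC : ∀ z : O, jC (algebraMap O k z) = ι z := IsFractionRing.lift_algebraMap _
  let _ : Algebra k F := jF.toAlgebra
  let _ : Algebra k ℂ := jC.toAlgebra
  have : CharZero k := jC.charZero
  have : IsScalarTower ℚ k F := IsScalarTower.of_algebraMap_eq' (RingHom.ext_rat _ _)
  have : FiniteDimensional k F := Module.Finite.of_restrictScalars_finite ℚ k F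
  have h1 := Algebra.norm_eq_prod_embeddings k ℂ x
  have h2 : ∏ σ : F →ₐ[k] ℂ, σ x = alphaF w x := by
    refine prod_bij (fun σ _ => (σ : F →+* ℂ)) (fun σ _ => mem_emb3.2 ?_)
      (fun σ _ τ _ h => AlgHom.coe_ringHom_injective h) (fun σ hσ => ?_) fun _ _ => rfl
    · have := σ.commutes (algebraMap O k om)
      change σ (jF _) = jC _ at this
      rw [hF, hC, ι_om, phiO_om] at this
      exact this
    · have h3 : σ.comp φ = ι := hom_ext_79 (by
        rw [RingHom.comp_apply, phiO_om, ι_om]; exact mem_emb3.1 hσ)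
      have h4 : σ.comp jF = jC := IsFractionRing.ringHom_ext (A := O) fun z => by
        rw [RingHom.comp_apply, hF, hC, ← h3, RingHom.comp_apply]
      exact ⟨{ σ with commutes' := fun r => DFunLike.congr_fun h4 r }, mem_univ _, rfl⟩
  have h3 : IsIntegral ℤ (Algebra.norm k x) := Algebra.isIntegral_norm k hx
  obtain ⟨y, hy⟩ := IsIntegrallyClosed.isIntegral_iff.1 (h3.tower_top (A := O))
  exact ⟨y, by rw [← h2, ← h1, ← hy, ← hC]; rfl⟩

omit [NumberField F] in
theorem hw_coe_79 {w : 𝓞 F} (hw : w ^ 2 + w + 1 = 0) : (w : F) ^ 2 + w + 1 = 0 := by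
  simpa using congrArg (algebraMap (𝓞 F) F) hw

/-- the relative norm `𝓞 F → ℤ[ω]` -/
def nu (w : 𝓞 F) (hw : w ^ 2 + w + 1 = 0) : 𝓞 F →* O where
  toFun x := (exists_alphaF (hw_coe_79 hw) x.isIntegral_coe).choose
  map_one' := ι_injective (by
    rw [(exists_alphaF (hw_coe_79 hw) (1 : 𝓞 F).isIntegral_coe).choose_spec, map_one, map_one,
      alphaF_one])
  map_mul' x y := ι_injective (by
    rw [map_mul ι, (exists_alphaF (hw_coe_79 hw) (x * y).isIntegral_coe).choose_spec,
      (exists_alphaF (hw_coe_79 hw) x.isIntegral_coe).choose_spec,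
      (exists_alphaF (hw_coe_79 hw) y.isIntegral_coe).choose_spec, map_mul, alphaF_mul])

variable {w : 𝓞 F} (hw : w ^ 2 + w + 1 = 0)

theorem ι_nu (x : 𝓞 F) : ι (nu w hw x) = alphaF (w : F) x :=
  (exists_alphaF (hw_coe_79 hw) x.isIntegral_coe).choose_spec

theorem emb_phiO {σ : F →+* ℂ} (hσ : σ ∈ emb3 (w : F)) (z : O) :
    σ (phiO w hw z : 𝓞 F) = ι z := by
  have : (σ.comp (algebraMap (𝓞 F) F)).comp (phiO w hw) = ι := hom_ext_79 (by
    rw [RingHom.comp_apply, phiO_om, ι_om]; exact mem_emb3.1 hσ)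
  exact DFunLike.congr_fun this z

theorem nu_phiO (z : O) : nu w hw (phiO w hw z) = z ^ (emb3 (w : F)).card := ι_injective (by
  rw [ι_nu, alphaF, prod_congr rfl fun σ hσ => emb_phiO hw hσ z, prod_const, map_pow])

theorem nm_nu (x : 𝓞 F) : nm (nu w hw x) = Ideal.absNorm (Ideal.span {x}) := by
  have h1 := norm_ι_sq (nu w hw x)
  rw [ι_nu, norm_alphaF_sq (hw_coe_79 hw), ← Algebra.coe_norm_int] at h1
  have h2 : Algebra.norm ℤ x = nm (nu w hw x) := by
    unfold nr at h1
    exact_mod_cast h1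
  rw [Ideal.absNorm_span_singleton, h2, Int.natAbs_natCast]

theorem nu_congr {m : O} (hm : m ≠ 0) {x y : 𝓞 F} (h : phiO w hw m ∣ x - y) :
    m ∣ nu w hw x - nu w hw y := by
  obtain ⟨t, ht⟩ := h
  obtain ⟨β, hβ, e⟩ := prod_sub_prod_79 (emb3 (w : F)) (fun σ => σ x) (fun σ => σ y) (ι m)
    (fun σ => x.isIntegral_coe.map σ.toIntAlgHom) (fun σ => y.isIntegral_coe.map σ.toIntAlgHom)
    fun σ hσ => ⟨σ t, t.isIntegral_coe.map σ.toIntAlgHom, by
      rw [← emb_phiO hw hσ, ← map_sub, ← map_mul]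
      exact congrArg (fun z : 𝓞 F => σ z) ht⟩
  exact dvd_of_integral_79 hm hβ (by rw [map_sub, ι_nu, ι_nu]; exact e)

theorem primary_nu {x : 𝓞 F} (h : (3 : 𝓞 F) ∣ x - 1) : Primary (nu w hw x) := by
  have := nu_congr hw (m := 3) (x := x) (y := 1) (fun h => by
      have h1 := nm_natCast 3
      rw [Nat.cast_ofNat, h, nm_zero] at h1
      omega)
    (by rwa [map_ofNat])
  rwa [map_one] at this

omit [NumberField F] in
/-- the primary prime below a finite field -/
theorem exists_below_79 {K : Type*} [Field K] [Finite K] (φ : O →+* K) (h3 : (3 : K) ≠ 0) :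
    ∃ (π : O) (f : ℕ), Prime π ∧ Primary π ∧ φ π = 0 ∧ Nat.card K = nm π ^ f := by
  have hP : (RingHom.ker φ).IsPrime := RingHom.ker_isPrime φ
  obtain ⟨g, hg⟩ := (IsPrincipalIdealRing.principal (RingHom.ker φ)).principal
  rw [Ideal.submodule_span_eq] at hg
  have hg0 : g ≠ 0 := by
    rintro rfl
    have h1 : ((Nat.card K : ℕ) : O) ∈ RingHom.ker φ := by
      have := Fintype.ofFinite K
      rw [RingHom.mem_ker, map_natCast, Nat.card_eq_fintype_card]
      exact FiniteField.cast_card_eq_zero K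
    rw [hg, Ideal.mem_span_singleton, zero_dvd_iff] at h1
    have h2 := congrArg nm h1
    rw [nm_natCast, nm_zero] at h2
    exact (Nat.card_pos (α := K)).ne' (pow_eq_zero_iff two_ne_zero |>.1 h2)
  have hgp : Prime g := (Ideal.span_singleton_prime hg0).1 (hg ▸ hP)
  have hφg : φ g = 0 := by
    rw [← RingHom.mem_ker, hg]; exact Ideal.mem_span_singleton_self g
  have hl : ¬ lam ∣ g := fun h => by
    have h1 : g ∣ lam := (prime_lam.associated_of_dvd hgp h).symm.dvd
    obtain ⟨t, ht⟩ := h1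
    have h2 := congrArg φ lam_sq
    rw [ht, map_pow, map_mul, hφg, map_neg, map_ofNat] at h2
    apply h3
    linear_combination h2
  obtain ⟨u, hu, hug⟩ := exists_unit_primary hl
  have hπ : Prime (u * g) := (associated_unit_mul_right g u hu).prime hgp
  have hφ : φ (u * g) = 0 := by rw [map_mul, hφg, mul_zero]
  have := PrincipalIdealRing.isMaximal_of_irreducible hπ.irreducible
  let _ := Ideal.Quotient.field (Ideal.span {u * g})
  let _ : Algebra (O ⧸ Ideal.span {u * g}) K := (Ideal.Quotient.lift _ φ fun a ha => by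
    obtain ⟨t, rfl⟩ := Ideal.mem_span_singleton.1 ha
    rw [map_mul, hφ, zero_mul]).toAlgebra
  refine ⟨u * g, Module.finrank (O ⧸ Ideal.span {u * g}) K, hπ, hug, hφ, ?_⟩
  rw [← card_quot hπ.ne_zero]
  exact Module.natCard_eq_pow_finrank

/-- `π` is the primary prime below `P` and `f` the residue degree -/
def Below (P : Ideal (𝓞 F)) (π : O) (f : ℕ) : Prop :=
  Prime π ∧ Primary π ∧ phiO w hw π ∈ P ∧ Ideal.absNorm P = nm π ^ f

theorem exists_below {P : Ideal (𝓞 F)} (hP : P.IsMaximal) (h3 : (3 : 𝓞 F) ∉ P) :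
    ∃ π f, Below hw P π f := by
  let _ := Ideal.Quotient.field P
  have : Finite (𝓞 F ⧸ P) := Ideal.finiteQuotientOfFreeOfNeBot P
    (Ring.ne_bot_of_isMaximal_of_not_isField hP (RingOfIntegers.not_isField F))
  obtain ⟨π, f, h1, h2, h4, h5⟩ := exists_below_79 ((Ideal.Quotient.mk P).comp (phiO w hw))
    (fun h => h3 (by rw [← Ideal.Quotient.eq_zero_iff_mem, map_ofNat]; exact h))
  exact ⟨π, f, h1, h2, Ideal.Quotient.eq_zero_iff_mem.1 h4, h5⟩

theorem Below.unique {P : Ideal (𝓞 F)} (hP : P ≠ ⊤) {π π' : O} {f f' : ℕ} (h : Below hw P π f)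
    (h' : Below hw P π' f') : π = π' ∧ f = f' := by
  have h1 : π = π' := by
    by_contra hne
    have h2 : ¬ π ∣ π' := fun hd =>
      hne (h.2.1.eq_of_associated h'.2.1 (h.1.associated_of_dvd h'.1 hd))
    obtain ⟨u, v, huv⟩ := h.1.irreducible.coprime_iff_not_dvd.2 h2
    apply hP
    rw [Ideal.eq_top_iff_one, ← map_one (phiO w hw), ← huv, map_add, map_mul, map_mul]
    exact P.add_mem (P.mul_mem_left _ h.2.2.1) (P.mul_mem_left _ h'.2.2.1)
  subst h1
  have hn1 : nm π ≠ 1 := fun e => h.1.not_isUnit (isUnit_iff_nm.2 e)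
  have hn0 : nm π ≠ 0 := fun e => h.1.ne_zero (nm_eq_zero.1 e)
  exact ⟨rfl, Nat.pow_right_injective (a := nm π) (by omega) (h.2.2.2.symm.trans h'.2.2.2)⟩

open Classical in
/-- minus the cubic Jacobi sum of a prime ideal (`1` for the primes above `3`) -/
def AP (P : Ideal (𝓞 F)) : O :=
  if h : ∃ x : O × ℕ, Below hw P x.1 x.2 then h.choose.1 ^ h.choose.2 else 1

theorem AP_eq {P : Ideal (𝓞 F)} (hP : P ≠ ⊤) {π : O} {f : ℕ} (h : Below hw P π f) :
    AP hw P = π ^ f := by
  have h1 : ∃ x : O × ℕ, Below hw P x.1 x.2 := ⟨(π, f), h⟩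
  obtain ⟨e1, e2⟩ := h1.choose_spec.unique hw hP h
  rw [AP, dif_pos h1, e1, e2]

theorem primary_AP (P : Ideal (𝓞 F)) : Primary (AP hw P) := by
  unfold AP
  split_ifs with h
  · exact h.choose_spec.2.1.pow _
  · exact primary_one

open Classical in
/-- the Jacobi sum character -/
def AI (I : Ideal (𝓞 F)) : O :=
  ((UniqueFactorizationMonoid.normalizedFactors I).map (AP hw)).prod

theorem AI_mul {I J : Ideal (𝓞 F)} (hI : I ≠ 0) (hJ : J ≠ 0) :
    AI hw (I * J) = AI hw I * AI hw J := by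
  rw [AI, UniqueFactorizationMonoid.normalizedFactors_mul hI hJ, Multiset.map_add,
    Multiset.prod_add, AI, AI]

theorem AI_one : AI hw 1 = 1 := by
  rw [AI, UniqueFactorizationMonoid.normalizedFactors_one]; rfl

theorem AI_prime {P : Ideal (𝓞 F)} (hP : Prime P) : AI hw P = AP hw P := by
  rw [AI, UniqueFactorizationMonoid.normalizedFactors_irreducible hP.irreducible, normalize_eq]
  simp

theorem AI_pow {I : Ideal (𝓞 F)} (hI : I ≠ 0) (n : ℕ) : AI hw (I ^ n) = AI hw I ^ n := by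
  induction n with
  | zero => rw [pow_zero, pow_zero, AI_one]
  | succ n ih => rw [pow_succ, AI_mul hw (pow_ne_zero _ hI) hI, ih, pow_succ]

theorem AI_prod {α : Type*} (s : Finset α) (I : α → Ideal (𝓞 F)) (hI : ∀ i ∈ s, I i ≠ 0) :
    AI hw (∏ i ∈ s, I i) = ∏ i ∈ s, AI hw (I i) := by
  classical
  induction s using Finset.induction_on with
  | empty => simpa using AI_one hw
  | insert i s hi ih =>
    have h1 := fun j hj => hI j (mem_insert_of_mem hj)
    rw [prod_insert hi, prod_insert hi,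
      AI_mul hw (hI i (mem_insert_self _ _)) (prod_ne_zero_iff.2 h1), ih h1]

theorem primary_AI (I : Ideal (𝓞 F)) : Primary (AI hw I) := by
  unfold AI
  refine Multiset.prod_induction _ _ (fun a b => Primary.mul) primary_one fun a ha => ?_
  obtain ⟨P, -, rfl⟩ := Multiset.mem_map.1 ha
  exact primary_AP hw P

theorem nu_assoc {x y : 𝓞 F} (h : Ideal.span {x} = Ideal.span {y}) :
    Associated (nu w hw x) (nu w hw y) := by
  obtain ⟨u, hu⟩ := Ideal.span_singleton_eq_span_singleton.1 h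
  rw [← hu, map_mul]
  exact associated_mul_unit_right _ _ (u.isUnit.map _)

theorem exists_pow_gen (I : Ideal (𝓞 F)) : I ≠ 0 → IsCoprime I (Ideal.span {3}) →
    ∃ y, I ^ Fintype.card (ClassGroup (𝓞 F)) = Ideal.span {y} ∧
      Associated (nu w hw y) (AI hw I ^ Fintype.card (ClassGroup (𝓞 F))) := by
  set h := Fintype.card (ClassGroup (𝓞 F)) with hh
  have hh0 : h ≠ 0 := Fintype.card_ne_zero
  refine UniqueFactorizationMonoid.induction_on_prime I (fun h => absurd rfl h) ?_ ?_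
  · intro I hI _ _
    rw [Ideal.isUnit_iff, ← Ideal.one_eq_top] at hI
    subst hI
    exact ⟨1, by simp, by rw [AI_one, one_pow, map_one]⟩
  · intro I P hI hP ih _ hc
    obtain ⟨y, hy1, hy2⟩ := ih hI hc.of_mul_left_right
    have hPm : P.IsMaximal := (Ideal.isPrime_of_prime hP).isMaximal hP.ne_zero
    have h3 : (3 : 𝓞 F) ∉ P := fun h3 => by
      have := Ideal.isCoprime_iff_sup_eq.1 hc.of_mul_left_left
      rw [sup_eq_left.2 ((Ideal.span_singleton_le_iff_mem _).2 h3)] at this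
      exact hPm.ne_top this
    obtain ⟨π, f, hb⟩ := exists_below hw hPm h3
    have hmem : P ∈ (Ideal (𝓞 F))⁰ := mem_nonZeroDivisors_of_ne_zero hP.ne_zero
    have h1 : ClassGroup.mk0 (⟨P, hmem⟩ ^ h) = 1 := by rw [map_pow, pow_card_eq_one]
    obtain ⟨x, hx⟩ := ((ClassGroup.mk0_eq_one_iff (pow_mem hmem h)).1 h1).principal
    rw [Ideal.submodule_span_eq] at hx
    have h2 : x ∣ phiO w hw (π ^ h) := by
      rw [← Ideal.mem_span_singleton, ← hx, map_pow]
      exact Ideal.pow_mem_pow hb.2.2.1 h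
    have h4 : nu w hw x ∣ π ^ (h * (emb3 (w : F)).card) := by
      rw [pow_mul, ← nu_phiO hw]; exact map_dvd _ h2
    obtain ⟨i, -, hi⟩ := (dvd_prime_pow hb.1 _).1 h4
    have hn1 : nm π ≠ 1 := fun e => hb.1.not_isUnit (isUnit_iff_nm.2 e)
    have hn0 : nm π ≠ 0 := fun e => hb.1.ne_zero (nm_eq_zero.1 e)
    have h5 : nm π ^ i = nm π ^ (f * h) := by
      rw [← nm_pow, ← Nat.dvd_antisymm (nm_dvd_of_dvd hi.dvd) (nm_dvd_of_dvd hi.symm.dvd), nm_nu,
        ← hx, map_pow, hb.2.2.2, pow_mul]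
    have h6 : i = f * h := Nat.pow_right_injective (a := nm π) (by omega) h5
    refine ⟨x * y, by rw [mul_pow, hx, hy1, Ideal.span_singleton_mul_span_singleton], ?_⟩
    rw [map_mul, AI_mul hw hP.ne_zero hI, mul_pow, AI_prime hw hP, AP_eq hw hPm.ne_top hb,
      ← pow_mul, ← h6]
    exact hi.mul_mul hy2

/-- the relative norm generates the same ideal as the Jacobi sum character -/
theorem nu_assoc_AI {x : 𝓞 F} (hx : IsCoprime x 3) :
    Associated (nu w hw x) (AI hw (Ideal.span {x})) := by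
  have hx0 : x ≠ 0 := by
    rintro rfl
    have h1 := (isCoprime_zero_left.1 hx).map (nu w hw)
    have h2 := nu_phiO hw 3
    rw [map_ofNat] at h2
    have h3 := nm_nu hw 3
    rw [isUnit_iff_nm.1 h1] at h3
    have h4 := Ideal.absNorm_span_natCast (S := 𝓞 F) 3
    rw [Nat.cast_ofNat, ← h3, RingOfIntegers.rank] at h4
    have : 1 < 3 ^ Module.finrank ℚ F := Nat.one_lt_pow Module.finrank_pos.ne' (by norm_num)
    omega
  obtain ⟨y, hy1, hy2⟩ := exists_pow_gen hw (Ideal.span {x})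
    (by rwa [Ne, Ideal.zero_eq_bot, Ideal.span_singleton_eq_bot])
    ((Ideal.isCoprime_span_singleton_iff _ _).2 hx)
  rw [Ideal.span_singleton_pow] at hy1
  have h1 := (nu_assoc hw hy1).trans hy2
  rw [map_pow] at h1
  exact associated_of_dvd_dvd ((IsIntegrallyClosed.pow_dvd_pow_iff Fintype.card_ne_zero).1 h1.dvd)
    ((IsIntegrallyClosed.pow_dvd_pow_iff Fintype.card_ne_zero).1 h1.symm.dvd)

/-- **Main theorem**: for `x ≡ 1 (mod 3)` the Jacobi sum character is the relative norm. -/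
theorem nu_eq_AI {x : 𝓞 F} (hx : (3 : 𝓞 F) ∣ x - 1) : nu w hw x = AI hw (Ideal.span {x}) := by
  refine (primary_nu hw hx).eq_of_associated (primary_AI hw _) (nu_assoc_AI hw ?_)
  obtain ⟨t, ht⟩ := hx
  exact ⟨1, -t, by linear_combination ht⟩

theorem ι_AI {x : 𝓞 F} (hx : (3 : 𝓞 F) ∣ x - 1) :
    ι (AI hw (Ideal.span {x})) = alphaF (w : F) x := by rw [← nu_eq_AI hw hx, ι_nu]

/-- the cubic Jacobi sum of a prime ideal -/
theorem jacobi_AP {P : Ideal (𝓞 F)} [hP : P.IsMaximal] (h3 : (3 : 𝓞 F) ∉ P) {K : Type*} [Field K]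
    [Fintype K] (ρ : 𝓞 F →+* K) (hρ : ∀ x ∈ P, ρ x = 0) (hc : Fintype.card K = Ideal.absNorm P)
    {χ : MulChar K ℂ} (hχ : IsCub (ρ w) χ) :
    jacobiSum χ χ = -ι (AP hw P) ∧ nm (AP hw P) = Fintype.card K ∧
      ∀ ψ : AddChar K ℂ, ψ ≠ 1 → gaussSum χ ψ ^ 3 = -ι (AP hw P) * (Fintype.card K : ℂ) := by
  obtain ⟨π, f, hb⟩ := exists_below hw hP h3
  have hχ' : IsCub ((ρ.comp (phiO w hw)) om) χ := by rwa [RingHom.comp_apply, phiO_om]
  rw [AP_eq hw hP.ne_top hb, map_pow, nm_pow, hc]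
  refine ⟨jacobi_79 _ hb.1 hb.2.1 (hρ _ hb.2.2.1) (hc.trans hb.2.2.2) hχ', hb.2.2.2.symm,
    fun ψ hψ => ?_⟩
  rw [← hc]
  exact gauss_cube_79 _ hb.1 hb.2.1 (hρ _ hb.2.2.1) (hc.trans hb.2.2.2) hχ' hψ

end Crest.Agent.T27
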