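import Crest.Agent.T27.GsMil_58

/-!
# Row 27: Milgram's formula for the trace forms `Tr(c x²)` of a number field containing `ω`
-/

set_option autoImplicit false

noncomputable section

namespace Crest.Agent.T27.G58

open NumberField
open scoped ComplexConjugate

/-- The quadratic character `x ↦ χ(c x²)` of a commutative ring. -/
def qc {A : Type} [CommRing A] (χ : A → ℂ) (h0 : χ 0 = 1) (hadd : ∀ x y, χ (x + y) = χ x * χ y)
    (c : A) : QCh A where
  φ x := χ (c * x ^ 2)
  β x y := χ (2 * c * x * y)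
  φ_zero := by simpa using h0
  φ_add x y := by
    rw [← hadd, ← hadd]
    congr 1
    ring
  β_add x x' y := by
    rw [← hadd]
    congr 1
    ring

/-- The modulus of a non-degenerate Gauss sum. -/
theorem QCh.norm_sum {A : Type} [AddCommGroup A] [Fintype A] (q : QCh A) (h1 : ∀ x, ‖q.φ x‖ = 1)
    (hnd : ∀ h, h ≠ 0 → ∃ y, q.β y h ≠ 1) : ‖∑ x, q.φ x‖ = Real.sqrt (Fintype.card A) := by
  classical
  have hc : ∀ x, q.φ x * conj (q.φ x) = 1 := fun x => by
    rw [Complex.mul_conj, Complex.normSq_eq_norm_sq, h1]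
    simp
  have h0 : ∀ y, q.β y 0 = 1 := fun y => by
    have := q.φ_add y 0
    rw [add_zero, q.φ_zero, mul_one] at this
    have hy : q.φ y ≠ 0 := by rw [← norm_ne_zero_iff, h1]; exact one_ne_zero
    exact (mul_eq_left₀ hy).1 this.symm
  have inner : ∀ h, h ≠ 0 → ∑ y, q.β y h = 0 := fun h hh => by
    obtain ⟨y0, hy0⟩ := hnd h hh
    have e1 : ∑ y, q.β (y + y0) h = ∑ y, q.β y h :=
      Equiv.sum_comp (Equiv.addRight y0) fun y => q.β y h
    simp only [q.β_add] at e1
    rw [← Finset.sum_mul] at e1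
    have : (∑ y, q.β y h) * (q.β y0 h - 1) = 0 := by rw [mul_sub, e1, mul_one, sub_self]
    exact (mul_eq_zero.1 this).resolve_right (sub_ne_zero.2 hy0)
  have key : (∑ x, q.φ x) * conj (∑ x, q.φ x) = Fintype.card A := by
    calc (∑ x, q.φ x) * conj (∑ x, q.φ x) = ∑ y, (∑ x, q.φ x) * conj (q.φ y) := by
          rw [map_sum, Finset.mul_sum]
      _ = ∑ y, ∑ h, q.φ h * q.β y h := by
          refine Finset.sum_congr rfl fun y _ => ?_
          rw [← Equiv.sum_comp (Equiv.addLeft y) q.φ, Finset.sum_mul]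
          refine Finset.sum_congr rfl fun h _ => ?_
          simp only [Equiv.coe_addLeft, q.φ_add]
          linear_combination (q.φ h * q.β y h) * hc y
      _ = ∑ h, q.φ h * ∑ y, q.β y h := by
          rw [Finset.sum_comm]
          simp only [Finset.mul_sum]
      _ = Fintype.card A := by
          rw [Finset.sum_eq_single 0 (fun h _ hh => by rw [inner h hh, mul_zero]) (by simp)]
          simp [q.φ_zero, h0]
  rw [Complex.mul_conj, Complex.normSq_eq_norm_sq] at key
  have : ‖∑ x, q.φ x‖ ^ 2 = Fintype.card A := by exact_mod_cast key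
  rw [← this, Real.sqrt_sq (norm_nonneg _)]

variable {F : Type} [Field F] [NumberField F]

/-- The standard additive character `exp(2 π i Tr y)`. -/
def eT (y : F) : ℂ := e (Algebra.trace ℚ F y)

theorem eT_zero : eT (0 : F) = 1 := by simp [eT, e_zero]

theorem eT_add (x y : F) : eT (x + y) = eT x * eT y := by rw [eT, map_add, e_add, eT, eT]

theorem norm_eT (x : F) : ‖eT x‖ = 1 := norm_e _

theorem trace_int {y : F} (hy : IsIntegral ℤ y) : ∃ k : ℤ, Algebra.trace ℚ F y = k := by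
  obtain ⟨k, hk⟩ := (IsIntegrallyClosed.isIntegral_iff (R := ℤ) (K := ℚ)).1
    (Algebra.isIntegral_trace (L := ℚ) hy)
  exact ⟨k, hk.symm⟩

theorem eT_int {y : F} (hy : IsIntegral ℤ y) : eT y = 1 := e_eq_one_iff.2 (trace_int hy)

theorem discr_mul_int {y : F} (hy : ∀ z, IsIntegral ℤ z → eT (y * z) = 1) :
    IsIntegral ℤ ((discr F : F) * y) := by
  have h1 : (discr F : F) ∈ IsLocalization.coeSubmodule F (differentIdeal ℤ (𝓞 F)) :=
    ⟨_, discr_mem_differentIdeal F (𝓞 F), by simp⟩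
  rw [coeSubmodule_differentIdeal ℤ ℚ (L := F), Submodule.mem_div_iff_forall_mul_mem] at h1
  have h2 : y ∈ Submodule.traceDual ℤ ℚ (1 : Submodule (𝓞 F) F) := by
    rw [Submodule.mem_traceDual]
    intro a ha
    obtain ⟨b, rfl⟩ := Submodule.mem_one.1 ha
    obtain ⟨k, hk⟩ := e_eq_one_iff.1 (hy _ b.isIntegral_coe)
    exact ⟨k, by rw [Algebra.traceForm_apply]; exact hk.symm⟩
  obtain ⟨b, hb⟩ := Submodule.mem_one.1 (h1 y h2)
  rw [← hb]
  exact b.isIntegral_coe

theorem nd_eT {N : ℕ} (hN : 2 * discr F ∣ (N : ℤ)) {y : F}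
    (hy : ∀ z, IsIntegral ℤ z → eT (2 * y * z) = 1) : IsIntegral ℤ ((N : F) * y) := by
  obtain ⟨a, ha⟩ := hN
  have h1 : (N : F) = 2 * discr F * a := by exact_mod_cast congrArg (Int.cast : ℤ → F) ha
  have h2 := (discr_mul_int hy).mul (isIntegral_algebraMap (R := ℤ) (A := F) (x := a))
  rw [eq_intCast] at h2
  rwa [h1, show (2 * discr F * a : F) * y = discr F * (2 * y) * a by ring]

/-- The inclusion of the ring of integers, as an additive map. -/
def incl (F : Type) [Field F] [NumberField F] : 𝓞 F →+ F := (algebraMap (𝓞 F) F).toAddMonoidHom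

theorem incl_apply (u : 𝓞 F) : incl F u = (u : F) := rfl

theorem mem_incl {y : F} : y ∈ (incl F).range ↔ IsIntegral ℤ y :=
  ⟨by rintro ⟨u, rfl⟩; exact u.isIntegral_coe, fun h => ⟨⟨y, h⟩, rfl⟩⟩

/-- Milgram's formula on the ring of integers. -/
theorem mil_O {w : F} (hw : w ^ 2 + w + 1 = 0) {N : ℕ} (hN0 : N ≠ 0) (hN : 2 * discr F ∣ (N : ℤ))
    {m : F} (hm : IsIntegral ℤ m) (hm0 : m ≠ 0) {d : ℂ}
    (hd : HasAvg (fun u : 𝓞 F => eT ((m * N ^ 2)⁻¹ * (u : F) ^ 2)) d) :
    ∃ r : ℝ, 0 < r ∧ d = r := by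
  set c : F := (m * N ^ 2)⁻¹ with hc
  have hNF : (N : F) ≠ 0 := by exact_mod_cast hN0
  let B : LinearMap.BilinForm ℚ F := (Algebra.traceForm ℚ F).compLeft (LinearMap.mulLeft ℚ c)
  let Q : QuadraticForm ℚ F := LinearMap.BilinMap.toQuadraticMap B
  have hQ : ∀ x, Q x = Algebra.trace ℚ F (c * x ^ 2) := fun x => by
    simp [Q, B, sq, mul_assoc]
  have hP : ∀ x y, QuadraticMap.polar Q x y = Algebra.trace ℚ F (2 * c * x * y) := fun x y => by
    rw [QuadraticMap.polar, hQ, hQ, hQ, ← map_sub, ← map_sub]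
    congr 1
    ring
  have hθ : (2 * w + 1) ^ 2 = -3 := by linear_combination 4 * hw
  have hθ0 : 2 * w + 1 ≠ 0 := fun h => by
    rw [h] at hθ
    norm_num at hθ
  refine milgram Q (LinearEquiv.ofBijective (LinearMap.mulLeft ℚ (2 * w + 1))
    (mulLeft_bijective₀ _ hθ0)) (a := 3) (by norm_num) (fun x => ?_) (M := (incl F).range) ?_ ?_ ?_
  · change Q ((2 * w + 1) * x) = _
    rw [hQ, hQ, mul_pow, hθ,
      show c * (-3 * x ^ 2) = (-3 : ℚ) • (c * x ^ 2) by rw [Algebra.smul_def]; simp; ring,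
      map_smul, smul_eq_mul]
  · rw [← AddGroup.fg_iff_addSubgroup_fg]
    infer_instance
  · refine ⟨((AddMonoidHom.mulLeft (m * N)).comp (incl F)).range, ?_, fun y hy => ?_⟩
    · rintro _ ⟨u, rfl⟩
      change e (Q (m * N * u)) = 1
      rw [hQ]
      refine eT_int ?_
      rw [show c * (m * N * u) ^ 2 = m * u ^ 2 by rw [hc]; field_simp]
      exact hm.mul (u.isIntegral_coe.pow 2)
    · rw [mem_incl]
      have := nd_eT hN (y := y / N) fun z hz => by
        have h := hy _ ⟨⟨z, hz⟩, rfl⟩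
        change e (QuadraticMap.polar Q y (m * N * z)) = 1 at h
        rw [hP] at h
        rw [eT, ← h]
        congr 2
        rw [hc]
        field_simp
      rwa [mul_div_cancel₀ _ hNF] at this
  · refine (HasAvg.range (incl F) ?_ (φ := fun x => e (Q x)) (hd.congr fun u => ?_))
    · exact RingOfIntegers.coe_injective
    · rw [hQ]
      rfl

theorem finite_of_surj {A : Type} [AddCommGroup A] (p : 𝓞 F →+ A) (hp : Function.Surjective p)
    {m : 𝓞 F} (hm : m ≠ 0) (h : ∀ u, p (m * u) = 0) : Finite A := by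
  have : Finite (𝓞 F ⧸ Ideal.span {m}) :=
    Ideal.finiteQuotientOfFreeOfNeBot _ (by simpa using hm)
  refine Finite.of_surjective (fun q : 𝓞 F ⧸ Ideal.span {m} => p q.out) fun a => ?_
  obtain ⟨u, rfl⟩ := hp a
  refine ⟨Ideal.Quotient.mk _ u, ?_⟩
  obtain ⟨v, hv⟩ := Ideal.mem_span_singleton'.1
    (Ideal.Quotient.eq.1 (Ideal.Quotient.mk_out (Ideal.Quotient.mk (Ideal.span {m}) u)))
  have := h v
  rw [mul_comm, hv, map_sub, sub_eq_zero] at this
  exact this

theorem exists_sq_mul {A : Type} [CommMonoidWithZero A] [WfDvdMonoid A] (a : A) (ha : a ≠ 0) :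
    ∃ b d, a = b ^ 2 * d ∧ Squarefree d := by
  induction a using (wellFounded_dvdNotUnit (α := A)).induction with
  | _ a ih =>
    by_cases hs : Squarefree a
    · exact ⟨1, a, by simp, hs⟩
    · simp only [Squarefree, not_forall] at hs
      obtain ⟨x, ⟨a', rfl⟩, hx⟩ := hs
      have ha' : a' ≠ 0 := right_ne_zero_of_mul ha
      obtain ⟨b, d, h1, h2⟩ := ih a' ⟨ha', x * x, fun h => hx (isUnit_of_mul_isUnit_left h),
        mul_comm _ _⟩ ha'
      refine ⟨x * b, d, ?_, h2⟩
      rw [h1, mul_pow, sq x, mul_assoc (x * x)]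

end Crest.Agent.T27.G58
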