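import Mathlib
import Crest.Agent.T27.HeckeE_87

/-!
# Row 27, Hecke integral, part H (helper87): radial Poisson summation, class by class

`Kr K` is the average of the Gaussian over the torus against the self-dual weight
`om v = exp (-v² + v/2)`; `heckePoi` is Poisson summation for unit invariant periodic functions,
written as sums over integral ideals.
-/

set_option autoImplicit false
set_option linter.unusedSectionVars false

noncomputable section

open MeasureTheory Complex Set Filter Topology NumberField Module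
open NumberField.Units IsDedekindDomain NumberField.Units.dirichletUnitTheorem
open NumberField.mixedEmbedding.fundamentalCone
open scoped Real ComplexConjugate nonZeroDivisors
open Crest.Agent.T27.HeckeA87 Crest.Agent.T27.HeckeB87 Crest.Agent.T27.HeckeC87
open Crest.Agent.T27.HeckeD87 Crest.Agent.T27.HeckeE87

namespace Crest.Agent.T27.HeckeH87

theorem hasSum_congr {ι : Type*} {f g : ι → ℂ} {a : ℂ}
    (h : HasSum f a) (e : ∀ i, g i = f i) : HasSum g a := (funext e : g = f) ▸ h

variable {K : Type*} [Field K] [NumberField K]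

/-! ### unfolding against a general radial weight -/

/-- the radial kernel of a weight -/
def KW (K : Type*) [Field K] [NumberField K] (W : ℝ → ℂ) (x : ℝ) : ℂ :=
  torsionOrder K * ∫ c : X K, (gs (tt c) (1 : K) : ℝ) * W (ll c - Real.log x)

section weight

variable {W : ℝ → ℂ} {C σ : ℝ}

theorem norm_kW_le (hb : ∀ v, ‖W v‖ ≤ C * Real.exp (σ * v)) (x : K) (c : X K) :
    ‖((gs (tt c) x : ℝ) : ℂ) * W (ll c)‖ ≤ C * (gs (tt c) x * Real.exp (σ * ll c)) := by
  rw [norm_mul, Complex.norm_real, Real.norm_of_nonneg (gs_pos _ _).le, mul_left_comm]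
  exact mul_le_mul_of_nonneg_left (hb _) (gs_pos _ _).le

theorem integrable_gs_exp (hσ : 0 < σ) {x : K} (hx : x ≠ 0) :
    Integrable fun c : X K => gs (tt c) x * Real.exp (σ * ll c) := by
  have h1 := (integrable_ker (s := σ) (by simpa using hσ) hx).norm
  simpa only [norm_ker, ofReal_re] using h1

theorem integrable_kW (hW : Measurable W) (hσ : 0 < σ) (hb : ∀ v, ‖W v‖ ≤ C * Real.exp (σ * v))
    {x : K} (hx : x ≠ 0) : Integrable fun c : X K => ((gs (tt c) x : ℝ) : ℂ) * W (ll c) := by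
  refine Integrable.mono' ((integrable_gs_exp hσ hx).const_mul C) ?_
    (Eventually.of_forall (norm_kW_le hb x))
  exact ((Complex.continuous_ofReal.comp (continuous_gs x)).measurable.mul
    (hW.comp measurable_ll)).aestronglyMeasurable

theorem integral_kW (W : ℝ → ℂ) {x : K} (hx : x ≠ 0) :
    torsionOrder K * ∫ c : X K, ((gs (tt c) x : ℝ) : ℂ) * W (ll c) =
      KW K W (|Algebra.norm ℚ x| : ℚ) := by
  rw [KW, ← integral_add_right_eq_self
    (fun c : X K => ((gs (tt c) (1 : K) : ℝ) : ℂ) * W (ll c - Real.log (|Algebra.norm ℚ x| : ℚ)))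
    (lg x)]
  congr 2
  funext c
  rw [← gs_mul c hx, mul_one, ll_add, ll_lg hx, add_sub_cancel_right]

theorem hasSum_fibre_kW {D : Set (X K)} (hD : IsFD D) (J : FI K) (hW : Measurable W) (hσ : 0 < σ)
    (hb : ∀ v, ‖W v‖ ≤ C * Real.exp (σ * v)) (A : Ideal (𝓞 K)) :
    HasSum (fun y : pj J ⁻¹' {A} => ∫ c in D, ((gs (tt c) (y.1 : K) : ℝ) : ℂ) * W (ll c))
      ((Pr J).indicator (fun A => KW K W (Ideal.absNorm A * nm J)) A) := by
  by_cases hA : A ∈ Pr J
  · obtain ⟨x, hx, rfl⟩ := Pr.exists hA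
    rw [indicator_of_mem hA, ← (fibEquiv hx).hasSum_iff, ← norm_idl hx.1, ← integral_kW W hx.2]
    have h1 := hD.hasSum_units (integrable_kW hW hσ hb hx.2)
    have h2 : ∀ (u : (𝓞 K)ˣ) (c : X K), ((gs (tt (c + lg (u : K))) x : ℝ) : ℂ) *
        W (ll (c + lg (u : K))) = ((gs (tt c) ((u : K) * x) : ℝ) : ℂ) * W (ll c) := by
      intro u c
      rw [gs_mul c (Units.coe_ne_zero u), ll_add, ll_lg (Units.coe_ne_zero u), Units.norm]
      simp
    simp only [h2] at h1
    exact h1
  · rw [indicator_of_notMem hA]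
    have : IsEmpty (pj J ⁻¹' {A}) := ⟨fun y => hA (by
      have h1 : idl J y.1.1 = A := y.2
      rw [← h1]
      exact idl_mem_Pr y.1.2)⟩
    exact hasSum_empty

/-- **Radial unfolding.** -/
theorem unfold_th {D : Set (X K)} (hD : IsFD D) (J : FI K) (hW : Measurable W) (hσ : 1 < σ)
    (hb : ∀ v, ‖W v‖ ≤ C * Real.exp (σ * v)) {ψ : Ideal (𝓞 K) → ℂ} {φ : K → ℂ} {B : ℝ}
    (hB : ∀ x ∈ nz J, ‖φ x‖ ≤ B) (hφ : ∀ x ∈ nz J, φ x = ψ (idl J x)) :
    IntegrableOn (fun c => th J φ c * W (ll c)) D ∧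
    HasSum (fun A => (Pr J).indicator (fun A => ψ A * KW K W (Ideal.absNorm A * nm J)) A)
      (∫ c in D, th J φ c * W (ll c)) := by
  have hσ0 : 0 < σ := by linarith
  have h1 : (fun c => th J φ c * W (ll c)) =
      fun c => ∑' x : nz J, φ x * (((gs (tt c) (x : K) : ℝ) : ℂ) * W (ll c)) := by
    funext c
    rw [th, ← tsum_mul_right]
    simp only [mul_assoc]
  have hi : ∀ x : nz J, Integrable (fun c => φ x * (((gs (tt c) (x : K) : ℝ) : ℂ) * W (ll c)))
      (volume.restrict D) := fun x => ((integrable_kW hW hσ0 hb x.2.2).const_mul _).integrableOn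
  have hs : Summable fun x : nz J =>
      ∫ c in D, ‖φ x * (((gs (tt c) (x : K) : ℝ) : ℂ) * W (ll c))‖ := by
    refine Summable.of_nonneg_of_le (fun x => integral_nonneg fun c => norm_nonneg _)
      (fun x => ?_) ((summable_int_ker hD J hσ).mul_left (B * C))
    rw [← integral_const_mul]
    refine integral_mono (hi x).norm
      ((integrable_gs_exp hσ0 x.2.2).const_mul _).integrableOn fun c => ?_
    simp only
    rw [norm_mul, mul_assoc]
    exact mul_le_mul (hB _ x.2) (norm_kW_le hb _ c) (norm_nonneg _)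
      ((norm_nonneg _).trans (hB _ x.2))
  have hm : Measurable fun c => th J φ c * W (ll c) :=
    (measurable_th J φ).mul (hW.comp measurable_ll)
  rw [h1] at hm ⊢
  refine ⟨integrable_tsum hm.aestronglyMeasurable hi hs, ?_⟩
  have h2 := (hasSum_integral_of_summable_integral_norm hi hs).tsum_fiberwise (pj J)
  refine hasSum_congr h2 fun A => ?_
  have h3 := (hasSum_fibre_kW hD J hW hσ0 hb A).mul_left (ψ A)
  have h4 : ∀ y : pj J ⁻¹' {A}, ∫ c in D, φ y.1 * (((gs (tt c) (y.1 : K) : ℝ) : ℂ) * W (ll c)) =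
      ψ A * ∫ c in D, ((gs (tt c) (y.1 : K) : ℝ) : ℂ) * W (ll c) := by
    intro y
    have h5 : idl J y.1 = A := y.2
    rw [hφ _ y.1.2, h5, integral_const_mul]
  simp only [h4]
  rw [h3.tsum_eq]
  by_cases hA : A ∈ Pr J
  · rw [indicator_of_mem hA, indicator_of_mem hA]
  · rw [indicator_of_notMem hA, indicator_of_notMem hA, mul_zero]

end weight

theorem integral_D0_comp {g : ℝ → ℂ} (hg : Integrable g) :
    IntegrableOn (fun c : X K => g (ll c)) (D0 K) ∧
    ∫ c in D0 K, g (ll c) = ((finrank ℚ K : ℝ)⁻¹ : ℝ) * ∫ v, g v := by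
  classical
  have hn := finrank_pos' (K := K)
  let f : InfinitePlace K → ℝ → ℂ := fun w x =>
    if w = w₀ then g (finrank ℚ K * x) else (Ico (0 : ℝ) 1).indicator (fun _ => (1 : ℂ)) x
  have h1 : (D0 K).indicator (fun c : X K => g (ll c)) = fun c => ∏ w, f w (c w) := by
    funext c
    by_cases hc : c ∈ D0 K
    · rw [indicator_of_mem hc, Finset.prod_eq_single w₀]
      · simp only [f, if_true, ll]
      · intro w _ hw
        simp only [f, if_neg hw, indicator_of_mem (hc w hw)]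
      · simp
    · rw [indicator_of_notMem hc, eq_comm, Finset.prod_eq_zero_iff]
      simp only [D0, mem_ofPred_eq, not_forall] at hc
      obtain ⟨w, hw, h3⟩ := hc
      exact ⟨w, Finset.mem_univ _, by simp only [f, if_neg hw, indicator_of_notMem h3]⟩
  refine ⟨?_, ?_⟩
  · rw [← integrable_indicator_iff isFD_D0.meas, h1]
    refine Integrable.fintype_prod (f := f) (μ := fun _ => volume) fun w => ?_
    by_cases hw : w = w₀
    · simp only [f, if_pos hw]
      exact hg.comp_mul_left' hn.ne'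
    · simp only [f, if_neg hw]
      exact (integrable_indicator_iff measurableSet_Ico).2 (by simp)
  · rw [← integral_indicator isFD_D0.meas, h1, integral_fintype_prod_volume_eq_prod,
      Finset.prod_eq_single w₀]
    · simp only [f, if_true]
      rw [Measure.integral_comp_mul_left g, abs_of_pos (inv_pos.2 hn), Complex.real_smul]
    · intro w _ hw
      simp only [f, if_neg hw]
      rw [integral_indicator measurableSet_Ico]
      simp
    · simp

/-! ### the self-dual weight -/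

/-- the self-dual weight -/
def om (v : ℝ) : ℝ := Real.exp (-v ^ 2 + v / 2)

theorem om_pos (v : ℝ) : 0 < om v := Real.exp_pos _

theorem continuous_om : Continuous om := by
  unfold om
  fun_prop

theorem om_le (A v : ℝ) : om v ≤ Real.exp ((1 / 2 - A) ^ 2 / 4) * Real.exp (A * v) := by
  rw [om, ← Real.exp_add, Real.exp_le_exp]
  nlinarith [sq_nonneg (v - (1 / 2 - A) / 2)]

theorem om_neg (v a : ℝ) : Real.exp (-v) * om (v + a) = Real.exp a * om (-v - a) := by
  rw [om, om, ← Real.exp_add, ← Real.exp_add]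
  congr 1
  ring

theorem integrable_om : Integrable om := by
  have h1 := ((integrable_exp_neg_mul_sq one_pos).comp_sub_right (1 / 4 : ℝ)).const_mul
    (Real.exp (1 / 16))
  refine h1.congr (Eventually.of_forall fun v => ?_)
  simp only [om, ← Real.exp_add]
  congr 1
  ring

theorem norm_om_le (A a v : ℝ) : ‖((om (v + a) : ℝ) : ℂ)‖ ≤
    Real.exp ((1 / 2 - A) ^ 2 / 4) * Real.exp (A * a) * Real.exp (A * v) := by
  rw [Complex.norm_real, Real.norm_of_nonneg (om_pos _).le, mul_assoc, ← Real.exp_add (A * a),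
    ← mul_add, add_comm a v]
  exact om_le A _

theorem measurable_om (a : ℝ) : Measurable fun v => ((om (v + a) : ℝ) : ℂ) := by
  have h := continuous_om
  fun_prop

/-- the radial kernel -/
def Kr (K : Type*) [Field K] [NumberField K] (x : ℝ) : ℝ :=
  torsionOrder K * ∫ c : X K, gs (tt c) (1 : K) * om (ll c - Real.log x)

/-- the weight of the zero term -/
def Vr (K : Type*) [Field K] [NumberField K] : ℝ := (finrank ℚ K : ℝ)⁻¹ * ∫ v, om v

theorem Vr_pos : 0 < Vr K := by
  refine mul_pos (inv_pos.2 finrank_pos') ?_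
  rw [integral_pos_iff_support_of_nonneg (fun v => (om_pos v).le) integrable_om]
  have : Function.support om = univ := eq_univ_of_forall fun v => (om_pos v).ne'
  rw [this]
  simp

theorem KW_om (a : ℝ) {x : ℝ} (hx : 0 < x) :
    KW K (fun v => ((om (v + a) : ℝ) : ℂ)) x = Kr K (x * Real.exp (-a)) := by
  rw [KW, Kr, Real.log_mul hx.ne' (Real.exp_pos _).ne', Real.log_exp, Complex.ofReal_mul,
    ← integral_complex_ofReal]
  congr 2
  funext c
  rw [Complex.ofReal_mul]
  congr 3
  ring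

theorem integrable_Kr (a : ℝ) : Integrable fun c : X K => gs (tt c) (1 : K) * om (ll c - a) := by
  have h1 := (integrable_kW (K := K) (measurable_om (-a)) one_pos (norm_om_le 1 (-a))
    one_ne_zero).re
  simpa [sub_eq_add_neg] using h1

theorem Kr_pos (x : ℝ) : 0 < Kr K x := by
  refine mul_pos (Nat.cast_pos.2 (torsionOrder_pos K)) ?_
  rw [integral_pos_iff_support_of_nonneg (fun c => (mul_pos (gs_pos _ _) (om_pos _)).le)
    (integrable_Kr _)]
  have : Function.support (fun c : X K => gs (tt c) (1 : K) * om (ll c - Real.log x)) = univ :=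
    eq_univ_of_forall fun c => (mul_pos (gs_pos _ _) (om_pos _)).ne'
  rw [this]
  exact isOpen_univ.measure_pos volume univ_nonempty

theorem Kr_le {A : ℝ} (hA : 0 < A) : ∃ C : ℝ, 0 < C ∧ ∀ x : ℝ, 0 < x → Kr K x ≤ C * x ^ (-A) := by
  have hi := integrable_gs_exp (K := K) hA one_ne_zero
  have h0 : 0 ≤ ∫ c : X K, gs (tt c) (1 : K) * Real.exp (A * ll c) :=
    integral_nonneg fun c => mul_nonneg (gs_pos _ _).le (Real.exp_pos _).le
  refine ⟨torsionOrder K * (Real.exp ((1 / 2 - A) ^ 2 / 4) *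
    ∫ c : X K, gs (tt c) (1 : K) * Real.exp (A * ll c)) + 1, by positivity, fun x hx => ?_⟩
  have h1 : ∫ c : X K, gs (tt c) (1 : K) * om (ll c - Real.log x) ≤
      ∫ c : X K, Real.exp ((1 / 2 - A) ^ 2 / 4) * x ^ (-A) *
        (gs (tt c) (1 : K) * Real.exp (A * ll c)) := by
    refine integral_mono (integrable_Kr _) (hi.const_mul _) fun c => ?_
    have h2 := mul_le_mul_of_nonneg_left (om_le A (ll c - Real.log x)) (gs_pos (tt c) (1 : K)).le
    refine h2.trans (le_of_eq ?_)
    rw [Real.rpow_def_of_pos hx, mul_sub, sub_eq_add_neg (A * ll c), Real.exp_add]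
    ring_nf
  rw [integral_const_mul] at h1
  have h3 := Real.rpow_pos_of_pos hx (-A)
  calc Kr K x ≤ torsionOrder K * (Real.exp ((1 / 2 - A) ^ 2 / 4) * x ^ (-A) *
        ∫ c : X K, gs (tt c) (1 : K) * Real.exp (A * ll c)) :=
        mul_le_mul_of_nonneg_left h1 (Nat.cast_nonneg _)
    _ ≤ _ := by nlinarith

open Classical in
/-- the scalar direction -/
def sh (ξ : ℝ) : X K := Pi.single w₀ (ξ / finrank ℚ K)

theorem ll_sh (ξ : ℝ) : ll (sh ξ : X K) = ξ := by
  classical
  rw [ll, sh, Pi.single_eq_same, mul_div_cancel₀ _ finrank_pos'.ne']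

theorem tt_add_sh (c : X K) (ξ : ℝ) (w : InfinitePlace K) :
    tt (c + sh ξ) w = tt c w * Real.exp (2 * (ξ / finrank ℚ K)) := by
  classical
  have h1 : LL (sh ξ : X K) w = ξ / finrank ℚ K * w.mult := by
    rw [LL, Basis.equivFun_symm_apply, Finset.sum_eq_single w₀, sh, Pi.single_eq_same,
      completeBasis_apply_of_eq, Pi.smul_apply, smul_eq_mul]
    · intro v _ hv
      rw [sh, Pi.single_eq_of_ne hv, zero_smul]
    · simp
  rw [tt, tt, map_add, Pi.add_apply, h1, add_div, mul_div_cancel_right₀ _ (mult_pos' w).ne',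
    mul_add, Real.exp_add]

theorem Kr_antitoneOn : AntitoneOn (Kr K) (Ioi 0) := by
  intro x hx y _ hxy
  refine mul_le_mul_of_nonneg_left ?_ (Nat.cast_nonneg _)
  have h1 : ∀ a : ℝ, ∫ c : X K, gs (tt c) (1 : K) * om (ll c - a) =
      ∫ c : X K, gs (tt (c + sh a)) (1 : K) * om (ll c) := by
    intro a
    rw [← integral_add_right_eq_self (fun c : X K => gs (tt c) (1 : K) * om (ll c - a)) (sh a)]
    simp only [ll_add, ll_sh, add_sub_cancel_right]
  have h2 : ∀ a : ℝ, Integrable fun c : X K => gs (tt (c + sh a)) (1 : K) * om (ll c) := by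
    intro a
    have h3 := (integrable_Kr (K := K) a).comp_add_right (sh a)
    simpa only [ll_add, ll_sh, add_sub_cancel_right] using h3
  rw [h1, h1]
  refine integral_mono (h2 _) (h2 _) fun c => mul_le_mul_of_nonneg_right ?_ (om_pos _).le
  rw [gs_eq, gs_eq, Real.exp_le_exp, neg_le_neg_iff]
  refine mul_le_mul_of_nonneg_left (Finset.sum_le_sum fun w _ => ?_) Real.pi_pos.le
  have h4 := Real.log_le_log hx hxy
  have h5 := tt_pos c w
  have h6 := finrank_pos' (K := K)
  rw [tt_add_sh, tt_add_sh]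
  gcongr

/-! ### Poisson summation -/

/-- the finite Fourier transform -/
def fhat (R : Finset K) (φ : K → ℂ) (y : K) : ℂ :=
  ∑ r ∈ R, φ r * cexp (2 * π * I * ((Algebra.trace ℚ K (r * y) : ℚ) : ℂ))

theorem norm_eTr (x : K) : ‖cexp (2 * π * I * ((Algebra.trace ℚ K x : ℚ) : ℂ))‖ = 1 := by
  rw [Complex.norm_exp, ← Complex.ofReal_ratCast]
  simp

theorem norm_fhat_le {R : Finset K} {φ : K → ℂ} {B : ℝ} (h : ∀ r ∈ R, ‖φ r‖ ≤ B) (y : K) :
    ‖fhat R φ y‖ ≤ R.card * B := by
  rw [← nsmul_eq_mul]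
  refine (norm_sum_le _ _).trans (Finset.sum_le_card_nsmul _ _ _ fun r hr => ?_)
  rw [norm_mul, norm_eTr, mul_one]
  exact h r hr

theorem summable_mul_gs (J : FI K) {φ : K → ℂ} {B : ℝ} (hB : ∀ x ∈ el J, ‖φ x‖ ≤ B) (c : X K) :
    Summable fun x : el J => φ x * ((gs (tt c) (x : K) : ℝ) : ℂ) := by
  have h1 := summable_gs J (tt_pos c) 0
  simp only [zero_add] at h1
  refine Summable.of_norm_bounded (h1.mul_left B) fun x => ?_
  rw [norm_mul, Complex.norm_real, Real.norm_of_nonneg (gs_pos _ _).le]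
  exact mul_le_mul_of_nonneg_right (hB _ x.2) (gs_pos _ _).le

/-- theta inversion for periodic functions -/
theorem theta_per {J J' : FI K} {R : Finset K} (h : IsReps J J' R) {φ : K → ℂ} {B : ℝ}
    (hB : ∀ x ∈ el J, ‖φ x‖ ≤ B) (hp : ∀ x ∈ el J, ∀ y ∈ el J', φ (x + y) = φ x) (c : X K) :
    φ 0 + th J φ c = (((cov J')⁻¹ * Real.exp (-ll c) : ℝ) : ℂ) *
      (fhat R φ 0 + th (dl J') (fhat R φ) (-c)) := by
  have hs := summable_mul_gs J hB c
  have hs' := summable_mul_gs (dl J') (φ := fhat R φ)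
    (fun y _ => norm_fhat_le (fun r hr => hB r (h.mem r hr)) y) (-c)
  have h1 := tsum_el J (f := fun x => φ x * ((gs (tt c) x : ℝ) : ℂ)) hs
  have h1' := tsum_el (dl J') (f := fun y => fhat R φ y * ((gs (tt (-c)) y : ℝ) : ℂ)) hs'
  rw [gs_zero, Complex.ofReal_one, mul_one] at h1 h1'
  have h2 : ∑' x : el J, φ x * ((gs (tt c) (x : K) : ℝ) : ℂ) =
      ∑ r ∈ R, φ r * ∑' y : el J', ((gs (tt c) (r + y) : ℝ) : ℂ) := by
    have h0 : Summable fun p : R × el J' => φ (repsEquiv h p : el J) *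
        ((gs (tt c) ((repsEquiv h p : el J) : K) : ℝ) : ℂ) := (repsEquiv h).summable_iff.2 hs
    rw [← (repsEquiv h).tsum_eq, h0.tsum_prod, tsum_fintype, ← Finset.sum_coe_sort R]
    refine Finset.sum_congr rfl fun r _ => ?_
    rw [← tsum_mul_left]
    refine tsum_congr fun y => ?_
    show φ (r.1 + y.1) * _ = _
    rw [hp _ (h.mem _ r.2) _ y.2]
    rfl
  have h3 := hasSum_sum (s := R) fun r _ => (theta_coset J' (tt_pos c) r).mul_left (φ r)
  rw [sqrt_prod_tt, ← tt_neg] at h3
  rw [th, th, ← h1, ← h1', h2, ← h3.tsum_eq, ← tsum_mul_left]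
  refine tsum_congr fun y => ?_
  rw [fhat, Finset.sum_mul, Finset.mul_sum]
  refine Finset.sum_congr rfl fun r _ => ?_
  rw [Real.exp_neg, mul_inv]
  push_cast
  ring

theorem hasSum_Kr {D : Set (X K)} (hD : IsFD D) (J : FI K) {ψ : Ideal (𝓞 K) → ℂ} {φ : K → ℂ}
    {B : ℝ} (hB : ∀ x ∈ nz J, ‖φ x‖ ≤ B) (hφ : ∀ x ∈ nz J, φ x = ψ (idl J x)) (a : ℝ) :
    IntegrableOn (fun c => th J φ c * (om (ll c + a) : ℝ)) D ∧
    HasSum (fun A => (Pr J).indicator
      (fun A => ψ A * (Kr K (Ideal.absNorm A * nm J * Real.exp (-a)) : ℝ)) A)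
      (∫ c in D, th J φ c * (om (ll c + a) : ℝ)) := by
  obtain ⟨h1, h2⟩ := unfold_th hD J (measurable_om a) one_lt_two (norm_om_le 2 a) hB hφ
  refine ⟨h1, ?_⟩
  convert h2 using 2 with A
  by_cases hA : A ∈ Pr J
  · rw [indicator_of_mem hA, indicator_of_mem hA, KW_om]
    have : Ideal.absNorm A ≠ 0 := by
      rw [Ne, Ideal.absNorm_eq_zero_iff]
      exact hA.1
    have h3 := nm_pos J
    positivity
  · rw [indicator_of_notMem hA, indicator_of_notMem hA]

theorem integral_om (a : ℝ) : IntegrableOn (fun c : X K => ((om (ll c + a) : ℝ) : ℂ)) (D0 K) ∧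
    ∫ c in D0 K, ((om (ll c + a) : ℝ) : ℂ) = Vr K := by
  obtain ⟨h1, h2⟩ := integral_D0_comp (K := K) (g := fun v => ((om (v + a) : ℝ) : ℂ))
    (integrable_om.comp_add_right a).ofReal
  refine ⟨h1, ?_⟩
  rw [h2, integral_complex_ofReal, integral_add_right_eq_self om a, Vr, Complex.ofReal_mul]

theorem integral_om' (a : ℝ) :
    IntegrableOn (fun c : X K => ((om (ll (-c) + a) : ℝ) : ℂ)) (D0 K) ∧
    ∫ c in D0 K, ((om (ll (-c) + a) : ℝ) : ℂ) = Vr K := by
  obtain ⟨h1, h2⟩ := integral_D0_comp (K := K) (g := fun v => ((om (-v + a) : ℝ) : ℂ))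
    (integrable_om.comp_add_right a).comp_neg.ofReal
  simp only [ll_neg]
  refine ⟨h1, ?_⟩
  rw [h2, integral_complex_ofReal, integral_neg_eq_self (fun v => om (v + a)),
    integral_add_right_eq_self om a, Vr, Complex.ofReal_mul]

theorem summable_Kr (J : FI K) {t : ℝ} (ht : 0 < t) :
    Summable fun A : Ideal (𝓞 K) => (Pr J).indicator (fun A => Kr K (Ideal.absNorm A * t)) A := by
  obtain ⟨C, hC, h⟩ := Kr_le (K := K) two_pos
  refine Summable.of_nonneg_of_le (fun A => indicator_nonneg (fun _ _ => (Kr_pos _).le) A)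
    (fun A => ?_) ((summable_ideal (K := K) one_lt_two).mul_left (C * t ^ (-2 : ℝ)))
  by_cases hA : A ∈ Pr J
  · have h0 : (0 : ℝ) < Ideal.absNorm A := by
      have : Ideal.absNorm A ≠ 0 := by
        rw [Ne, Ideal.absNorm_eq_zero_iff]
        exact hA.1
      positivity
    rw [indicator_of_mem hA]
    refine (h _ (mul_pos h0 ht)).trans (le_of_eq ?_)
    rw [Real.mul_rpow h0.le ht.le]
    ring
  · rw [indicator_of_notMem hA]
    positivity

/-- **Radial Poisson summation**, for one ideal class. -/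
theorem heckePoi {J J' : FI K} {R : Finset K} (h : IsReps J J' R) {ψ ψ' : Ideal (𝓞 K) → ℂ}
    {φ : K → ℂ} (hB : ∃ B, ∀ x ∈ el J, ‖φ x‖ ≤ B)
    (hp : ∀ x ∈ el J, ∀ y ∈ el J', φ (x + y) = φ x) (hφ : ∀ x ∈ nz J, φ x = ψ (idl J x))
    (hφ' : ∀ y ∈ nz (dl J'), fhat R φ y = ψ' (idl (dl J') y)) {Y : ℝ} (hY : 0 < Y) :
    (Vr K : ℂ) * φ 0 + ∑' A, (Pr J).indicator
        (fun A => ψ A * (Kr K (Ideal.absNorm A * nm J / Y) : ℝ)) A =
      ((Y / cov J' : ℝ) : ℂ) * ((Vr K : ℂ) * fhat R φ 0 + ∑' A, (Pr (dl J')).indicator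
        (fun A => ψ' A * (Kr K (Y * (Ideal.absNorm A * nm (dl J'))) : ℝ)) A) := by
  obtain ⟨B, hB⟩ := hB
  obtain ⟨i1, s1⟩ := hasSum_Kr isFD_D0 J (fun x hx => hB x hx.1) hφ (Real.log Y)
  obtain ⟨i2, s2⟩ := hasSum_Kr isFD_D0.neg (dl J')
    (fun y _ => norm_fhat_le (fun r hr => hB r (h.mem r hr)) y) hφ' (-Real.log Y)
  obtain ⟨i3, s3⟩ := integral_om (K := K) (Real.log Y)
  obtain ⟨i4, s4⟩ := integral_om' (K := K) (-Real.log Y)
  rw [Real.exp_neg, Real.exp_log hY] at s1
  rw [neg_neg, Real.exp_log hY] at s2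
  simp only [← div_eq_mul_inv] at s1
  simp only [mul_comm _ Y] at s2
  have i5 := i2.comp_neg
  rw [neg_neg] at i5
  have h3 := (Measure.measurePreserving_neg (volume : Measure (X K))).setIntegral_preimage_emb
    (MeasurableEquiv.neg (X K)).measurableEmbedding
    (fun c => th (dl J') (fhat R φ) c * (om (ll c + -Real.log Y) : ℝ)) (-D0 K)
  have h4 : (Neg.neg ⁻¹' (-D0 K) : Set (X K)) = D0 K := by
    ext c
    simp
  rw [h4] at h3
  rw [s1.tsum_eq, s2.tsum_eq, ← h3]
  conv_lhs => rw [← s3]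
  conv_rhs => rw [← s4]
  rw [← integral_mul_const, ← integral_mul_const, ← integral_add (i3.mul_const _) i1,
    ← integral_add (i4.mul_const _) i5, ← integral_const_mul]
  refine integral_congr_ae (Eventually.of_forall fun c => ?_)
  have h5 := theta_per h hB hp c
  have h6 := om_neg (ll c) (Real.log Y)
  rw [Real.exp_log hY, ← ll_neg, sub_eq_add_neg] at h6
  have h7 := congrArg (fun x : ℝ => (x : ℂ)) h6
  simp only [Complex.ofReal_mul] at h7 h5
  rw [← ll_neg] at h5
  simp only [div_eq_mul_inv, Complex.ofReal_mul]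
  linear_combination (om (ll c + Real.log Y) : ℂ) * h5 +
    (((cov J')⁻¹ : ℝ) : ℂ) * (fhat R φ 0 + th (dl J') (fhat R φ) (-c)) * h7

end Crest.Agent.T27.HeckeH87
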