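import Mathlib

/-!
# Row 27, kernel (A): unfolding on a commutative group with an invariant measure

`U` is a countable group mapping to `G` by `lam`; a weight `ϖ` has `∑_u ϖ (g + lam u) = 1`.
`RD` is the abstract data of a radial Poisson formula.
-/

set_option autoImplicit false
set_option linter.unusedSectionVars false

noncomputable section

namespace Crest.Agent.T27.Ker65

open MeasureTheory
open scoped ENNReal

variable {G : Type*} [AddCommGroup G] [MeasurableSpace G] [MeasurableAdd G] [MeasurableNeg G]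
  {μ : Measure G} [μ.IsAddLeftInvariant] [μ.IsNegInvariant]
  {U : Type*} [CommGroup U] [Countable U] {lam : U → G}

/-- weights for the action of `U` by translations -/
structure IsW (lam : U → G) (ϖ : G → ℝ) : Prop where
  mul : ∀ u v, lam (u * v) = lam u + lam v
  meas : Measurable ϖ
  nonneg : ∀ g, 0 ≤ ϖ g
  sum : ∀ g, HasSum (fun u => ϖ (g + lam u)) 1

namespace IsW

variable {ϖ ϖ' : G → ℝ}

theorem lam_one (h : IsW lam ϖ) : lam 1 = 0 := by
  have := h.mul 1 1
  rw [mul_one] at this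
  exact left_eq_add.1 this

theorem lam_inv (h : IsW lam ϖ) (u : U) : lam u⁻¹ = -lam u := by
  have := h.mul u u⁻¹
  rw [mul_inv_cancel, h.lam_one] at this
  exact (neg_eq_of_add_eq_zero_right this.symm).symm

theorem sum_sub (h : IsW lam ϖ) (g : G) : HasSum (fun u => ϖ (g - lam u)) 1 := by
  have := (Equiv.inv U).hasSum_iff.2 (h.sum g)
  simpa only [Function.comp_def, Equiv.inv_apply, h.lam_inv, ← sub_eq_add_neg] using this

theorem le_one (h : IsW lam ϖ) (g : G) : ϖ g ≤ 1 := by
  have := le_hasSum (h.sum g) 1 fun _ _ => h.nonneg _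
  rwa [h.lam_one, add_zero] at this

theorem shift (h : IsW lam ϖ) (g₀ : G) : IsW lam fun g => ϖ (g + g₀) :=
  ⟨h.mul, h.meas.comp (measurable_add_const g₀), fun _ => h.nonneg _, fun g => by
    simpa only [add_right_comm] using h.sum (g + g₀)⟩

theorem refl (h : IsW lam ϖ) (g₀ : G) : IsW lam fun g => ϖ (g₀ - g) :=
  ⟨h.mul, h.meas.comp (measurable_id.const_sub g₀),
    fun _ => h.nonneg _, fun g => by simpa only [← sub_sub] using h.sum_sub (g₀ - g)⟩

theorem lsum (h : IsW lam ϖ) (g : G) : ∑' u, ENNReal.ofReal (ϖ (g - lam u)) = 1 := by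
  rw [← ENNReal.ofReal_tsum_of_nonneg (fun _ => h.nonneg _) (h.sum_sub g).summable,
    (h.sum_sub g).tsum_eq, ENNReal.ofReal_one]

theorem lunfold (h : IsW lam ϖ) {F : G → ℝ≥0∞} (hF : Measurable F) :
    ∑' u, ∫⁻ g, ENNReal.ofReal (ϖ g) * F (g + lam u) ∂μ = ∫⁻ g, F g ∂μ := by
  have h1 : ∀ u, ∫⁻ g, ENNReal.ofReal (ϖ g) * F (g + lam u) ∂μ =
      ∫⁻ g, ENNReal.ofReal (ϖ (g - lam u)) * F g ∂μ := fun u => by
    rw [← lintegral_add_right_eq_self (fun g => ENNReal.ofReal (ϖ (g - lam u)) * F g) (lam u)]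
    simp only [add_sub_cancel_right]
  simp only [h1]
  rw [← lintegral_tsum (f := fun u g => ENNReal.ofReal (ϖ (g - lam u)) * F g)
    fun u => ((h.meas.comp (measurable_sub_const _)).ennreal_ofReal.mul hF).aemeasurable]
  simp only [ENNReal.tsum_mul_right, h.lsum, one_mul]

theorem lindep (h : IsW lam ϖ) (h' : IsW lam ϖ') {a : G → ℝ≥0∞} (ha : Measurable a)
    (hi : ∀ g u, a (g + lam u) = a g) :
    ∫⁻ g, ENNReal.ofReal (ϖ g) * a g ∂μ = ∫⁻ g, ENNReal.ofReal (ϖ' g) * a g ∂μ := by
  rw [← h.lunfold (F := fun g => ENNReal.ofReal (ϖ' g) * a g) (h'.meas.ennreal_ofReal.mul ha),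
    ← lintegral_tsum (f := fun u g => ENNReal.ofReal (ϖ g) *
      (ENNReal.ofReal (ϖ' (g + lam u)) * a (g + lam u)))
      fun u => (h.meas.ennreal_ofReal.mul ((h'.meas.ennreal_ofReal.mul ha).comp
      (measurable_add_const _))).aemeasurable]
  refine lintegral_congr fun g => ?_
  simp only [hi]
  rw [ENNReal.tsum_mul_left, ENNReal.tsum_mul_right,
    ← ENNReal.ofReal_tsum_of_nonneg (fun _ => h'.nonneg _) (h'.sum g).summable,
    (h'.sum g).tsum_eq, ENNReal.ofReal_one, one_mul]

theorem integrable_mul (h : IsW lam ϖ) {F : G → ℂ} (hF : Integrable F μ) (u : U) :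
    Integrable (fun g => (ϖ g : ℂ) * F (g + lam u)) μ :=
  (hF.comp_add_right (lam u)).bdd_mul (c := 1)
    (Complex.measurable_ofReal.comp h.meas).aestronglyMeasurable (Filter.Eventually.of_forall
      fun g => by rw [Complex.norm_real, Real.norm_of_nonneg (h.nonneg g)]; exact h.le_one g)

theorem unfold (h : IsW lam ϖ) {F : G → ℂ} (hF : Integrable F μ) :
    HasSum (fun u => ∫ g, (ϖ g : ℂ) * F (g + lam u) ∂μ) (∫ g, F g ∂μ) := by
  have h1 : ∀ u, ∫ g, (ϖ g : ℂ) * F (g + lam u) ∂μ = ∫ g, (ϖ (g - lam u) : ℂ) * F g ∂μ := fun u => by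
    rw [← integral_add_right_eq_self (fun g => (ϖ (g - lam u) : ℂ) * F g) (lam u)]
    simp only [add_sub_cancel_right]
  have h2 : ∀ u, Integrable (fun g => (ϖ (g - lam u) : ℂ) * F g) μ := fun u => by
    have := (h.integrable_mul hF u).comp_add_right (-lam u)
    simpa only [← sub_eq_add_neg, sub_add_cancel] using this
  simp only [h1]
  have h3 : Summable fun u => ∫ g, ‖(ϖ (g - lam u) : ℂ) * F g‖ ∂μ := by
    refine summable_of_sum_le (fun u => integral_nonneg fun _ => norm_nonneg _)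
      (c := ∫ g, ‖F g‖ ∂μ) fun s => ?_
    rw [← integral_finsetSum _ fun u _ => (h2 u).norm]
    refine integral_mono (integrable_finsetSum _ fun u _ => (h2 u).norm) hF.norm fun g => ?_
    simp only [norm_mul, Complex.norm_real, Real.norm_of_nonneg (h.nonneg _), ← Finset.sum_mul]
    exact mul_le_of_le_one_left (norm_nonneg _)
      (sum_le_hasSum s (fun _ _ => h.nonneg _) (h.sum_sub g))
  have h4 := hasSum_integral_of_summable_integral_norm h2 h3
  have h5 : ∀ g, ∑' u, (ϖ (g - lam u) : ℂ) * F g = F g := fun g => by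
    rw [tsum_mul_right, ← Complex.ofReal_tsum, (h.sum_sub g).tsum_eq, Complex.ofReal_one, one_mul]
  simpa only [h5] using h4

theorem unfold_norm (h : IsW lam ϖ) {F : G → ℂ} (hF : Integrable F μ) :
    HasSum (fun u => ∫ g, ‖(ϖ g : ℂ) * F (g + lam u)‖ ∂μ) (∫ g, ‖F g‖ ∂μ) := by
  have h1 := h.unfold (μ := μ) (F := fun g => (‖F g‖ : ℂ)) hF.norm.ofReal
  simp only [← Complex.ofReal_mul, integral_complex_ofReal] at h1
  simpa only [norm_mul, Complex.norm_real, Real.norm_of_nonneg (h.nonneg _)] using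
    Complex.hasSum_ofReal.1 h1

/-- unfolding of a double series -/
theorem unfold₂ (h : IsW lam ϖ) {K : Type*} [Countable K] {F : K → G → ℂ}
    (hm : ∀ k, Measurable (F k)) (hF : ∀ k, Integrable (F k) μ)
    (hs : Summable fun k => ∫ g, ‖F k g‖ ∂μ) :
    Integrable (fun g => ∑' z : K × U, (ϖ g : ℂ) * F z.1 (g + lam z.2)) μ ∧
    HasSum (fun k => ∫ g, F k g ∂μ)
      (∫ g, ∑' z : K × U, (ϖ g : ℂ) * F z.1 (g + lam z.2) ∂μ) := by
  have h1 : ∀ z : K × U, Integrable (fun g => (ϖ g : ℂ) * F z.1 (g + lam z.2)) μ :=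
    fun z => h.integrable_mul (hF z.1) z.2
  have h2 : Summable fun z : K × U => ∫ g, ‖(ϖ g : ℂ) * F z.1 (g + lam z.2)‖ ∂μ := by
    refine (summable_prod_of_nonneg fun z => integral_nonneg fun _ => norm_nonneg _).2
      ⟨fun k => (h.unfold_norm (hF k)).summable, ?_⟩
    simpa only [fun k => (h.unfold_norm (μ := μ) (hF k)).tsum_eq] using hs
  have h3 : ∀ z : K × U, Measurable fun g => (ϖ g : ℂ) * F z.1 (g + lam z.2) := fun z =>
    (Complex.measurable_ofReal.comp h.meas).mul ((hm z.1).comp (measurable_add_const _))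
  refine ⟨⟨(Measurable.tsum h3).aestronglyMeasurable, ?_⟩,
    (hasSum_integral_of_summable_integral_norm h1 h2).prod_fiberwise fun k => h.unfold (hF k)⟩
  refine lt_of_le_of_lt (lintegral_mono fun g => enorm_tsum_le_tsum_enorm) ?_
  rw [lintegral_tsum fun z => (h3 z).enorm.aemeasurable]
  simp only [← fun z => ofReal_integral_norm_eq_lintegral_enorm (h1 z)]
  rw [← ENNReal.ofReal_tsum_of_nonneg (fun z => integral_nonneg fun _ => norm_nonneg _) h2]
  exact ENNReal.ofReal_lt_top

/-- the image of the quotient measure under an invariant homomorphism to `ℝ` -/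
theorem haar (h : IsW lam ϖ) (l : G →+ ℝ) (hl : Measurable l) (hl0 : ∀ u, l (lam u) = 0)
    (hs : Function.Surjective l) (hμ : μ ≠ 0) {a b : ℝ} (hab : a < b)
    (hf : ∫⁻ g, ENNReal.ofReal (ϖ g) * (Set.Ioo a b).indicator 1 (l g) ∂μ < ∞) :
    ∃ c : ℝ, 0 < c ∧ ∀ ϖ' : G → ℝ, IsW lam ϖ' → ∀ B : ℝ → ℂ, Integrable B →
      Integrable (fun g => (ϖ' g : ℂ) * B (l g)) μ ∧
        ∫ g, (ϖ' g : ℂ) * B (l g) ∂μ = c * ∫ t, B t := by
  have key : ∀ ϖ' : G → ℝ, IsW lam ϖ' → ∀ s : Set ℝ, MeasurableSet s →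
      ((μ.withDensity fun g => ENNReal.ofReal (ϖ' g)).map l) s =
        ∫⁻ g, ENNReal.ofReal (ϖ' g) * s.indicator 1 (l g) ∂μ := fun ϖ' h' s hs => by
    rw [← lintegral_indicator_one hs, lintegral_map (measurable_one.indicator hs) hl]
    exact lintegral_withDensity_eq_lintegral_mul _ h'.meas.ennreal_ofReal
        ((measurable_one.indicator hs).comp hl)
  have ind : ∀ ϖ' : G → ℝ, IsW lam ϖ' → (μ.withDensity fun g => ENNReal.ofReal (ϖ' g)).map l =
      (μ.withDensity fun g => ENNReal.ofReal (ϖ g)).map l := fun ϖ' h' => by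
    ext s hs
    rw [key _ h' s hs, key _ h s hs]
    exact h'.lindep h ((measurable_one.indicator hs).comp hl) fun g u => by
      simp only [map_add, hl0, add_zero]
  obtain ⟨ν, hν⟩ : ∃ ν, ν = (μ.withDensity fun g => ENNReal.ofReal (ϖ g)).map l := ⟨_, rfl⟩
  rw [← hν] at ind
  have inv : ∀ (t : ℝ) (s : Set ℝ), MeasurableSet s → ν ((fun x => t + x) ⁻¹' s) = ν s := by
    intro t s hs'
    obtain ⟨g₀, rfl⟩ := hs t
    have e1 := key _ (h.shift g₀) _ (measurable_const_add (l g₀) hs')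
    rw [ind _ (h.shift g₀)] at e1
    rw [e1, hν, key _ h s hs',
      ← lintegral_add_right_eq_self (fun g => ENNReal.ofReal (ϖ g) * s.indicator 1 (l g)) g₀]
    refine lintegral_congr fun g => ?_
    rw [map_add, add_comm (l g)]
    rfl
  have : ν.IsAddLeftInvariant := ⟨fun t => by
    ext s hs'
    rw [Measure.map_apply (measurable_const_add t) hs', inv t s hs']⟩
  have : IsLocallyFiniteMeasure ν := ⟨fun x => by
    refine ⟨(fun y => ((a + b) / 2 - x) + y) ⁻¹' Set.Ioo a b,
      (isOpen_Ioo.preimage (by fun_prop)).mem_nhds ?_, ?_⟩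
    · simp only [Set.mem_preimage, Set.mem_Ioo]
      constructor <;> linarith
    · rw [inv _ _ measurableSet_Ioo, hν, key _ h _ measurableSet_Ioo]
      exact hf⟩
  have e := Measure.isAddLeftInvariant_eq_smul ν volume
  obtain ⟨c, hc⟩ : ∃ c, c = Measure.addHaarScalarFactor ν volume := ⟨_, rfl⟩
  rw [← hc] at e
  refine ⟨c, ?_, fun ϖ' h' B hB => ?_⟩
  · rcases (NNReal.coe_nonneg c).eq_or_lt with h0 | h0
    · exfalso
      have h1 : c = 0 := NNReal.coe_eq_zero.1 h0.symm
      have h2 := key _ h _ MeasurableSet.univ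
      rw [← hν, e, h1, zero_smul] at h2
      have h3 := h.lunfold (μ := μ) (F := fun _ => 1) measurable_const
      simp only [Set.indicator_univ, Pi.one_apply, Measure.coe_zero, Pi.zero_apply] at h2
      simp only [← h2, tsum_zero, lintegral_const, one_mul] at h3
      exact hμ (Measure.measure_univ_eq_zero.1 h3.symm)
    · exact h0
  · have h1 : Integrable B ((μ.withDensity fun g => ENNReal.ofReal (ϖ' g)).map l) := by
      rw [ind _ h', e]
      exact hB.smul_measure_nnreal
    have h2 : ∀ᵐ g ∂μ, ENNReal.ofReal (ϖ' g) < ∞ :=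
      Filter.Eventually.of_forall fun _ => ENNReal.ofReal_lt_top
    have h3 := (integrable_withDensity_iff_integrable_smul' h'.meas.ennreal_ofReal h2).1
      ((integrable_map_measure h1.1 hl.aemeasurable).1 h1)
    have h4 := integral_map hl.aemeasurable h1.1
    rw [integral_withDensity_eq_integral_toReal_smul h'.meas.ennreal_ofReal h2, ind _ h', e,
      integral_smul_nnreal_measure] at h4
    simp only [ENNReal.toReal_ofReal (h'.nonneg _), Complex.real_smul, Function.comp] at h3 h4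
    exact ⟨h3, h4.symm⟩

end IsW

end Crest.Agent.T27.Ker65
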