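import Crest.Agent.T27.KerA_65
import Crest.Agent.T27.HeckeA_87
import Crest.Agent.PVc.R17.Contour

/-!
# Row 27, kernel (B): abstract radial Poisson summation

`RD` is the data: a group `G` with an invariant measure, a logarithmic norm `l`, a profile `Φ`,
units `lam u` and rows `pt k`.  `Θ f g = ∑_{k, u} f k * Φ (g + lam u + pt k)`.
-/

set_option autoImplicit false
set_option linter.unusedSectionVars false

noncomputable section

namespace Crest.Agent.T27.Ker65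

open MeasureTheory Complex
open scoped ENNReal

/-- the data of a radial Poisson formula -/
structure RD (G : Type*) [AddCommGroup G] [MeasurableSpace G] (μ : Measure G) (U : Type*)
    [CommGroup U] (K : Type*) where
  l : G →+ ℝ
  Φ : G → ℝ
  lam : U → G
  pt : K → G
  l_meas : Measurable l
  Φ_meas : Measurable Φ
  Φ_nonneg : ∀ g, 0 ≤ Φ g
  Φ_pos : 0 < μ (Function.support Φ)
  lam_mul : ∀ u v, lam (u * v) = lam u + lam v
  l_lam : ∀ u, l (lam u) = 0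
  l_pt : ∀ k, 0 ≤ l (pt k)
  sum_pt : Summable fun k => Real.exp (-(2 * l (pt k)))
  int : ∀ σ : ℝ, 0 < σ → Integrable (fun g => Real.exp (σ * l g) * Φ g) μ
  flow : ∀ L : ℝ, 0 ≤ L → ∃ g₀, l g₀ = L ∧ ∀ g, Φ (g + g₀) ≤ Φ g
  sumU : ∀ g, Summable fun u => Φ (g + lam u)
  posU : ∀ g, ∃ u, 0 < Φ (g + lam u)
  theta : ∃ g₀, l g₀ = 0 ∧ ∀ g, (∑' z : K × U, Φ (g + lam z.2 + pt z.1)) + 1 =
    Real.exp (-l g) * ((∑' z : K × U, Φ (g₀ - g + lam z.2 + pt z.1)) + 1)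

namespace RD

variable {G : Type*} [AddCommGroup G] [MeasurableSpace G] [MeasurableAdd G] [MeasurableNeg G]
  {μ : Measure G} [μ.IsAddLeftInvariant] [μ.IsNegInvariant] [SFinite μ]
  {U : Type*} [CommGroup U] [Countable U] {K : Type*} [Countable K] (D : RD G μ U K)

/-- the theta series -/
def Θ (f : K → ℂ) (g : G) : ℂ := ∑' z : K × U, f z.1 * (D.Φ (g + D.lam z.2 + D.pt z.1) : ℂ)

/-- the radial average -/
def av (b : ℝ → ℂ) (t : ℝ) : ℂ := ∫ g, b (D.l g - t) * (D.Φ g : ℂ) ∂μ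

theorem exists_W : ∃ ϖ, IsW D.lam ϖ := by
  have hp : ∀ g, 0 < ∑' u, D.Φ (g + D.lam u) := fun g => by
    obtain ⟨u, hu⟩ := D.posU g
    exact (D.sumU g).tsum_pos (fun _ => D.Φ_nonneg _) u hu
  refine ⟨fun g => D.Φ g / ∑' u, D.Φ (g + D.lam u), D.lam_mul, D.Φ_meas.div (Measurable.tsum
    fun u => D.Φ_meas.comp (measurable_add_const _)), fun g => div_nonneg (D.Φ_nonneg g) (hp g).le,
    fun g => ?_⟩
  have h1 : ∀ v, ∑' u, D.Φ (g + D.lam v + D.lam u) = ∑' u, D.Φ (g + D.lam u) := fun v => by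
    rw [← (Equiv.mulLeft v).tsum_eq fun u => D.Φ (g + D.lam u)]
    simp only [Equiv.coe_mulLeft, D.lam_mul, add_assoc]
  simp only [h1]
  simpa only [div_self (hp g).ne'] using (D.sumU g).hasSum.div_const (∑' u, D.Φ (g + D.lam u))

theorem surj : Function.Surjective D.l := fun L => by
  rcases le_total 0 L with h | h
  · exact (D.flow L h).imp fun _ h => h.1
  · obtain ⟨g, hg, -⟩ := D.flow (-L) (by linarith)
    exact ⟨-g, by rw [map_neg, hg, neg_neg]⟩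

theorem integrable_I {b : ℝ → ℂ} {C σ : ℝ} (hb : Measurable b) (hσ : 0 < σ)
    (hC : ∀ t, ‖b t‖ ≤ C * Real.exp (σ * t)) (t : ℝ) :
    Integrable (fun g => b (D.l g - t) * (D.Φ g : ℂ)) μ ∧
      ∫ g, ‖b (D.l g - t) * (D.Φ g : ℂ)‖ ∂μ ≤
        C * Real.exp (-(σ * t)) * ∫ g, Real.exp (σ * D.l g) * D.Φ g ∂μ := by
  have h1 : ∀ g, ‖b (D.l g - t) * (D.Φ g : ℂ)‖ ≤
      C * Real.exp (-(σ * t)) * (Real.exp (σ * D.l g) * D.Φ g) := fun g => by
    rw [norm_mul, norm_real, Real.norm_of_nonneg (D.Φ_nonneg g), ← mul_assoc, mul_assoc C,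
      ← Real.exp_add, show -(σ * t) + σ * D.l g = σ * (D.l g - t) by ring]
    exact mul_le_mul_of_nonneg_right (hC _) (D.Φ_nonneg g)
  have h2 := (D.int σ hσ).const_mul (C * Real.exp (-(σ * t)))
  have h3 : Integrable (fun g => b (D.l g - t) * (D.Φ g : ℂ)) μ :=
    h2.mono' ((hb.comp (D.l_meas.sub_const t)).mul
      (measurable_ofReal.comp D.Φ_meas)).aestronglyMeasurable (Filter.Eventually.of_forall h1)
  exact ⟨h3, (integral_mono h3.norm h2 h1).trans_eq (integral_const_mul _ _)⟩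

theorem unfoldΘ {ϖ : G → ℝ} (h : IsW D.lam ϖ) {b : ℝ → ℂ} {C σ B : ℝ} (hb : Measurable b)
    (hσ : 2 ≤ σ) (hC : ∀ t, ‖b t‖ ≤ C * Real.exp (σ * t)) {f : K → ℂ} (hf : ∀ k, ‖f k‖ ≤ B) :
    Integrable (fun g => (ϖ g : ℂ) * b (D.l g) * D.Θ f g) μ ∧
    HasSum (fun k => f k * D.av b (D.l (D.pt k))) (∫ g, (ϖ g : ℂ) * b (D.l g) * D.Θ f g ∂μ) := by
  have hC0 : 0 ≤ C := by simpa using (norm_nonneg _).trans (hC 0)
  have h1 := fun k => D.integrable_I hb (by linarith) hC (D.l (D.pt k))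
  have e : ∀ k g, b (D.l g) * (D.Φ (g + D.pt k) : ℂ) =
      (fun g => b (D.l g - D.l (D.pt k)) * (D.Φ g : ℂ)) (g + D.pt k) := fun k g => by
    simp only [map_add, add_sub_cancel_right]
  have h2 := h.unfold₂ (μ := μ) (F := fun k g => f k * (b (D.l g) * (D.Φ (g + D.pt k) : ℂ)))
    (fun k => ((hb.comp D.l_meas).mul (measurable_ofReal.comp
      (D.Φ_meas.comp (measurable_add_const _)))).const_mul _)
    (fun k => by
      simp only [e]
      exact ((h1 k).1.comp_add_right _).const_mul _)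
    (by
      refine Summable.of_nonneg_of_le (fun k => integral_nonneg fun _ => norm_nonneg _)
        (fun k => ?_) (D.sum_pt.mul_left (B * C * ∫ g, Real.exp (σ * D.l g) * D.Φ g ∂μ))
      simp only [e, norm_mul (f k)]
      rw [integral_const_mul, integral_add_right_eq_self
        (fun g => ‖b (D.l g - D.l (D.pt k)) * (D.Φ g : ℂ)‖)]
      have h3 : 0 ≤ ∫ g, Real.exp (σ * D.l g) * D.Φ g ∂μ :=
        integral_nonneg fun g => mul_nonneg (Real.exp_pos _).le (D.Φ_nonneg g)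
      have h4 : Real.exp (-(σ * D.l (D.pt k))) ≤ Real.exp (-(2 * D.l (D.pt k))) :=
        Real.exp_le_exp.2 (by nlinarith [D.l_pt k])
      have h5 := (norm_nonneg _).trans (hf k)
      calc _ ≤ B * (C * Real.exp (-(2 * D.l (D.pt k))) * ∫ g, Real.exp (σ * D.l g) * D.Φ g ∂μ) :=
            mul_le_mul (hf k) ((h1 k).2.trans (by gcongr))
              (integral_nonneg fun _ => norm_nonneg _) h5
        _ = _ := by ring)
  have e2 : ∀ g, ∑' z : K × U, (ϖ g : ℂ) * (f z.1 * (b (D.l (g + D.lam z.2)) *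
      (D.Φ (g + D.lam z.2 + D.pt z.1) : ℂ))) = (ϖ g : ℂ) * b (D.l g) * D.Θ f g := fun g => by
    rw [Θ, ← tsum_mul_left]
    refine tsum_congr fun z => ?_
    rw [map_add, D.l_lam, add_zero]
    ring
  have e3 : ∀ k, ∫ g, f k * (b (D.l g) * (D.Φ (g + D.pt k) : ℂ)) ∂μ =
      f k * D.av b (D.l (D.pt k)) := fun k => by
    simp only [e]
    rw [integral_const_mul, integral_add_right_eq_self
      (fun g => b (D.l g - D.l (D.pt k)) * (D.Φ g : ℂ)), av]
  simpa only [e2, e3] using h2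

theorem Θ_one (g : G) :
    D.Θ (fun _ => 1) g = ((∑' z : K × U, D.Φ (g + D.lam z.2 + D.pt z.1) : ℝ) : ℂ) := by
  simp only [Θ, one_mul, ofReal_tsum]

theorem exists_c : ∃ c : ℝ, 0 < c ∧ ∀ ϖ : G → ℝ, IsW D.lam ϖ → ∀ B : ℝ → ℂ, Integrable B →
    Integrable (fun g => (ϖ g : ℂ) * B (D.l g)) μ ∧
      ∫ g, (ϖ g : ℂ) * B (D.l g) ∂μ = c * ∫ t, B t := by
  obtain ⟨ϖ, h⟩ := D.exists_W
  obtain ⟨g₀, -, hθ⟩ := D.theta
  refine h.haar D.l D.l_meas D.l_lam D.surj (fun h0 => by simpa [h0] using D.Φ_pos)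
    (a := -3) (b := -1) (by norm_num) ?_
  have h1 := (D.unfoldΘ h (b := fun t => (Real.exp (2 * t + 6) : ℂ)) (C := Real.exp 6) (σ := 2)
    (B := 1) (by fun_prop) le_rfl (fun t => by
      rw [norm_real, Real.norm_of_nonneg (Real.exp_pos _).le, Real.exp_add, mul_comm])
    (f := fun _ => 1) (fun _ => by simp)).1.2
  refine lt_of_le_of_lt (lintegral_mono fun g => ?_) h1
  by_cases hg : D.l g ∈ Set.Ioo (-3 : ℝ) (-1)
  · beta_reduce
    rw [Set.indicator_of_mem hg, Pi.one_apply, mul_one, D.Θ_one, ← ofReal_mul, ← ofReal_mul,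
      ← ofReal_norm, norm_real]
    refine ENNReal.ofReal_le_ofReal (le_trans ?_ (le_abs_self _))
    have h2 : 0 ≤ ∑' z : K × U, D.Φ (g₀ - g + D.lam z.2 + D.pt z.1) :=
      tsum_nonneg fun _ => D.Φ_nonneg _
    have h3 := Real.add_one_le_exp (-D.l g)
    have h4 : 1 ≤ ∑' z : K × U, D.Φ (g + D.lam z.2 + D.pt z.1) := by
      nlinarith [hθ g, hg.2, Real.exp_pos (-D.l g)]
    have h5 : 1 ≤ Real.exp (2 * D.l g + 6) := Real.one_le_exp (by linarith [hg.1])
    rw [mul_assoc]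
    exact le_mul_of_one_le_right (h.nonneg g) (one_le_mul_of_one_le_of_one_le h5 h4)
  · rw [Set.indicator_of_notMem hg, mul_zero]
    exact zero_le

/-- the volume of the quotient -/
def c : ℝ := D.exists_c.choose

theorem c_pos : 0 < D.c := D.exists_c.choose_spec.1

theorem c_spec {ϖ : G → ℝ} (h : IsW D.lam ϖ) {B : ℝ → ℂ} (hB : Integrable B) :
    Integrable (fun g => (ϖ g : ℂ) * B (D.l g)) μ ∧
      ∫ g, (ϖ g : ℂ) * B (D.l g) ∂μ = D.c * ∫ t, B t := D.exists_c.choose_spec.2 ϖ h B hB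

theorem average {ϖ : G → ℝ} (h : IsW D.lam ϖ) {b : ℝ → ℂ} {C B : ℝ} (hb : Measurable b)
    (hC : ∀ t, ‖b t‖ ≤ C * Real.exp (2 * t)) (hi : Integrable b) {f : K → ℂ} (hf : ∀ k, ‖f k‖ ≤ B)
    (f₀ : ℂ) (L : ℝ) :
    ∫ g, (ϖ g : ℂ) * b (D.l g - L) * (D.Θ f g + f₀) ∂μ =
      ∑' k, f k * D.av b (L + D.l (D.pt k)) + f₀ * (D.c * ∫ t, b t) := by
  have h1 := D.unfoldΘ h (b := fun t => b (t - L)) (C := C * Real.exp (-(2 * L))) (σ := 2)
    (hb.comp (measurable_sub_const L)) le_rfl (fun t => by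
      rw [mul_assoc, ← Real.exp_add, show -(2 * L) + 2 * t = 2 * (t - L) by ring]
      exact hC _) hf
  have h2 := D.c_spec h (hi.comp_sub_right L)
  simp only [mul_add]
  rw [integral_add h1.1 (h2.1.mul_const _), integral_mul_const, h2.2, ← h1.2.tsum_eq,
    integral_sub_right_eq_self, mul_comm _ f₀]
  congr 1
  refine tsum_congr fun k => ?_
  simp only [av, sub_sub, add_comm]

/-- radial Poisson summation -/
theorem poisson {b : ℝ → ℂ} {C B B' : ℝ} (hb : Measurable b)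
    (hC : ∀ t, ‖b t‖ ≤ C * Real.exp (2 * t)) (hi : Integrable b)
    (hd : ∀ t, b (-t) * cexp t = b t) {f f' : K → ℂ} (hf : ∀ k, ‖f k‖ ≤ B)
    (hf' : ∀ k, ‖f' k‖ ≤ B') {f₀ f₀' : ℂ} {g₁ : G}
    (hθ : ∀ g, D.Θ f g + f₀ = cexp (D.l g₁ - D.l g) * (D.Θ f' (g₁ - g) + f₀')) (L : ℝ) :
    ∑' k, f k * D.av b (L + D.l (D.pt k)) + f₀ * (D.c * ∫ t, b t) =
      cexp (D.l g₁ - L) *
        (∑' k, f' k * D.av b (D.l g₁ - L + D.l (D.pt k)) + f₀' * (D.c * ∫ t, b t)) := by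
  obtain ⟨ϖ, h⟩ := D.exists_W
  rw [← D.average h hb hC hi hf, ← D.average (h.refl g₁) hb hC hi hf', ← integral_const_mul,
    ← integral_sub_left_eq_self _ μ g₁]
  refine integral_congr_ae (Filter.Eventually.of_forall fun g => ?_)
  simp only [hθ (g₁ - g), sub_sub_cancel, map_sub]
  rw [← hd (D.l g - (D.l g₁ - L)), show -(D.l g - (D.l g₁ - L)) = D.l g₁ - D.l g - L by ring]
  have : cexp (D.l g₁ - (D.l g₁ - D.l g : ℝ)) =
      cexp (D.l g₁ - L) * cexp ((D.l g - (D.l g₁ - L) : ℝ)) := by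
    rw [← Complex.exp_add]
    congr 1
    push_cast
    ring
  rw [this]
  ring

end RD

end Crest.Agent.T27.Ker65
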