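import Crest.Agent.T27.KerB_65

/-!
# Row 27, kernel (C): the self-dual radial kernel of the abstract data
-/

set_option autoImplicit false
set_option linter.unusedSectionVars false

noncomputable section

namespace Crest.Agent.T27.Ker65

open MeasureTheory Complex Filter
open Crest.Agent.R17 (Wm Wc)

/-- the self-dual profile -/
def bb (t : ℝ) : ℝ := Real.exp (-t ^ 2 + t / 2)

theorem bb_pos (t : ℝ) : 0 < bb t := Real.exp_pos _

theorem continuous_bb : Continuous bb := by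
  unfold bb
  fun_prop

theorem meas_bb : Measurable fun t => (bb t : ℂ) :=
  (continuous_ofReal.comp continuous_bb).measurable

theorem bb_le (σ t : ℝ) : ‖(bb t : ℂ)‖ ≤ Real.exp ((1 / 2 - σ) ^ 2 / 4) * Real.exp (σ * t) := by
  rw [norm_real, Real.norm_of_nonneg (bb_pos t).le, bb, ← Real.exp_add]
  exact Real.exp_le_exp.2 (by nlinarith [sq_nonneg (t - (1 / 2 - σ) / 2)])

theorem integrable_bb : Integrable bb := by
  refine ((integrable_exp_neg_mul_sq (b := 1 / 2) (by norm_num)).const_mul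
    (Real.exp (1 / 8))).mono' continuous_bb.aestronglyMeasurable (Eventually.of_forall fun t => ?_)
  rw [Real.norm_of_nonneg (bb_pos t).le, bb, ← Real.exp_add]
  exact Real.exp_le_exp.2 (by nlinarith [sq_nonneg (t - 1 / 2)])

theorem integral_bb_pos : 0 < ∫ t, bb t :=
  (integral_pos_iff_support_of_nonneg (fun t => (bb_pos t).le) integrable_bb).2 (by
    rw [Function.support_eq_univ fun t => (bb_pos t).ne']
    simp)

theorem bb_dual (t : ℝ) : (bb (-t) : ℂ) * cexp t = bb t := by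
  rw [← ofReal_exp, ← ofReal_mul, bb, bb, ← Real.exp_add]
  congr 2
  ring

theorem cpow_eq {x : ℝ} (hx : 0 < x) (s : ℂ) : (x : ℂ) ^ s = cexp (s * (Real.log x : ℝ)) :=
  R17.WA.cpow_eq hx s

theorem bb_eq (t σ : ℝ) : (bb t : ℂ) = (1 / (2 * Real.pi) : ℂ) *
    ∫ u : ℝ, Wm (σ + u * I - 1 / 2) * cexp ((σ + u * I) * t) := by
  have h := R17.WA.Wc_eq_integral (Real.exp_pos (-t)) σ (-(1 / 2))
  simp only [cpow_eq (Real.exp_pos (-t)), Real.log_exp, R17.Wc, ← sub_eq_add_neg] at h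
  rw [bb, ofReal_exp]
  push_cast at h ⊢
  simp only [neg_mul_neg] at h
  rw [← h]
  congr 1
  ring

theorem int_Wm (σ : ℝ) (J : ℕ) :
    Integrable fun u : ℝ => ‖Wm (σ + u * I - 1 / 2)‖ * (1 + |u|) ^ J := by
  have h := R17.WA.integrable_Wm_mul_pow (σ - 1 / 2) J
  refine h.congr (Eventually.of_forall fun u => ?_)
  simp only
  congr 3
  push_cast
  ring

theorem cont_Wm (σ : ℝ) : Continuous fun u : ℝ => Wm (σ + u * I - 1 / 2) :=
  R17.WA.differentiable_Wm.continuous.comp (by fun_prop)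

namespace RD

variable {G : Type*} [AddCommGroup G] [MeasurableSpace G] [MeasurableAdd G] [MeasurableNeg G]
  {μ : Measure G} [μ.IsAddLeftInvariant] [μ.IsNegInvariant] [SFinite μ]
  {U : Type*} [CommGroup U] [Countable U] {K : Type*} [Countable K] (D : RD G μ U K)

/-- the kernel in the logarithmic variable -/
def w (t : ℝ) : ℝ := ∫ g, bb (D.l g - t) * D.Φ g ∂μ

theorem I_bb (t : ℝ) : D.av (fun t => (bb t : ℂ)) t = D.w t := by
  simp only [av, w, ← ofReal_mul, integral_complex_ofReal]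

theorem int_w (t : ℝ) : Integrable (fun g => bb (D.l g - t) * D.Φ g) μ := by
  have h := (D.integrable_I meas_bb one_pos (bb_le 1) t).1.norm
  simpa only [norm_mul, norm_real, Real.norm_of_nonneg (bb_pos _).le,
    Real.norm_of_nonneg (D.Φ_nonneg _)] using h

theorem w_pos (t : ℝ) : 0 < D.w t :=
  (integral_pos_iff_support_of_nonneg (fun g => mul_nonneg (bb_pos _).le (D.Φ_nonneg g))
    (D.int_w t)).2 (by
      refine D.Φ_pos.trans_le (measure_mono fun g hg => ?_)
      exact mul_ne_zero (bb_pos _).ne' hg)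

theorem w_anti : Antitone D.w := fun t t' h => by
  obtain ⟨g₀, h1, h2⟩ := D.flow (t' - t) (by linarith)
  have h3 := (D.int_w t').comp_add_right g₀
  rw [w, ← integral_add_right_eq_self _ g₀]
  have e : ∀ g, D.l (g + g₀) - t' = D.l g - t := fun g => by rw [map_add, h1]; ring
  simp only [e] at h3 ⊢
  exact integral_mono h3 (D.int_w t) fun g => mul_le_mul_of_nonneg_left (h2 g) (bb_pos _).le

theorem w_le {σ : ℝ} (hσ : 0 < σ) : ∃ C : ℝ, 0 < C ∧ ∀ t, D.w t ≤ C * Real.exp (-(σ * t)) := by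
  have h3 : 0 ≤ ∫ g, Real.exp (σ * D.l g) * D.Φ g ∂μ :=
    integral_nonneg fun g => mul_nonneg (Real.exp_pos _).le (D.Φ_nonneg g)
  refine ⟨Real.exp ((1 / 2 - σ) ^ 2 / 4) * (1 + ∫ g, Real.exp (σ * D.l g) * D.Φ g ∂μ),
    by positivity, fun t => ?_⟩
  have h := (D.integrable_I meas_bb hσ (bb_le σ) t).2
  simp only [norm_mul, norm_real, Real.norm_of_nonneg (bb_pos _).le,
    Real.norm_of_nonneg (D.Φ_nonneg _)] at h
  refine h.trans ?_
  rw [mul_right_comm]
  gcongr
  linarith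

/-- the Mellin transform of the profile -/
def M (s : ℂ) : ℂ := ∫ g, cexp (s * D.l g) * (D.Φ g : ℂ) ∂μ

theorem norm_M_aux (s : ℂ) (g : G) :
    ‖cexp (s * D.l g) * (D.Φ g : ℂ)‖ = Real.exp (s.re * D.l g) * D.Φ g := by
  rw [norm_mul, norm_exp, norm_real, Real.norm_of_nonneg (D.Φ_nonneg g), re_mul_ofReal]

theorem meas_M (s : ℂ) : Measurable fun g => cexp (s * D.l g) * (D.Φ g : ℂ) := by
  have h1 := D.l_meas
  have h2 := D.Φ_meas
  fun_prop

theorem norm_M_le (s : ℂ) : ‖D.M s‖ ≤ ∫ g, Real.exp (s.re * D.l g) * D.Φ g ∂μ := by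
  simpa only [D.norm_M_aux, M] using
    norm_integral_le_integral_norm (μ := μ) fun g => cexp (s * D.l g) * (D.Φ g : ℂ)

theorem cont_M {σ : ℝ} (hσ : 0 < σ) : Continuous fun u : ℝ => D.M (σ + u * I) := by
  refine continuous_of_dominated (fun u => (D.meas_M _).aestronglyMeasurable)
    (fun u => Eventually.of_forall fun g => ?_) (D.int σ hσ) (Eventually.of_forall fun g => ?_)
  · rw [D.norm_M_aux]
    simp
  · fun_prop

theorem I_exp (s : ℂ) (t : ℝ) : D.av (fun x => cexp (s * x)) t = cexp (-s * t) * D.M s := by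
  rw [av, M, ← integral_const_mul]
  refine integral_congr_ae (Eventually.of_forall fun g => ?_)
  simp only
  rw [← mul_assoc, ← Complex.exp_add]
  congr 2
  push_cast
  ring

theorem w_eq {σ : ℝ} (hσ : 0 < σ) (t : ℝ) : (D.w t : ℂ) = (1 / (2 * Real.pi) : ℂ) *
    ∫ u : ℝ, Wm (σ + u * I - 1 / 2) * D.M (σ + u * I) * cexp (-(σ + u * I) * t) := by
  have h1 : Integrable (Function.uncurry fun (g : G) (u : ℝ) => Wm (σ + u * I - 1 / 2) *
      (cexp ((σ + u * I) * (D.l g - t : ℝ)) * (D.Φ g : ℂ))) (μ.prod volume) := by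
    have h2 := ((D.int σ hσ).const_mul (Real.exp (-(σ * t)))).mul_prod (int_Wm σ 0)
    refine h2.mono' (Measurable.aestronglyMeasurable ?_) (Eventually.of_forall fun z => ?_)
    · have h3 := D.l_meas
      have h4 := D.Φ_meas
      refine ((cont_Wm σ).measurable.comp measurable_snd).mul ?_
      fun_prop
    · simp only [Function.uncurry, norm_mul, norm_exp, norm_real, re_mul_ofReal,
        Real.norm_of_nonneg (D.Φ_nonneg _), pow_zero, mul_one]
      rw [← mul_assoc (Real.exp _), ← Real.exp_add, mul_comm]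
      refine le_of_eq ?_
      congr 3
      simp
      ring
  have h2 := integral_integral_swap h1
  rw [← D.I_bb, av]
  simp only [fun g => bb_eq (D.l g - t) σ, mul_assoc, ← integral_mul_const]
  rw [integral_const_mul, h2]
  congr 1
  refine integral_congr_ae (Eventually.of_forall fun u => ?_)
  simp only
  rw [integral_const_mul, mul_comm (D.M _), ← D.I_exp, av]

/-- the zero term -/
def V : ℝ := D.c * ∫ t, bb t

theorem V_pos : 0 < D.V := mul_pos D.c_pos integral_bb_pos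

/-- the normalised kernel -/
def gw (x : ℝ) : ℝ := if 0 < x then D.w (Real.log x) / D.V else 1

/-- its Mellin transform -/
def mel (s : ℂ) : ℂ := Wm (s - 1 / 2) * D.M s / D.V

theorem gw_of_pos {x : ℝ} (hx : 0 < x) : D.gw x = D.w (Real.log x) / D.V := if_pos hx

theorem gw_pos (x : ℝ) : 0 < D.gw x := by
  unfold gw
  split_ifs
  · exact div_pos (D.w_pos _) D.V_pos
  · exact one_pos

theorem gw_zero : D.gw 0 = 1 := if_neg (lt_irrefl _)

theorem gw_anti : AntitoneOn D.gw (Set.Ioi 0) := fun x hx y hy h => by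
  rw [D.gw_of_pos hx, D.gw_of_pos hy]
  exact div_le_div_of_nonneg_right (D.w_anti (Real.log_le_log hx h)) D.V_pos.le

theorem gw_le (A : ℝ) (hA : 0 < A) :
    ∃ C : ℝ, 0 < C ∧ ∀ x : ℝ, 0 < x → D.gw x ≤ C * x ^ (-A) := by
  obtain ⟨C, hC, h⟩ := D.w_le hA
  refine ⟨C / D.V, div_pos hC D.V_pos, fun x hx => ?_⟩
  rw [D.gw_of_pos hx, Real.rpow_def_of_pos hx, div_mul_eq_mul_div, mul_neg, mul_comm _ A]
  exact div_le_div_of_nonneg_right (h _) D.V_pos.le

theorem mel_cont (σ : ℝ) (hσ : 0 < σ) : Continuous fun u : ℝ => D.mel (σ + u * I) :=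
  ((cont_Wm σ).mul (D.cont_M hσ)).div_const _

theorem mel_int (σ : ℝ) (hσ : 0 < σ) (J : ℕ) :
    Integrable fun u : ℝ => ‖D.mel (σ + u * I)‖ * (1 + |u|) ^ J := by
  refine ((int_Wm σ J).mul_const ((∫ g, Real.exp (σ * D.l g) * D.Φ g ∂μ) / D.V)).mono'
    ((D.mel_cont σ hσ).norm.mul (by fun_prop)).aestronglyMeasurable
    (Eventually.of_forall fun u => ?_)
  have h := D.norm_M_le (σ + u * I)
  have hV := D.V_pos
  simp only [add_re, ofReal_re, mul_re, I_re, mul_zero, ofReal_im, I_im, mul_one, sub_self,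
    add_zero] at h
  rw [Real.norm_of_nonneg (by positivity), mel, norm_div, norm_mul, norm_real,
    Real.norm_of_nonneg hV.le, mul_div_assoc, mul_right_comm]
  gcongr

theorem mel_eq (x σ : ℝ) (hx : 0 < x) (hσ : 0 < σ) : (D.gw x : ℂ) = (1 / (2 * Real.pi) : ℂ) *
    ∫ u : ℝ, D.mel (σ + u * I) * (x : ℂ) ^ (-(σ + u * I)) := by
  rw [D.gw_of_pos hx, ofReal_div, D.w_eq hσ, mul_div_assoc, ← integral_div]
  congr 1
  refine integral_congr_ae (Eventually.of_forall fun u => ?_)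
  simp only [mel, cpow_eq hx]
  ring

/-- the norm of a row -/
def n (k : K) : ℝ := Real.exp (D.l (D.pt k))

theorem one_le_n (k : K) : 1 ≤ D.n k := Real.one_le_exp (D.l_pt k)

theorem n_pos (k : K) : 0 < D.n k := Real.exp_pos _

theorem summable_gw {f : K → ℂ} {B : ℝ} (hf : ∀ k, ‖f k‖ ≤ B) {y : ℝ} (hy : 0 < y) :
    Summable fun k => f k * (D.gw (y * D.n k) : ℂ) := by
  obtain ⟨C, hC, h⟩ := D.gw_le 2 two_pos
  refine Summable.of_norm_bounded (D.sum_pt.mul_left (B * (C * y ^ (-2 : ℝ)))) fun k => ?_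
  have h1 := h _ (mul_pos hy (D.n_pos k))
  rw [Real.mul_rpow hy.le (D.n_pos k).le, n, ← Real.exp_mul] at h1
  rw [norm_mul, norm_real, Real.norm_of_nonneg (D.gw_pos _).le, mul_assoc, mul_assoc,
    show -(2 * D.l (D.pt k)) = D.l (D.pt k) * -2 by ring, ← mul_assoc C]
  exact mul_le_mul (hf k) (by rwa [mul_assoc]) (D.gw_pos _).le ((norm_nonneg _).trans (hf k))

/-- radial Poisson summation for the normalised kernel -/
theorem poisson_gw {B B' : ℝ} {f f' : K → ℂ} (hf : ∀ k, ‖f k‖ ≤ B)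
    (hf' : ∀ k, ‖f' k‖ ≤ B') {f₀ f₀' : ℂ} {g₁ : G} {Q : ℝ} (hQ : 0 < Q)
    (hg : D.l g₁ = -Real.log Q)
    (hθ : ∀ g, D.Θ f g + f₀ = cexp (D.l g₁ - D.l g) * (D.Θ f' (g₁ - g) + f₀')) {X : ℝ}
    (hX : 0 < X) :
    f₀ + ∑' k, f k * (D.gw (X⁻¹ * D.n k) : ℂ) =
      (X / Q : ℝ) * (f₀' + ∑' k, f' k * (D.gw (X / Q * D.n k) : ℂ)) := by
  have h := D.poisson meas_bb (bb_le 2) integrable_bb.ofReal bb_dual hf hf' hθ (-Real.log X)
  have hV : (D.V : ℂ) ≠ 0 := ofReal_ne_zero.2 D.V_pos.ne'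
  have e : ∀ {y : ℝ}, 0 < y → ∀ F : K → ℂ, ∑' k, F k * (D.gw (y * D.n k) : ℂ) =
      (∑' k, F k * D.av (fun t => (bb t : ℂ)) (Real.log y + D.l (D.pt k))) / D.V := fun hy F => by
    rw [← tsum_div_const]
    refine tsum_congr fun k => ?_
    rw [D.gw_of_pos (mul_pos hy (D.n_pos k)), Real.log_mul hy.ne' (D.n_pos k).ne', n, Real.log_exp,
      D.I_bb, ofReal_div, mul_div_assoc]
  have e2 : D.l g₁ - -Real.log X = Real.log (X / Q) := by
    rw [hg, Real.log_div hX.ne' hQ.ne']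
    ring
  rw [integral_complex_ofReal, ← ofReal_mul, ← V, ← ofReal_sub, e2, ← ofReal_exp,
    Real.exp_log (div_pos hX hQ)] at h
  rw [e (inv_pos.2 hX), e (div_pos hX hQ), Real.log_inv]
  field_simp
  linear_combination h

end RD

end Crest.Agent.T27.Ker65
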