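import Crest.Agent.PVc.R17.Contour

/-!
# Row 27, generic half of `KerAx`, part A (helper63): Gaussian smoothing of a base kernel

`sm G x = ∫ G(x e^v) exp(-v² + v/2) dv`; its Mellin transform is `mm G s = G^(s) Wm(1/2 - s)`.
-/

set_option autoImplicit false

noncomputable section

namespace Crest.Agent.T27.K63

open MeasureTheory Filter Topology Complex

/-- The hypotheses on the base kernel. -/
structure Base (G : ℝ → ℝ) : Prop where
  pos : ∀ x, 0 < x → 0 < G x
  anti : AntitoneOn G (Set.Ioi 0)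
  le : ∀ A : ℝ, 0 < A → ∃ C : ℝ, 0 < C ∧ ∀ x : ℝ, 0 < x → G x ≤ C * x ^ (-A)

/-- The self-dual weight. -/
def wv (v : ℝ) : ℝ := Real.exp (-v ^ 2 + v / 2)

/-- The smoothed kernel. -/
def sm (G : ℝ → ℝ) (x : ℝ) : ℝ := ∫ v : ℝ, G (x * Real.exp v) * wv v

/-- The Mellin transform of the base kernel. -/
def MG (G : ℝ → ℝ) (s : ℂ) : ℂ := ∫ u : ℝ, (G (Real.exp u) : ℂ) * cexp (s * u)

/-- The Mellin transform of the smoothed kernel. -/
def mm (G : ℝ → ℝ) (s : ℂ) : ℂ := MG G s * R17.Wm (1 / 2 - s)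

theorem wv_pos (v : ℝ) : 0 < wv v := Real.exp_pos _

theorem wv_neg (v : ℝ) : Real.exp (-v) * wv v = wv (-v) := by
  unfold wv
  rw [← Real.exp_add]
  congr 1
  ring

theorem continuous_wv : Continuous wv := by unfold wv; fun_prop

theorem integrable_gauss (a : ℝ) : Integrable fun v : ℝ => Real.exp (a * v) * wv v := by
  have h := (integrable_cexp_quadratic' (b := -1) (by norm_num) ((a + 1 / 2 : ℝ) : ℂ) 0).norm
  refine h.congr (Eventually.of_forall fun v => ?_)
  simp only [Complex.norm_exp, wv]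
  rw [← Real.exp_add]
  congr 1
  simp [pow_two]
  ring

theorem integrable_wv : Integrable wv := by simpa using integrable_gauss 0

/-- The total mass of the weight. -/
def W0 : ℝ := ∫ v, wv v

theorem W0_pos : 0 < W0 :=
  integral_pos_of_integrable_nonneg_nonzero (x := 0) continuous_wv integrable_wv
    (fun v => (wv_pos v).le) (wv_pos 0).ne'

variable {G : ℝ → ℝ}

theorem Base.antitone (h : Base G) {x : ℝ} (hx : 0 < x) :
    Antitone fun v : ℝ => G (x * Real.exp v) := fun _ _ hab =>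
  h.anti (mul_pos hx (Real.exp_pos _)) (mul_pos hx (Real.exp_pos _))
    (mul_le_mul_of_nonneg_left (Real.exp_le_exp.2 hab) hx.le)

theorem Base.meas (h : Base G) {x : ℝ} (hx : 0 < x) :
    Measurable fun v : ℝ => G (x * Real.exp v) := (h.antitone hx).measurable

theorem Base.meas1 (h : Base G) : Measurable fun v : ℝ => G (Real.exp v) := by
  simpa using h.meas one_pos

theorem rpow_mul_exp {x : ℝ} (hx : 0 < x) (A v : ℝ) :
    (x * Real.exp v) ^ (-A) = x ^ (-A) * Real.exp (-A * v) := by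
  rw [Real.mul_rpow hx.le (Real.exp_pos _).le, ← Real.exp_mul, mul_comm v]

/-- The basic majorant, with the constant of the base kernel. -/
theorem Base.le_sm (h : Base G) {A : ℝ} (hA : 0 < A) : ∃ C : ℝ, 0 < C ∧ ∀ x : ℝ, 0 < x →
    ∀ v : ℝ, G (x * Real.exp v) * wv v ≤ C * x ^ (-A) * (Real.exp (-A * v) * wv v) := by
  obtain ⟨C, hC, hb⟩ := h.le A hA
  refine ⟨C, hC, fun x hx v => ?_⟩
  have := hb _ (mul_pos hx (Real.exp_pos v))
  rw [rpow_mul_exp hx] at this
  calc G (x * Real.exp v) * wv v ≤ C * (x ^ (-A) * Real.exp (-A * v)) * wv v :=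
        mul_le_mul_of_nonneg_right this (wv_pos v).le
    _ = _ := by ring

theorem Base.integrable (h : Base G) {x : ℝ} (hx : 0 < x) :
    Integrable fun v : ℝ => G (x * Real.exp v) * wv v := by
  obtain ⟨C, -, hb⟩ := h.le_sm one_pos
  refine ((integrable_gauss (-1)).const_mul (C * x ^ (-1 : ℝ))).mono'
    ((h.meas hx).mul continuous_wv.measurable).aestronglyMeasurable
    (Eventually.of_forall fun v => ?_)
  rw [Real.norm_of_nonneg (mul_pos (h.pos _ (mul_pos hx (Real.exp_pos v))) (wv_pos v)).le]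
  exact hb x hx v

theorem Base.sm_pos (h : Base G) {x : ℝ} (hx : 0 < x) : 0 < sm G x := by
  have hp : ∀ v : ℝ, 0 < G (x * Real.exp v) * wv v := fun v =>
    mul_pos (h.pos _ (mul_pos hx (Real.exp_pos v))) (wv_pos v)
  refine (integral_pos_iff_support_of_nonneg (fun v => (hp v).le) (h.integrable hx)).2 ?_
  have : Function.support (fun v : ℝ => G (x * Real.exp v) * wv v) = Set.univ :=
    Set.eq_univ_of_forall fun v => (hp v).ne'
  rw [this]
  simp

theorem Base.sm_anti (h : Base G) : AntitoneOn (sm G) (Set.Ioi 0) := fun x hx y hy hxy => by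
  refine integral_mono (h.integrable hy) (h.integrable hx) fun v => ?_
  exact mul_le_mul_of_nonneg_right (h.anti (mul_pos hx (Real.exp_pos _))
    (mul_pos hy (Real.exp_pos _)) (mul_le_mul_of_nonneg_right hxy (Real.exp_pos _).le))
    (wv_pos v).le

theorem Base.sm_le (h : Base G) {A : ℝ} (hA : 0 < A) : ∃ C : ℝ, 0 < C ∧ ∀ x : ℝ, 0 < x →
    sm G x ≤ C * x ^ (-A) := by
  obtain ⟨C, hC, hb⟩ := h.le_sm hA
  have hI : 0 ≤ ∫ v : ℝ, Real.exp (-A * v) * wv v :=
    integral_nonneg fun v => (mul_pos (Real.exp_pos _) (wv_pos v)).le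
  refine ⟨C * ((∫ v : ℝ, Real.exp (-A * v) * wv v) + 1), by positivity, fun x hx => ?_⟩
  have h1 : sm G x ≤ ∫ v : ℝ, C * x ^ (-A) * (Real.exp (-A * v) * wv v) :=
    integral_mono (h.integrable hx) ((integrable_gauss (-A)).const_mul _) (hb x hx)
  rw [integral_const_mul] at h1
  have h2 : 0 < C * x ^ (-A) := mul_pos hC (Real.rpow_pos_of_pos hx _)
  nlinarith

/-! ### the Mellin transform -/

/-- A majorant which is uniform in a strip. -/
theorem Base.strip_le (h : Base G) {a b : ℝ} (ha : 0 < a) : ∃ K : ℝ, 0 < K ∧ ∀ σ : ℝ, a ≤ σ →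
    σ ≤ b → ∀ u : ℝ, G (Real.exp u) * Real.exp (σ * u) ≤ K * (1 + u ^ 2)⁻¹ := by
  obtain ⟨C1, hC1, h1⟩ := h.le (a / 2) (by positivity)
  obtain ⟨C2, hC2, h2⟩ := h.le (|b| + a / 2) (by positivity)
  set δ := a / 2 with hδ
  have hδ0 : 0 < δ := by positivity
  refine ⟨(C1 + C2) * (1 + 2 / δ ^ 2), by positivity, fun σ s0 s1 u => ?_⟩
  have e1 : G (Real.exp u) * Real.exp (σ * u) ≤ (C1 + C2) * Real.exp (-(δ * |u|)) := by
    rcases le_total u 0 with hu | hu
    · have := h1 _ (Real.exp_pos u)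
      rw [← Real.exp_mul] at this
      calc G (Real.exp u) * Real.exp (σ * u) ≤ C1 * Real.exp (u * -δ) * Real.exp (σ * u) :=
            mul_le_mul_of_nonneg_right this (Real.exp_pos _).le
        _ = C1 * Real.exp (u * -δ + σ * u) := by rw [Real.exp_add, mul_assoc]
        _ ≤ (C1 + C2) * Real.exp (-(δ * |u|)) := by
            refine mul_le_mul (by linarith) (Real.exp_le_exp.2 ?_) (Real.exp_pos _).le
              (by linarith)
            rw [abs_of_nonpos hu]
            nlinarith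
    · have := h2 _ (Real.exp_pos u)
      rw [← Real.exp_mul] at this
      calc G (Real.exp u) * Real.exp (σ * u)
          ≤ C2 * Real.exp (u * -(|b| + δ)) * Real.exp (σ * u) :=
            mul_le_mul_of_nonneg_right this (Real.exp_pos _).le
        _ = C2 * Real.exp (u * -(|b| + δ) + σ * u) := by rw [Real.exp_add, mul_assoc]
        _ ≤ (C1 + C2) * Real.exp (-(δ * |u|)) := by
            refine mul_le_mul (by linarith) (Real.exp_le_exp.2 ?_) (Real.exp_pos _).le
              (by linarith)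
            rw [abs_of_nonneg hu]
            nlinarith [le_abs_self b]
  have e2 : Real.exp (-(δ * |u|)) ≤ (1 + 2 / δ ^ 2) * (1 + u ^ 2)⁻¹ := by
    have q := Real.quadratic_le_exp_of_nonneg (x := δ * |u|) (by positivity)
    have hp : 0 < 1 + u ^ 2 := by positivity
    rw [Real.exp_neg, ← div_eq_mul_inv, le_div_iff₀ hp, inv_mul_le_iff₀ (Real.exp_pos _)]
    have q2 : (δ * |u|) ^ 2 = δ ^ 2 * u ^ 2 := by rw [mul_pow, sq_abs]
    have q3 : 1 + δ ^ 2 * u ^ 2 / 2 ≤ Real.exp (δ * |u|) := by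
      have : 0 ≤ δ * |u| := by positivity
      linarith
    have q4 : (1 + δ ^ 2 * u ^ 2 / 2) * (1 + 2 / δ ^ 2) =
        1 + u ^ 2 + (δ ^ 2 * u ^ 2 / 2 + 2 / δ ^ 2) := by field_simp; ring
    have q5 : 0 ≤ δ ^ 2 * u ^ 2 / 2 + 2 / δ ^ 2 := by positivity
    calc 1 + u ^ 2 ≤ (1 + δ ^ 2 * u ^ 2 / 2) * (1 + 2 / δ ^ 2) := by linarith
      _ ≤ _ := mul_le_mul_of_nonneg_right q3 (by positivity)
  calc _ ≤ _ := e1
    _ ≤ (C1 + C2) * ((1 + 2 / δ ^ 2) * (1 + u ^ 2)⁻¹) :=
        mul_le_mul_of_nonneg_left e2 (by positivity)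
    _ = _ := by ring

theorem Base.norm_term (h : Base G) (s : ℂ) (u : ℝ) :
    ‖(G (Real.exp u) : ℂ) * cexp (s * u)‖ = G (Real.exp u) * Real.exp (s.re * u) := by
  rw [norm_mul, Complex.norm_real, Real.norm_of_nonneg (h.pos _ (Real.exp_pos u)).le,
    Complex.norm_exp]
  simp

theorem Base.integrable_real (h : Base G) {σ : ℝ} (hσ : 0 < σ) :
    Integrable fun u : ℝ => G (Real.exp u) * Real.exp (σ * u) := by
  obtain ⟨K, -, hK⟩ := h.strip_le (b := σ) hσ
  refine (integrable_inv_one_add_sq.const_mul K).mono'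
    (h.meas1.mul (by fun_prop)).aestronglyMeasurable (Eventually.of_forall fun u => ?_)
  rw [Real.norm_of_nonneg (mul_pos (h.pos _ (Real.exp_pos u)) (Real.exp_pos _)).le]
  exact hK σ le_rfl le_rfl u

theorem Base.norm_MG_le (h : Base G) {a b : ℝ} (ha : 0 < a) : ∃ K : ℝ, 0 < K ∧ ∀ s : ℂ,
    a ≤ s.re → s.re ≤ b → ‖MG G s‖ ≤ K := by
  obtain ⟨K, hK0, hK⟩ := h.strip_le (b := b) ha
  refine ⟨K * Real.pi, by positivity, fun s s0 s1 => ?_⟩
  have := norm_integral_le_of_norm_le (f := fun u : ℝ => (G (Real.exp u) : ℂ) * cexp (s * u))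
    (integrable_inv_one_add_sq.const_mul K)
    (Eventually.of_forall fun u => by rw [h.norm_term]; exact hK _ s0 s1 u)
  rwa [integral_const_mul, integral_univ_inv_one_add_sq] at this

theorem cpow_eq {x : ℝ} (hx : 0 < x) (w : ℂ) : (x : ℂ) ^ w = cexp (w * (Real.log x : ℝ)) := by
  rw [Complex.cpow_def_of_ne_zero (by exact_mod_cast hx.ne'), Complex.ofReal_log hx.le, mul_comm]

theorem MG_eq_mellin (G : ℝ → ℝ) (s : ℂ) : MG G s = mellin (fun x => (G x : ℂ)) s := by
  have h := integral_image_eq_integral_abs_deriv_smul (s := Set.univ) (f := Real.exp)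
    (f' := Real.exp) MeasurableSet.univ (fun x _ => (Real.hasDerivAt_exp x).hasDerivWithinAt)
    Real.exp_injective.injOn (fun t : ℝ => (t : ℂ) ^ (s - 1) • (G t : ℂ))
  rw [Set.image_univ, Real.range_exp, Measure.restrict_univ] at h
  rw [mellin, h, MG]
  refine integral_congr_ae (Eventually.of_forall fun u => ?_)
  simp only
  rw [abs_of_pos (Real.exp_pos u), Complex.real_smul, smul_eq_mul, cpow_eq (Real.exp_pos u),
    Real.log_exp, Complex.ofReal_exp, ← mul_assoc, ← Complex.exp_add, mul_comm]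
  congr 2
  ring

theorem Base.isBigO (h : Base G) {A : ℝ} (hA : 0 < A) {l : Filter ℝ} (hl : ∀ᶠ x in l, 0 < x) :
    (fun x => (G x : ℂ)) =O[l] (· ^ (-A)) := by
  obtain ⟨C, -, hb⟩ := h.le A hA
  refine Asymptotics.IsBigO.of_bound C (hl.mono fun x hx => ?_)
  rw [Complex.norm_real, Real.norm_of_nonneg (h.pos x hx).le,
    Real.norm_of_nonneg (Real.rpow_pos_of_pos hx _).le]
  exact hb x hx

theorem Base.differentiableAt_MG (h : Base G) {s : ℂ} (hs : 0 < s.re) :
    DifferentiableAt ℂ (MG G) s := by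
  have e : MG G = mellin (fun x => (G x : ℂ)) := funext (MG_eq_mellin G)
  rw [e]
  refine mellin_differentiableAt_of_isBigO_rpow (a := s.re + 1) (b := s.re / 2) ?_
    (h.isBigO (by linarith) (eventually_gt_atTop 0)) (by linarith)
    (h.isBigO (by linarith) self_mem_nhdsWithin) (by linarith)
  refine (locallyIntegrableOn_iff isOpen_Ioi.isLocallyClosed).2 fun k hk hc => ?_
  exact ((h.anti.mono hk).integrableOn_isCompact hc).ofReal

theorem Base.differentiableAt_mm (h : Base G) {s : ℂ} (hs : 0 < s.re) :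
    DifferentiableAt ℂ (mm G) s :=
  (h.differentiableAt_MG hs).mul ((R17.differentiable_Wm _).comp s (by fun_prop))

theorem Base.norm_mm_le (h : Base G) {a b : ℝ} (ha : 0 < a) : ∃ K : ℝ, 0 < K ∧ ∀ s : ℂ,
    a ≤ s.re → s.re ≤ b → ‖mm G s‖ ≤ K * Real.exp (-s.im ^ 2 / 4) := by
  obtain ⟨K, hK0, hK⟩ := h.norm_MG_le (b := b) ha
  refine ⟨K * (Real.sqrt Real.pi * Real.exp ((|b| + 1) ^ 2 / 4)), by positivity, fun s s0 s1 => ?_⟩
  rw [mm, norm_mul, R17.norm_Wm, mul_assoc K]
  refine mul_le_mul (hK s s0 s1) ?_ (by positivity) hK0.le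
  rw [mul_assoc, ← Real.exp_add]
  refine mul_le_mul_of_nonneg_left (Real.exp_le_exp.2 ?_) (Real.sqrt_nonneg _)
  have e1 : (1 / 2 - s).re = 1 / 2 - s.re := by simp
  have e2 : (1 / 2 - s).im = -s.im := by simp
  rw [e1, e2]
  have : (1 / 2 - s.re) ^ 2 ≤ (|b| + 1) ^ 2 := by
    have := le_abs_self b
    have := abs_nonneg b
    exact sq_le_sq' (by linarith) (by linarith)
  nlinarith

theorem Base.mel_cont (h : Base G) {σ : ℝ} (hσ : 0 < σ) :
    Continuous fun u : ℝ => mm G (σ + u * I) :=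
  continuous_iff_continuousAt.2 fun u =>
    ContinuousAt.comp (f := fun u : ℝ => (σ : ℂ) + u * I) (g := mm G)
      (h.differentiableAt_mm (by simpa using hσ)).continuousAt (by fun_prop)

theorem gauss_le (J : ℕ) : ∃ A : ℝ, 0 < A ∧ ∀ u : ℝ,
    Real.exp (-u ^ 2 / 4) * (1 + |u|) ^ J ≤ A * (1 + u ^ 2)⁻¹ := by
  obtain ⟨A, hA, hb⟩ := R17.Contour.gauss_pow (J + 2)
  refine ⟨A, hA, fun u => ?_⟩
  have hp : 0 < 1 + u ^ 2 := by positivity
  rw [← div_eq_mul_inv, le_div_iff₀ hp]
  refine le_trans ?_ (hb u)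
  rw [pow_add, ← mul_assoc]
  refine mul_le_mul_of_nonneg_left ?_ (by positivity)
  nlinarith [abs_nonneg u, sq_abs u]

theorem Base.mel_int (h : Base G) {σ : ℝ} (hσ : 0 < σ) (J : ℕ) :
    Integrable fun u : ℝ => ‖mm G (σ + u * I)‖ * (1 + |u|) ^ J := by
  obtain ⟨K, hK0, hK⟩ := h.norm_mm_le (b := σ) hσ
  obtain ⟨A, -, hA⟩ := gauss_le J
  refine (integrable_inv_one_add_sq.const_mul (K * A)).mono'
    ((h.mel_cont hσ).norm.mul (by fun_prop)).aestronglyMeasurable
    (Eventually.of_forall fun u => ?_)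
  rw [Real.norm_of_nonneg (by positivity)]
  have h1 := hK (σ + u * I) (by simp) (by simp)
  have e : ((σ : ℂ) + u * I).im = u := by simp
  rw [e] at h1
  calc ‖mm G (σ + u * I)‖ * (1 + |u|) ^ J ≤ K * Real.exp (-u ^ 2 / 4) * (1 + |u|) ^ J :=
        mul_le_mul_of_nonneg_right h1 (by positivity)
    _ = K * (Real.exp (-u ^ 2 / 4) * (1 + |u|) ^ J) := by ring
    _ ≤ K * (A * (1 + u ^ 2)⁻¹) := mul_le_mul_of_nonneg_left (hA u) hK0.le
    _ = _ := by ring

theorem wv_eq_integral (σ v : ℝ) : (wv v : ℂ) = (1 / (2 * Real.pi) : ℂ) *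
    ∫ t : ℝ, R17.Wm (1 / 2 - (σ + t * I)) * cexp ((σ + t * I) * v) := by
  have h := R17.Wc_eq_integral (Real.exp_pos v) (-σ) (1 / 2)
  have e1 : R17.Wc (Real.exp v) (1 / 2) = (wv v : ℂ) := by
    rw [R17.Wc, Real.log_exp, wv, Complex.ofReal_exp]
    congr 1
    push_cast
    ring
  rw [← e1, h, ← integral_neg_eq_self]
  congr 1
  refine integral_congr_ae (Eventually.of_forall fun t => ?_)
  simp only
  rw [cpow_eq (Real.exp_pos v), Real.log_exp]
  congr 2 <;> push_cast <;> ring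

theorem Base.mel_eq (h : Base G) {x σ : ℝ} (hx : 0 < x) (hσ : 0 < σ) :
    (sm G x : ℂ) = (1 / (2 * Real.pi) : ℂ) *
      ∫ t : ℝ, mm G (σ + t * I) * (x : ℂ) ^ (-(σ + t * I)) := by
  set L := Real.log x with hL
  have e0 : sm G x = ∫ u : ℝ, G (Real.exp u) * wv (u - L) := by
    rw [sm, ← integral_sub_right_eq_self _ L]
    refine integral_congr_ae (Eventually.of_forall fun u => ?_)
    simp only
    rw [Real.exp_sub, hL, Real.exp_log hx, mul_div_cancel₀ _ hx.ne']
  set Φ : ℝ → ℝ → ℂ := fun u t => (G (Real.exp u) : ℂ) *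
    (R17.Wm (1 / 2 - (σ + t * I)) * cexp ((σ + t * I) * ((u - L : ℝ) : ℂ))) with hΦ
  have hW : Continuous fun t : ℝ => R17.Wm (1 / 2 - (σ + t * I)) :=
    R17.differentiable_Wm.continuous.comp (by fun_prop)
  have hWi : Integrable fun t : ℝ => ‖R17.Wm (1 / 2 - (σ + t * I))‖ := by
    have := (R17.integrable_Wm_mul_pow (1 / 2 - σ) 0).comp_neg
    refine this.congr (Eventually.of_forall fun t => ?_)
    simp only [pow_zero, mul_one]
    congr 2
    push_cast
    ring
  have hint : Integrable (Function.uncurry Φ) (volume.prod volume) := by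
    have hm : AEStronglyMeasurable (Function.uncurry Φ) (volume.prod volume) := by
      refine Measurable.aestronglyMeasurable ?_
      refine (Complex.measurable_ofReal.comp (h.meas1.comp measurable_fst)).mul
        ((hW.measurable.comp measurable_snd).mul ?_)
      exact Continuous.measurable (by fun_prop)
    refine (((h.integrable_real hσ).const_mul (Real.exp (-(σ * L)))).mul_prod hWi).mono' hm
      (Eventually.of_forall fun p => le_of_eq ?_)
    simp only [hΦ, Function.uncurry]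
    rw [norm_mul, norm_mul, Complex.norm_real,
      Real.norm_of_nonneg (h.pos _ (Real.exp_pos _)).le, Complex.norm_exp]
    have : (((σ : ℂ) + p.2 * I) * ((p.1 - L : ℝ) : ℂ)).re = σ * p.1 + -(σ * L) := by
      simp
      ring
    rw [this, Real.exp_add]
    ring
  calc (sm G x : ℂ) = ∫ u : ℝ, (G (Real.exp u) : ℂ) * (wv (u - L) : ℂ) := by
        rw [e0, ← integral_complex_ofReal]
        simp
    _ = ∫ u : ℝ, (1 / (2 * Real.pi) : ℂ) * ∫ t : ℝ, Φ u t := by
        refine integral_congr_ae (Eventually.of_forall fun u => ?_)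
        simp only [hΦ]
        rw [wv_eq_integral σ, integral_const_mul]
        ring
    _ = (1 / (2 * Real.pi) : ℂ) * ∫ t : ℝ, ∫ u : ℝ, Φ u t := by
        rw [integral_const_mul, integral_integral_swap hint]
    _ = _ := by
        congr 1
        refine integral_congr_ae (Eventually.of_forall fun t => ?_)
        simp only [hΦ, mm, MG]
        rw [cpow_eq hx, ← hL, mul_assoc, ← integral_mul_const]
        refine integral_congr_ae (Eventually.of_forall fun u => ?_)
        simp only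
        have : ((σ : ℂ) + t * I) * ((u - L : ℝ) : ℂ) = (σ + t * I) * u + -(σ + t * I) * L := by
          push_cast
          ring
        rw [this, Complex.exp_add]
        ring

end Crest.Agent.T27.K63
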