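import Crest.Agent.T27.KerGA_63
import Crest.Agent.T27.KerDefs_63
import Crest.Agent.T27.Basic_55
import Crest.Agent.T27.Cnt_21

/-!
# Row 27, generic half of `KerAx`, part B (helper63): Poisson summation over the rows
-/

set_option autoImplicit false

noncomputable section

namespace Crest.Agent.T27.K63

open MeasureTheory Filter Topology

variable [Fr0]

open Classical in
/-- `N n ^ (-2)` on the primary elements. -/
def z2 (n : O) : ℝ := if Primary n then nr n ^ (-2 : ℝ) else 0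

theorem z2_nonneg (n : O) : 0 ≤ z2 n := by
  unfold z2
  split_ifs
  · positivity
  · exact le_rfl

theorem summable_z2 : Summable z2 := by
  classical
  have hs : Summable fun m : ℕ => (m : ℝ) ^ (-2 : ℝ) := Real.summable_nat_rpow.2 (by norm_num)
  refine summable_of_sum_le (c := Fr0.kp * ∑' m : ℕ, (m : ℝ) ^ (-2 : ℝ)) z2_nonneg fun S => ?_
  have h := C21.sum_pball_le (fun m => (m : ℝ) ^ (-2 : ℝ)) (fun m => by positivity)
    (fun m hm => Real.rpow_le_rpow_of_nonpos (by exact_mod_cast hm) (by push_cast; linarith)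
      (by norm_num)) (S.sup nm)
  calc ∑ n ∈ S, z2 n = ∑ n ∈ S.filter Primary, nr n ^ (-2 : ℝ) := by
        rw [Finset.sum_filter]; rfl
    _ ≤ ∑ n ∈ pball (S.sup nm), nr n ^ (-2 : ℝ) :=
        Finset.sum_le_sum_of_subset_of_nonneg (fun n hn => by
          rw [Finset.mem_filter] at hn
          exact mem_pball.2 ⟨hn.2, Finset.le_sup (f := nm) hn.1⟩) fun _ _ _ => by positivity
    _ ≤ _ := h.trans (mul_le_mul_of_nonneg_left
        (hs.sum_le_tsum _ fun _ _ => by positivity) (Nat.cast_nonneg _))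

open Classical in
/-- A term of a sum over the primary elements. -/
def tm (a : O → ℂ) (g : ℝ → ℝ) (c : ℝ) (n : O) : ℂ :=
  if Primary n then a n * (g (c * nr n) : ℂ) else 0

theorem norm_tm_le {a : O → ℂ} {g : ℝ → ℝ} {B C c : ℝ} (ha : ∀ n, ‖a n‖ ≤ B) (hc : 0 < c)
    (h0 : ∀ x, 0 < x → 0 ≤ g x) (hg : ∀ x, 0 < x → g x ≤ C * x ^ (-2 : ℝ)) (n : O) :
    ‖tm a g c n‖ ≤ B * C * c ^ (-2 : ℝ) * z2 n := by
  unfold tm z2
  split_ifs with hn
  · have hp := mul_pos hc (nr_pos hn.ne_zero)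
    rw [norm_mul, Complex.norm_real, Real.norm_of_nonneg (h0 _ hp)]
    have := hg _ hp
    rw [Real.mul_rpow hc.le (nr_pos hn.ne_zero).le] at this
    calc ‖a n‖ * g (c * nr n) ≤ B * (C * (c ^ (-2 : ℝ) * nr n ^ (-2 : ℝ))) :=
          mul_le_mul (ha n) this (h0 _ hp) ((norm_nonneg _).trans (ha n))
      _ = _ := by ring
  · simp

theorem summable_tm {a : O → ℂ} {g : ℝ → ℝ} {B C c : ℝ} (ha : ∀ n, ‖a n‖ ≤ B) (hc : 0 < c)
    (h0 : ∀ x, 0 < x → 0 ≤ g x) (hg : ∀ x, 0 < x → g x ≤ C * x ^ (-2 : ℝ)) :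
    Summable (tm a g c) :=
  (summable_z2.mul_left _).of_norm_bounded (norm_tm_le ha hc h0 hg)

variable {G : ℝ → ℝ}

theorem smooth (h : Base G) {a : O → ℂ} {B c : ℝ} (ha : ∀ n, ‖a n‖ ≤ B) (hc : 0 < c) :
    Integrable (fun v : ℝ => (∑' n, tm a G (c * Real.exp v) n) * (wv v : ℂ)) ∧
      ∫ v : ℝ, (∑' n, tm a G (c * Real.exp v) n) * (wv v : ℂ) = ∑' n, tm a (sm G) c n := by
  obtain ⟨C, hC, hg⟩ := h.le 2 two_pos
  have h0 : ∀ x, 0 < x → 0 ≤ G x := fun x hx => (h.pos x hx).le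
  have hb : ∀ n (v : ℝ), ‖tm a G (c * Real.exp v) n * (wv v : ℂ)‖ ≤
      B * C * c ^ (-2 : ℝ) * z2 n * (Real.exp (-2 * v) * wv v) := fun n v => by
    rw [norm_mul, Complex.norm_real, Real.norm_of_nonneg (wv_pos v).le]
    have := norm_tm_le ha (mul_pos hc (Real.exp_pos v)) h0 hg n
    rw [rpow_mul_exp hc] at this
    calc _ ≤ B * C * (c ^ (-2 : ℝ) * Real.exp (-2 * v)) * z2 n * wv v :=
          mul_le_mul_of_nonneg_right this (wv_pos v).le
      _ = _ := by ring
  have hm : ∀ n, Measurable fun v : ℝ => tm a G (c * Real.exp v) n * (wv v : ℂ) := fun n => by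
    refine Measurable.mul ?_ (Complex.measurable_ofReal.comp continuous_wv.measurable)
    unfold tm
    split_ifs with hn
    · have e : (fun v : ℝ => a n * (G (c * Real.exp v * nr n) : ℂ)) =
          fun v : ℝ => a n * (G (c * nr n * Real.exp v) : ℂ) := by
        funext v
        rw [mul_right_comm]
      rw [e]
      exact (Complex.measurable_ofReal.comp
        (h.meas (mul_pos hc (nr_pos hn.ne_zero)))).const_mul (a n)
    · exact measurable_const
  have hi : ∀ n, Integrable fun v : ℝ => tm a G (c * Real.exp v) n * (wv v : ℂ) := fun n =>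
    ((integrable_gauss (-2)).const_mul _).mono' (hm n).aestronglyMeasurable
      (Eventually.of_forall (hb n))
  have e1 : (fun v : ℝ => (∑' n, tm a G (c * Real.exp v) n) * (wv v : ℂ)) =
      fun v : ℝ => ∑' n, tm a G (c * Real.exp v) n * (wv v : ℂ) := by
    funext v
    rw [tsum_mul_right]
  rw [e1]
  constructor
  · refine ((integrable_gauss (-2)).const_mul (B * C * c ^ (-2 : ℝ) * ∑' n, z2 n)).mono'
      (Measurable.tsum hm).aestronglyMeasurable (Eventually.of_forall fun v => ?_)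
    have := tsum_of_norm_bounded
      (((summable_z2.mul_left (B * C * c ^ (-2 : ℝ))).mul_right
        (Real.exp (-2 * v) * wv v)).hasSum) (fun n => hb n v)
    refine this.trans (le_of_eq ?_)
    rw [tsum_mul_right, tsum_mul_left]
  · rw [← integral_tsum_of_summable_integral_norm hi]
    · refine tsum_congr fun n => ?_
      unfold tm
      split_ifs with hn
      · rw [sm, ← integral_complex_ofReal, ← integral_const_mul]
        refine integral_congr_ae (Eventually.of_forall fun v => ?_)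
        simp only
        rw [mul_right_comm c]
        push_cast
        ring
      · simp
    · refine ((summable_z2.mul_left (B * C * c ^ (-2 : ℝ))).mul_right
        (∫ v : ℝ, Real.exp (-2 * v) * wv v)).of_nonneg_of_le
        (fun n => integral_nonneg fun v => norm_nonneg _) fun n => ?_
      rw [← integral_const_mul]
      exact integral_mono (hi n).norm ((integrable_gauss (-2)).const_mul _) (hb n)

theorem bdd_per {q : O} (hq : q ≠ 0) {F : O → ℂ} (hF : ∀ x y, q ∣ x - y → F x = F y) (x : O) :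
    ‖F x‖ ≤ ∑ r ∈ res q, ‖F r‖ := by
  obtain ⟨r, ⟨hr, hx⟩, -⟩ := exists_unique_res hq x
  rw [hF x r hx]
  exact Finset.single_le_sum (f := fun r => ‖F r‖) (fun _ _ => norm_nonneg _) hr

theorem bdd_ft (q : O) (F : O → ℂ) (h : O) : ‖ft q F h‖ ≤ ∑ r ∈ res q, ‖F r‖ := by
  refine (norm_sum_le _ _).trans (Finset.sum_le_sum fun r _ => ?_)
  rw [norm_mul, norm_eq, mul_one]

theorem basePoi_iff (g : ℝ → ℝ) (V : ℝ) : BasePoi g V ↔
    ∀ (q : O) (F : O → ℂ) (X : ℝ), q ≠ 0 → (∀ x y, q ∣ x - y → F x = F y) →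
    (∀ u x, IsUnit u → F (u * x) = F x) → 0 < X →
    (V : ℂ) * F 0 + ∑' n, tm F g X⁻¹ n =
      (X / nr q : ℝ) * ((V : ℂ) * ft q F 0 + ∑' h, tm (ft q F) g (X / nr q) h) := by
  unfold BasePoi tm
  simp only [div_eq_inv_mul, mul_assoc]

theorem basePoi_sm (h : Base G) {V : ℝ} (hp : BasePoi G V) : BasePoi (sm G) (V * W0) := by
  rw [basePoi_iff] at hp ⊢
  intro q F X hq hF hu hX
  have hq' := nr_pos hq
  obtain ⟨i1, s1⟩ := smooth h (bdd_per hq hF) (inv_pos.2 hX)
  obtain ⟨i2, s2⟩ := smooth h (bdd_ft q F) (div_pos hX hq')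
  have iw : Integrable fun v : ℝ => (wv v : ℂ) := integrable_wv.ofReal
  have ew : ∫ v : ℝ, (wv v : ℂ) = (W0 : ℂ) := integral_complex_ofReal
  have key : ∀ v : ℝ, (V : ℂ) * F 0 * wv v + (∑' n, tm F G (X⁻¹ * Real.exp v) n) * (wv v : ℂ) =
      (X / nr q : ℝ) * ((V : ℂ) * ft q F 0 * wv (-v) +
        (∑' h, tm (ft q F) G (X / nr q * Real.exp (-v)) h) * (wv (-v) : ℂ)) := fun v => by
    have := hp q F (X * Real.exp (-v)) hq hF hu (mul_pos hX (Real.exp_pos _))
    have e1 : (X * Real.exp (-v))⁻¹ = X⁻¹ * Real.exp v := by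
      rw [mul_inv, Real.exp_neg, inv_inv]
    have e2 : X * Real.exp (-v) / nr q = X / nr q * Real.exp (-v) := by ring
    rw [e1, e2] at this
    rw [← add_mul, this, ← wv_neg]
    push_cast
    ring
  have l : ∫ v : ℝ, ((V : ℂ) * F 0 * wv v + (∑' n, tm F G (X⁻¹ * Real.exp v) n) * (wv v : ℂ)) =
      ((V * W0 : ℝ) : ℂ) * F 0 + ∑' n, tm F (sm G) X⁻¹ n := by
    rw [integral_add (iw.const_mul _) i1, s1, integral_const_mul, ew]
    push_cast
    ring
  have r : ∫ v : ℝ, ((V : ℂ) * ft q F 0 * wv v +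
      (∑' h, tm (ft q F) G (X / nr q * Real.exp v) h) * (wv v : ℂ)) =
      ((V * W0 : ℝ) : ℂ) * ft q F 0 + ∑' h, tm (ft q F) (sm G) (X / nr q) h := by
    rw [integral_add (iw.const_mul _) i2, s2, integral_const_mul, ew]
    push_cast
    ring
  rw [← l, ← r, ← integral_neg_eq_self (fun v : ℝ => (V : ℂ) * ft q F 0 * wv v +
      (∑' h, tm (ft q F) G (X / nr q * Real.exp v) h) * (wv v : ℂ)), ← integral_const_mul]
  exact integral_congr_ae (Eventually.of_forall key)

/-! ### from the primary elements to the rows -/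

theorem sum_U0_of_inj {φ : O → ℂ} (hφ : UInv φ) (T : O → O) (hT : ∀ u ∈ U0, IsUnit (T u))
    (hi : ∀ u ∈ U0, ∀ u' ∈ U0, cls (T u) = cls (T u') → u = u') (x : O) :
    ∑ u ∈ U0, φ (T u * x) = ∑ u ∈ U0, φ (u * x) := by
  classical
  choose r hr hc using fun u (hu : u ∈ U0) => exists_U0 (hT u hu)
  have hinj : ∀ a ha b hb, r a ha = r b hb → a = b := fun a ha b hb e =>
    hi a ha b hb (by rw [← hc a ha, ← hc b hb, e])
  refine Finset.sum_bij r hr hinj (fun b hb => (Finset.surj_on_of_inj_on_of_card_le r hr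
    (fun a b ha hb => hinj a ha b hb) le_rfl b hb).imp
    fun a h => h.imp fun ha e => e.symm) fun a ha => ?_
  obtain ⟨w, hw⟩ := (isUnit_of_mem_U0 (hr a ha)).exists_left_inv
  have e : T a * x = T a * w * (r a ha * x) := by linear_combination (-(T a * x)) * hw
  rw [e]
  refine hφ _ _ ((hT a ha).mul (IsUnit.of_mul_eq_one _ hw)) ?_
  rw [map_mul, ← hc a ha, ← map_mul, mul_comm, hw, map_one]

/-- The average over the transversal. -/
def av (φ : O → ℂ) (x : O) : ℂ := ∑ u ∈ U0, φ (u * x)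

theorem av_unit {φ : O → ℂ} (hφ : UInv φ) (v x : O) (hv : IsUnit v) : av φ (v * x) = av φ x := by
  have := sum_U0_of_inj hφ (fun u => u * v) (fun u hu => (isUnit_of_mem_U0 hu).mul hv)
    (fun u hu u' hu' e => eq_of_mem_U0 hu hu' (by
      simp only [map_mul] at e
      exact mul_right_cancel₀ (cls_ne_zero hv.ne_zero) e)) x
  simpa only [av, mul_assoc] using this

theorem ft_unit {q : O} (hq : q ≠ 0) {f : O → ℂ} (hf : ∀ x y, q ∣ x - y → f x = f y) {u : O}
    (hu : IsUnit u) (h : O) : ft q (fun x => f (u * x)) (u * h) = ft q f h := by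
  have := sum_res_affine hq (fun x => f x * eq (h * x) q)
    (fun x y hxy => by
      rw [hf x y hxy, eq_congr (x := h * x) (y := h * y) (by rw [← mul_sub]; exact hxy.mul_left h)])
    (a := u) (isCoprime_of_isUnit q hu).symm 0
  rw [ft, ft, ← this]
  refine Finset.sum_congr rfl fun x _ => ?_
  rw [add_zero, mul_left_comm, mul_assoc]

theorem uinv_ft {q : O} (hq : q ≠ 0) {f : O → ℂ} (hf : ∀ x y, q ∣ x - y → f x = f y)
    (hu : UInv f) : UInv (ft q f) := fun u h h1 h2 => by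
  rw [← ft_unit hq hf h1 h]
  congr 1
  funext x
  exact (hu u x h1 h2).symm

theorem ft_av {q : O} (hq : q ≠ 0) {f : O → ℂ} (hf : ∀ x y, q ∣ x - y → f x = f y)
    (hu : UInv f) (h : O) : ft q (av f) h = av (ft q f) h := by
  have e : ft q (av f) h = ∑ u ∈ U0, ft q f (Ring.inverse u * h) := by
    simp only [ft, av, Finset.sum_mul]
    rw [Finset.sum_comm]
    refine Finset.sum_congr rfl fun u hu0 => ?_
    have hu1 := isUnit_of_mem_U0 hu0
    have := ft_unit hq hf hu1 (Ring.inverse u * h)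
    rw [← mul_assoc, Ring.mul_inverse_cancel u hu1, one_mul] at this
    exact this
  rw [e]
  refine sum_U0_of_inj (uinv_ft hq hf hu) Ring.inverse
    (fun u hu0 => (isUnit_of_mem_U0 hu0).ringInverse) (fun u h1 u' h2 e => ?_) h
  have a1 := congrArg cls (Ring.mul_inverse_cancel u (isUnit_of_mem_U0 h1))
  have a2 := congrArg cls (Ring.mul_inverse_cancel u' (isUnit_of_mem_U0 h2))
  rw [map_mul] at a1 a2
  rw [e, ← a2] at a1
  exact eq_of_mem_U0 h1 h2 (mul_right_cancel₀
    (cls_ne_zero (isUnit_of_mem_U0 h2).ringInverse.ne_zero) a1)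

theorem tsum_rows {φ : O → ℂ} {g : ℝ → ℝ} {B C c : ℝ} (ha : ∀ n, ‖φ n‖ ≤ B) (hc : 0 < c)
    (h0 : ∀ x, 0 < x → 0 ≤ g x) (hg : ∀ x, 0 < x → g x ≤ C * x ^ (-2 : ℝ)) :
    ∑' k : O, φ k * (grp g k (c * nr k) : ℂ) = φ 0 * g 0 + ∑' n, tm (av φ) g c n := by
  classical
  set t : O → O → ℂ := fun u k =>
    if Primary (Ring.inverse u * k) then φ k * (g (c * nr k) : ℂ) else 0 with ht
  have h1 : ∀ u ∈ U0, HasSum (t u) (∑' n, tm (fun x => φ (u * x)) g c n) := fun u hu => by
    have hu1 := isUnit_of_mem_U0 hu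
    refine (hu1.unit.mulLeft.hasSum_iff).1 ?_
    have := (summable_tm (a := fun x => φ (u * x)) (fun n => ha _) hc h0 hg).hasSum
    convert this using 1
    funext n
    simp only [ht, tm, Function.comp, Units.mulLeft_apply, IsUnit.unit_spec]
    rw [← mul_assoc, Ring.inverse_mul_cancel u hu1, one_mul, nr_unit_mul hu1]
  have h2 := (hasSum_single (f := fun k : O => if k = 0 then φ 0 * (g 0 : ℂ) else 0) 0
    (fun k hk => if_neg hk)).add (hasSum_sum h1)
  have h3 : ∑' n, tm (av φ) g c n = ∑ u ∈ U0, ∑' n, tm (fun x => φ (u * x)) g c n := by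
    rw [← Summable.tsum_finsetSum fun u _ =>
      summable_tm (a := fun x => φ (u * x)) (fun n => ha _) hc h0 hg]
    refine tsum_congr fun n => ?_
    unfold tm av
    split_ifs
    · rw [Finset.sum_mul]
    · simp
  rw [h3, ← (if_pos rfl : (if (0 : O) = 0 then φ 0 * (g 0 : ℂ) else 0) = φ 0 * g 0), ← h2.tsum_eq]
  refine tsum_congr fun k => ?_
  rcases eq_or_ne k 0 with rfl | hk
  · have : ∀ u, t u 0 = 0 := fun u => if_neg fun h => h.ne_zero (mul_zero _)
    simp [this, grp, rep_zero, nr]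
  · obtain ⟨v, n, hv, hn, rfl⟩ := exists_eq_unit_mul_primary hk
    have a1 : ∀ u ∈ U0, t u (v * n) =
        if u = v then φ (v * n) * (g (c * nr (v * n)) : ℂ) else 0 := fun u hu => by
      have hu1 := isUnit_of_mem_U0 hu
      refine if_congr ⟨fun h => ?_, fun h => ?_⟩ rfl rfl
      · exact (unit_mul_primary_inj hu1 hv h hn (by
          rw [← mul_assoc, Ring.mul_inverse_cancel u hu1, one_mul])).1
      · rwa [← h, ← mul_assoc, Ring.inverse_mul_cancel u hu1, one_mul]
    have a2 : Rep (v * n) ↔ v ∈ U0 := ⟨fun h => by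
      obtain ⟨u, hu, m, hm, e⟩ := h.exists hk
      rwa [(unit_mul_primary_inj hv (isUnit_of_mem_U0 hu) hn hm e).1], fun h => rep_mul_of_mem h hn⟩
    rw [if_neg hk, zero_add, Finset.sum_congr rfl a1, Finset.sum_ite_eq', grp]
    by_cases hv0 : v ∈ U0
    · rw [if_pos hv0, if_pos (a2.2 hv0)]
    · rw [if_neg hv0, if_neg (mt a2.1 hv0)]
      simp

/-- Poisson summation over the rows from `BasePoi g V` with `V |U0| = g 0`. -/
theorem poisson_rows {g : ℝ → ℝ} {V C : ℝ} (hp : BasePoi g V) (hV : V * U0.card = g 0)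
    (h0 : ∀ x, 0 < x → 0 ≤ g x) (hg : ∀ x, 0 < x → g x ≤ C * x ^ (-2 : ℝ))
    (q : O) (f : O → ℂ) (X : ℝ) (hq : q ≠ 0) (hf : ∀ x y, q ∣ x - y → f x = f y) (hu : UInv f)
    (hX : 0 < X) : ∑' k : O, f k * (grp g k (nr k / X) : ℂ) =
      (X / nr q : ℝ) * ∑' h : O, ft q f h * (grp g h (X * nr h / nr q) : ℂ) := by
  have e1 : ∀ k : O, nr k / X = X⁻¹ * nr k := fun k => div_eq_inv_mul _ _
  have e2 : ∀ k : O, X * nr k / nr q = X / nr q * nr k := fun k => by ring
  simp only [e1, e2]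
  rw [tsum_rows (bdd_per hq hf) (inv_pos.2 hX) h0 hg,
    tsum_rows (bdd_ft q f) (div_pos hX (nr_pos hq)) h0 hg]
  have := (basePoi_iff g V).1 hp q (av f) X hq
    (fun x y hxy => Finset.sum_congr rfl fun u _ =>
      hf _ _ (by rw [← mul_sub]; exact hxy.mul_left u)) (fun u x h => av_unit hu u x h) hX
  have e3 : ft q (av f) = av (ft q f) := funext (ft_av hq hf hu)
  have e4 : ∀ φ : O → ℂ, (V : ℂ) * av φ 0 = φ 0 * g 0 := fun φ => by
    rw [← hV, av]
    simp only [mul_zero, Finset.sum_const, nsmul_eq_mul]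
    push_cast
    ring
  rwa [e3, e4, e4] at this

end Crest.Agent.T27.K63
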