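import Crest.Agent.T27.KerF_65
import Crest.Agent.T27.ThO_87
import Crest.Agent.T27.ZGr_63

/-! # Row 27, kernel (G): the kernel axioms hold for the model -/

set_option autoImplicit false

namespace Crest.Agent.T27

theorem kerAx_model_65 [Fr0] {F : Type*} [Field F] [NumberField F] {N J : ℕ} {j : O →+* F}
    (h : IsModel F N J j) : ∃ (g : ℝ → ℝ) (m : ℂ → ℂ), KerAx g m :=
  kerAx_65 h (thetaO_87 h) (zGrow_63 h)

end Crest.Agent.T27
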