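import Crest.Agent.PVc.R27.Iface

/-!
# Row 27: the Kummer field `ℚ(ζ_q, a^{1/q})` (`KumStmt`)
-/

set_option autoImplicit false

namespace Crest.Agent.T27

open NumberField Module Polynomial

/-- discriminant bound from a spanning set of integers with bounded conjugates -/
theorem abs_discr_le_79 (F : Type*) [Field F] [NumberField F] (s : Set F)
    (hint : ∀ x ∈ s, IsIntegral ℤ x) (hspan : ⊤ ≤ Submodule.span ℚ s) (B : ℝ)
    (hB : ∀ x ∈ s, ∀ σ : F →+* ℂ, ‖σ x‖ ≤ B) :
    |(discr F : ℝ)| ≤ ((finrank ℚ F).factorial * B ^ finrank ℚ F) ^ 2 := by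
  classical
  set ι := Free.ChooseBasisIndex ℤ (𝓞 F)
  let b₀ := Basis.ofSpan hspan
  let b : Basis ι ℚ F := b₀.reindex (b₀.indexEquiv (integralBasis F))
  have hb : ∀ i, b i ∈ s := fun i => by
    apply Basis.ofSpan_subset hspan
    exact ⟨_, (Basis.reindex_apply _ _ _).symm⟩
  set P : Matrix ι ι ℚ := (integralBasis F).toMatrix b with hP
  have h1 : Algebra.discr ℚ b = P.det ^ 2 * (discr F : ℚ) := by
    rw [coe_discr, ← Algebra.discr_of_matrix_vecMul, hP, Basis.toMatrix_map_vecMul]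
  have hPint : IsIntegral ℤ P.det := by
    refine IsIntegral.det fun i j => ?_
    have : b j = algebraMap (𝓞 F) F ⟨b j, hint _ (hb j)⟩ := rfl
    rw [hP, Basis.toMatrix_apply, this, integralBasis_repr_apply]
    exact isIntegral_algebraMap
  obtain ⟨r, hr⟩ := IsIntegrallyClosed.isIntegral_iff.1 hPint
  have hne : Algebra.discr ℚ b ≠ 0 := Algebra.discr_not_zero_of_basis ℚ b
  have hr0 : r ≠ 0 := by
    rintro rfl
    apply hne
    rw [h1, ← hr]; simp
  have hcard : Fintype.card ι = finrank ℚ F := (finrank_eq_card_basis b).symm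
  have hc2 : Fintype.card ι = Fintype.card (F →ₐ[ℚ] ℂ) := by
    rw [hcard, AlgHom.card]
  let e : ι ≃ (F →ₐ[ℚ] ℂ) := Fintype.equivOfCardEq hc2
  have h2 := Algebra.discr_eq_det_embeddingsMatrixReindex_pow_two ℚ ℂ b e
  have h3 : ‖(Algebra.embeddingsMatrixReindex ℚ ℂ b e).det‖ ≤
      (finrank ℚ F).factorial * B ^ finrank ℚ F := by
    have := Matrix.det_le (A := Algebra.embeddingsMatrixReindex ℚ ℂ b e)
      (abv := IsAbsoluteValue.toAbsoluteValue (norm : ℂ → ℝ)) (x := B) (fun i j => by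
        simp only [Algebra.embeddingsMatrixReindex, Matrix.reindex_apply, Matrix.submatrix_apply,
          Algebra.embeddingsMatrix_apply]
        exact hB _ (hb _) _)
    rw [hcard, nsmul_eq_mul] at this
    exact this
  have h4 : ‖(algebraMap ℚ ℂ (Algebra.discr ℚ b))‖ = (r : ℝ) ^ 2 * |(discr F : ℝ)| := by
    rw [h1, ← hr]
    simp [sq_abs]
  have h5 : (1 : ℝ) ≤ (r : ℝ) ^ 2 := by
    have : 1 ≤ r ^ 2 := by
      have := pow_pos (abs_pos.2 hr0) 2
      rw [sq_abs] at this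
      omega
    exact_mod_cast this
  calc |(discr F : ℝ)| ≤ (r : ℝ) ^ 2 * |(discr F : ℝ)| := le_mul_of_one_le_left (abs_nonneg _) h5
    _ = ‖(Algebra.embeddingsMatrixReindex ℚ ℂ b e).det‖ ^ 2 := by rw [← h4, h2, norm_pow]
    _ ≤ _ := by gcongr

/-- two roots of `X ^ q - a` that are congruent modulo a prime not dividing `q a` are equal -/
theorem root_eq_of_sub_mem_79 {R : Type*} [CommRing R] [IsDomain R] (P : Ideal R) [hP : P.IsPrime]
    {q : ℕ} {a x y : R} (hx : x ^ q = a) (hy : y ^ q = a) (hq : (q : R) ∉ P) (ha : a ∉ P)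
    (hxy : x - y ∈ P) : x = y := by
  by_contra hne
  have h1 := (Commute.all x y).geom_sum₂_mul q
  rw [hx, hy, sub_self] at h1
  have h2 : ∑ i ∈ Finset.range q, x ^ i * y ^ (q - 1 - i) = 0 :=
    (mul_eq_zero.1 h1).resolve_right (sub_ne_zero.2 hne)
  have h3 : Ideal.Quotient.mk P x = Ideal.Quotient.mk P y := Ideal.Quotient.eq.2 hxy
  have h4 := congrArg (Ideal.Quotient.mk P) h2
  simp only [map_sum, map_mul, map_pow, h3, map_zero] at h4
  have h5 : ∑ i ∈ Finset.range q, Ideal.Quotient.mk P y ^ i * Ideal.Quotient.mk P y ^ (q - 1 - i) =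
      (q : R ⧸ P) * Ideal.Quotient.mk P y ^ (q - 1) := by
    rw [Finset.sum_congr rfl (g := fun _ => Ideal.Quotient.mk P y ^ (q - 1))]
    · simp
    · intro i hi
      rw [← pow_add]; congr 1
      have := Finset.mem_range.1 hi
      omega
  rw [h5] at h4
  rcases mul_eq_zero.1 h4 with h | h
  · apply hq
    rw [← Ideal.Quotient.eq_zero_iff_mem, map_natCast]; exact h
  · apply ha
    have h6 : Ideal.Quotient.mk P y = 0 := eq_zero_of_pow_eq_zero h
    rw [← hy, ← Ideal.Quotient.eq_zero_iff_mem, map_pow, h6]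
    exact zero_pow (by rintro rfl; exact hq (by simp))

/-- complete splitting: `F` Galois, generated by roots of `X ^ q - a` -/
theorem split_79 (F : Type*) [Field F] [NumberField F] [IsGalois ℚ F] (q : ℕ) (hq : q.Prime) (a : ℤ)
    (hgen : Algebra.adjoin ℚ {x : F | x ^ q = a} = ⊤) (p : ℕ) (hp : p.Prime) (hqp : q ∣ p - 1)
    (ha : (a : ZMod p) ^ ((p - 1) / q) = 1) :
    ∃ S : Finset (Ideal (𝓞 F)), S.card = finrank ℚ F ∧ ∀ P ∈ S, Ideal.absNorm P = p := by
  classical
  have := Fact.mk hp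
  have hp2 := hp.two_le
  have hN : Ideal.absNorm (Ideal.span {(p : 𝓞 F)}) = p ^ finrank ℚ F := by
    rw [Ideal.absNorm_span_natCast, RingOfIntegers.rank]
  have hn : 0 < finrank ℚ F := finrank_pos
  have hne : Ideal.span {(p : 𝓞 F)} ≠ ⊤ := by
    intro h
    rw [h, Ideal.absNorm_top] at hN
    have : 1 < p ^ finrank ℚ F := Nat.one_lt_pow hn.ne' hp.one_lt
    omega
  obtain ⟨P, hPm, hPp⟩ := Ideal.exists_le_maximal _ hne
  have hpP : (p : 𝓞 F) ∈ P := hPp (Ideal.subset_span rfl)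
  -- integers in `P` are multiples of `p`
  have hint : ∀ m : ℤ, (m : 𝓞 F) ∈ P → (p : ℤ) ∣ m := by
    intro m hm
    by_contra h
    have hc : IsCoprime (p : ℤ) m := (Nat.prime_iff_prime_int.1 hp).irreducible.coprime_iff_not_dvd.2 h
    obtain ⟨u, v, huv⟩ := hc
    apply hPm.ne_top
    rw [Ideal.eq_top_iff_one]
    have : (1 : 𝓞 F) = u * p + v * m := by exact_mod_cast congrArg (Int.cast : ℤ → 𝓞 F) huv.symm
    rw [this]
    exact P.add_mem (P.mul_mem_left _ hpP) (P.mul_mem_left _ hm)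
  obtain ⟨k, hk⟩ := hqp
  have hkq : (p - 1) / q = k := by rw [hk, Nat.mul_div_cancel_left _ hq.pos]
  rw [hkq] at ha
  have hk0 : k ≠ 0 := by rintro rfl; omega
  have haP : (a : 𝓞 F) ∉ P := by
    intro h
    have := (ZMod.intCast_zmod_eq_zero_iff_dvd a p).2 (hint a h)
    rw [this, zero_pow hk0] at ha
    exact zero_ne_one ha
  have hqP : (q : 𝓞 F) ∉ P := by
    intro h
    have h1 : (p : ℤ) ∣ (q : ℤ) := hint q (by exact_mod_cast h)
    have h2 : p ∣ q := by exact_mod_cast h1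
    have h3 : p ≤ q := Nat.le_of_dvd hq.pos h2
    have h4 : q ≤ q * k := Nat.le_mul_of_pos_right _ (Nat.pos_of_ne_zero hk0)
    omega
  -- every root is congruent to a rational integer
  have hroot : ∀ x : 𝓞 F, x ^ q = a → ∃ y : ℤ, x - y ∈ P := by
    intro x hx
    let := Ideal.Quotient.field P
    have : CharP (𝓞 F ⧸ P) p := by
      refine (CharP.charP_iff_prime_eq_zero hp).2 ?_
      rw [← map_natCast (Ideal.Quotient.mk P), Ideal.Quotient.eq_zero_iff_mem]; exact hpP
    have h1 : (p : ℤ) ∣ a ^ k - 1 := by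
      rw [← ZMod.intCast_zmod_eq_zero_iff_dvd]; push_cast; rw [ha, sub_self]
    obtain ⟨c, hc⟩ := h1
    have h2 : (Ideal.Quotient.mk P x) ^ p = Ideal.Quotient.mk P x := by
      have h3 : p = q * k + 1 := by omega
      have h4 : ((a : 𝓞 F)) ^ k - 1 ∈ P := by
        have : ((a : 𝓞 F)) ^ k - 1 = p * c := by exact_mod_cast congrArg (Int.cast : ℤ → 𝓞 F) hc
        rw [this]; exact P.mul_mem_right _ hpP
      have h5 : Ideal.Quotient.mk P ((a : 𝓞 F) ^ k) = 1 := by
        rw [← map_one (Ideal.Quotient.mk P)]; exact Ideal.Quotient.eq.2 h4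
      calc (Ideal.Quotient.mk P x) ^ p = Ideal.Quotient.mk P ((x ^ q) ^ k) * Ideal.Quotient.mk P x := by
            rw [← pow_mul, map_pow, ← pow_succ, ← h3]
        _ = _ := by rw [hx, h5, one_mul]
    obtain ⟨y, hy⟩ := (mem_bot_iff_intCast p (𝓞 F ⧸ P)).1
      ((Subfield.mem_bot_iff_pow_eq_self _ p).2 h2)
    refine ⟨y, Ideal.Quotient.eq.1 ?_⟩
    rw [map_intCast, hy]
  -- the conjugates of `P`
  let φ : (F ≃ₐ[ℚ] F) → (𝓞 F ≃+* 𝓞 F) := fun σ => RingOfIntegers.mapRingEquiv σ.toRingEquiv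
  let Q : (F ≃ₐ[ℚ] F) → Ideal (𝓞 F) := fun σ => P.comap (φ σ)
  have hQm : ∀ σ, (Q σ).IsMaximal := fun σ =>
    Ideal.comap_isMaximal_of_surjective (φ σ) (φ σ).surjective
  have hQp : ∀ σ, (p : 𝓞 F) ∈ Q σ := fun σ => by
    simp only [Q, Ideal.mem_comap, map_natCast]; exact hpP
  have hinj : Function.Injective Q := by
    intro σ τ h
    have : ∀ x ∈ {x : F | x ^ q = a}, σ x = τ x := by
      intro x hx
      have hx' : x ^ q = a := hx
      have hxi : IsIntegral ℤ x := by
        refine IsIntegral.of_pow hq.pos ?_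
        rw [hx']; exact isIntegral_algebraMap (R := ℤ)
      let z : 𝓞 F := ⟨x, hxi⟩
      have hz : z ^ q = a := by
        apply RingOfIntegers.ext; push_cast; exact hx'
      have hzσ : ∀ ρ, (φ ρ z) ^ q = a := fun ρ => by rw [← map_pow, hz, map_intCast]
      obtain ⟨y, hy⟩ := hroot _ (hzσ τ)
      have h1 : z - y ∈ Q τ := by
        simp only [Q, Ideal.mem_comap, map_sub, map_intCast]; exact hy
      rw [← h] at h1
      simp only [Q, Ideal.mem_comap, map_sub, map_intCast] at h1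
      have h2 : φ σ z - φ τ z ∈ P := by
        have := P.sub_mem h1 hy
        rwa [sub_sub_sub_cancel_right] at this
      have h3 := root_eq_of_sub_mem_79 P (hzσ σ) (hzσ τ) hqP haP h2
      exact congrArg (fun w : 𝓞 F => (w : F)) h3
    apply AlgEquiv.coe_toAlgHom_injective
    exact AlgHom.ext_of_adjoin_eq_top hgen this
  have hcard : Fintype.card (F ≃ₐ[ℚ] F) = finrank ℚ F := by
    rw [← IsGalois.card_aut_eq_finrank, Nat.card_eq_fintype_card]
  refine ⟨Finset.univ.image Q, by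
    rw [Finset.card_image_of_injective _ hinj, Finset.card_univ, hcard], ?_⟩
  -- norms
  have hdvd : ∏ σ, Q σ ∣ Ideal.span {(p : 𝓞 F)} := by
    refine Finset.prod_dvd_of_coprime (fun σ _ τ _ hst => ?_) fun σ _ => ?_
    · exact Ideal.isCoprime_iff_sup_eq.2 ((hQm σ).coprime_of_ne (hQm τ) fun h => hst (hinj h))
    · exact Ideal.dvd_iff_le.2 ((Ideal.span_singleton_le_iff_mem _).2 (hQp σ))
  have hdvd2 : ∏ σ, Ideal.absNorm (Q σ) ∣ p ^ finrank ℚ F := by
    rw [← map_prod, ← hN]; exact map_dvd _ hdvd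
  have hge : ∀ σ, p ≤ Ideal.absNorm (Q σ) := fun σ => by
    have h1 : Ideal.absNorm (Q σ) ∣ p ^ finrank ℚ F :=
      (Finset.dvd_prod_of_mem _ (Finset.mem_univ σ)).trans hdvd2
    obtain ⟨j, -, hj⟩ := (Nat.dvd_prime_pow hp).1 h1
    have hj0 : j ≠ 0 := by
      rintro rfl
      rw [pow_zero, Ideal.absNorm_eq_one_iff] at hj
      exact (hQm σ).ne_top hj
    rw [hj]
    exact Nat.le_self_pow hj0 p
  intro P' hP'
  obtain ⟨σ, -, rfl⟩ := Finset.mem_image.1 hP'
  by_contra hne'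
  have hlt : p < Ideal.absNorm (Q σ) := lt_of_le_of_ne (hge σ) (Ne.symm hne')
  have h1 : ∏ _σ : F ≃ₐ[ℚ] F, p < ∏ σ, Ideal.absNorm (Q σ) :=
    Finset.prod_lt_prod (fun _ _ => hp.pos) (fun τ _ => hge τ) ⟨σ, Finset.mem_univ _, hlt⟩
  rw [Finset.prod_const, Finset.card_univ, hcard] at h1
  exact absurd (Nat.le_of_dvd (pow_pos hp.pos _) hdvd2) (not_le.2 h1)

/-- an integer of absolute value at least two is not a `q`-th power for large `q` -/
theorem not_pow_79 (a : ℤ) (ha : 2 ≤ |a|) (q : ℕ) (hq : a.natAbs ≤ q) (b : ℚ) : b ^ q ≠ a := by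
  intro h
  have h3 : 2 ≤ a.natAbs := by
    rw [← Int.natCast_natAbs] at ha
    exact_mod_cast ha
  have hq0 : 0 < q := by omega
  have hbi : IsIntegral ℤ b := by
    refine IsIntegral.of_pow hq0 ?_
    rw [h]; exact isIntegral_algebraMap (R := ℤ)
  obtain ⟨c, hc⟩ := IsIntegrallyClosed.isIntegral_iff.1 hbi
  have h1 : c ^ q = a := by
    rw [← hc, eq_intCast] at h
    exact_mod_cast h
  have h2 : c.natAbs ^ q = a.natAbs := by rw [← h1, Int.natAbs_pow]
  have h4 : 2 ≤ c.natAbs := by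
    by_contra h5
    have : c.natAbs ^ q ≤ 1 := Nat.pow_le_one_iff hq0.ne' |>.2 (by omega)
    omega
  have h5 : 2 ^ q ≤ c.natAbs ^ q := Nat.pow_le_pow_left h4 q
  have h6 : q < 2 ^ q := Nat.lt_two_pow_self
  omega

/-- the Kummer field, exact form -/
theorem kum_exact_79 (a : ℤ) (ha : 2 ≤ |a|) (q : ℕ) (hq : q.Prime) (hq3 : 3 ≤ q)
    (hqa : a.natAbs ≤ q) :
    ∃ (F : Type) (_ : Field F) (_ : NumberField F), IsTotallyComplex F ∧ IsGalois ℚ F ∧
      (∃ ζ : F, IsPrimitiveRoot ζ q) ∧ Algebra.adjoin ℚ {x : F | x ^ q = a} = ⊤ ∧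
      finrank ℚ F = q * (q - 1) ∧
      |(discr F : ℝ)| ≤ ((finrank ℚ F).factorial * |(a : ℝ)| ^ finrank ℚ F) ^ 2 := by
  classical
  have ha0 : a ≠ 0 := by rintro rfl; simp at ha
  set f : ℚ[X] := X ^ q - C (a : ℚ) with hf
  have hirr : Irreducible f := X_pow_sub_C_irreducible_of_prime hq (not_pow_79 a ha q hqa)
  have hsep : f.Separable := hirr.separable
  have hmon : f.Monic := monic_X_pow_sub_C _ hq.ne_zero
  have hdeg : f.natDegree = q := natDegree_X_pow_sub_C
  obtain ⟨F, _, _, hF⟩ : ∃ (F : Type) (_ : Field F) (_ : NumberField F), IsSplittingField ℚ F f :=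
    ⟨f.SplittingField, inferInstance, { }, by
      convert IsSplittingField.splittingField f
      exact Subsingleton.elim _ _⟩
  have hG : IsGalois ℚ F := IsGalois.of_separable_splitting_field hsep
  have hmem : ∀ x : F, x ∈ f.rootSet F ↔ x ^ q = a := fun x => by
    rw [mem_rootSet_of_ne hirr.ne_zero, hf]
    simp [sub_eq_zero]
  have hset : f.rootSet F = {x : F | x ^ q = a} := Set.ext hmem
  have hgen : Algebra.adjoin ℚ {x : F | x ^ q = a} = ⊤ := by
    rw [← hset]; exact IsSplittingField.adjoin_rootSet F f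
  have hcard : Fintype.card (f.rootSet F) = q := by
    rw [card_rootSet_eq_natDegree hsep (IsSplittingField.splits F f), hdeg]
  obtain ⟨⟨α, hα⟩, ⟨β, hβ⟩, hαβ⟩ := Fintype.exists_pair_of_one_lt_card
    (α := f.rootSet F) (by rw [hcard]; exact hq.one_lt)
  have hα' := (hmem α).1 hα
  have hβ' := (hmem β).1 hβ
  have haF : (a : F) ≠ 0 := Int.cast_ne_zero.2 ha0
  have hα0 : α ≠ 0 := by rintro rfl; rw [zero_pow hq.ne_zero] at hα'; exact haF hα'.symm
  set ζ : F := β / α with hζ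
  have hζq : ζ ^ q = 1 := by rw [hζ, div_pow, hα', hβ', div_self haF]
  have hζ1 : ζ ≠ 1 := by
    intro h
    apply hαβ
    rw [hζ, div_eq_one_iff_eq hα0] at h
    exact Subtype.ext h.symm
  have := Fact.mk hq
  have hprim : IsPrimitiveRoot ζ q := by
    have := orderOf_eq_prime hζq hζ1
    rw [← this]; exact IsPrimitiveRoot.orderOf ζ
  -- spanning family
  let v : Fin q × Fin q → F := fun ij => ζ ^ (ij.1 : ℕ) * α ^ (ij.2 : ℕ)
  have hspan : ⊤ ≤ Submodule.span ℚ (Set.range v) := by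
    have h1 := Algebra.adjoin_eq_span ℚ {x : F | x ^ q = a}
    rw [hgen, Algebra.top_toSubmodule] at h1
    rw [h1, Submodule.span_le]
    intro x hx
    have h2 : ∃ i j : ℕ, x = ζ ^ i * α ^ j := by
      induction hx using Submonoid.closure_induction with
      | mem y hy =>
        have hy' : y ^ q = a := hy
        have hy1 : (y / α) ^ q = 1 := by rw [div_pow, hy', hα', div_self haF]
        have : NeZero q := ⟨hq.ne_zero⟩
        obtain ⟨i, -, hi⟩ := hprim.eq_pow_of_pow_eq_one hy1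
        exact ⟨i, 1, by rw [hi, pow_one, div_mul_cancel₀ _ hα0]⟩
      | one => exact ⟨0, 0, by simp⟩
      | mul y z _ _ hy hz =>
        obtain ⟨i, j, rfl⟩ := hy
        obtain ⟨i', j', rfl⟩ := hz
        exact ⟨i + i', j + j', by ring⟩
    obtain ⟨i, j, rfl⟩ := h2
    have h3 : ζ ^ i * α ^ j = ((a : ℚ) ^ (j / q)) • v (⟨i % q, Nat.mod_lt _ hq.pos⟩,
        ⟨j % q, Nat.mod_lt _ hq.pos⟩) := by
      have e1 : ζ ^ i = ζ ^ (i % q) := by
        conv_lhs => rw [← Nat.div_add_mod i q, pow_add, pow_mul, hζq, one_pow, one_mul]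
      have e2 : α ^ j = (a : F) ^ (j / q) * α ^ (j % q) := by
        conv_lhs => rw [← Nat.div_add_mod j q, pow_add, pow_mul, hα']
      simp only [v, Algebra.smul_def, map_pow, map_intCast]
      rw [e1, e2]; ring
    rw [h3]
    exact Submodule.smul_mem _ _ (Submodule.subset_span ⟨_, rfl⟩)
  have hαi : IsIntegral ℤ α := by
    refine IsIntegral.of_pow hq.pos ?_
    rw [hα']; exact isIntegral_algebraMap (R := ℤ)
  have hζi : IsIntegral ℤ ζ := hprim.isIntegral hq.pos
  have ha1 : (1 : ℝ) ≤ |(a : ℝ)| := by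
    have : (2 : ℝ) ≤ |(a : ℝ)| := by exact_mod_cast ha
    linarith
  have hdisc := abs_discr_le_79 F (Set.range v) (by
      rintro _ ⟨ij, rfl⟩; exact (hζi.pow _).mul (hαi.pow _)) hspan |(a : ℝ)| (by
      rintro _ ⟨⟨i, j⟩, rfl⟩ σ
      have e1 : ‖σ ζ‖ = 1 := by
        have : ‖σ ζ‖ ^ q = 1 := by rw [← norm_pow, ← map_pow, hζq, map_one, norm_one]
        exact (pow_eq_one_iff_of_nonneg (norm_nonneg _) hq.ne_zero).1 this
      have e2 : ‖σ α‖ ^ q = |(a : ℝ)| := by
        rw [← norm_pow, ← map_pow, hα', map_intCast, Complex.norm_intCast]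
      have e3 : 1 ≤ ‖σ α‖ := by
        by_contra h
        have := pow_lt_one₀ (norm_nonneg _) (not_le.1 h) hq.ne_zero
        linarith
      simp only [v, map_mul, map_pow, norm_mul, norm_pow, e1, one_pow, one_mul]
      rw [← e2]
      exact pow_le_pow_right₀ e3 j.2.le)
  -- degree
  have hle : finrank ℚ F ≤ q * q := by
    have := finrank_range_le_card (R := ℚ) v
    rw [Set.finrank, top_le_iff.1 hspan, finrank_top] at this
    simpa using this
  have hd1 : q ∣ finrank ℚ F := by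
    have h1 : minpoly ℚ α = f := (minpoly.eq_of_irreducible_of_monic hirr
      ((mem_rootSet_of_ne hirr.ne_zero).1 hα) hmon).symm
    have := minpoly.degree_dvd (K := ℚ) (x := α) (Algebra.IsIntegral.isIntegral α)
    rwa [h1, hdeg] at this
  have hd2 : q - 1 ∣ finrank ℚ F := by
    have := minpoly.degree_dvd (K := ℚ) (x := ζ) (Algebra.IsIntegral.isIntegral ζ)
    rwa [← cyclotomic_eq_minpoly_rat hprim hq.pos, natDegree_cyclotomic, Nat.totient_prime hq]
      at this
  have hcop : Nat.Coprime q (q - 1) := by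
    have : q = (q - 1) + 1 := by omega
    conv_lhs => rw [this]
    simp
  obtain ⟨m, hm⟩ := hcop.mul_dvd_of_dvd_of_dvd hd1 hd2
  have hn : 0 < finrank ℚ F := finrank_pos
  have hm1 : m = 1 := by
    rcases Nat.lt_trichotomy m 1 with h | h | h
    · have : m = 0 := by omega
      rw [this] at hm; omega
    · exact h
    · exfalso
      obtain ⟨r, rfl⟩ : ∃ r, q = r + 1 := ⟨q - 1, by omega⟩
      rw [hm, Nat.add_sub_cancel] at hle
      have : (r + 1) * r * 2 ≤ (r + 1) * r * m := Nat.mul_le_mul_left _ h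
      nlinarith
  refine ⟨F, inferInstance, inferInstance, ?_, hG, ⟨ζ, hprim⟩, hgen, by rw [hm, hm1, mul_one],
    hdisc⟩
  exact nrRealPlaces_eq_zero_iff.1
    (InfinitePlace.IsPrimitiveRoot.nrRealPlaces_eq_zero_of_two_lt (by omega) hprim)

theorem kum_79 : R27.KumStmt := by
  intro a ha
  have ha1 : (1 : ℝ) ≤ |(a : ℝ)| := by
    have : (2 : ℝ) ≤ |(a : ℝ)| := by exact_mod_cast ha
    linarith
  have hL : 0 ≤ Real.log |(a : ℝ)| := Real.log_nonneg ha1
  refine ⟨5 + 2 * Real.log |(a : ℝ)|, a.natAbs + 3, by positivity, fun q hq hqa => ?_⟩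
  obtain ⟨F, i1, i2, h1, h2, -, h4, h5, h6⟩ := kum_exact_79 a ha q hq (by omega) (by omega)
  refine ⟨F, i1, i2, h1, ?_, ?_, fun p hp hqp hap => split_79 F q hq a h4 p hp hqp hap⟩
  · rw [h5]
    obtain ⟨r, rfl⟩ : ∃ r, q = r + 1 := ⟨q - 1, by omega⟩
    have : (2 : ℝ) ≤ r := by exact_mod_cast (by omega : 2 ≤ r)
    simp only [Nat.add_sub_cancel]
    push_cast
    nlinarith
  · set n := finrank ℚ F with hn
    have hq1 : (1 : ℝ) ≤ q := by exact_mod_cast hq.one_le
    have hn0 : 0 < n := finrank_pos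
    have hn1 : (1 : ℝ) ≤ n := by exact_mod_cast hn0
    have hnq : (n : ℝ) ≤ q * q := by
      have : n ≤ q * q := by rw [h5]; exact Nat.mul_le_mul_left _ (Nat.sub_le _ _)
      exact_mod_cast this
    have hd : (0 : ℝ) < |(discr F : ℝ)| := abs_pos.2 (Int.cast_ne_zero.2 (discr_ne_zero F))
    have hfac : ((n.factorial : ℕ) : ℝ) ≤ (n : ℝ) ^ n := by exact_mod_cast Nat.factorial_le_pow n
    have h7 : |(discr F : ℝ)| ≤ ((n : ℝ) ^ n * |(a : ℝ)| ^ n) ^ 2 := by
      refine h6.trans ?_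
      gcongr
    have h8 : Real.log |(discr F : ℝ)| ≤ 2 * (n * Real.log n + n * Real.log |(a : ℝ)|) := by
      refine (Real.log_le_log hd h7).trans (le_of_eq ?_)
      rw [Real.log_pow, Real.log_mul (by positivity) (by positivity), Real.log_pow, Real.log_pow]
      norm_num
    have h9 : Real.log n ≤ 2 * q := by
      have e1 : Real.log n ≤ Real.log (q * q) := Real.log_le_log (by linarith) hnq
      rw [Real.log_mul (by linarith) (by linarith)] at e1
      have e2 : Real.log q ≤ q := (Real.log_le_sub_one_of_pos (by linarith)).trans (by linarith)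
      linarith
    have h10 : (n : ℝ) * Real.log n ≤ n * (2 * q) := by gcongr
    have h11 : (n : ℝ) * Real.log |(a : ℝ)| ≤ q * (n * Real.log |(a : ℝ)|) :=
      le_mul_of_one_le_left (by positivity) hq1
    have h12 : (n : ℝ) ≤ q * n := le_mul_of_one_le_left (by positivity) hq1
    nlinarith

end Crest.Agent.T27
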