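import Crest.Agent.T27.LS2Pair_81
import Crest.Agent.T27.LS2Bnd_81
import Crest.Agent.T27.LS2Avg_81

/-!
# Row 27, quadratic large sieve: the recursive step
-/

set_option autoImplicit false

noncomputable section

namespace Crest.Agent.T27.LS

open scoped ComplexConjugate
open Classical

variable [LF]

omit [LF] in
/-- The numerical facts on the parameters `P = (M N)^δ`, `V = N^{1/ξ} P`. -/
theorem core_params {ξ δ M N P V : ℝ} (h1 : 1 ≤ ξ) (h2 : ξ ≤ 2) (hδ0 : 0 < δ) (hδ1 : δ ≤ 1 / 4)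
    (hN : 1 ≤ N) (hM : N ^ (2 - 1 / ξ) ≤ M) (hP : P = (M * N) ^ δ) (hV : V = N ^ (1 / ξ) * P) :
    N ≤ M ∧ 1 ≤ P ∧ 1 ≤ V ∧ N ^ δ ≤ P ∧ M ^ δ ≤ P ∧ (V * N) ^ δ ≤ P ^ 3 ∧ V ^ ξ ≤ M * P ^ 2 ∧
      N ^ (2 * δ) ≤ P ^ 2 ∧ M ^ (1 - δ) ≤ M ∧
      M ^ (1 - (1 / 2 - δ)) * V ^ (ξ - (1 / 2 - δ)) ≤ M * P ^ 5 ∧
      N * ((M / N ^ 2) ^ (-(3 / δ)) * V ^ (1 - 3 / δ)) ≤ 1 := by
  have hN0 : 0 < N := by linarith
  set η := 1 / ξ with hη
  have hξ0 : 0 < ξ := by linarith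
  have hη1 : η ≤ 1 := by rw [hη, div_le_one hξ0]; exact h1
  have hη2 : 1 / 2 ≤ η := by rw [hη]; exact one_div_le_one_div_of_le hξ0 h2
  have hξη : ξ * η = 1 := by rw [hη]; field_simp
  have hM0 : 0 < M := lt_of_lt_of_le (Real.rpow_pos_of_pos hN0 _) hM
  obtain ⟨x, rfl⟩ : ∃ x, N = Real.exp x := ⟨Real.log N, (Real.exp_log hN0).symm⟩
  obtain ⟨y, rfl⟩ : ∃ y, M = Real.exp y := ⟨Real.log M, (Real.exp_log hM0).symm⟩
  have hx : 0 ≤ x := by rwa [Real.one_le_exp_iff] at hN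
  rw [← Real.exp_mul, Real.exp_le_exp] at hM
  have hxy : x ≤ y := by nlinarith
  have hy : 0 ≤ y := by linarith
  set p := (y + x) * δ with hp
  have hp0 : 0 ≤ p := by positivity
  have hp1 : p ≤ y + x := by nlinarith
  have hP' : P = Real.exp p := by rw [hP, ← Real.exp_add, ← Real.exp_mul]
  have hV' : V = Real.exp (x * η + p) := by rw [hV, hP', ← Real.exp_mul, ← Real.exp_add]
  subst hP' hV'
  have hxη : x * η ≤ x := by nlinarith
  have hxη0 : 0 ≤ x * η := by positivity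
  simp only [← Real.exp_mul, ← Real.exp_add, ← Real.exp_nat_mul, ← Real.exp_sub,
    Real.exp_le_exp, Real.one_le_exp_iff, Real.exp_le_one_iff, Nat.cast_ofNat]
  refine ⟨hxy, hp0, by linarith, by nlinarith, by nlinarith, by nlinarith, ?_, by nlinarith,
    by nlinarith, ?_, ?_⟩
  · have : (x * η + p) * ξ = x + p * ξ := by linear_combination x * hξη
    rw [this]; nlinarith
  · have e : (x * η + p) * (ξ - (1 / 2 - δ)) =
        x * (2 - η) / 2 + p * (ξ - 1 / 2) + (x * η + p) * δ := by linear_combination x * hξη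
    rw [e]
    have a1 : p * (ξ - 1 / 2) ≤ 2 * p := by nlinarith
    have a2 : (x * η + p) * δ ≤ 2 * p := by nlinarith
    have a3 : y * δ ≤ p := by nlinarith
    nlinarith
  · have hA : 0 < 3 / δ := by positivity
    have e : p * (3 / δ) = 3 * (y + x) := by rw [hp]; field_simp
    have a1 : 0 ≤ (y - 2 * x + x * η) * (3 / δ) := mul_nonneg (by nlinarith) hA.le
    nlinarith

theorem fc_origA (n₁ n₂ : O) {a : O} (ha : a ≠ 0) : FC (origA n₁ n₂ a) := by
  refine FC.const_mul (FC.sum _ fun D hD => FC.const_mul (FC.eval ?_) _) _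
  rw [Finset.mem_powerset] at hD
  have : 0 < nP D := nP_pos fun p hp => by
    rcases Finset.mem_union.1 (hD hp) with h | h <;> exact (pf_sub h).1.ne_zero
  have := nr_pos ha
  positivity

theorem fc_dualA (n₁ n₂ : O) {a : O} (ha : a ≠ 0) : FC (dualA n₁ n₂ a) := by
  refine FC.sum _ fun E hE => FC.const_mul (FC.sum _ fun D hD => FC.const_mul (FC.eval ?_) _) _
  rw [Finset.mem_powerset] at hD hE
  have h1 : 0 < nP D := nP_pos fun p hp => by
    rcases Finset.mem_union.1 (hD hp) with h | h <;> exact (pf_sub h).1.ne_zero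
  have h2 : 0 < nP (E.filter (· ∣ a)) := nP_pos fun p hp =>
    (pf_sub (Finset.mem_inter.1 (hE (Finset.mem_filter.1 hp).1)).1).1.ne_zero
  have h3 := nr_pos ha
  have h4 := nr_pos (prim_ne (primary_cof (pf n₁ ∩ pf n₂) n₁))
  have h5 := nr_pos (prim_ne (primary_cof (pf n₁ ∩ pf n₂) n₂))
  positivity

theorem summable_tail (V : ℝ) {Y : ℝ} (hY : 0 < Y) :
    Summable (fun h : Row => if V < nr (h : O) then gw (Y * nr (h : O)) else 0) := by
  refine Summable.of_nonneg_of_le (fun h => ?_) (fun h => ?_) (summable_gw hY)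
  · split_ifs
    · exact (gw_pos _).le
    · exact le_rfl
  · split_ifs
    · exact le_rfl
    · exact (gw_pos _).le

theorem tail_le {A : ℝ} (hA : 1 < A) : ∃ C : ℝ, 0 < C ∧ ∀ V Y : ℝ, 0 < V → 0 < Y →
    ∑' h : Row, (if V < nr (h : O) then gw (Y * nr (h : O)) else 0) ≤
      C * (Y ^ (-A) * V ^ (1 - A)) := by
  obtain ⟨C₁, hC₁, h₁⟩ := gw_le_rpow hA
  obtain ⟨C₂, hC₂, h₂⟩ := sum_row_tail hA
  refine ⟨C₁ * C₂, by positivity, fun V Y hV hY => ?_⟩
  refine (summable_tail V hY).tsum_le_of_sum_le fun s => ?_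
  rw [← Finset.sum_filter]
  calc ∑ h ∈ s.filter (fun h : Row => V < nr (h : O)), gw (Y * nr (h : O))
      ≤ ∑ h ∈ s.filter (fun h : Row => V < nr (h : O)), C₁ * Y ^ (-A) * nr (h : O) ^ (-A) := by
        refine Finset.sum_le_sum fun h hh => ?_
        have hh' : 0 < nr (h : O) := by linarith [(Finset.mem_filter.1 hh).2]
        rw [mul_assoc, ← Real.mul_rpow hY.le hh'.le]
        exact h₁ _ (by positivity)
    _ ≤ C₁ * Y ^ (-A) * (C₂ * V ^ (1 - A)) := by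
        rw [← Finset.mul_sum]
        exact mul_le_mul_of_nonneg_left (h₂ V _ hV fun h hh => (Finset.mem_filter.1 hh).2.le)
          (by positivity)
    _ = _ := by ring

theorem sum_le_tsum_row (T : Finset O) (hT : ∀ k ∈ T, Rep k) {r : O → ℝ} (h0 : ∀ k, 0 ≤ r k)
    (hs : Summable fun k : Row => r k) : ∑ k ∈ T, r k ≤ ∑' k : Row, r k := by
  rw [← Finset.sum_subtype_of_mem r hT]
  exact hs.sum_le_tsum _ fun k _ => h0 k

theorem sum_norm_mul_le (S : Finset O) (β : O → ℂ) :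
    ∑ n₁ ∈ S, ∑ n₂ ∈ S, ‖β n₁‖ * ‖β n₂‖ ≤ S.card * ∑ n ∈ S, ‖β n‖ ^ 2 := by
  rw [← Finset.sum_mul_sum, ← sq]
  exact sq_sum_le_card_mul_sum_sq

theorem normSq_expand (S : Finset O) (β : O → ℂ) (k : O) :
    ((‖∑ n ∈ S, β n * quad n k‖ ^ 2 : ℝ) : ℂ) =
      ∑ n₁ ∈ S, ∑ n₂ ∈ S, β n₁ * conj (β n₂) * (quad n₁ k * quad n₂ k) := by
  rw [← Complex.normSq_eq_norm_sq, ← Complex.mul_conj, map_sum, Finset.sum_mul_sum]
  refine Finset.sum_congr rfl fun n₁ _ => Finset.sum_congr rfl fun n₂ _ => ?_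
  rw [map_mul, conj_quad]; ring

theorem summable_pair (V : ℝ) {X : ℝ} (hX : 0 < X) (n₁ n₂ : O) :
    Summable (fun k : Row => if (k : O) ∈ PP V then (0 : ℂ) else
      (gw (nr (k : O) / X) : ℂ) * (quad n₁ k * quad n₂ k)) := by
  refine Summable.of_norm_bounded (summable_gw' hX) fun k => ?_
  split_ifs
  · rw [norm_zero]; exact (gw_pos _).le
  · rw [norm_mul, norm_mul, Complex.norm_real, Real.norm_of_nonneg (gw_pos _).le]
    exact mul_le_of_le_one_right (gw_pos _).le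
      (mul_le_one₀ (norm_quad_le _ _) (norm_nonneg _) (norm_quad_le _ _))

/-- The inequality at a fixed scale `X`. -/
theorem point (κ : ℝ) {M N V X w : ℝ} (hV : 0 ≤ V) (hM : 0 ≤ M) (hX : 0 < X) {S : Finset O}
    (hB : Blk N S) (hw0 : 0 ≤ w) (hw : ∀ n ∈ S, 2 ^ (pf n).card ≤ w) (β : O → ℂ) (hN : 0 < N) :
    gw (M / X) * (∑ k ∈ (sp M).filter (fun k => V < nr k),
        ‖∑ n ∈ S, β n * quad n k‖ ^ 2) ≤
      w * X * (gw 0 + S.card *
        ∑' h : Row, if V < nr (h : O) then gw (X / N ^ 2 * nr (h : O)) else 0) *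
        ∑ n ∈ S, ‖β n‖ ^ 2 +
      (∑ n₁ ∈ S, ∑ n₂ ∈ S, β n₁ * conj (β n₂) *
        ∑ a ∈ sqf V, ((X : ℂ) * dualA n₁ n₂ a (fun y => (Er κ (y * X) : ℂ)) -
          origA n₁ n₂ a (fun y => (Er κ (y / X) : ℂ)))).re := by
  set F : O → ℝ := fun k => ‖∑ n ∈ S, β n * quad n k‖ ^ 2 with hF
  set t : ℝ := ∑' h : Row, if V < nr (h : O) then gw (X / N ^ 2 * nr (h : O)) else 0 with ht
  set g : O → O → O → ℂ := fun n₁ n₂ k =>
    if k ∈ PP V then (0 : ℂ) else (gw (nr k / X) : ℂ) * (quad n₁ k * quad n₂ k) with hg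
  set m : O → O → ℂ := fun n₁ n₂ =>
    ∑ a ∈ sqf V, ((X : ℂ) * dualA n₁ n₂ a (fun y => (Er κ (y * X) : ℂ)) -
          origA n₁ n₂ a (fun y => (Er κ (y / X) : ℂ))) with hm
  set r : O → ℝ := fun k => if k ∈ PP V then 0 else gw (nr k / X) * F k with hr
  have hrC : ∀ k, (r k : ℂ) = ∑ n₁ ∈ S, ∑ n₂ ∈ S, β n₁ * conj (β n₂) * g n₁ n₂ k := by
    intro k
    simp only [hr, hg]
    split_ifs
    · simp
    · rw [Complex.ofReal_mul, hF, normSq_expand, Finset.mul_sum]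
      refine Finset.sum_congr rfl fun n₁ _ => ?_
      rw [Finset.mul_sum]
      exact Finset.sum_congr rfl fun n₂ _ => by ring
  have hs : ∀ n₁ n₂, Summable (fun k : Row => β n₁ * conj (β n₂) * g n₁ n₂ k) :=
    fun n₁ n₂ => (summable_pair V hX n₁ n₂).mul_left _
  have hsC : Summable (fun k : Row => (r k : ℂ)) := by
    simp only [hrC]
    exact summable_sum fun n₁ _ => summable_sum fun n₂ _ => hs n₁ n₂
  have hsr : Summable (fun k : Row => r k) := Complex.summable_ofReal.1 hsC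
  have hr0 : ∀ k, 0 ≤ r k := fun k => by
    simp only [hr, hF]
    split_ifs
    · exact le_rfl
    · exact mul_nonneg (gw_pos _).le (sq_nonneg _)
  have e1 : ((∑' k : Row, r k : ℝ) : ℂ) =
      ∑ n₁ ∈ S, ∑ n₂ ∈ S, β n₁ * conj (β n₂) * ∑' k : Row, g n₁ n₂ k := by
    rw [Complex.ofReal_tsum]
    simp only [hrC]
    rw [Summable.tsum_finsetSum fun n₁ _ => summable_sum fun n₂ _ => hs n₁ n₂]
    refine Finset.sum_congr rfl fun n₁ _ => ?_
    rw [Summable.tsum_finsetSum fun n₂ _ => hs n₁ n₂]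
    exact Finset.sum_congr rfl fun n₂ _ => tsum_mul_left
  have h1 : gw (M / X) * ∑ k ∈ (sp M).filter (fun k => V < nr k), F k ≤ ∑' k : Row, r k := by
    rw [Finset.mul_sum]
    refine le_trans (Finset.sum_le_sum fun k hk => ?_) (sum_le_tsum_row _ (fun k hk =>
      rep_of_prim ((mem_sp hM).1 (Finset.mem_filter.1 hk).1).1.1) hr0 hsr)
    obtain ⟨hk1, hk2⟩ := Finset.mem_filter.1 hk
    obtain ⟨hk3, hk4⟩ := (mem_sp hM).1 hk1
    simp only [hr]
    rw [if_neg (not_mem_PP_of_squarefree hV hk3.2 hk2)]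
    have := nr_pos (ne_zero_of_SP hk3)
    exact mul_le_mul_of_nonneg_right (gw_anti (by positivity) (by gcongr)) (sq_nonneg _)
  have ht0 : 0 ≤ t := tsum_nonneg fun h => by
    split_ifs
    · exact (gw_pos _).le
    · exact le_rfl
  have hg0 := gw_pos 0
  have h2 : ∀ n₁ ∈ S, ∀ n₂ ∈ S, ‖β n₁ * conj (β n₂) * ((∑' k : Row, g n₁ n₂ k) - m n₁ n₂)‖ ≤
      w * X * ((if n₁ = n₂ then gw 0 * ‖β n₁‖ ^ 2 else 0) + t * (‖β n₁‖ * ‖β n₂‖)) := by
    intro n₁ h₁ n₂ h₂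
    have hp := pair_est κ V hX (hB.1 n₁ h₁).1 (hB.1 n₂ h₂).1 (hB.2 n₁ h₁ n₂ h₂)
    have a1 := nr_pos (ne_zero_of_SP (hB.1 n₁ h₁).1)
    have a2 := nr_pos (ne_zero_of_SP (hB.1 n₂ h₂).1)
    have ht' : (∑' h : Row, if V < nr (h : O) then gw (X * nr (h : O) / (nr n₁ * nr n₂)) else 0)
        ≤ t := by
      simp only [mul_div_right_comm X]
      refine Summable.tsum_le_tsum (fun h => ?_) (summable_tail V (by positivity))
        (summable_tail V (by positivity))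
      split_ifs with hh
      · have a3 : 0 < nr (h : O) := by linarith
        refine gw_anti (by positivity) ?_
        have : nr n₁ * nr n₂ ≤ N ^ 2 := by
          rw [sq]; exact mul_le_mul (hB.1 n₁ h₁).2.2 (hB.1 n₂ h₂).2.2 a2.le hN.le
        gcongr
      · exact le_rfl
    rw [norm_mul, norm_mul, Complex.norm_conj]
    have hp' : ‖(∑' k : Row, g n₁ n₂ k) - m n₁ n₂‖ ≤
        w * X * ((if n₁ = n₂ then gw 0 else 0) + t) := by
      refine hp.trans ?_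
      have : (0 : ℝ) ≤ if n₁ = n₂ then gw 0 else 0 := by split_ifs <;> linarith
      have := hw n₁ h₁
      have : 0 ≤ ∑' h : Row,
          if V < nr (h : O) then gw (X * nr (h : O) / (nr n₁ * nr n₂)) else 0 :=
        tsum_nonneg fun h => by
          split_ifs
          · exact (gw_pos _).le
          · exact le_rfl
      gcongr
    refine (mul_le_mul_of_nonneg_left hp' (by positivity)).trans (le_of_eq ?_)
    split_ifs with h
    · subst h; ring
    · ring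
  have h3 : ‖∑ n₁ ∈ S, ∑ n₂ ∈ S, β n₁ * conj (β n₂) * ((∑' k : Row, g n₁ n₂ k) - m n₁ n₂)‖ ≤
      w * X * (gw 0 + S.card * t) * ∑ n ∈ S, ‖β n‖ ^ 2 := by
    refine (norm_sum_le _ _).trans ?_
    refine (Finset.sum_le_sum fun n₁ h₁ => (norm_sum_le _ _).trans
      (Finset.sum_le_sum fun n₂ h₂ => h2 n₁ h₁ n₂ h₂)).trans ?_
    simp only [← Finset.mul_sum, Finset.sum_add_distrib]
    rw [mul_assoc (w * X)]
    refine mul_le_mul_of_nonneg_left ?_ (by positivity)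
    have a1 : ∑ n₁ ∈ S, ∑ n₂ ∈ S, (if n₁ = n₂ then gw 0 * ‖β n₁‖ ^ 2 else 0) =
        gw 0 * ∑ n ∈ S, ‖β n‖ ^ 2 := by
      rw [Finset.mul_sum]
      exact Finset.sum_congr rfl fun n hn => by rw [Finset.sum_ite_eq, if_pos hn]
    have a2 := sum_norm_mul_le S β
    simp only [← Finset.mul_sum] at a2
    rw [a1]
    nlinarith
  have e2 : (∑' k : Row, r k : ℝ) = (∑ n₁ ∈ S, ∑ n₂ ∈ S, β n₁ * conj (β n₂) *
      ((∑' k : Row, g n₁ n₂ k) - m n₁ n₂)).re +
      (∑ n₁ ∈ S, ∑ n₂ ∈ S, β n₁ * conj (β n₂) * m n₁ n₂).re := by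
    rw [← Complex.add_re, ← Complex.ofReal_re (∑' k : Row, r k), e1]
    congr 1
    simp only [← Finset.sum_add_distrib]
    refine Finset.sum_congr rfl fun n₁ _ => Finset.sum_congr rfl fun n₂ _ => ?_
    ring
  have h4 := (Complex.re_le_norm _).trans h3
  linarith

/-- Rows of small norm. -/
theorem small_rows {ξ M N V D : ℝ} (hξ : 0 ≤ ξ) (hV : 0 ≤ V) (hM : 0 ≤ M) (hN : 1 ≤ N)
    (hS : Sieve ξ V N D) {S : Finset O} (hB : Blk N S) (β : O → ℂ) :
    ∑ k ∈ (sp M).filter (fun k => ¬ V < nr k), ‖∑ n ∈ S, β n * quad n k‖ ^ 2 ≤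
      (N + V ^ ξ) * (D * ∑ n ∈ S, ‖β n‖ ^ 2) := by
  have h := hS N hN le_rfl S id β (Set.injOn_id _) fun i hi => ⟨(hB.1 i hi).1, (hB.1 i hi).2.2⟩
  have hp : 0 ≤ N + V ^ ξ := by positivity
  refine le_trans ?_ (mul_le_mul_of_nonneg_left h hp)
  rw [Finset.mul_sum]
  have hsub : (sp M).filter (fun k => ¬ V < nr k) ⊆ sqf V := fun k hk => by
    obtain ⟨h1, h2⟩ := Finset.mem_filter.1 hk
    exact (mem_sqf hV).2 ⟨⟨rep_of_prim ((mem_sp hM).1 h1).1.1, ((mem_sp hM).1 h1).1.2⟩,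
      not_lt.1 h2⟩
  refine le_trans (Finset.sum_le_sum_of_subset_of_nonneg hsub fun _ _ _ => sq_nonneg _)
    (Finset.sum_le_sum fun a ha => ?_)
  have h1 : 0 < N + nr a ^ ξ := by positivity
  have h2 : nr a ^ ξ ≤ V ^ ξ := Real.rpow_le_rpow (Nat.cast_nonneg _) ((mem_sqf hV).1 ha).2 hξ
  rw [← mul_div_assoc, le_div_iff₀ h1, mul_comm]
  exact mul_le_mul_of_nonneg_right (by linarith) (sq_nonneg _)

set_option maxHeartbeats 1000000 in
theorem Core_of_LSw {ξ : ℝ} (h1 : 1 ≤ ξ) (h2 : ξ ≤ 2) (h : LSw ξ) : Core (2 - 1 / ξ) := by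
  intro ε hε
  set δ : ℝ := min (ε / 13) (1 / 4) with hδ
  have hδ0 : 0 < δ := lt_min (by positivity) (by norm_num)
  have hδ1 : δ ≤ 1 / 4 := min_le_right _ _
  have hδ2 : δ ≤ ε / 13 := min_le_left _ _
  have hA : 1 < 3 / δ := by rw [lt_div_iff₀ hδ0]; linarith
  obtain ⟨κ, hE⟩ := exists_Er
  obtain ⟨C₁, hC₁, hS⟩ := h δ hδ0
  obtain ⟨C₂, hC₂, hw⟩ := pow_card_pf_le hδ0 2
  obtain ⟨C₃, hC₃, hav⟩ := avg (measurable_Er κ) hE (σ := δ) (τ := 1 / 2 - δ) hδ0 (by linarith)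
    (by linarith) (by linarith) (3 / δ - 1)
  obtain ⟨C₄, hC₄, htail⟩ := tail_le hA
  obtain ⟨c, hc, hcd⟩ := exists_card_le
  have hg0 := gw_pos 0
  refine ⟨2 * C₁ + C₃ * (C₂ * (gw 0 + c * C₄) + 8 * C₁ * C₂ ^ 5), by positivity,
    fun M N S β hN hM hB => ?_⟩
  obtain ⟨p1, p2, p3, p4, p5, p6, p7, p8, p9, p10, p11⟩ :=
    core_params h1 h2 hδ0 hδ1 hN hM rfl rfl
  set P : ℝ := (M * N) ^ δ with hP
  set V : ℝ := N ^ (1 / ξ) * P with hV
  have hN0 : 0 < N := by linarith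
  have hM0 : 0 < M := by linarith
  have hV0 : 0 < V := by linarith
  have hP0 : 0 < P := by linarith
  set B : ℝ := ∑ n ∈ S, ‖β n‖ ^ 2 with hBdef
  have hB0 : 0 ≤ B := Finset.sum_nonneg fun _ _ => sq_nonneg _
  set D : ℝ := C₁ * (V * N) ^ δ with hD
  have hD0 : 0 ≤ D := by positivity
  have hD1 : D ≤ C₁ * P ^ 3 := mul_le_mul_of_nonneg_left p6 hC₁.le
  have hSv : Sieve ξ V N D := hS V N p3 hN
  set w : ℝ := C₂ * P with hwdef
  have hw0 : 0 ≤ w := by positivity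
  have hw' : ∀ n ∈ S, 2 ^ (pf n).card ≤ w := fun n hn =>
    (hw n (ne_zero_of_SP (hB.1 n hn).1)).trans (mul_le_mul_of_nonneg_left
      ((Real.rpow_le_rpow (Nat.cast_nonneg _) (hB.1 n hn).2.2 hδ0.le).trans p4) hC₂.le)
  have hcard : (S.card : ℝ) ≤ c * N := hcd N S hN0.le fun n hn =>
    ⟨rep_of_prim (hB.1 n hn).1.1, ne_zero_of_SP (hB.1 n hn).1, (hB.1 n hn).2.2⟩
  have hNV : N + V ^ ξ ≤ 2 * M * P ^ 2 := by nlinarith [one_le_pow₀ (n := 2) p2]
  have hbig := hav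
    (fun f => ∑ n₁ ∈ S, ∑ n₂ ∈ S, β n₁ * conj (β n₂) * ∑ a ∈ sqf V, origA n₁ n₂ a f)
    (fun f => ∑ n₁ ∈ S, ∑ n₂ ∈ S, β n₁ * conj (β n₂) *
      ∑ a ∈ (sqf V).filter (fun a => nr a ^ ξ ≤ N / nP (pf n₁ ∩ pf n₂)), dualA n₁ n₂ a f)
    (fun f => ∑ n₁ ∈ S, ∑ n₂ ∈ S, β n₁ * conj (β n₂) *
      ∑ a ∈ (sqf V).filter (fun a => ¬ nr a ^ ξ ≤ N / nP (pf n₁ ∩ pf n₂)), dualA n₁ n₂ a f)
    M (∑ k ∈ (sp M).filter (fun k => V < nr k), ‖∑ n ∈ S, β n * quad n k‖ ^ 2)
    (w * M * (gw 0 + c * C₄) * B) (w ^ 5 * (N + V ^ ξ) * D * B)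
    (4 * w ^ 5 * N ^ (2 * δ) * D * B) (2 * w ^ 5 * V ^ (ξ - (1 / 2 - δ)) * D * B)
    (FC.sum _ fun n₁ _ => FC.sum _ fun n₂ _ => FC.const_mul
      (FC.sum _ fun a ha => fc_origA n₁ n₂ (ne_zero_of_mem_sqf ha)) _)
    (FC.sum _ fun n₁ _ => FC.sum _ fun n₂ _ => FC.const_mul
      (FC.sum _ fun a ha => fc_dualA n₁ n₂ (ne_zero_of_mem_sqf (Finset.mem_filter.1 ha).1)) _)
    (FC.sum _ fun n₁ _ => FC.sum _ fun n₂ _ => FC.const_mul
      (FC.sum _ fun a ha => fc_dualA n₁ n₂ (ne_zero_of_mem_sqf (Finset.mem_filter.1 ha).1)) _)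
    hM0 (by positivity)
    (fun s hs => bnd_orig (by linarith) p3 hSv hD0 hB hw' β (by linarith))
    (fun s hs => by
      have := bnd_lo p3 hSv hD0 hB hw' β (s := s) (by linarith) (by linarith)
      rwa [hs] at this)
    (fun s hs => by
      have := bnd_hi h1 p3 hSv hD0 hB hw' β (s := s) (by linarith) (by linarith)
      rwa [hs] at this)
    (fun X hX => by
      refine (point κ hV0.le hM0.le hX hB hw0 hw' β hN0).trans (add_le_add ?_ (le_of_eq ?_))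
      · have t1 := htail V (X / N ^ 2) hV0 (by positivity)
        have hu : 0 < X / M := by positivity
        have t2 : X / M * (X / N ^ 2) ^ (-(3 / δ)) =
            (X / M) ^ (-(3 / δ - 1)) * (M / N ^ 2) ^ (-(3 / δ)) := by
          have e : X / N ^ 2 = X / M * (M / N ^ 2) := by field_simp
          rw [e, Real.mul_rpow hu.le (by positivity), ← mul_assoc,
            show -(3 / δ - 1) = 1 + -(3 / δ) by ring, Real.rpow_add hu, Real.rpow_one]
        have hv : 0 < (X / M) ^ (-(3 / δ - 1)) := by positivity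
        set t : ℝ := ∑' h : Row, if V < nr (h : O) then gw (X / N ^ 2 * nr (h : O)) else 0
          with ht
        have t3 : X / M * (S.card * t) ≤ c * C₄ * (X / M) ^ (-(3 / δ - 1)) := by
          have t0 : 0 ≤ t :=
            tsum_nonneg fun h => by
              split_ifs
              · exact (gw_pos _).le
              · exact le_rfl
          calc _ ≤ X / M * (c * N * (C₄ * ((X / N ^ 2) ^ (-(3 / δ)) * V ^ (1 - 3 / δ)))) := by
                gcongr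
            _ = c * C₄ * (X / M * (X / N ^ 2) ^ (-(3 / δ))) * (N * V ^ (1 - 3 / δ)) := by ring
            _ = c * C₄ * (X / M) ^ (-(3 / δ - 1)) *
                (N * ((M / N ^ 2) ^ (-(3 / δ)) * V ^ (1 - 3 / δ))) := by rw [t2]; ring
            _ ≤ _ := mul_le_of_le_one_right (by positivity) p11
        have t4 : w * X * (gw 0 + S.card * t) * B =
            w * M * B * (gw 0 * (X / M) + X / M * (S.card * t)) := by
          field_simp
        rw [t4]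
        have t5 : w * M * (gw 0 + c * C₄) * B * (X / M + (X / M) ^ (-(3 / δ - 1))) =
            w * M * B * ((gw 0 + c * C₄) * (X / M + (X / M) ^ (-(3 / δ - 1)))) := by ring
        rw [t5]
        refine mul_le_mul_of_nonneg_left ?_ (by positivity)
        have a1 := mul_pos (mul_pos hc hC₄) hu
        have a2 := mul_pos hg0 hv
        have a3 : (gw 0 + c * C₄) * (X / M + (X / M) ^ (-(3 / δ - 1))) =
            gw 0 * (X / M) + gw 0 * (X / M) ^ (-(3 / δ - 1)) + c * C₄ * (X / M) +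
              c * C₄ * (X / M) ^ (-(3 / δ - 1)) := by ring
        rw [a3]
        linarith
      · congr 1
        simp only [← Finset.sum_add_distrib, ← mul_add, Finset.sum_filter_add_sum_filter_not,
          Finset.mul_sum, ← Finset.sum_sub_distrib]
        refine Finset.sum_congr rfl fun n₁ _ => Finset.sum_congr rfl fun n₂ _ =>
          Finset.sum_congr rfl fun a _ => by ring)
  have hsmall := small_rows (by linarith) hV0.le hM0.le hN hSv hB β
  rw [← Finset.sum_filter_add_sum_filter_not (sp M) (fun k => V < nr k)]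
  have hP13 : P ^ 13 ≤ (M * N) ^ ε := by
    rw [hP, ← Real.rpow_natCast, ← Real.rpow_mul (by positivity)]
    exact Real.rpow_le_rpow_of_exponent_le (by nlinarith) (by push_cast; linarith)
  have hpow : ∀ k ≤ 13, P ^ k ≤ (M * N) ^ ε := fun k hk =>
    (pow_le_pow_right₀ p2 hk).trans hP13
  set R : ℝ := (M * N) ^ ε with hR
  have b0 : (N + V ^ ξ) * (D * B) ≤ 2 * C₁ * (R * M * B) := by
    calc _ ≤ 2 * M * P ^ 2 * (C₁ * P ^ 3 * B) := by gcongr
      _ = 2 * C₁ * (P ^ 5 * M * B) := by ring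
      _ ≤ _ := by gcongr; exact hpow 5 (by norm_num)
  have b1 : w * M * (gw 0 + c * C₄) * B ≤ C₂ * (gw 0 + c * C₄) * (R * M * B) := by
    calc _ = C₂ * (gw 0 + c * C₄) * (P ^ 1 * M * B) := by rw [hwdef]; ring
      _ ≤ _ := by gcongr; exact hpow 1 (by norm_num)
  have b2 : M ^ δ * (w ^ 5 * (N + V ^ ξ) * D * B) ≤ 2 * C₁ * C₂ ^ 5 * (R * M * B) := by
    calc _ ≤ P * (w ^ 5 * (2 * M * P ^ 2) * (C₁ * P ^ 3) * B) := by gcongr
      _ = 2 * C₁ * C₂ ^ 5 * (P ^ 11 * M * B) := by rw [hwdef]; ring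
      _ ≤ _ := by gcongr; exact hpow 11 (by norm_num)
  have b3 : M ^ (1 - δ) * (4 * w ^ 5 * N ^ (2 * δ) * D * B) ≤
      4 * C₁ * C₂ ^ 5 * (R * M * B) := by
    calc _ ≤ M * (4 * w ^ 5 * P ^ 2 * (C₁ * P ^ 3) * B) := by gcongr
      _ = 4 * C₁ * C₂ ^ 5 * (P ^ 10 * M * B) := by rw [hwdef]; ring
      _ ≤ _ := by gcongr; exact hpow 10 (by norm_num)
  have b4 : M ^ (1 - (1 / 2 - δ)) * (2 * w ^ 5 * V ^ (ξ - (1 / 2 - δ)) * D * B) ≤
      2 * C₁ * C₂ ^ 5 * (R * M * B) := by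
    calc _ = 2 * w ^ 5 * (M ^ (1 - (1 / 2 - δ)) * V ^ (ξ - (1 / 2 - δ))) * D * B := by ring
      _ ≤ 2 * w ^ 5 * (M * P ^ 5) * (C₁ * P ^ 3) * B := by gcongr
      _ = 2 * C₁ * C₂ ^ 5 * (P ^ 13 * M * B) := by rw [hwdef]; ring
      _ ≤ _ := by gcongr
  have hT : 0 ≤ ∑ k ∈ (sp M).filter (fun k => V < nr k), ‖∑ n ∈ S, β n * quad n k‖ ^ 2 :=
    Finset.sum_nonneg fun _ _ => sq_nonneg _
  have b5 := hbig.trans (mul_le_mul_of_nonneg_left
    (add_le_add (add_le_add (add_le_add b1 b2) b3) b4) hC₃.le)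
  have b6 := hsmall.trans b0
  nlinarith

/-- The trivial large sieve: one Poisson summation. -/
theorem Core_two : Core 2 := by
  intro ε hε
  set δ : ℝ := ε / 2 with hδ
  have hδ0 : 0 < δ := by positivity
  have hA : 1 < 1 / δ + 1 := by
    have : 0 < 1 / δ := by positivity
    linarith
  obtain ⟨C₂, hC₂, hw⟩ := pow_card_pf_le hδ0 2
  obtain ⟨C₄, hC₄, htail⟩ := tail_le hA
  obtain ⟨c, hc, hcd⟩ := exists_card_le
  have hg0 := gw_pos 0
  have hg1 := gw_pos 1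
  set Q : ℝ := (1 / 2 : ℝ) ^ (1 - (1 / δ + 1)) with hQ
  have hQ0 : 0 < Q := by positivity
  refine ⟨(gw 1)⁻¹ * (C₂ * (gw 0 + c * C₄ * Q)), by positivity, fun M N S β hN hM hB => ?_⟩
  rw [Real.rpow_two] at hM
  have hN0 : 0 < N := by linarith
  have hNM : N ≤ M := by nlinarith
  have hM0 : 0 < M := by linarith
  have hMN : 1 ≤ M * N := by nlinarith
  set P : ℝ := (M * N) ^ δ with hP
  have hP1 : 1 ≤ P := Real.one_le_rpow hMN hδ0.le
  have hP0 : 0 < P := by linarith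
  set B : ℝ := ∑ n ∈ S, ‖β n‖ ^ 2 with hBdef
  have hB0 : 0 ≤ B := Finset.sum_nonneg fun _ _ => sq_nonneg _
  have hw' : ∀ n ∈ S, 2 ^ (pf n).card ≤ C₂ * P := fun n hn =>
    (hw n (ne_zero_of_SP (hB.1 n hn).1)).trans (mul_le_mul_of_nonneg_left
      (Real.rpow_le_rpow (Nat.cast_nonneg _) ((hB.1 n hn).2.2.trans (by nlinarith)) hδ0.le) hC₂.le)
  have hcard : (S.card : ℝ) ≤ c * N := hcd N S hN0.le fun n hn =>
    ⟨rep_of_prim (hB.1 n hn).1.1, ne_zero_of_SP (hB.1 n hn).1, (hB.1 n hn).2.2⟩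
  have h1 := point 0 (V := 1 / 2) (X := M * P) (by norm_num) hM0.le (by positivity) hB
    (by positivity) hw' β hN0
  have e1 : sqf (1 / 2) = ∅ := Finset.eq_empty_of_forall_notMem fun a ha => by
    have := ((mem_sqf (by norm_num)).1 ha).2
    linarith [one_le_nr (ne_zero_of_mem_sqf ha)]
  have e2 : (sp M).filter (fun k => 1 / 2 < nr k) = sp M := Finset.filter_true_of_mem fun k hk => by
    linarith [one_le_nr (ne_zero_of_SP ((mem_sp hM0.le).1 hk).1)]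
  rw [e1, e2] at h1
  simp only [Finset.sum_empty, mul_zero, Finset.sum_const_zero, Complex.zero_re, add_zero] at h1
  have t1 := htail (1 / 2) (M * P / N ^ 2) (by norm_num) (by positivity)
  set t : ℝ := ∑' h : Row, if 1 / 2 < nr (h : O) then gw (M * P / N ^ 2 * nr (h : O)) else 0
    with ht
  have t2 : (M * P / N ^ 2) ^ (-(1 / δ + 1)) ≤ N⁻¹ := by
    have a1 : P ≤ M * P / N ^ 2 := by
      rw [le_div_iff₀ (by positivity)]; nlinarith
    have a2 : 0 < 1 / δ := by positivity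
    calc _ ≤ P ^ (-(1 / δ + 1)) := Real.rpow_le_rpow_of_nonpos hP0 a1 (by linarith)
      _ ≤ P ^ (-(1 / δ)) := Real.rpow_le_rpow_of_exponent_le hP1 (by linarith)
      _ = (M * N)⁻¹ := by
          rw [hP, ← Real.rpow_mul (by linarith), mul_neg, mul_one_div_cancel hδ0.ne',
            Real.rpow_neg_one]
      _ ≤ N⁻¹ := inv_anti₀ hN0 (by nlinarith)
  have t3 : (S.card : ℝ) * t ≤ c * C₄ * Q := by
    have t0 : 0 ≤ t := tsum_nonneg fun h => by
      split_ifs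
      · exact (gw_pos _).le
      · exact le_rfl
    calc _ ≤ c * N * (C₄ * (N⁻¹ * Q)) := by
          refine mul_le_mul hcard (t1.trans ?_) t0 (by positivity)
          gcongr
      _ = _ := by field_simp
  have h2 : gw 1 ≤ gw (M / (M * P)) := gw_anti (by positivity) (by
    rw [div_le_one (by positivity)]; nlinarith)
  have h3 : (M * N) ^ ε = P * P := by
    rw [hP, ← Real.rpow_add (by linarith), hδ, add_halves]
  have hT : 0 ≤ ∑ k ∈ sp M, ‖∑ n ∈ S, β n * quad n k‖ ^ 2 :=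
    Finset.sum_nonneg fun _ _ => sq_nonneg _
  have h4 : gw 1 * ∑ k ∈ sp M, ‖∑ n ∈ S, β n * quad n k‖ ^ 2 ≤
      C₂ * P * (M * P) * (gw 0 + c * C₄ * Q) * B :=
    (mul_le_mul_of_nonneg_right h2 hT).trans (h1.trans (by gcongr))
  rw [← le_inv_mul_iff₀ hg1] at h4
  refine h4.trans (le_of_eq ?_)
  rw [h3]; ring

end Crest.Agent.T27.LS
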