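import Mathlib

/-!
# Row 27, quadratic large sieve (port of `PVc/R17/LS2*`): the frame `LF` and the basic API

The quadratic large sieve of Heath-Brown is proved for every instance of the class `LF`
(a principal ideal domain with a norm, a system of primary generators, a finite set `U0` of units,
a quadratic symbol with reciprocity, and a self-dual kernel `gw` with a Poisson formula over the
rows `{0} ∪ U0 · Primary`).
-/

set_option autoImplicit false

noncomputable section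

namespace Crest.Agent.T27.LS

open scoped ComplexConjugate

/-- The data and axioms used by the proof of the quadratic large sieve. -/
class LF where
  O : Type
  [cr : CommRing O]
  [dom : IsDomain O]
  [pid : IsPrincipalIdealRing O]
  nm : O → ℕ
  nm_mul' : ∀ a b, nm (a * b) = nm a * nm b
  nm_eq_zero' : ∀ a, nm a = 0 ↔ a = 0
  nm_eq_one' : ∀ a, nm a = 1 ↔ IsUnit a
  Primary : O → Prop
  prim_one : Primary 1
  prim_mul : ∀ a b, Primary a → Primary b → Primary (a * b)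
  prim_ne : ∀ a, Primary a → a ≠ 0
  prim_eq : ∀ a b, Primary a → Primary b → Associated a b → a = b
  prim_ex : ∀ a, a ≠ 0 → ∃ p, Primary p ∧ Associated p a
  U0 : Finset O
  U0_unit : ∀ u ∈ U0, IsUnit u
  one_mem : 1 ∈ U0
  Rep : O → Prop
  rep_iff : ∀ k, Rep k ↔ k = 0 ∨ ∃ u ∈ U0, ∃ p, Primary p ∧ k = u * p
  count : ∃ C : ℝ, ∀ (X : ℕ) (S : Finset O), (∀ n ∈ S, Primary n ∧ nm n ≤ X) →
    (S.card : ℝ) ≤ C * X
  quad : O → O → ℂ
  quad_mul_left' : ∀ m n a, Primary m → Primary n → quad (m * n) a = quad m a * quad n a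
  quad_mul_right' : ∀ n a b, Primary n → quad n (a * b) = quad n a * quad n b
  quad_sq' : ∀ n a, Primary n → IsCoprime n a → quad n a ^ 2 = 1
  quad_zero' : ∀ n a, Primary n → ¬ IsCoprime n a → quad n a = 0
  norm_quad_le' : ∀ n a, ‖quad n a‖ ≤ 1
  conj_quad' : ∀ n a, conj (quad n a) = quad n a
  Cl : Type
  [fin : Fintype Cl]
  cls : O → Cl
  cls_cancel : ∀ g a b, Primary g → Primary a → Primary b → cls (g * a) = cls (g * b) →
    cls a = cls b
  Rs : Cl → Cl → ℂ
  norm_Rs : ∀ x y, ‖Rs x y‖ ≤ 1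
  recip : ∀ n k, Primary n → Primary k → quad n k = Rs (cls n) (cls k) * quad k n
  gw : ℝ → ℝ
  gw_pos' : ∀ x, 0 < gw x
  gw_anti' : ∀ x y, 0 < x → x ≤ y → gw y ≤ gw x
  gw_le' : ∀ A : ℝ, 1 < A → ∃ C : ℝ, ∀ x, 0 < x → gw x ≤ C * x ^ (-A)
  pois : ∀ m₁ m₂, Primary m₁ → Primary m₂ → Squarefree (m₁ * m₂) → cls m₁ = cls m₂ →
    ∀ X : ℝ, 0 < X →
      ∑' k : {k // Rep k}, quad (m₁ * m₂) k * (gw (nm k / X) : ℂ) =
        ((X / Real.sqrt (nm (m₁ * m₂)) : ℝ) : ℂ) *
          ∑' k : {k // Rep k}, quad (m₁ * m₂) k * (gw (X * nm k / nm (m₁ * m₂)) : ℂ)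
  th2_asymp : ∃ κ : ℝ, ∀ η : ℝ, 0 < η → η < 1 / 2 → ∃ C : ℝ, ∀ y : ℝ, 0 < y →
    |∑' c : {c // Primary c}, gw (y * (nm c : ℝ) ^ 2) - κ / Real.sqrt y| ≤ C * y ^ (-η)

export LF (nm Primary U0 Rep quad Cl cls Rs gw)

variable [LF]

/-- The ring. -/
abbrev O : Type := LF.O

instance : CommRing O := LF.cr
instance : IsDomain O := LF.dom
instance : IsPrincipalIdealRing O := LF.pid
instance : Fintype Cl := LF.fin

/-- The rows. -/
abbrev Row : Type := {k : O // Rep k}

/-- The primary elements. -/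
abbrev Prm : Type := {c : O // Primary c}

/-- The norm as a real number. -/
abbrev nr (z : O) : ℝ := (nm z : ℝ)

/-! ### Norms -/

theorem nm_mul (a b : O) : nm (a * b) = nm a * nm b := LF.nm_mul' a b
theorem nm_eq_zero {a : O} : nm a = 0 ↔ a = 0 := LF.nm_eq_zero' a
theorem isUnit_iff_nm {a : O} : IsUnit a ↔ nm a = 1 := (LF.nm_eq_one' a).symm
@[simp] theorem nm_one : nm (1 : O) = 1 := isUnit_iff_nm.1 isUnit_one
@[simp] theorem nm_zero : nm (0 : O) = 0 := nm_eq_zero.2 rfl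
theorem nm_pow (z : O) (k : ℕ) : nm (z ^ k) = nm z ^ k := by
  induction k with
  | zero => simp
  | succ k ih => rw [pow_succ, nm_mul, ih, pow_succ]
theorem nm_prod {α : Type*} (s : Finset α) (f : α → O) :
    nm (∏ i ∈ s, f i) = ∏ i ∈ s, nm (f i) := by
  classical
  induction s using Finset.induction_on with
  | empty => simp
  | insert a s ha ih => rw [Finset.prod_insert ha, Finset.prod_insert ha, nm_mul, ih]
theorem nr_mul (z w : O) : nr (z * w) = nr z * nr w := by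
  simp only [nr, nm_mul, Nat.cast_mul]
theorem nr_pow (z : O) (k : ℕ) : nr (z ^ k) = nr z ^ k := by
  simp only [nr, nm_pow, Nat.cast_pow]
theorem one_le_nr {z : O} (hz : z ≠ 0) : 1 ≤ nr z := by
  have : nm z ≠ 0 := fun h => hz (nm_eq_zero.1 h)
  exact_mod_cast Nat.pos_of_ne_zero this
theorem nr_pos {z : O} (hz : z ≠ 0) : 0 < nr z := lt_of_lt_of_le one_pos (one_le_nr hz)
theorem nm_le_of_dvd {z w : O} (h : z ∣ w) (hw : w ≠ 0) : nm z ≤ nm w := by
  obtain ⟨c, rfl⟩ := h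
  have : nm (z * c) ≠ 0 := fun h => hw (nm_eq_zero.1 h)
  exact Nat.le_of_dvd (Nat.pos_of_ne_zero this) ⟨nm c, nm_mul z c⟩
theorem nr_unit {u : O} (hu : IsUnit u) : nr u = 1 := by
  rw [nr, isUnit_iff_nm.1 hu, Nat.cast_one]

/-! ### Primary elements and rows -/

theorem primary_one : Primary (1 : O) := LF.prim_one
theorem prim_mul {a b : O} (ha : Primary a) (hb : Primary b) : Primary (a * b) :=
  LF.prim_mul a b ha hb
theorem prim_ne {a : O} (ha : Primary a) : a ≠ 0 := LF.prim_ne a ha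
theorem prim_eq {a b : O} (ha : Primary a) (hb : Primary b) (h : Associated a b) : a = b :=
  LF.prim_eq a b ha hb h
theorem prim_ex {a : O} (ha : a ≠ 0) : ∃ p, Primary p ∧ Associated p a := LF.prim_ex a ha
theorem prim_pow {a : O} (ha : Primary a) (k : ℕ) : Primary (a ^ k) := by
  induction k with
  | zero => simpa using primary_one
  | succ k ih => rw [pow_succ]; exact prim_mul ih ha
theorem prim_prod {s : Finset O} (hs : ∀ q ∈ s, Primary q) : Primary (∏ q ∈ s, q) := by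
  classical
  induction s using Finset.induction_on with
  | empty => simpa using primary_one
  | insert a s ha ih =>
    rw [Finset.prod_insert ha]
    exact prim_mul (hs a (Finset.mem_insert_self _ _))
      (ih fun q hq => hs q (Finset.mem_insert_of_mem hq))
theorem prim_of_mul {m n : O} (hm : Primary m) (hmn : Primary (m * n)) : Primary n := by
  have hn : n ≠ 0 := right_ne_zero_of_mul (prim_ne hmn)
  obtain ⟨p, hp, h⟩ := prim_ex hn
  have := prim_eq (prim_mul hm hp) hmn (h.mul_left m)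
  rwa [← mul_left_cancel₀ (prim_ne hm) this]
theorem prim_eq_one {n : O} (hn : Primary n) (h : IsUnit n) : n = 1 :=
  prim_eq hn primary_one (associated_one_iff_isUnit.2 h)

theorem unit_of_mem {u : O} (hu : u ∈ U0) : IsUnit u := LF.U0_unit u hu
theorem rep_iff {k : O} : Rep k ↔ k = 0 ∨ ∃ u ∈ U0, ∃ p, Primary p ∧ k = u * p := LF.rep_iff k
theorem rep_zero : Rep (0 : O) := rep_iff.2 (Or.inl rfl)
theorem rep_of_prim {p : O} (hp : Primary p) : Rep p :=
  rep_iff.2 (Or.inr ⟨1, LF.one_mem, p, hp, (one_mul p).symm⟩)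
theorem rep_mul_iff {d c : O} (hd : Primary d) : Rep (d * c) ↔ Rep c := by
  rw [rep_iff, rep_iff]
  constructor
  · rintro (h | ⟨u, hu, p, hp, h⟩)
    · exact Or.inl ((mul_eq_zero.1 h).resolve_left (prim_ne hd))
    · have hc : c ≠ 0 := by
        rintro rfl
        exact mul_ne_zero (unit_of_mem hu).ne_zero (prim_ne hp) (by rw [← h, mul_zero])
      obtain ⟨q, hq, hqc⟩ := prim_ex hc
      have h1 : Associated (d * q) p :=
        (hqc.mul_left d).trans (h ▸ (associated_unit_mul_left p u (unit_of_mem hu)))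
      have h2 := prim_eq (prim_mul hd hq) hp h1
      refine Or.inr ⟨u, hu, q, hq, mul_left_cancel₀ (prim_ne hd) ?_⟩
      rw [h, ← h2]; ring
  · rintro (rfl | ⟨u, hu, p, hp, rfl⟩)
    · exact Or.inl (mul_zero d)
    · exact Or.inr ⟨u, hu, d * p, prim_mul hd hp, by ring⟩
theorem prim_mul_iff {d c : O} (hd : Primary d) : Primary (d * c) ↔ Primary c :=
  ⟨prim_of_mul hd, prim_mul hd⟩

/-! ### Counting -/

theorem finite_prim (X : ℕ) : {n : O | Primary n ∧ nm n ≤ X}.Finite := by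
  obtain ⟨C, hC⟩ := LF.count
  by_contra h
  obtain ⟨S, hS, hc⟩ := Set.Infinite.exists_subset_card_eq h (⌈C * X⌉₊ + 1)
  have h1 := hC X S fun n hn => hS hn
  rw [hc] at h1
  have h2 := Nat.le_ceil (C * X)
  push_cast at h1
  linarith

theorem finite_rep (X : ℕ) : {n : O | Rep n ∧ nm n ≤ X}.Finite := by
  refine ((Set.finite_singleton (0 : O)).union ((U0.finite_toSet.prod (finite_prim X)).image
    fun z => z.1 * z.2)).subset ?_
  rintro n ⟨h1, h2⟩
  rcases rep_iff.1 h1 with rfl | ⟨u, hu, p, hp, rfl⟩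
  · exact Or.inl rfl
  · refine Or.inr ⟨(u, p), ⟨hu, hp, ?_⟩, rfl⟩
    rwa [nm_mul, isUnit_iff_nm.1 (unit_of_mem hu), one_mul] at h2

/-- The rows of norm at most `X`. -/
def ball (X : ℕ) : Finset O := (finite_rep X).toFinset

theorem mem_ball {X : ℕ} {z : O} : z ∈ ball X ↔ Rep z ∧ nm z ≤ X := by
  rw [ball, Set.Finite.mem_toFinset]; rfl

theorem exists_card_le : ∃ C : ℝ, 0 < C ∧ ∀ (X : ℝ) (S : Finset O), 0 ≤ X →
    (∀ n ∈ S, Rep n ∧ n ≠ 0 ∧ nr n ≤ X) → (S.card : ℝ) ≤ C * X := by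
  classical
  obtain ⟨C, hC⟩ := LF.count
  refine ⟨U0.card * max C 0 + 1, by positivity, fun X S hX hS => ?_⟩
  have h1 : S ⊆ (U0 ×ˢ (finite_prim ⌊X⌋₊).toFinset).image fun z => z.1 * z.2 := by
    intro n hn
    obtain ⟨h1, h2, h3⟩ := hS n hn
    rcases rep_iff.1 h1 with h | ⟨u, hu, p, hp, rfl⟩
    · exact absurd h h2
    · refine Finset.mem_image.2 ⟨(u, p), Finset.mem_product.2 ⟨hu, ?_⟩, rfl⟩
      rw [Set.Finite.mem_toFinset]
      refine ⟨hp, Nat.le_floor ?_⟩
      rwa [nr_mul, nr_unit (unit_of_mem hu), one_mul] at h3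
  have h2 := (Finset.card_le_card h1).trans Finset.card_image_le
  rw [Finset.card_product] at h2
  have h3 := hC ⌊X⌋₊ (finite_prim ⌊X⌋₊).toFinset fun n hn => by
    rwa [Set.Finite.mem_toFinset] at hn
  have h4 : C * (⌊X⌋₊ : ℝ) ≤ max C 0 * X :=
    (mul_le_mul_of_nonneg_right (le_max_left _ _) (Nat.cast_nonneg _)).trans
      (mul_le_mul_of_nonneg_left (Nat.floor_le hX) (le_max_right _ _))
  have h5 : (S.card : ℝ) ≤ U0.card * ((finite_prim ⌊X⌋₊).toFinset.card : ℝ) := by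
    exact_mod_cast h2
  have h6 := mul_le_mul_of_nonneg_left (h3.trans h4) (Nat.cast_nonneg U0.card)
  nlinarith

theorem sum_nr_rpow_tail {σ : ℝ} (hσ : 1 < σ) :
    ∃ C : ℝ, 0 < C ∧ ∀ (X : ℝ) (S : Finset O), 0 < X → (∀ n ∈ S, Rep n ∧ X ≤ nr n) →
      ∑ n ∈ S, nr n ^ (-σ) ≤ C * X ^ (1 - σ) := by
  classical
  obtain ⟨C, hC, hc⟩ := exists_card_le
  have hr : (2 : ℝ) ^ (1 - σ) < 1 := Real.rpow_lt_one_of_one_lt_of_neg one_lt_two (by linarith)
  have hr0 : 0 < (2 : ℝ) ^ (1 - σ) := by positivity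
  refine ⟨2 * C * (1 - 2 ^ (1 - σ))⁻¹, by have := sub_pos.2 hr; positivity, fun X S hX hS => ?_⟩
  set g : O → ℕ := fun n => Nat.log 2 ⌊nr n / X⌋₊ with hg
  have hb : ∀ n ∈ S, 2 ^ g n * X ≤ nr n ∧ nr n ≤ 2 ^ (g n + 1) * X := by
    intro n hn
    have h1 : 1 ≤ nr n / X := (one_le_div hX).2 (hS n hn).2
    have h2 : ⌊nr n / X⌋₊ ≠ 0 := (Nat.floor_pos.2 h1).ne'
    constructor
    · rw [← le_div_iff₀ hX]
      exact le_trans (by exact_mod_cast Nat.pow_log_le_self 2 h2) (Nat.floor_le (by linarith))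
    · rw [← div_le_iff₀ hX]
      have h3 := Nat.lt_pow_succ_log_self one_lt_two ⌊nr n / X⌋₊
      have h4 : ((⌊nr n / X⌋₊ + 1 : ℕ) : ℝ) ≤ ((2 ^ (g n + 1) : ℕ) : ℝ) := by exact_mod_cast h3
      have h5 := Nat.lt_floor_add_one (nr n / X)
      push_cast at h4
      linarith
  rw [← Finset.sum_fiberwise_of_maps_to (g := g) (t := S.image g)
    fun n hn => Finset.mem_image_of_mem g hn]
  have hj : ∀ j ∈ S.image g, ∑ n ∈ S with g n = j, nr n ^ (-σ) ≤
      2 * C * X ^ (1 - σ) * ((2 : ℝ) ^ (1 - σ)) ^ j := by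
    intro j _
    have h1 : ((S.filter fun n => g n = j).card : ℝ) ≤ C * (2 ^ (j + 1) * X) :=
      hc _ _ (by positivity) fun n hn => by
        obtain ⟨h1, h2⟩ := Finset.mem_filter.1 hn
        refine ⟨(hS n h1).1, ?_, h2 ▸ (hb n h1).2⟩
        rintro rfl
        have := (hS 0 h1).2
        simp only [nr, nm_zero, Nat.cast_zero] at this
        linarith
    refine (Finset.sum_le_card_nsmul _ _ ((2 ^ j * X) ^ (-σ)) fun n hn => ?_).trans ?_
    · obtain ⟨h1, h2⟩ := Finset.mem_filter.1 hn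
      exact Real.rpow_le_rpow_of_nonpos (by positivity) (h2 ▸ (hb n h1).1) (by linarith)
    · rw [nsmul_eq_mul]
      refine (mul_le_mul_of_nonneg_right h1 (by positivity)).trans (le_of_eq ?_)
      rw [Real.mul_rpow (by positivity) hX.le, ← Real.rpow_natCast ((2 : ℝ) ^ (1 - σ)),
        ← Real.rpow_mul zero_le_two, ← Real.rpow_natCast 2 j, ← Real.rpow_mul zero_le_two,
        sub_mul, one_mul, Real.rpow_sub two_pos, Real.rpow_sub hX, Real.rpow_one,
        Real.rpow_neg hX.le, mul_neg, Real.rpow_neg zero_le_two, mul_comm (j : ℝ) σ,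
        Real.rpow_natCast, pow_succ]
      ring
  refine (Finset.sum_le_sum hj).trans ?_
  rw [← Finset.mul_sum, mul_right_comm]
  refine mul_le_mul_of_nonneg_right (mul_le_mul_of_nonneg_left ?_ (by positivity)) (by positivity)
  rw [← tsum_geometric_of_lt_one hr0.le hr]
  exact (summable_geometric_of_lt_one hr0.le hr).sum_le_tsum _ fun _ _ => by positivity

/-! ### Prime factors -/

open Classical in
/-- The primary prime divisors of `n`. -/
def pf (n : O) : Finset O := (ball (nm n)).filter (fun p => Prime p ∧ Primary p ∧ p ∣ n)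

theorem mem_pf {n p : O} (hn : n ≠ 0) : p ∈ pf n ↔ Prime p ∧ Primary p ∧ p ∣ n := by
  classical
  rw [pf, Finset.mem_filter, mem_ball]
  exact ⟨fun h => h.2, fun h => ⟨⟨rep_of_prim h.2.1, nm_le_of_dvd h.2.2 hn⟩, h⟩⟩
theorem of_mem_pf {n p : O} (h : p ∈ pf n) : Prime p ∧ Primary p ∧ p ∣ n := by
  classical
  rw [pf, Finset.mem_filter] at h
  exact h.2
theorem pf_sub {n p : O} (h : p ∈ pf n) : Prime p ∧ Primary p :=
  ⟨(of_mem_pf h).1, (of_mem_pf h).2.1⟩
open Classical in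
theorem pf_mul {m n : O} (hm : m ≠ 0) (hn : n ≠ 0) : pf (m * n) = pf m ∪ pf n := by
  ext p
  rw [Finset.mem_union, mem_pf (mul_ne_zero hm hn), mem_pf hm, mem_pf hn, ← and_or_left,
    ← and_or_left]
  exact and_congr_right fun hp => and_congr_right fun _ => hp.dvd_mul
theorem eq_of_dvd {p q : O} (hp : Prime p) (hq : Prime q) (hp' : Primary p)
    (hq' : Primary q) (h : p ∣ q) : p = q :=
  prim_eq hp' hq' (hp.associated_of_dvd hq h)
theorem isCoprime_iff_pf {n : O} (hn : Primary n) (x : O) :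
    IsCoprime n x ↔ ∀ p ∈ pf n, ¬ p ∣ x := by
  constructor
  · intro h p hp hx
    obtain ⟨h1, -, h2⟩ := of_mem_pf hp
    exact h1.not_isUnit (h.isUnit_of_dvd' h2 hx)
  · intro h
    refine isCoprime_of_prime_dvd (fun h0 => prim_ne hn h0.1) fun p hp h1 h2 => ?_
    obtain ⟨q, hq, hqp⟩ := prim_ex hp.ne_zero
    exact h q ((mem_pf (prim_ne hn)).2 ⟨hqp.symm.prime hp, hq, hqp.dvd.trans h1⟩)
      (hqp.dvd.trans h2)
theorem isCoprime_of_disjoint_pf {m n : O} (hm : Primary m) (hn : n ≠ 0)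
    (h : Disjoint (pf m) (pf n)) : IsCoprime m n :=
  (isCoprime_iff_pf hm n).2 fun _ hp hd => Finset.disjoint_left.1 h hp
    ((mem_pf hn).2 ⟨(pf_sub hp).1, (pf_sub hp).2, hd⟩)
theorem squarefree_prod_primes {s : Finset O} (hs : ∀ q ∈ s, Prime q ∧ Primary q) :
    Squarefree (∏ q ∈ s, q) ∧ Primary (∏ q ∈ s, q) ∧ pf (∏ q ∈ s, q) = s := by
  have h1 : Primary (∏ q ∈ s, q) := prim_prod fun q hq => (hs q hq).2
  refine ⟨Finset.squarefree_prod_of_pairwise_isCoprime (fun p hp q hq hpq => ?_)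
    fun q hq => (hs q hq).1.squarefree, h1, ?_⟩
  · exact (hs p hp).1.irreducible.isRelPrime_iff_not_dvd.2 fun h =>
      hpq (eq_of_dvd (hs p hp).1 (hs q hq).1 (hs p hp).2 (hs q hq).2 h)
  · ext p
    rw [mem_pf (prim_ne h1)]
    refine ⟨fun h => ?_, fun h => ⟨(hs p h).1, (hs p h).2, Finset.dvd_prod_of_mem _ h⟩⟩
    obtain ⟨q, hq, hpq⟩ := (h.1.dvd_finsetProd_iff _).1 h.2.2
    rwa [eq_of_dvd h.1 (hs q hq).1 h.2.1 (hs q hq).2 hpq]
theorem prod_primes_dvd_iff {E : Finset O} (hE : ∀ p ∈ E, Prime p ∧ Primary p) (x : O) :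
    (∏ p ∈ E, p) ∣ x ↔ ∀ p ∈ E, p ∣ x := by
  refine ⟨fun h p hp => (Finset.dvd_prod_of_mem _ hp).trans h, fun h => ?_⟩
  refine Finset.prod_dvd_of_coprime (fun p hp q hq hpq => ?_) h
  exact (hE p hp).1.irreducible.coprime_iff_not_dvd.2 fun hd =>
    hpq (eq_of_dvd (hE p hp).1 (hE q hq).1 (hE p hp).2 (hE q hq).2 hd)
theorem prod_dvd_of_subset {n : O} {s : Finset O} (h : s ⊆ pf n) : ∏ q ∈ s, q ∣ n :=
  (prod_primes_dvd_iff (fun _ hp => pf_sub (h hp)) n).2 fun _ hp => (of_mem_pf (h hp)).2.2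
theorem eq_rad {n : O} (hn : Primary n) (h : Squarefree n) : ∏ p ∈ pf n, p = n := by
  obtain ⟨c, hc⟩ := prod_dvd_of_subset (n := n) subset_rfl
  have h1 := (squarefree_prod_primes (s := pf n) fun _ => pf_sub).2.1
  have h2 : Primary c := prim_of_mul h1 (hc ▸ hn)
  have h3 : IsUnit c := by
    by_contra hu
    obtain ⟨p, hp, hpc⟩ := WfDvdMonoid.exists_irreducible_factor hu (prim_ne h2)
    obtain ⟨q, hq, hqp⟩ := prim_ex hp.ne_zero
    have hq' : Prime q := hqp.symm.prime hp.prime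
    have h4 : q ∣ c := hqp.dvd.trans hpc
    have h5 : q ∈ pf n := (mem_pf (prim_ne hn)).2 ⟨hq', hq, hc ▸ h4.mul_left _⟩
    refine hq'.not_isUnit (h q ?_)
    rw [hc]
    exact mul_dvd_mul (Finset.dvd_prod_of_mem _ h5) h4
  rw [prim_eq_one h2 h3, mul_one] at hc
  exact hc.symm

theorem pow_card_pf_le {ε : ℝ} (hε : 0 < ε) (B : ℝ) :
    ∃ C : ℝ, 0 < C ∧ ∀ n : O, n ≠ 0 → B ^ (pf n).card ≤ C * nr n ^ ε := by
  classical
  set B' := max |B| 1 with hB'
  have h1 : 1 ≤ B' := le_max_right _ _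
  set T := ball ⌈B' ^ ε⁻¹⌉₊
  refine ⟨B' ^ T.card, by positivity, fun n hn => ?_⟩
  have h2 : ∀ p ∈ pf n, B' ≤ (if p ∈ T then B' else 1) * nr p ^ ε := by
    intro p hp
    split_ifs with h
    · exact le_mul_of_one_le_right (by linarith)
        (Real.one_le_rpow (one_le_nr ((mem_pf hn).1 hp).1.ne_zero) hε.le)
    · rw [mem_ball, not_and, not_le] at h
      have h := h (rep_of_prim (pf_sub hp).2)
      rw [one_mul, ← Real.rpow_inv_rpow (by linarith : 0 ≤ B') hε.ne']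
      exact Real.rpow_le_rpow (by positivity) (Nat.ceil_le.1 h.le) hε.le
  calc B ^ (pf n).card ≤ B' ^ (pf n).card := (le_abs_self _).trans (by
        rw [abs_pow]
        exact pow_le_pow_left₀ (abs_nonneg _) (le_max_left _ _) _)
    _ = ∏ _p ∈ pf n, B' := (Finset.prod_const _).symm
    _ ≤ ∏ p ∈ pf n, (if p ∈ T then B' else 1) * nr p ^ ε :=
        Finset.prod_le_prod (fun _ _ => by linarith) h2
    _ = B' ^ (pf n ∩ T).card * nr (∏ p ∈ pf n, p) ^ ε := by
        rw [Finset.prod_mul_distrib, Finset.prod_ite_mem, Finset.prod_const,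
          Real.finsetProd_rpow _ _ (fun _ _ => Nat.cast_nonneg _), nr, nm_prod, Nat.cast_prod]
    _ ≤ _ := mul_le_mul (pow_le_pow_right₀ h1 (Finset.card_le_card Finset.inter_subset_right))
        (Real.rpow_le_rpow (Nat.cast_nonneg _)
          (Nat.cast_le.2 (nm_le_of_dvd (prod_dvd_of_subset subset_rfl) hn)) hε.le)
        (by positivity) (by positivity)

/-! ### The symbol and the kernel -/

theorem quad_mul_left {m n : O} (hm : Primary m) (hn : Primary n) (a : O) :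
    quad (m * n) a = quad m a * quad n a := LF.quad_mul_left' m n a hm hn
theorem quad_mul_right {n : O} (hn : Primary n) (a b : O) :
    quad n (a * b) = quad n a * quad n b := LF.quad_mul_right' n a b hn
theorem quad_sq {n a : O} (hn : Primary n) (h : IsCoprime n a) : quad n a ^ 2 = 1 :=
  LF.quad_sq' n a hn h
theorem quad_zero {n a : O} (hn : Primary n) (h : ¬ IsCoprime n a) : quad n a = 0 :=
  LF.quad_zero' n a hn h
theorem norm_quad_le (n a : O) : ‖quad n a‖ ≤ 1 := LF.norm_quad_le' n a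
theorem conj_quad (n a : O) : conj (quad n a) = quad n a := LF.conj_quad' n a
theorem gw_pos (x : ℝ) : 0 < gw x := LF.gw_pos' x
theorem gw_anti {x y : ℝ} (hx : 0 < x) (h : x ≤ y) : gw y ≤ gw x := LF.gw_anti' x y hx h
theorem gw_le_rpow {A : ℝ} (hA : 1 < A) : ∃ C : ℝ, 0 < C ∧ ∀ x, 0 < x → gw x ≤ C * x ^ (-A) := by
  obtain ⟨C, h⟩ := LF.gw_le' A hA
  refine ⟨max C 1, by positivity, fun x hx => (h x hx).trans ?_⟩
  exact mul_le_mul_of_nonneg_right (le_max_left _ _) (by positivity)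

theorem sum_row_tail {σ : ℝ} (hσ : 1 < σ) :
    ∃ C : ℝ, 0 < C ∧ ∀ (X : ℝ) (S : Finset Row), 0 < X → (∀ n ∈ S, X ≤ nr (n : O)) →
      ∑ n ∈ S, nr (n : O) ^ (-σ) ≤ C * X ^ (1 - σ) := by
  obtain ⟨C, hC, h⟩ := sum_nr_rpow_tail hσ
  refine ⟨C, hC, fun X S hX hS => ?_⟩
  have := h X (S.map (Function.Embedding.subtype _)) hX fun n hn => by
    obtain ⟨k, hk, rfl⟩ := Finset.mem_map.1 hn
    exact ⟨k.2, hS k hk⟩
  rwa [Finset.sum_map] at this

theorem summable_row_rpow {σ : ℝ} (hσ : 1 < σ) : Summable fun k : Row => nr (k : O) ^ (-σ) := by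
  classical
  obtain ⟨C, hC, h⟩ := sum_row_tail hσ
  refine summable_of_sum_le (c := C * 1 ^ (1 - σ)) (fun k => by positivity) fun S => ?_
  rw [← Finset.sum_erase S (a := ⟨0, rep_zero⟩) (by
    simp only [nr, nm_zero, Nat.cast_zero]; exact Real.zero_rpow (by linarith))]
  exact h 1 _ one_pos fun n hn => one_le_nr fun h0 => Finset.ne_of_mem_erase hn (Subtype.ext h0)

theorem summable_gw {Y : ℝ} (hY : 0 < Y) : Summable (fun k : Row => gw (Y * nr (k : O))) := by
  classical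
  obtain ⟨C, hC, h⟩ := gw_le_rpow (A := 2) one_lt_two
  refine Summable.of_nonneg_of_le (fun k => (gw_pos _).le) (fun k => ?_)
    ((hasSum_ite_eq (⟨0, rep_zero⟩ : Row) (gw 0)).summable.add
      ((summable_row_rpow (σ := 2) one_lt_two).mul_left (C * Y ^ (-2 : ℝ))))
  split_ifs with hk
  · rw [hk]
    simp only [nr, nm_zero, Nat.cast_zero, mul_zero]
    exact le_add_of_nonneg_right (by positivity)
  · have hk' := nr_pos (z := (k : O)) fun h0 => hk (Subtype.ext h0)
    rw [zero_add, mul_assoc, ← Real.mul_rpow hY.le hk'.le]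
    exact h _ (by positivity)

theorem summable_gw' {X : ℝ} (hX : 0 < X) : Summable (fun k : Row => gw (nr (k : O) / X)) := by
  refine (summable_gw (inv_pos.2 hX)).congr fun k => ?_
  rw [div_eq_inv_mul]

end Crest.Agent.T27.LS
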