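import Crest.Agent.T27.LS2Ker_81

/-!
# Row 27, quadratic large sieve: duality and reciprocity
-/

set_option autoImplicit false

noncomputable section

namespace Crest.Agent.T27.LS

open scoped ComplexConjugate
open Classical

variable [LF]

omit [LF] in
/-- The duality principle. -/
theorem duality {α β : Type*} (S : Finset α) (T : Finset β) (φ : α → β → ℂ) {B : ℝ} (hB : 0 ≤ B)
    (h : ∀ x : β → ℂ, ∑ a ∈ S, ‖∑ b ∈ T, x b * φ a b‖ ^ 2 ≤ B * ∑ b ∈ T, ‖x b‖ ^ 2)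
    (y : α → ℂ) : ∑ b ∈ T, ‖∑ a ∈ S, y a * φ a b‖ ^ 2 ≤ B * ∑ a ∈ S, ‖y a‖ ^ 2 := by
  set u : β → ℂ := fun b => ∑ a ∈ S, y a * φ a b with hu
  set U : ℝ := ∑ b ∈ T, ‖u b‖ ^ 2 with hU
  set Y : ℝ := ∑ a ∈ S, ‖y a‖ ^ 2 with hY
  have hU0 : 0 ≤ U := Finset.sum_nonneg fun _ _ => sq_nonneg _
  have hY0 : 0 ≤ Y := Finset.sum_nonneg fun _ _ => sq_nonneg _
  have h1 : (U : ℂ) = ∑ a ∈ S, y a * ∑ b ∈ T, conj (u b) * φ a b := by
    have : (U : ℂ) = ∑ b ∈ T, conj (u b) * u b := by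
      rw [hU]; push_cast
      exact Finset.sum_congr rfl fun b _ => (Complex.conj_mul' (u b)).symm
    rw [this]
    simp only [Finset.mul_sum]
    rw [Finset.sum_comm]
    refine Finset.sum_congr rfl fun b _ => ?_
    conv_lhs => rw [hu]
    simp only [Finset.mul_sum]
    exact Finset.sum_congr rfl fun a _ => by ring
  have h2 : U ≤ ∑ a ∈ S, ‖y a‖ * ‖∑ b ∈ T, conj (u b) * φ a b‖ := by
    have : U = ‖(U : ℂ)‖ := by rw [Complex.norm_real, Real.norm_of_nonneg hU0]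
    rw [this, h1]
    refine (norm_sum_le _ _).trans (le_of_eq ?_)
    exact Finset.sum_congr rfl fun a _ => norm_mul _ _
  have h3 : U ^ 2 ≤ Y * (B * U) := by
    refine (pow_le_pow_left₀ hU0 h2 2).trans ((Finset.sum_mul_sq_le_sq_mul_sq _ _ _).trans ?_)
    refine mul_le_mul_of_nonneg_left ((h fun b => conj (u b)).trans (le_of_eq ?_)) hY0
    simp only [Complex.norm_conj, hU]
  rcases hU0.eq_or_lt with h0 | h0
  · rw [← h0]; positivity
  · nlinarith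

omit [LF] in
/-- Splitting a sum into `s.card` pieces according to a colouring. -/
theorem norm_sum_sq_le_fiber {α κ : Type*} (T : Finset α) (s : Finset κ) (g : α → κ)
    (hg : ∀ b ∈ T, g b ∈ s) (x : α → ℂ) :
    ‖∑ b ∈ T, x b‖ ^ 2 ≤ s.card * ∑ j ∈ s, ‖∑ b ∈ T.filter (fun b => g b = j), x b‖ ^ 2 := by
  rw [← Finset.sum_fiberwise_of_maps_to hg x]
  exact (pow_le_pow_left₀ (norm_nonneg _) (norm_sum_le _ _) 2).trans sq_sum_le_card_mul_sum_sq

theorem Dual_SP_of_mem {n : O} {X : ℝ} (h : n ∈ sp X) : SP n := by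
  rw [sp, Finset.mem_filter] at h
  exact h.2

/-- On one class, the symbol can be flipped. -/
theorem Dual_flip {n : O} (hn : SP n) (T : Finset O) (hT : ∀ k ∈ T, SP k) {j : Cl}
    (h4 : ∀ k ∈ T, cls k = j) (x : O → ℂ) :
    ‖∑ k ∈ T, x k * quad n k‖ ≤ ‖∑ k ∈ T, x k * quad k n‖ := by
  have : ∑ k ∈ T, x k * quad n k = Rs (cls n) j * ∑ k ∈ T, x k * quad k n := by
    rw [Finset.mul_sum]
    refine Finset.sum_congr rfl fun k hk => ?_
    rw [LF.recip n k hn.1 (hT k hk).1, h4 k hk]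
    ring
  rw [this, norm_mul]
  exact mul_le_of_le_one_left (norm_nonneg _) (LF.norm_Rs _ _)

/-- Flipping the symbol in a large sieve inequality. -/
theorem flip_sieve {S T : Finset O} (hS : ∀ n ∈ S, SP n) (hT : ∀ k ∈ T, SP k) {B : ℝ}
    (h : ∀ x : O → ℂ, ∑ n ∈ S, ‖∑ k ∈ T, x k * quad k n‖ ^ 2 ≤ B * ∑ k ∈ T, ‖x k‖ ^ 2)
    (x : O → ℂ) : ∑ n ∈ S, ‖∑ k ∈ T, x k * quad n k‖ ^ 2 ≤
      Fintype.card Cl * B * ∑ k ∈ T, ‖x k‖ ^ 2 := by
  have hmap : ∀ k ∈ T, cls k ∈ (Finset.univ : Finset Cl) := fun k _ => Finset.mem_univ _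
  have hj : ∀ j : Cl, ∑ n ∈ S, ‖∑ k ∈ T.filter (fun k => cls k = j), x k * quad n k‖ ^ 2
      ≤ B * ∑ k ∈ T.filter (fun k => cls k = j), ‖x k‖ ^ 2 := fun j => by
    have h1 := h (fun k => if cls k = j then x k else 0)
    have h2 : ∑ k ∈ T, ‖(if cls k = j then x k else 0)‖ ^ 2 =
        ∑ k ∈ T.filter (fun k => cls k = j), ‖x k‖ ^ 2 := by
      rw [Finset.sum_filter]
      refine Finset.sum_congr rfl fun k _ => ?_
      split_ifs <;> simp
    rw [h2] at h1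
    refine le_trans (Finset.sum_le_sum fun n hn => ?_) h1
    refine (pow_le_pow_left₀ (norm_nonneg _) (Dual_flip (hS n hn) _
      (fun k hk => hT k (Finset.mem_filter.1 hk).1) (fun k hk => (Finset.mem_filter.1 hk).2) x)
      2).trans (le_of_eq ?_)
    rw [Finset.sum_filter]
    congr 2
    refine Finset.sum_congr rfl fun k _ => ?_
    split_ifs <;> simp
  calc ∑ n ∈ S, ‖∑ k ∈ T, x k * quad n k‖ ^ 2
      ≤ ∑ n ∈ S, Fintype.card Cl * ∑ j : Cl,
          ‖∑ k ∈ T.filter (fun k => cls k = j), x k * quad n k‖ ^ 2 := by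
        refine Finset.sum_le_sum fun n _ => ?_
        have := norm_sum_sq_le_fiber T Finset.univ cls hmap (fun k => x k * quad n k)
        rw [Finset.card_univ] at this
        refine this.trans (le_of_eq ?_)
        congr!
    _ = Fintype.card Cl * ∑ j : Cl, ∑ n ∈ S,
          ‖∑ k ∈ T.filter (fun k => cls k = j), x k * quad n k‖ ^ 2 := by
        rw [← Finset.mul_sum, Finset.sum_comm]
    _ ≤ Fintype.card Cl * ∑ j : Cl, B * ∑ k ∈ T.filter (fun k => cls k = j), ‖x k‖ ^ 2 := by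
        gcongr with j _
        exact hj j
    _ = Fintype.card Cl * B * ∑ k ∈ T, ‖x k‖ ^ 2 := by
        rw [← Finset.mul_sum, Finset.sum_fiberwise_of_maps_to hmap]
        ring

theorem card_Cl_pos : (0 : ℝ) < Fintype.card Cl := by
  have : Nonempty Cl := ⟨cls 1⟩
  exact_mod_cast Fintype.card_pos

/-- Duality and quadratic reciprocity: the exponent moves to the rows. -/
theorem LSv.swap {ξ : ℝ} (h : LSv ξ) {ε : ℝ} (hε : 0 < ε) : ∃ C : ℝ, 0 < C ∧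
    ∀ (K N : ℝ) (β : O → ℂ), 1 ≤ K → 1 ≤ N →
      ∑ k ∈ sp K, ‖∑ n ∈ sp N, β n * quad n k‖ ^ 2 ≤
        C * (K * N) ^ ε * (N + K ^ ξ) * ∑ n ∈ sp N, ‖β n‖ ^ 2 := by
  obtain ⟨C, hC, h⟩ := h ε hε
  have hc := card_Cl_pos
  refine ⟨Fintype.card Cl * C, by positivity, fun K N β hK hN => ?_⟩
  refine duality (sp N) (sp K) (fun n k => quad n k) (by positivity) (fun x => ?_) β
  refine (flip_sieve (fun _ => Dual_SP_of_mem) (fun _ => Dual_SP_of_mem)
    (fun y => h N K y hN hK) x).trans (le_of_eq ?_)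
  rw [mul_comm N K]
  ring

/-- Reindexing along an injective map. -/
theorem Dual_reindex (S I : Finset O) (m : O → O) (γ : O → ℂ) (hm : Set.InjOn m I)
    (hS : ∀ i ∈ I, m i ∈ S) : ∃ β : O → ℂ,
      (∀ F : O → ℂ, ∑ n ∈ S, β n * F n = ∑ i ∈ I, γ i * F (m i)) ∧
        ∑ n ∈ S, ‖β n‖ ^ 2 = ∑ i ∈ I, ‖γ i‖ ^ 2 := by
  refine ⟨fun n => ∑ i ∈ I.filter (fun i => m i = n), γ i, fun F => ?_, ?_⟩
  · rw [← Finset.sum_fiberwise_of_maps_to hS]
    refine Finset.sum_congr rfl fun n _ => ?_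
    rw [Finset.sum_mul]
    exact Finset.sum_congr rfl fun i hi => by rw [(Finset.mem_filter.1 hi).2]
  · rw [← Finset.sum_fiberwise_of_maps_to hS]
    refine Finset.sum_congr rfl fun n _ => ?_
    have hc : (I.filter (fun i => m i = n)).card ≤ 1 := by
      rw [Finset.card_le_one]
      intro a ha b hb
      rw [Finset.mem_filter] at ha hb
      exact hm ha.1 hb.1 (ha.2.trans hb.2.symm)
    rcases Finset.card_le_one_iff_subset_singleton.1 hc with ⟨a, ha⟩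
    rcases Finset.subset_singleton_iff.1 ha with e | e <;> simp [e]

theorem sum_le_prod {α β : Type} (A : Finset α) (B : Finset β) (F : α → β → O) {S : Finset O}
    (h : ∀ j ∈ S, ∃ a ∈ A, ∃ b ∈ B, j = F a b) (f : O → ℝ) (hf : ∀ j, 0 ≤ f j) :
    ∑ j ∈ S, f j ≤ ∑ a ∈ A, ∑ b ∈ B, f (F a b) := by
  rw [← Finset.sum_product']
  refine (Finset.sum_le_sum_of_subset_of_nonneg (t := (A ×ˢ B).image fun x => F x.1 x.2)
    (fun j hj => ?_) fun j _ _ => hf j).trans (Finset.sum_image_le_of_nonneg fun j _ => hf j)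
  obtain ⟨a, ha, b, hb, rfl⟩ := h j hj
  exact Finset.mem_image.2 ⟨(a, b), Finset.mem_product.2 ⟨ha, hb⟩, rfl⟩

/-- Every squarefree row is a unit of `U0` times a squarefree primary element. -/
theorem Dual_decomp {a : O} (hr : Rep a) (ha : Squarefree a) :
    ∃ e ∈ U0, ∃ k : O, SP k ∧ a = e * k := by
  rcases rep_iff.1 hr with h | ⟨u, hu, p, hp, rfl⟩
  · exact absurd h ha.ne_zero
  · exact ⟨u, hu, p, ⟨hp, ha.of_mul_right⟩, rfl⟩

omit [LF] in
/-- Number of dyadic blocks. -/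
theorem Dual_log_le {ε V : ℝ} (hε : 0 < ε) (hV : 1 ≤ V) :
    ((Nat.log 2 ⌊V⌋₊ + 1 : ℕ) : ℝ) ≤ (1 + 1 / (ε * Real.log 2)) * V ^ ε := by
  have hl : 0 < Real.log 2 := Real.log_pos one_lt_two
  have hf : ⌊V⌋₊ ≠ 0 := (Nat.floor_pos.2 hV).ne'
  have h1 : ((2 : ℝ)) ^ Nat.log 2 ⌊V⌋₊ ≤ V := by
    have := Nat.pow_log_le_self 2 hf
    exact le_trans (by exact_mod_cast this) (Nat.floor_le (by linarith))
  have h2 : (Nat.log 2 ⌊V⌋₊ : ℝ) * Real.log 2 ≤ V ^ ε / ε := by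
    rw [← Real.log_pow]
    exact (Real.log_le_log (by positivity) h1).trans (Real.log_le_rpow_div (by linarith) hε)
  have h3 : (Nat.log 2 ⌊V⌋₊ : ℝ) ≤ 1 / (ε * Real.log 2) * V ^ ε := by
    rw [one_div_mul_eq_div, le_div_iff₀ (by positivity)]
    rw [le_div_iff₀ hε] at h2
    linarith
  have h4 : 1 ≤ V ^ ε := Real.one_le_rpow hV hε.le
  push_cast
  linarith

/-- The dyadic decomposition of the rows. -/
theorem Dual_dyadic {ξ ε C V N W : ℝ} (h0 : 0 ≤ ξ) (hε : 0 < ε) (hC : 0 < C) (hV : 1 ≤ V)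
    (hN : 1 ≤ N) (hW : 0 ≤ W) (f : O → ℝ) (hf : ∀ k, 0 ≤ f k)
    (h : ∀ K : ℝ, 1 ≤ K → ∑ k ∈ sp K, f k ≤ C * (K * N) ^ ε * (N + K ^ ξ) * W) :
    ∑ k ∈ sp V, f k / (N + nr k ^ ξ) ≤
      ((Nat.log 2 ⌊V⌋₊ + 1 : ℕ) : ℝ) * (C * (2 * V * N) ^ ε * 2 ^ ξ * W) := by
  set J := Nat.log 2 ⌊V⌋₊ with hJ
  have hf0 : ⌊V⌋₊ ≠ 0 := (Nat.floor_pos.2 hV).ne'
  have hJV : ((2 : ℝ)) ^ J ≤ V := by
    have := Nat.pow_log_le_self 2 hf0
    exact le_trans (by exact_mod_cast this) (Nat.floor_le (by linarith))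
  have hmap : ∀ k ∈ sp V, Nat.log 2 (nm k) ∈ Finset.range (J + 1) := fun k hk => by
    rw [Finset.mem_range, Nat.lt_succ_iff]
    refine Nat.log_mono_right ?_
    rw [Nat.le_floor_iff (by linarith)]
    exact ((mem_sp (by linarith)).1 hk).2
  rw [← Finset.sum_fiberwise_of_maps_to hmap]
  refine (Finset.sum_le_card_nsmul _ _ (C * (2 * V * N) ^ ε * 2 ^ ξ * W) fun j hj => ?_).trans
    (le_of_eq (by rw [Finset.card_range, nsmul_eq_mul]))
  have hjJ : j ≤ J := by rwa [Finset.mem_range, Nat.lt_succ_iff] at hj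
  have h2j : (1 : ℝ) ≤ 2 ^ j := one_le_pow₀ one_le_two
  have hjV : (2 : ℝ) ^ j ≤ V := (pow_le_pow_right₀ one_le_two hjJ).trans hJV
  have hD : 0 < N + ((2 : ℝ) ^ j) ^ ξ := by positivity
  have h1 : ∑ k ∈ (sp V).filter (fun k => Nat.log 2 (nm k) = j), f k / (N + nr k ^ ξ) ≤
      (∑ k ∈ sp (2 * 2 ^ j), f k) / (N + ((2 : ℝ) ^ j) ^ ξ) := by
    rw [Finset.sum_div]
    refine (Finset.sum_le_sum fun k hk => ?_).trans
      (Finset.sum_le_sum_of_subset_of_nonneg (fun k hk => ?_) fun k _ _ => div_nonneg (hf k) hD.le)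
    · obtain ⟨hk1, hk2⟩ := Finset.mem_filter.1 hk
      have hk0 : nm k ≠ 0 := fun e => ne_zero_of_SP (Dual_SP_of_mem hk1) (nm_eq_zero.1 e)
      have : (2 : ℝ) ^ j ≤ nr k := by
        have := Nat.pow_log_le_self 2 hk0
        rw [hk2] at this
        exact_mod_cast this
      gcongr
      exact hf k
    · obtain ⟨hk1, hk2⟩ := Finset.mem_filter.1 hk
      rw [mem_sp (by positivity)]
      refine ⟨Dual_SP_of_mem hk1, ?_⟩
      have := Nat.lt_pow_succ_log_self one_lt_two (nm k)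
      rw [hk2, Nat.succ_eq_add_one, pow_succ, mul_comm] at this
      exact_mod_cast this.le
  refine h1.trans ?_
  rw [div_le_iff₀ hD]
  refine (h _ (by linarith)).trans ?_
  have h2 : (2 * (2 : ℝ) ^ j * N) ^ ε ≤ (2 * V * N) ^ ε := by gcongr
  have h3 : N + (2 * (2 : ℝ) ^ j) ^ ξ ≤ 2 ^ ξ * (N + ((2 : ℝ) ^ j) ^ ξ) := by
    rw [Real.mul_rpow (by norm_num) (by positivity), mul_add]
    have : (1 : ℝ) ≤ 2 ^ ξ := Real.one_le_rpow one_le_two h0
    nlinarith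
  calc C * (2 * (2 : ℝ) ^ j * N) ^ ε * (N + (2 * (2 : ℝ) ^ j) ^ ξ) * W
      ≤ C * (2 * V * N) ^ ε * (2 ^ ξ * (N + ((2 : ℝ) ^ j) ^ ξ)) * W := by gcongr
    _ = _ := by ring

theorem LSw_of_LS {ξ : ℝ} (h0 : 0 ≤ ξ) (h : LSv ξ) : LSw ξ := by
  intro ε hε
  have hε2 : 0 < ε / 2 := by positivity
  obtain ⟨C, hC, h⟩ := h.swap hε2
  have hl : 0 < Real.log 2 := Real.log_pos one_lt_two
  refine ⟨(U0.card + 1) * (1 + 1 / (ε / 2 * Real.log 2)) * (C * 2 ^ (ε / 2) * 2 ^ ξ), by positivity,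
    fun V N hV hN N' hN' hNN I m γ hm hI => ?_⟩
  set W : ℝ := ∑ i ∈ I, ‖γ i‖ ^ 2 with hW
  have hW0 : 0 ≤ W := Finset.sum_nonneg fun _ _ => sq_nonneg _
  set D : ℝ := ((Nat.log 2 ⌊V⌋₊ + 1 : ℕ) : ℝ) * (C * (2 * V * N') ^ (ε / 2) * 2 ^ ξ * W) with hD
  have hden : ∀ a : O, 0 < N' + nr a ^ ξ := fun a => by positivity
  have hE0 : ∀ e ∈ U0, e ≠ 0 := fun e he => (unit_of_mem he).ne_zero
  have hc : (U0.card : ℝ) ≤ U0.card + 1 := by linarith
  have he : ∀ e ∈ U0,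
      ∑ k ∈ sp V, ‖∑ i ∈ I, γ i * quad (m i) (e * k)‖ ^ 2 / (N' + nr (e * k) ^ ξ) ≤ D := by
    intro e he
    have he0 : e ≠ 0 := hE0 e he
    obtain ⟨β, hβ1, hβ2⟩ := Dual_reindex (sp N') I m (fun i => γ i * quad (m i) e) hm
      fun i hi => (mem_sp (by linarith)).2 (hI i hi)
    have hβ3 : ∑ n ∈ sp N', ‖β n‖ ^ 2 ≤ W := by
      rw [hβ2]
      refine Finset.sum_le_sum fun i _ => ?_
      rw [norm_mul]
      exact pow_le_pow_left₀ (by positivity)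
        (mul_le_of_le_one_right (norm_nonneg _) (norm_quad_le _ _)) 2
    refine le_trans (Finset.sum_le_sum fun k hk => ?_) (Dual_dyadic h0 hε2 hC hV hN' hW0
      (fun k => ‖∑ n ∈ sp N', β n * quad n k‖ ^ 2) (fun _ => sq_nonneg _) fun K hK => ?_)
    · have e1 : ∑ i ∈ I, γ i * quad (m i) (e * k) = ∑ n ∈ sp N', β n * quad n k := by
        rw [hβ1 fun n => quad n k]
        refine Finset.sum_congr rfl fun i hi => ?_
        rw [quad_mul_right (hI i hi).1.1, mul_assoc]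
      have e2 : nr k ≤ nr (e * k) := by
        rw [nr_mul]
        exact le_mul_of_one_le_left (Nat.cast_nonneg _) (one_le_nr he0)
      rw [e1]
      gcongr
    · refine (h K N' β hK hN').trans ?_
      gcongr
  have h1 := sum_le_prod U0 (sp V) (fun e k => e * k) (S := sqf V)
    (fun a ha => by
      obtain ⟨ha1, ha2⟩ := (mem_sqf (by linarith)).1 ha
      obtain ⟨e, he, k, hk, rfl⟩ := Dual_decomp ha1.1 ha1.2
      refine ⟨e, he, k, (mem_sp (by linarith)).2 ⟨hk, le_trans ?_ ha2⟩, rfl⟩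
      rw [nr_mul]
      exact le_mul_of_one_le_left (Nat.cast_nonneg _) (one_le_nr (hE0 e he)))
    (fun a => ‖∑ i ∈ I, γ i * quad (m i) a‖ ^ 2 / (N' + nr a ^ ξ))
    (fun a => div_nonneg (sq_nonneg _) (hden a).le)
  refine h1.trans ((Finset.sum_le_card_nsmul _ _ D he).trans ?_)
  rw [nsmul_eq_mul]
  have h2 := Dual_log_le hε2 hV
  have h3 : V ^ (ε / 2) ≤ (V * N) ^ (ε / 2) := by
    gcongr
    exact le_mul_of_one_le_right (by linarith) hN
  have h4 : (2 * V * N') ^ (ε / 2) ≤ 2 ^ (ε / 2) * (V * N) ^ (ε / 2) := by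
    rw [← Real.mul_rpow (by norm_num) (by positivity), mul_assoc]
    gcongr
  have h5 : (V * N) ^ ε = (V * N) ^ (ε / 2) * (V * N) ^ (ε / 2) := by
    rw [← Real.rpow_add (by positivity)]; congr 1; ring
  calc (U0.card : ℝ) * D
      ≤ (U0.card + 1) * (((1 + 1 / (ε / 2 * Real.log 2)) * (V * N) ^ (ε / 2)) *
          (C * (2 ^ (ε / 2) * (V * N) ^ (ε / 2)) * 2 ^ ξ * W)) := by
        rw [hD]
        gcongr
        exact h2.trans (by gcongr)
    _ = _ := by rw [h5]; ring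

end Crest.Agent.T27.LS
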