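import Crest.Agent.T27.LS2Defs_81

/-!
# Row 27, quadratic large sieve: definitions, squarefree kernels and sieving identities

Plan of the proof (files `LS2*_81.lean`):
* `LS ξ` : large sieve bound `K + N^ξ`;  `LSw ξ` : its weighted dual form over all squarefree rows;
  `Core ξ` : the bound `M` for one block of columns when `N^ξ ≤ M`.
* `Core 2`, `LS ξ → LSw ξ`, `LSw ξ → Core (2 - 1/ξ)`, `Core ξ → LS ξ`.
-/

set_option autoImplicit false

noncomputable section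

namespace Crest.Agent.T27.LS

open scoped ComplexConjugate
open Classical

variable [LF]

/-- Squarefree primary elements. -/
def SP (n : O) : Prop := Primary n ∧ Squarefree n

/-- Squarefree primary elements of norm at most `X`. -/
def sp (X : ℝ) : Finset O := (ball ⌊X⌋₊).filter SP

theorem mem_sp {n : O} {X : ℝ} (hX : 0 ≤ X) : n ∈ sp X ↔ SP n ∧ nr n ≤ X := by
  rw [sp, Finset.mem_filter, mem_ball, Nat.le_floor_iff hX]
  exact ⟨fun h => ⟨h.2, h.1.2⟩, fun h => ⟨⟨rep_of_prim h.1.1, h.2⟩, h.1⟩⟩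

/-- `∑_{c primary} gw (y N(c)²)`. -/
def th2 (y : ℝ) : ℝ := ∑' c : Prm, gw (y * nr (c : O) ^ 2)

/-- The remainder of `th2` after removing the main term `κ / √y`. -/
def Er (κ y : ℝ) : ℝ := th2 y - κ / Real.sqrt y

/-- All squarefree rows of norm at most `V`. -/
def sqf (V : ℝ) : Finset O := (ball ⌊V⌋₊).filter Squarefree

theorem mem_sqf {a : O} {V : ℝ} (hV : 0 ≤ V) :
    a ∈ sqf V ↔ (Rep a ∧ Squarefree a) ∧ nr a ≤ V := by
  rw [sqf, Finset.mem_filter, mem_ball, Nat.le_floor_iff hV]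
  tauto

theorem squarefree_of_mem_sqf {a : O} {V : ℝ} (h : a ∈ sqf V) : Squarefree a := by
  rw [sqf, Finset.mem_filter] at h
  exact h.2

theorem rep_of_mem_sqf {a : O} {V : ℝ} (h : a ∈ sqf V) : Rep a := by
  rw [sqf, Finset.mem_filter, mem_ball] at h
  exact h.1.1

theorem ne_zero_of_mem_sqf {a : O} {V : ℝ} (h : a ∈ sqf V) : a ≠ 0 :=
  (squarefree_of_mem_sqf h).ne_zero

/-- Non-zero rows whose squarefree kernel has norm at most `V`. -/
def PP (V : ℝ) : Set O := {k | ∃ a ∈ sqf V, ∃ c : O, Primary c ∧ k = a * c ^ 2}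

/-- The norm of the product of a finite set (of primes). -/
def nP (D : Finset O) : ℝ := ∏ p ∈ D, nr p

/-- The cofactor of `∏ G` in the squarefree element `n`. -/
def cof (G : Finset O) (n : O) : O := ∏ p ∈ pf n \ G, p

/-- Contribution of the kernel `a` on the original side, as a functional of a test function. -/
def origA (n₁ n₂ a : O) (f : ℝ → ℂ) : ℂ :=
  quad n₁ a * quad n₂ a * ∑ D ∈ (pf n₁ ∪ pf n₂).powerset, (-1) ^ D.card * f (nr a * nP D ^ 2)

/-- Contribution of the kernel `a` on the dual side for the cofactors `m₁, m₂` and the set `G` of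
common primes. -/
def dualB (G : Finset O) (m₁ m₂ a : O) (f : ℝ → ℂ) : ℂ :=
  ∑ E ∈ G.powerset, (-1) ^ E.card / ((nP E * Real.sqrt (nr m₁) * Real.sqrt (nr m₂) : ℝ) : ℂ) *
    (quad m₁ a * quad m₂ a) * ∑ D ∈ (pf m₁ ∪ pf m₂).powerset, (-1) ^ D.card *
      f (nr a * nP D ^ 2 / (nP (E.filter (· ∣ a)) ^ 2 * nr m₁ * nr m₂))

/-- Contribution of the kernel `a` on the dual side, as a functional of a test function. -/
def dualA (n₁ n₂ a : O) (f : ℝ → ℂ) : ℂ :=
  dualB (pf n₁ ∩ pf n₂) (cof (pf n₁ ∩ pf n₂) n₁) (cof (pf n₁ ∩ pf n₂) n₂) a f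

/-- Euler factors. -/
def eu (ψ : ℝ → ℂ) (S : Finset O) : ℂ := ∏ p ∈ S, (1 - ψ (nr p) ^ 2)

/-- Large sieve inequality with exponent `ξ`. -/
def LSv (ξ : ℝ) : Prop :=
  ∀ ε : ℝ, 0 < ε → ∃ C : ℝ, 0 < C ∧ ∀ (K N : ℝ) (β : O → ℂ), 1 ≤ K → 1 ≤ N →
    ∑ k ∈ sp K, ‖∑ n ∈ sp N, β n * quad n k‖ ^ 2 ≤
      C * (K * N) ^ ε * (K + N ^ ξ) * ∑ n ∈ sp N, ‖β n‖ ^ 2

/-- Weighted large sieve over all squarefree rows of norm `≤ V`, with constant `D`, for all column
lengths `N' ≤ N`. -/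
def Sieve (ξ V N D : ℝ) : Prop :=
  ∀ N' : ℝ, 1 ≤ N' → N' ≤ N → ∀ (I : Finset O) (m : O → O) (γ : O → ℂ), Set.InjOn m I →
    (∀ i ∈ I, SP (m i) ∧ nr (m i) ≤ N') →
      ∑ a ∈ sqf V, ‖∑ i ∈ I, γ i * quad (m i) a‖ ^ 2 / (N' + nr a ^ ξ) ≤ D * ∑ i ∈ I, ‖γ i‖ ^ 2

/-- Weighted dual form of the large sieve with exponent `ξ`. -/
def LSw (ξ : ℝ) : Prop :=
  ∀ ε : ℝ, 0 < ε → ∃ C : ℝ, 0 < C ∧ ∀ V N : ℝ, 1 ≤ V → 1 ≤ N → Sieve ξ V N (C * (V * N) ^ ε)

/-- A block of columns: a dyadic range and a class. -/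
def Blk (N : ℝ) (S : Finset O) : Prop :=
  (∀ n ∈ S, SP n ∧ N / 2 ≤ nr n ∧ nr n ≤ N) ∧ ∀ n₁ ∈ S, ∀ n₂ ∈ S, cls n₁ = cls n₂

/-- The large sieve for one block of columns and long rows. -/
def Core (ξ : ℝ) : Prop :=
  ∀ ε : ℝ, 0 < ε → ∃ C : ℝ, 0 < C ∧ ∀ (M N : ℝ) (S : Finset O) (β : O → ℂ), 1 ≤ N → N ^ ξ ≤ M →
    Blk N S → ∑ k ∈ sp M, ‖∑ n ∈ S, β n * quad n k‖ ^ 2 ≤
      C * (M * N) ^ ε * M * ∑ n ∈ S, ‖β n‖ ^ 2

/-! ### Elementary facts -/

theorem ne_zero_of_SP {n : O} (h : SP n) : n ≠ 0 := prim_ne h.1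

theorem SP_of_dvd {m n : O} (hn : SP n) (hm : Primary m) (h : m ∣ n) : SP m :=
  ⟨hm, hn.2.squarefree_of_dvd h⟩

theorem nr_prod (D : Finset O) : nr (∏ p ∈ D, p) = nP D := by
  rw [nP, nr, nm_prod]; push_cast; rfl

theorem one_le_nP {D : Finset O} (h : ∀ p ∈ D, p ≠ 0) : 1 ≤ nP D := by
  rw [← nr_prod]; exact one_le_nr (Finset.prod_ne_zero_iff.2 h)

theorem nP_pos {D : Finset O} (h : ∀ p ∈ D, p ≠ 0) : 0 < nP D :=
  lt_of_lt_of_le one_pos (one_le_nP h)

theorem ne_zero_of_subset_pf {D : Finset O} {n : O} (h : D ⊆ pf n) : ∀ p ∈ D, p ≠ 0 :=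
  fun _ hp => (pf_sub (h hp)).1.ne_zero

theorem nP_mono {D E : Finset O} (h : D ⊆ E) (hE : ∀ p ∈ E, p ≠ 0) : nP D ≤ nP E := by
  rw [nP, nP, ← Finset.prod_sdiff h]
  have h1 : 1 ≤ nP (E \ D) := one_le_nP fun p hp => hE p (Finset.sdiff_subset hp)
  have h2 : 0 < nP D := nP_pos fun p hp => hE p (h hp)
  rw [nP] at h1 h2
  nlinarith

theorem cof_primes (G : Finset O) (n : O) : ∀ q ∈ pf n \ G, Prime q ∧ Primary q :=
  fun _ hq => pf_sub (Finset.sdiff_subset hq)

theorem pf_cof (G : Finset O) (n : O) : pf (cof G n) = pf n \ G :=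
  (squarefree_prod_primes (cof_primes G n)).2.2

theorem primary_cof (G : Finset O) (n : O) : Primary (cof G n) :=
  (squarefree_prod_primes (cof_primes G n)).2.1

theorem prod_mul_cof {G : Finset O} {n : O} (hn : Primary n) (hs : Squarefree n) (h : G ⊆ pf n) :
    (∏ p ∈ G, p) * cof G n = n := by
  have h1 := eq_rad hn hs
  rw [← Finset.prod_sdiff h] at h1
  rw [cof, mul_comm]; exact h1

theorem SP_cof (n : O) (G : Finset O) : SP (cof G n) :=
  ⟨primary_cof G n, (squarefree_prod_primes (cof_primes G n)).1⟩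

theorem SP_prod {n : O} {G : Finset O} (h : G ⊆ pf n) : SP (∏ p ∈ G, p) :=
  ⟨(squarefree_prod_primes fun _ hq => pf_sub (h hq)).2.1,
    (squarefree_prod_primes fun _ hq => pf_sub (h hq)).1⟩

theorem pf_prod {n : O} {G : Finset O} (h : G ⊆ pf n) : pf (∏ p ∈ G, p) = G :=
  (squarefree_prod_primes fun _ hq => pf_sub (h hq)).2.2

theorem nr_cof {n : O} (hn : SP n) {G : Finset O} (h : G ⊆ pf n) :
    nr (cof G n) = nr n / nP G := by
  have h1 := congrArg nr (prod_mul_cof hn.1 hn.2 h)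
  rw [nr_mul, nr_prod] at h1
  rw [eq_div_iff (nP_pos (ne_zero_of_subset_pf h)).ne', ← h1, mul_comm]

/-! ### Kernels -/

theorem zero_not_mem_PP (V : ℝ) : (0 : O) ∉ PP V := by
  rintro ⟨a, ha, c, hc, h⟩
  exact mul_ne_zero (ne_zero_of_mem_sqf ha) (pow_ne_zero 2 (prim_ne hc)) h.symm

theorem ker_exists_sq {k : O} (hk : k ≠ 0) :
    ∃ a c : O, c ^ 2 * a = k ∧ Squarefree a ∧ Primary c := by
  induction h : nm k using Nat.strong_induction_on generalizing k with
  | _ n ih =>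
    by_cases hs : Squarefree k
    · exact ⟨k, 1, by simp, hs, primary_one⟩
    · unfold Squarefree at hs
      push Not at hs
      obtain ⟨y, hy, hy'⟩ := hs
      have hy0 : y ≠ 0 := by
        rintro rfl
        exact hk (by simpa using hy)
      obtain ⟨x, hxp, hxy⟩ := prim_ex hy0
      have hx : ¬ IsUnit x := fun h => hy' (hxy.isUnit h)
      obtain ⟨k', rfl⟩ : x * x ∣ k := (mul_dvd_mul hxy.dvd hxy.dvd).trans hy
      have hk' : k' ≠ 0 := right_ne_zero_of_mul hk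
      have hx0 : x ≠ 0 := prim_ne hxp
      have h1 : nm x ≠ 0 := fun h => hx0 (nm_eq_zero.1 h)
      have h2 : nm x ≠ 1 := fun h => hx (isUnit_iff_nm.2 h)
      have h3 : nm k' ≠ 0 := fun h => hk' (nm_eq_zero.1 h)
      have h4 : nm k' < n := by
        rw [← h, nm_mul, nm_mul]
        have h5 : 2 ≤ nm x := by omega
        have h6 : 1 < nm x * nm x := by nlinarith
        exact lt_mul_of_one_lt_left (Nat.pos_of_ne_zero h3) h6
      obtain ⟨a, c, hac, ha, hc⟩ := ih _ h4 hk' rfl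
      exact ⟨a, x * c, by rw [← hac]; ring, ha, prim_mul hxp hc⟩

theorem lt_nr_of_not_mem_PP {V : ℝ} {k : O} (hr : Rep k) (hk : k ≠ 0) (h : k ∉ PP V) :
    V < nr k := by
  obtain ⟨a, c, hac, ha, hc⟩ := ker_exists_sq hk
  by_contra hV
  push Not at hV
  have h1 : nr a ≤ nr k := by exact_mod_cast nm_le_of_dvd (Dvd.intro_left _ hac) hk
  have h0 : 0 ≤ V := (Nat.cast_nonneg _).trans hV
  have h2 : Rep a := (rep_mul_iff (prim_pow hc 2)).1 (hac ▸ hr)
  exact h ⟨a, (mem_sqf h0).2 ⟨⟨h2, ha⟩, h1.trans hV⟩, c, hc, by rw [← hac, mul_comm]⟩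

theorem not_mem_PP_of_squarefree {V : ℝ} (hV : 0 ≤ V) {k : O} (hk : Squarefree k)
    (h : V < nr k) : k ∉ PP V := by
  rintro ⟨a, ha, c, -, rfl⟩
  have hu : IsUnit c := hk c ⟨a, by ring⟩
  rw [nr_mul, nr_pow, nr_unit hu] at h
  have := ((mem_sqf hV).1 ha).2
  simp only [one_pow, mul_one] at h
  exact absurd this (not_le.2 h)

theorem prod_dvd_mul_sq_iff {E : Finset O} (hE : ∀ p ∈ E, Prime p ∧ Primary p) (a c : O) :
    (∏ p ∈ E, p) ∣ a * c ^ 2 ↔ (∏ p ∈ E.filter (fun p => ¬ p ∣ a), p) ∣ c := by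
  rw [prod_primes_dvd_iff hE, prod_primes_dvd_iff fun p hp => hE p (Finset.mem_filter.1 hp).1]
  constructor
  · intro h p hp
    obtain ⟨hp1, hp2⟩ := Finset.mem_filter.1 hp
    exact (hE p hp1).1.dvd_of_dvd_pow (((hE p hp1).1.dvd_or_dvd (h p hp1)).resolve_left hp2)
  · intro h p hp
    by_cases hpa : p ∣ a
    · exact hpa.mul_right _
    · exact ((h p (Finset.mem_filter.2 ⟨hp, hpa⟩)).pow two_ne_zero).mul_left _

theorem tsum_dvd {T : O → Prop} (hT : ∀ {d c : O}, Primary d → (T (d * c) ↔ T c)) {d : O}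
    (hd : Primary d) (f : O → ℂ) :
    ∑' k : {k // T k}, (if d ∣ (k : O) then f k else 0) = ∑' c : {k // T k}, f (d * c) := by
  have hinj : Function.Injective
      (fun c : {k // T k} => (⟨d * c, (hT hd).2 c.2⟩ : {k // T k})) := fun a b h =>
    Subtype.ext (mul_left_cancel₀ (prim_ne hd) (congrArg Subtype.val h))
  rw [← hinj.tsum_eq (f := fun k : {k // T k} => if d ∣ (k : O) then f k else 0)]
  · exact tsum_congr fun c => if_pos (dvd_mul_right d c)
  · intro k hk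
    by_contra hk'
    refine hk (if_neg fun ⟨c, hc⟩ => hk' ⟨⟨c, (hT hd).1 (hc ▸ k.2)⟩, Subtype.ext hc.symm⟩)

/-- Legendre's sieve. -/
theorem tsum_sieve {T : O → Prop} (hT : ∀ {d c : O}, Primary d → (T (d * c) ↔ T c))
    {S : Finset O} (hS : ∀ p ∈ S, Prime p ∧ Primary p) {f : O → ℂ}
    (hf : Summable fun c : {k // T k} => f c) :
    ∑' c : {k // T k}, (if ∀ p ∈ S, ¬ p ∣ (c : O) then f c else 0) =
      ∑ D ∈ S.powerset, (-1) ^ D.card * ∑' c : {k // T k}, f ((∏ p ∈ D, p) * c) := by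
  have h1 : ∀ c : O, (if ∀ p ∈ S, ¬ p ∣ c then f c else 0) =
      ∑ D ∈ S.powerset, (-1) ^ D.card * (if (∏ p ∈ D, p) ∣ c then f c else 0) := by
    intro c
    have h2 : (if ∀ p ∈ S, ¬ p ∣ c then f c else 0) =
        (∏ p ∈ S, (1 - if p ∣ c then (1 : ℂ) else 0)) * f c := by
      split_ifs with h
      · rw [Finset.prod_eq_one fun p hp => by rw [if_neg (h p hp), sub_zero], one_mul]
      · push Not at h
        obtain ⟨p, hp, hpc⟩ := h
        rw [Finset.prod_eq_zero hp (by rw [if_pos hpc, sub_self]), zero_mul]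
    rw [h2, Finset.prod_sub, Finset.sum_mul]
    refine Finset.sum_congr rfl fun D hD => ?_
    rw [Finset.prod_const_one, mul_one, Finset.prod_boole, mul_assoc, boole_mul,
      prod_primes_dvd_iff fun p hp => hS p (Finset.mem_powerset.1 hD hp)]
    congr
  simp only [h1]
  rw [Summable.tsum_finsetSum]
  · refine Finset.sum_congr rfl fun D hD => ?_
    rw [tsum_mul_left, tsum_dvd hT (prim_prod fun p hp => (hS p (Finset.mem_powerset.1 hD hp)).2)]
  · intro D _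
    exact (hf.indicator {c | (∏ p ∈ D, p) ∣ (c : O)}).mul_left _

theorem ker_assoc {a b c d : O} (ha : Squarefree a) (hb : Squarefree b) (hc : c ≠ 0)
    (h : a * c ^ 2 = b * d ^ 2) : Associated c d := by
  obtain ⟨c', d', g, hcd, rfl, rfl⟩ := UniqueFactorizationMonoid.exists_reduced_factors c hc d
  have hg : g ≠ 0 := left_ne_zero_of_mul hc
  have h1 : a * c' ^ 2 = b * d' ^ 2 := by
    apply mul_left_cancel₀ (pow_ne_zero 2 hg)
    linear_combination h
  have h2 : IsRelPrime (c' ^ 2) (d' ^ 2) := hcd.pow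
  have h3 : IsUnit c' := hb c' (by
    rw [← sq]; exact h2.dvd_of_dvd_mul_right ⟨a, by rw [← h1, mul_comm]⟩)
  have h4 : IsUnit d' := ha d' (by
    rw [← sq]; exact h2.symm.dvd_of_dvd_mul_right ⟨b, by rw [h1, mul_comm]⟩)
  exact (associated_mul_unit_left g c' h3).trans (associated_mul_unit_left g d' h4).symm

/-- Every non-zero row has exactly one representation `a c²`, `a` a squarefree row, `c` primary. -/
theorem tsum_kernel (V : ℝ) {f : O → ℂ} (hf : Summable fun k : Row => f k) :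
    ∑ a ∈ sqf V, ∑' c : Prm, f (a * (c : O) ^ 2) =
      ∑' k : Row, (if (k : O) ∈ PP V then f k else 0) := by
  let φ : sqf V × Prm → Row := fun z => ⟨z.1 * (z.2 : O) ^ 2, by
    rw [mul_comm]; exact (rep_mul_iff (prim_pow z.2.2 2)).2 (rep_of_mem_sqf z.1.2)⟩
  have hinj : Function.Injective φ := by
    rintro ⟨a, c⟩ ⟨b, d⟩ h
    have h1 : (a : O) * (c : O) ^ 2 = b * (d : O) ^ 2 := congrArg Subtype.val h
    have h2 : c = d := Subtype.ext (prim_eq c.2 d.2
      (ker_assoc (squarefree_of_mem_sqf a.2) (squarefree_of_mem_sqf b.2) (prim_ne c.2) h1))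
    subst h2
    rw [Subtype.ext (mul_right_cancel₀ (pow_ne_zero 2 (prim_ne c.2)) h1)]
  have hs : Summable fun z => f (φ z) := hf.comp_injective hinj
  rw [← hinj.tsum_eq (f := fun k : Row => if (k : O) ∈ PP V then f k else 0)]
  · have e : ∀ z, (if ((φ z : Row) : O) ∈ PP V then f (φ z) else 0) = f (φ z) := fun z =>
      if_pos ⟨z.1, z.1.2, z.2, z.2.2, rfl⟩
    rw [tsum_congr e, hs.tsum_prod, tsum_fintype, ← Finset.sum_coe_sort (sqf V)]
  · intro k hk
    by_contra hk'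
    refine hk (if_neg fun ⟨a, ha, c, hc, h⟩ => hk' ⟨(⟨a, ha⟩, ⟨c, hc⟩), Subtype.ext h.symm⟩)

/-! ### The sum `th2` -/

theorem summable_th2 {y : ℝ} (hy : 0 < y) : Summable (fun c : Prm => gw (y * nr (c : O) ^ 2)) := by
  have h1 : Summable fun c : Prm => gw (y * nr (c : O)) :=
    (summable_gw hy).comp_injective (i := fun c : Prm => (⟨c, rep_of_prim c.2⟩ : Row))
      fun a b h => Subtype.ext (congrArg Subtype.val h :)
  refine Summable.of_nonneg_of_le (fun c => (gw_pos _).le) (fun c => ?_) h1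
  have := one_le_nr (prim_ne c.2)
  exact gw_anti (by positivity) (mul_le_mul_of_nonneg_left (by nlinarith) hy.le)

theorem measurable_Er (κ : ℝ) : Measurable (fun x : ℝ => Er κ (Real.exp x)) := by
  have h : Antitone fun x : ℝ => th2 (Real.exp x) := by
    intro x y hxy
    refine (summable_th2 (Real.exp_pos y)).tsum_le_tsum (fun c => ?_)
      (summable_th2 (Real.exp_pos x))
    have := nr_pos (prim_ne c.2)
    exact gw_anti (by positivity)
      (mul_le_mul_of_nonneg_right (Real.exp_le_exp.2 hxy) (sq_nonneg _))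
  exact h.measurable.sub (by fun_prop)

theorem exists_Er : ∃ κ : ℝ, ∀ η : ℝ, 0 < η → η < 1 / 2 → ∃ C : ℝ, ∀ y : ℝ, 0 < y →
    |Er κ y| ≤ C * y ^ (-η) := LF.th2_asymp

end Crest.Agent.T27.LS
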