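import Crest.Agent.T27.LS2Pois_81
import Crest.Agent.T27.LS2Eval_81

/-!
# Row 27, quadratic large sieve: the sum over the rows with large kernel for a pair of columns
-/

set_option autoImplicit false

noncomputable section

namespace Crest.Agent.T27.LS

open scoped ComplexConjugate
open Classical

variable [LF]

theorem pair_summable {X : ℝ} (hX : 0 < X) (n₁ n₂ : O) :
    Summable fun k : Row => (gw (nr (k : O) / X) : ℂ) * (quad n₁ k * quad n₂ k) := by
  refine Summable.of_norm_bounded (summable_gw' hX) fun k => ?_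
  rw [norm_mul, norm_mul, Complex.norm_real, Real.norm_of_nonneg (gw_pos _).le]
  exact mul_le_of_le_one_right (gw_pos _).le
    (mul_le_one₀ (norm_quad_le _ _) (norm_nonneg _) (norm_quad_le _ _))

theorem pair_quad_sq {n : O} (h : SP n) (a c : O) :
    quad n (a * c ^ 2) = if ∀ p ∈ pf n, ¬ p ∣ c then quad n a else 0 := by
  rw [quad_mul_right h.1, sq, quad_mul_right h.1, ← sq]
  split_ifs with hc
  · rw [quad_sq h.1 ((isCoprime_iff_pf h.1 c).2 hc), mul_one]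
  · rw [quad_zero h.1 fun h' => hc ((isCoprime_iff_pf h.1 c).1 h')]
    simp

theorem pair_row {X : ℝ} (hX : 0 < X) {n₁ n₂ a : O} (h₁ : SP n₁) (h₂ : SP n₂) (ha : a ≠ 0) :
    (∑' c : Prm, (gw (nr (a * (c : O) ^ 2) / X) : ℂ) *
        (quad n₁ (a * (c : O) ^ 2) * quad n₂ (a * (c : O) ^ 2))) =
      origA n₁ n₂ a (fun y => (th2 (y / X) : ℂ)) := by
  have hS : ∀ p ∈ pf n₁ ∪ pf n₂, Prime p ∧ Primary p := fun p hp => by
    rcases Finset.mem_union.1 hp with h | h <;> exact pf_sub h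
  have hg : Summable fun c : Prm => (gw (nr a / X * nr (c : O) ^ 2) : ℂ) :=
    Complex.summable_ofReal.2 (summable_th2 (div_pos (nr_pos ha) hX))
  have hs := tsum_sieve prim_mul_iff hS (f := fun c => (gw (nr a / X * nr c ^ 2) : ℂ)) hg
  have e1 : ∀ c : O,
      (gw (nr (a * c ^ 2) / X) : ℂ) * (quad n₁ (a * c ^ 2) * quad n₂ (a * c ^ 2)) =
      quad n₁ a * quad n₂ a * (if ∀ p ∈ pf n₁ ∪ pf n₂, ¬ p ∣ c then
        (gw (nr a / X * nr c ^ 2) : ℂ) else 0) := by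
    intro c
    have e : nr (a * c ^ 2) / X = nr a / X * nr c ^ 2 := by rw [nr_mul, nr_pow]; ring
    rw [pair_quad_sq h₁, pair_quad_sq h₂, e]
    simp only [Finset.forall_mem_union]
    by_cases k₁ : ∀ p ∈ pf n₁, ¬ p ∣ c <;> by_cases k₂ : ∀ p ∈ pf n₂, ¬ p ∣ c
    · rw [if_pos k₁, if_pos k₂, if_pos ⟨k₁, k₂⟩]; ring
    · rw [if_neg k₂, if_neg (c := _ ∧ _) fun h => k₂ h.2]; ring
    · rw [if_neg k₁, if_neg (c := _ ∧ _) fun h => k₁ h.1]; ring
    · rw [if_neg k₁, if_neg (c := _ ∧ _) fun h => k₁ h.1]; ring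
  rw [tsum_congr fun c : Prm => e1 c, tsum_mul_left, hs, origA]
  congr 1
  refine Finset.sum_congr rfl fun T hT => ?_
  rw [th2, Complex.ofReal_tsum]
  congr 1
  refine tsum_congr fun c => ?_
  have e : nr a / X * nr ((∏ p ∈ T, p) * c) ^ 2 = nr a * nP T ^ 2 / X * nr (c : O) ^ 2 := by
    rw [nr_mul, nr_prod]; ring
  rw [e]

theorem pair_origA_sub (n₁ n₂ a : O) (f g : ℝ → ℂ) :
    origA n₁ n₂ a (fun y => f y - g y) = origA n₁ n₂ a f - origA n₁ n₂ a g := by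
  simp only [origA, mul_sub, Finset.sum_sub_distrib]

theorem pair_dualA_sub (n₁ n₂ a : O) (f g : ℝ → ℂ) :
    dualA n₁ n₂ a (fun y => f y - g y) = dualA n₁ n₂ a f - dualA n₁ n₂ a g := by
  simp only [dualA, dualB, mul_sub, Finset.sum_sub_distrib]

/-- Original side. -/
theorem orig_eq (V : ℝ) {X : ℝ} (hX : 0 < X) {n₁ n₂ : O} (h₁ : SP n₁) (h₂ : SP n₂) :
    (∑' k : Row, if (k : O) ∈ PP V then
      (gw (nr (k : O) / X) : ℂ) * (quad n₁ k * quad n₂ k) else 0) =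
      ∑ a ∈ sqf V, origA n₁ n₂ a (fun y => (th2 (y / X) : ℂ)) := by
  rw [← tsum_kernel V (f := fun k => (gw (nr k / X) : ℂ) * (quad n₁ k * quad n₂ k))
    (pair_summable hX n₁ n₂)]
  exact Finset.sum_congr rfl fun a ha => pair_row hX h₁ h₂ (ne_zero_of_mem_sqf ha)

theorem pair_est (κ V : ℝ) {X : ℝ} (hX : 0 < X) {n₁ n₂ : O} (h₁ : SP n₁) (h₂ : SP n₂)
    (h4 : cls n₁ = cls n₂) :
    ‖(∑' k : Row, if (k : O) ∈ PP V then 0 else
          (gw (nr (k : O) / X) : ℂ) * (quad n₁ k * quad n₂ k)) -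
        ∑ a ∈ sqf V, ((X : ℂ) * dualA n₁ n₂ a (fun y => (Er κ (y * X) : ℂ)) -
          origA n₁ n₂ a (fun y => (Er κ (y / X) : ℂ)))‖ ≤
      2 ^ (pf n₁).card * X * ((if n₁ = n₂ then gw 0 else 0) +
        ∑' h : Row, if V < nr (h : O) then gw (X * nr (h : O) / (nr n₁ * nr n₂)) else 0) := by
  have hF := pair_summable hX n₁ n₂
  have hP : Summable fun k : Row =>
      if (k : O) ∈ PP V then (gw (nr (k : O) / X) : ℂ) * (quad n₁ k * quad n₂ k) else 0 :=
    (hF.indicator {k : Row | (k : O) ∈ PP V}).congr fun k => by rw [Set.indicator_apply]; rfl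
  have e1 : (∑' k : Row, if (k : O) ∈ PP V then 0 else
        (gw (nr (k : O) / X) : ℂ) * (quad n₁ k * quad n₂ k)) =
      (∑' k : Row, (gw (nr (k : O) / X) : ℂ) * (quad n₁ k * quad n₂ k)) -
        ∑' k : Row, if (k : O) ∈ PP V then
          (gw (nr (k : O) / X) : ℂ) * (quad n₁ k * quad n₂ k) else 0 := by
    rw [← hF.tsum_sub hP]
    refine tsum_congr fun k => ?_
    split_ifs <;> simp
  have e2 : ∀ a ∈ sqf V, (X : ℂ) * dualA n₁ n₂ a (fun y => (Er κ (y * X) : ℂ)) -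
      origA n₁ n₂ a (fun y => (Er κ (y / X) : ℂ)) =
      (X : ℂ) * dualA n₁ n₂ a (fun y => (th2 (y * X) : ℂ)) -
        origA n₁ n₂ a (fun y => (th2 (y / X) : ℂ)) := by
    intro a ha
    have h := main_cancel κ hX h₁ h₂ (ne_zero_of_mem_sqf ha)
    simp only [Er, Complex.ofReal_sub]
    rw [pair_origA_sub, pair_dualA_sub, ← h]
    ring
  rw [e1, Finset.sum_congr rfl e2, Finset.sum_sub_distrib, ← orig_eq V hX h₁ h₂, ← Finset.mul_sum]
  convert dual_est V hX h₁ h₂ h4 using 2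
  ring

end Crest.Agent.T27.LS
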