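import Crest.Agent.T27.LS2Ker_81

/-!
# Row 27, quadratic large sieve: Poisson summation for a pair of columns
-/

set_option autoImplicit false

noncomputable section

namespace Crest.Agent.T27.LS

open scoped ComplexConjugate
open Classical

variable [LF]

/-- The Poisson formula for the quadratic character modulo `q`. -/
def PoisQ (q : O) : Prop := ∀ X : ℝ, 0 < X →
  ∑' k : Row, quad q k * (gw (nr (k : O) / X) : ℂ) =
    ((X / Real.sqrt (nr q) : ℝ) : ℂ) * ∑' k : Row, quad q k * (gw (X * nr (k : O) / nr q) : ℂ)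

theorem Pois_norm_le (q k : O) (x : ℝ) : ‖quad q k * (gw x : ℂ)‖ ≤ gw x := by
  rw [norm_mul, Complex.norm_real, Real.norm_of_nonneg (gw_pos x).le]
  exact mul_le_of_le_one_left (gw_pos x).le (norm_quad_le q k)

theorem Pois_summable_gw {X W : ℝ} (hX : 0 < X) (hW : 0 < W) :
    Summable (fun k : Row => gw (X * nr (k : O) / W)) := by
  refine (summable_gw' (div_pos hW hX)).congr fun k => ?_
  congr 1
  field_simp

theorem Pois_step {q e : O} (hq : Primary q) (hP : PoisQ q) (he : Primary e) {X : ℝ}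
    (hX : 0 < X) :
    ∑' c : Row, quad q (e * c) * (gw (nr (e * c) / X) : ℂ) =
      ((X / (nr e * Real.sqrt (nr q)) : ℝ) : ℂ) * ∑' k : Row,
        if e ∣ (k : O) then quad q k * (gw (X * nr (k : O) / (nr e ^ 2 * nr q)) : ℂ) else 0 := by
  have hNe := nr_pos (prim_ne he)
  have hNq := nr_pos (prim_ne hq)
  have h1 := hP _ (div_pos hX hNe)
  have h2 : ∀ c : O, quad q (e * c) * (gw (nr (e * c) / X) : ℂ) =
      quad q e * (quad q c * (gw (nr c / (X / nr e)) : ℂ)) := fun c => by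
    rw [quad_mul_right hq, nr_mul, mul_assoc]
    congr 4
    field_simp
  have h3 : ∀ c : O, quad q (e * c) * (gw (X * nr (e * c) / (nr e ^ 2 * nr q)) : ℂ) =
      quad q e * (quad q c * (gw (X / nr e * nr c / nr q) : ℂ)) := fun c => by
    have h5 : X * nr (e * c) / (nr e ^ 2 * nr q) = X / nr e * nr c / nr q := by
      rw [nr_mul]
      field_simp
    rw [quad_mul_right hq, h5, mul_assoc]
  rw [tsum_dvd rep_mul_iff he
    (fun k => quad q k * (gw (X * nr k / (nr e ^ 2 * nr q)) : ℂ))]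
  simp only [h2, h3]
  rw [tsum_mul_left, tsum_mul_left, h1, div_div]
  ring

theorem Pois_quad_sq {q : O} (hq : Primary q) (c : O) :
    quad q c ^ 2 = if ∀ p ∈ pf q, ¬ p ∣ c then 1 else 0 := by
  split_ifs with h
  · exact quad_sq hq ((isCoprime_iff_pf hq c).2 h)
  · rw [quad_zero hq fun h' => h ((isCoprime_iff_pf hq c).1 h')]
    norm_num

theorem Pois_kernel {q a : O} (hq : Primary q) {E : Finset O}
    (hE : ∀ p ∈ E, Prime p ∧ Primary p)
    (hd : Disjoint E (pf q)) (ha : a ≠ 0) {X : ℝ} (hX : 0 < X) :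
    ∑' c : Prm, (if (∏ p ∈ E, p) ∣ a * (c : O) ^ 2 then quad q (a * (c : O) ^ 2) *
      (gw (X * nr (a * (c : O) ^ 2) / (nr (∏ p ∈ E, p) ^ 2 * nr q)) : ℂ) else 0) =
      quad q a * ∑ D ∈ (pf q).powerset, (-1) ^ D.card *
        (th2 (nr a * nP D ^ 2 / (nP (E.filter (· ∣ a)) ^ 2 * nr q) * X) : ℂ) := by
  set E₂ := E.filter (fun p => ¬ p ∣ a) with hE₂
  have hE₂' : ∀ p ∈ E₂, Prime p ∧ Primary p := fun p hp => hE p (Finset.filter_subset _ _ hp)
  obtain ⟨-, hp₂, hpf₂⟩ := squarefree_prod_primes hE₂'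
  have hN₁ : 0 < nP (E.filter (· ∣ a)) :=
    nP_pos fun p hp => (hE p (Finset.filter_subset _ _ hp)).1.ne_zero
  have hN₂ : 0 < nP E₂ := nP_pos fun p hp => (hE₂' p hp).1.ne_zero
  have hNE : nr (∏ p ∈ E, p) = nP (E.filter (· ∣ a)) * nP E₂ := by
    rw [nr_prod, nP, nP, nP, Finset.prod_filter_mul_prod_filter_not]
  have hNq := nr_pos (prim_ne hq)
  have hNa := nr_pos ha
  set Y : ℝ := nr a / (nP (E.filter (· ∣ a)) ^ 2 * nr q) * X with hY
  have hY0 : 0 < Y := by positivity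
  let χ : O → ℂ := fun c => (gw (Y * nr c ^ 2) : ℂ)
  have hχ : Summable fun c : Prm => χ c := Complex.summable_ofReal.2 (summable_th2 hY0)
  have h1 : ∀ c : O, (if (∏ p ∈ E, p) ∣ a * c ^ 2 then quad q (a * c ^ 2) *
      (gw (X * nr (a * c ^ 2) / (nr (∏ p ∈ E, p) ^ 2 * nr q)) : ℂ) else 0) =
      if (∏ p ∈ E₂, p) ∣ c then (quad q (a * c ^ 2) *
        (gw (X * nr (a * c ^ 2) / (nr (∏ p ∈ E, p) ^ 2 * nr q)) : ℂ)) else 0 := fun c => by
    rw [if_congr (prod_dvd_mul_sq_iff hE a c) rfl rfl]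
  have h2 : ∀ c : O,
      quad q (a * ((∏ p ∈ E₂, p) * c) ^ 2) * (gw (X * nr (a * ((∏ p ∈ E₂, p) * c) ^ 2) /
        (nr (∏ p ∈ E, p) ^ 2 * nr q)) : ℂ) =
      quad q a * if ∀ p ∈ pf q, ¬ p ∣ c then χ c else 0 := fun c => by
    have h3 : quad q (∏ p ∈ E₂, p) ^ 2 = 1 := by
      refine quad_sq hq (isCoprime_of_disjoint_pf hq (prim_ne hp₂) ?_)
      rw [hpf₂]
      exact (hd.mono_left (Finset.filter_subset _ _)).symm
    have h4 : X * nr (a * ((∏ p ∈ E₂, p) * c) ^ 2) / (nr (∏ p ∈ E, p) ^ 2 * nr q) =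
        Y * nr c ^ 2 := by
      rw [nr_mul, nr_pow, nr_mul, nr_prod E₂, hNE, hY]
      field_simp
    rw [h4, quad_mul_right hq, sq, quad_mul_right hq, ← sq,
      quad_mul_right hq, mul_pow, h3, one_mul, Pois_quad_sq hq]
    simp only [χ]
    split_ifs <;> simp
  simp only [h1]
  rw [tsum_dvd prim_mul_iff hp₂ (fun c => quad q (a * c ^ 2) *
        (gw (X * nr (a * c ^ 2) / (nr (∏ p ∈ E, p) ^ 2 * nr q)) : ℂ))]
  simp only [h2]
  rw [tsum_mul_left, tsum_sieve prim_mul_iff (fun p hp => pf_sub hp) hχ]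
  congr 1
  refine Finset.sum_congr rfl fun D hD => ?_
  rw [th2, Complex.ofReal_tsum]
  congr 1
  refine tsum_congr fun c => ?_
  simp only [χ]
  congr 2
  rw [nr_mul, nr_prod, hY]
  ring

/-- Dual side: Poisson summation modulo `q = m₁ m₂`. -/
theorem dual_est (V : ℝ) {X : ℝ} (hX : 0 < X) {n₁ n₂ : O} (h₁ : SP n₁) (h₂ : SP n₂)
    (h4 : cls n₁ = cls n₂) :
    ‖(∑' k : Row, (gw (nr (k : O) / X) : ℂ) * (quad n₁ k * quad n₂ k)) -
        (X : ℂ) * ∑ a ∈ sqf V, dualA n₁ n₂ a (fun y => (th2 (y * X) : ℂ))‖ ≤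
      2 ^ (pf n₁).card * X * ((if n₁ = n₂ then gw 0 else 0) +
        ∑' h : Row, if V < nr (h : O) then gw (X * nr (h : O) / (nr n₁ * nr n₂)) else 0) := by
  simp only [dualA]
  set G := pf n₁ ∩ pf n₂ with hG
  set m₁ := cof G n₁ with hm₁
  set m₂ := cof G n₂ with hm₂
  have hG₁ : G ⊆ pf n₁ := Finset.inter_subset_left
  have hG₂ : G ⊆ pf n₂ := Finset.inter_subset_right
  have hGp : ∀ p ∈ G, Prime p ∧ Primary p := fun p hp => pf_sub (hG₁ hp)
  have e₁ : (∏ p ∈ G, p) * m₁ = n₁ := prod_mul_cof h₁.1 h₁.2 hG₁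
  have e₂ : (∏ p ∈ G, p) * m₂ = n₂ := prod_mul_cof h₂.1 h₂.2 hG₂
  have s₁ : SP m₁ := SP_cof n₁ G
  have s₂ : SP m₂ := SP_cof n₂ G
  have sg : SP (∏ p ∈ G, p) := SP_prod hG₁
  have hz₁ := ne_zero_of_SP s₁
  have hz₂ := ne_zero_of_SP s₂
  have hzg := ne_zero_of_SP sg
  have hN₁ := one_le_nr hz₁
  have hN₂ := one_le_nr hz₂
  have hcop : IsCoprime m₁ m₂ := by
    refine isCoprime_of_disjoint_pf s₁.1 hz₂ ?_
    rw [hm₁, hm₂, pf_cof, pf_cof, Finset.disjoint_left]
    intro p hp hp'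
    exact (Finset.mem_sdiff.1 hp).2
      (Finset.mem_inter.2 ⟨(Finset.mem_sdiff.1 hp).1, (Finset.mem_sdiff.1 hp').1⟩)
  have hq : Primary (m₁ * m₂) := prim_mul s₁.1 s₂.1
  have hqs : Squarefree (m₁ * m₂) := (squarefree_mul_iff).2 ⟨hcop.isRelPrime, s₁.2, s₂.2⟩
  have hpq : pf (m₁ * m₂) = pf m₁ ∪ pf m₂ := pf_mul hz₁ hz₂
  have hdis : Disjoint G (pf (m₁ * m₂)) := by
    rw [hpq, hm₁, hm₂, pf_cof, pf_cof, Finset.disjoint_union_right]
    exact ⟨Finset.disjoint_sdiff, Finset.disjoint_sdiff⟩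
  have hg4 : PoisQ (m₁ * m₂) :=
    LF.pois m₁ m₂ s₁.1 s₂.1 hqs (LF.cls_cancel _ _ _ sg.1 s₁.1 s₂.1 (by rw [e₁, e₂, h4]))
  have hNq : nr (m₁ * m₂) = nr m₁ * nr m₂ := nr_mul _ _
  have hNq1 : 1 ≤ nr (m₁ * m₂) := one_le_nr (prim_ne hq)
  -- the sieve and Poisson summation
  let φ : Finset O → O → ℂ := fun E k => if (∏ p ∈ E, p) ∣ k then quad (m₁ * m₂) k *
    (gw (X * nr k / (nr (∏ p ∈ E, p) ^ 2 * nr (m₁ * m₂))) : ℂ) else 0
  let w : Finset O → ℝ := fun E => X / (nr (∏ p ∈ E, p) * Real.sqrt (nr (m₁ * m₂)))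
  have hE0 : ∀ E ∈ G.powerset, (∏ p ∈ E, p) ≠ 0 := fun E hE =>
    Finset.prod_ne_zero_iff.2 (ne_zero_of_subset_pf ((Finset.mem_powerset.1 hE).trans hG₁))
  have hφ : ∀ E k, ‖φ E k‖ ≤ gw (X * nr k / (nr (∏ p ∈ E, p) ^ 2 * nr (m₁ * m₂))) :=
    fun E k => by
      simp only [φ]
      split_ifs
      · exact Pois_norm_le _ _ _
      · rw [norm_zero]
        exact (gw_pos _).le
  have hφs : ∀ E ∈ G.powerset, Summable (fun k : Row => φ E k) := fun E hE => by
    have := nr_pos (hE0 E hE)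
    exact Summable.of_norm_bounded (Pois_summable_gw hX (by positivity)) fun k => hφ E k
  have hA : ∑' k : Row, (gw (nr (k : O) / X) : ℂ) * (quad n₁ k * quad n₂ k) =
      ∑ E ∈ G.powerset, (-1) ^ E.card * ((w E : ℂ) * ∑' k : Row, φ E k) := by
    have h1 : ∀ k : O, (gw (nr k / X) : ℂ) * (quad n₁ k * quad n₂ k) =
        if ∀ p ∈ G, ¬ p ∣ k then quad (m₁ * m₂) k * (gw (nr k / X) : ℂ) else 0 := fun k => by
      have h2 := Pois_quad_sq sg.1 k
      rw [pf_prod hG₁] at h2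
      have h3 : quad n₁ k * quad n₂ k = quad (∏ p ∈ G, p) k ^ 2 * quad (m₁ * m₂) k := by
        conv_lhs => rw [← e₁, ← e₂]
        rw [quad_mul_left sg.1 s₁.1, quad_mul_left sg.1 s₂.1, quad_mul_left s₁.1 s₂.1]
        ring
      rw [h3, h2]
      split_ifs <;> simp [mul_comm]
    simp only [h1]
    rw [tsum_sieve rep_mul_iff hGp (f := fun k => quad (m₁ * m₂) k * (gw (nr k / X) : ℂ))
      (Summable.of_norm_bounded (summable_gw' hX) fun k => Pois_norm_le _ _ _)]
    exact Finset.sum_congr rfl fun E hE => by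
      rw [Pois_step hq hg4 (prim_prod fun p hp => (hGp p (Finset.mem_powerset.1 hE hp)).2) hX]
  have hB : (X : ℂ) * ∑ a ∈ sqf V, dualB G m₁ m₂ a (fun y => (th2 (y * X) : ℂ)) =
      ∑ E ∈ G.powerset, (-1) ^ E.card * ((w E : ℂ) *
        (∑' k : Row, if (k : O) ∈ PP V then φ E k else 0)) := by
    simp only [dualB]
    rw [Finset.sum_comm, Finset.mul_sum]
    refine Finset.sum_congr rfl fun E hE => ?_
    have hE' := Finset.mem_powerset.1 hE
    rw [← tsum_kernel V (hφs E hE), Finset.mul_sum, Finset.mul_sum, Finset.mul_sum]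
    refine Finset.sum_congr rfl fun a ha => ?_
    simp only [φ]
    rw [Pois_kernel hq (fun p hp => hGp p (hE' hp)) (hdis.mono_left hE') (ne_zero_of_mem_sqf ha) hX,
      hpq, quad_mul_left s₁.1 s₂.1]
    simp only [w, nr_prod, hNq, Real.sqrt_mul (zero_le_one.trans hN₁), mul_assoc]
    push_cast
    ring
  set R : ℝ := (if n₁ = n₂ then gw 0 else 0) +
    ∑' h : Row, if V < nr (h : O) then gw (X * nr (h : O) / (nr n₁ * nr n₂)) else 0 with hR
  have hNn : 0 < nr n₁ * nr n₂ := mul_pos (nr_pos (prim_ne h₁.1)) (nr_pos (prim_ne h₂.1))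
  have hrest : ∀ E ∈ G.powerset,
      ‖∑' k : Row, if (k : O) ∈ PP V then 0 else φ E k‖ ≤ R := fun E hE => by
    have h1 : Summable fun h : Row =>
        if V < nr (h : O) then gw (X * nr (h : O) / (nr n₁ * nr n₂)) else 0 := by
      refine Summable.of_nonneg_of_le (fun h => ?_) (fun h => ?_) (Pois_summable_gw hX hNn)
      · split_ifs
        · exact (gw_pos _).le
        · exact le_rfl
      · split_ifs
        · exact le_rfl
        · exact (gw_pos _).le
    refine tsum_of_norm_bounded ((hasSum_ite_eq (⟨0, rep_zero⟩ : Row)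
      (if n₁ = n₂ then gw 0 else 0)).add h1.hasSum) fun k => ?_
    have h2 : (0 : ℝ) ≤ if V < nr (k : O) then gw (X * nr (k : O) / (nr n₁ * nr n₂)) else 0 := by
      split_ifs
      · exact (gw_pos _).le
      · exact le_rfl
    have h3 : (0 : ℝ) ≤ if k = ⟨0, rep_zero⟩ then (if n₁ = n₂ then gw 0 else 0) else 0 := by
      split_ifs
      · exact (gw_pos _).le
      · exact le_rfl
      · exact le_rfl
    by_cases hk : (k : O) ∈ PP V
    · rw [if_pos hk, norm_zero]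
      exact add_nonneg h3 h2
    rw [if_neg hk]
    by_cases hk0 : (k : O) = 0
    · refine le_add_of_le_of_nonneg ?_ h2
      rw [if_pos (Subtype.ext hk0)]
      split_ifs with hn
      · refine (hφ E k).trans (le_of_eq ?_)
        rw [hk0, nr, nm_zero, Nat.cast_zero, mul_zero, zero_div]
      · have h5 : quad (m₁ * m₂) k = 0 := by
          refine quad_zero hq fun h => hn ?_
          rw [hk0, isCoprime_zero_right] at h
          rw [← e₁, ← e₂, prim_eq_one s₁.1 (isUnit_of_mul_isUnit_left h),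
            prim_eq_one s₂.1 (isUnit_of_mul_isUnit_right h)]
        simp [φ, h5]
    · refine le_add_of_nonneg_of_le h3 ?_
      rw [if_pos (lt_nr_of_not_mem_PP k.2 hk0 hk)]
      have h7 := nr_pos hk0
      refine (hφ E k).trans (gw_anti (by positivity) ?_)
      have h5 := nr_pos (hE0 E hE)
      have h6 : nr (∏ p ∈ E, p) ≤ nr (∏ p ∈ G, p) := by
        rw [nr_prod, nr_prod]
        exact nP_mono (Finset.mem_powerset.1 hE) (ne_zero_of_subset_pf hG₁)
      refine div_le_div_of_nonneg_left (by positivity) (by positivity) ?_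
      conv_rhs => rw [← e₁, ← e₂]
      rw [nr_mul (∏ p ∈ G, p), nr_mul (∏ p ∈ G, p), hNq]
      calc nr (∏ p ∈ E, p) ^ 2 * (nr m₁ * nr m₂) ≤ nr (∏ p ∈ G, p) ^ 2 * (nr m₁ * nr m₂) := by
            gcongr
        _ = _ := by ring
  have hsplit : ∀ E ∈ G.powerset, ∑' k : Row, φ E k =
      (∑' k : Row, if (k : O) ∈ PP V then φ E k else 0) +
      ∑' k : Row, if (k : O) ∈ PP V then 0 else φ E k := fun E hE => by
    rw [← Summable.tsum_add]
    · refine tsum_congr fun k => ?_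
      split_ifs <;> simp
    · refine Summable.of_norm_bounded (hφs E hE).norm fun k => ?_
      split_ifs <;> simp
    · refine Summable.of_norm_bounded (hφs E hE).norm fun k => ?_
      split_ifs <;> simp
  have hR0 : 0 ≤ R := (norm_nonneg _).trans (hrest ∅ (Finset.empty_mem_powerset G))
  rw [hA, hB, ← Finset.sum_sub_distrib]
  have hterm : ∀ E ∈ G.powerset, ‖((-1) ^ E.card * ((w E : ℂ) * ∑' k : Row, φ E k)) -
      (-1) ^ E.card * ((w E : ℂ) * (∑' k : Row, if (k : O) ∈ PP V then φ E k else 0))‖ ≤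
      X * R := fun E hE => by
    have h1 : ((-1) ^ E.card * ((w E : ℂ) * ∑' k : Row, φ E k)) -
        (-1) ^ E.card * ((w E : ℂ) * (∑' k : Row, if (k : O) ∈ PP V then φ E k else 0)) =
        (-1) ^ E.card * (w E : ℂ) * ∑' k : Row, if (k : O) ∈ PP V then 0 else φ E k := by
      rw [hsplit E hE]
      ring
    have h2 := one_le_nr (hE0 E hE)
    have h3 : 1 ≤ Real.sqrt (nr (m₁ * m₂)) := Real.one_le_sqrt.2 hNq1
    have h5 : 0 ≤ w E := by positivity
    have h6 : w E ≤ X := div_le_self hX.le (one_le_mul_of_one_le_of_one_le h2 h3)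
    rw [h1, norm_mul, norm_mul, norm_pow, norm_neg, norm_one, one_pow, one_mul,
      Complex.norm_real, Real.norm_of_nonneg h5]
    gcongr
    exact hrest E hE
  refine (norm_sum_le _ _).trans ((Finset.sum_le_card_nsmul _ _ _ hterm).trans ?_)
  rw [Finset.card_powerset, nsmul_eq_mul, Nat.cast_pow, Nat.cast_ofNat]
  calc (2 : ℝ) ^ G.card * (X * R) ≤ 2 ^ (pf n₁).card * (X * R) := by
        gcongr
        norm_num
    _ = _ := by ring

end Crest.Agent.T27.LS
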