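import Crest.Agent.T27.LS2Core_81
import Crest.Agent.T27.LS2Red_81

/-!
# Row 27: Heath-Brown's quadratic large sieve for every instance of `LF`
-/

set_option autoImplicit false

noncomputable section

namespace Crest.Agent.T27.LS

variable [LF]

/-- **Quadratic large sieve** (rows are the moduli). -/
theorem quad_large_sieve {ε : ℝ} (hε : 0 < ε) : ∃ C : ℝ, 0 < C ∧
    ∀ (K N : ℝ) (β : O → ℂ), 1 ≤ K → 1 ≤ N →
      ∑ k ∈ sp K, ‖∑ n ∈ sp N, β n * quad k n‖ ^ 2 ≤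
        C * (K * N) ^ ε * (K + N) * ∑ n ∈ sp N, ‖β n‖ ^ 2 := by
  refine final_of_step (LS_of_Core zero_le_two Core_two) (fun ξ h1 h2 h => ?_) hε
  refine LS_of_Core ?_ (Core_of_LSw h1 h2 (LSw_of_LS (by linarith) h))
  have : 1 / ξ ≤ 1 := by rw [div_le_one (by linarith)]; exact h1
  linarith

/-- The same for arbitrary finite sets of squarefree primary elements. -/
theorem quad_large_sieve' {ε : ℝ} (hε : 0 < ε) : ∃ C : ℝ, 0 < C ∧
    ∀ (K N : ℝ) (S T : Finset O) (β : O → ℂ), 1 ≤ K → 1 ≤ N →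
      (∀ k ∈ S, Primary k ∧ Squarefree k ∧ (nm k : ℝ) ≤ K) →
      (∀ n ∈ T, Primary n ∧ Squarefree n ∧ (nm n : ℝ) ≤ N) →
      ∑ k ∈ S, ‖∑ n ∈ T, β n * quad k n‖ ^ 2 ≤
        C * (K * N) ^ ε * (K + N) * ∑ n ∈ T, ‖β n‖ ^ 2 := by
  classical
  obtain ⟨C, hC, h⟩ := quad_large_sieve hε
  refine ⟨C, hC, fun K N S T β hK hN hS hT => ?_⟩
  have hS' : S ⊆ sp K := fun k hk =>
    (mem_sp (by linarith)).2 ⟨⟨(hS k hk).1, (hS k hk).2.1⟩, (hS k hk).2.2⟩
  have hT' : T ⊆ sp N := fun k hk =>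
    (mem_sp (by linarith)).2 ⟨⟨(hT k hk).1, (hT k hk).2.1⟩, (hT k hk).2.2⟩
  have h1 := h K N (fun n => if n ∈ T then β n else 0) hK hN
  have e1 : ∀ F : O → ℂ, ∑ n ∈ sp N, (if n ∈ T then β n else 0) * F n = ∑ n ∈ T, β n * F n := by
    intro F
    rw [← Finset.sum_subset hT' fun n _ hn => by rw [if_neg hn, zero_mul]]
    exact Finset.sum_congr rfl fun n hn => by rw [if_pos hn]
  have e2 : ∑ n ∈ sp N, ‖(if n ∈ T then β n else 0)‖ ^ 2 = ∑ n ∈ T, ‖β n‖ ^ 2 := by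
    rw [← Finset.sum_subset hT' fun n _ hn => by rw [if_neg hn]; simp]
    exact Finset.sum_congr rfl fun n hn => by rw [if_pos hn]
  rw [e2] at h1
  simp only [e1] at h1
  exact (Finset.sum_le_sum_of_subset_of_nonneg hS' fun _ _ _ => sq_nonneg _).trans h1

end Crest.Agent.T27.LS
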