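import Mathlib

/-!
# Row 27, theta module B3 (part A): Riemann sums over shifted lattices and a packing bound

* `riemann_98`: `s^d ∑_{l ∈ L} g(s (l + a)) → (∫ g) / covol L` as `s → 0+`.
* `packing_98`: for a `δ`-separated family `y i` (`δ ≤ 1`), `∑ exp(-‖y i‖) ≤ C δ^{-d}`.
-/

set_option autoImplicit false

noncomputable section

namespace Crest.Agent.T27.Lam98

open MeasureTheory Filter Topology Module Submodule

section general

variable {E : Type*} [NormedAddCommGroup E] [NormedSpace ℝ E] [FiniteDimensional ℝ E]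
  [MeasurableSpace E] [BorelSpace E] (μ : Measure E) [μ.IsAddHaarMeasure]

omit [FiniteDimensional ℝ E] in
theorem measurable_floor {ι : Type*} [Fintype ι] [FiniteDimensional ℝ E] (b : Basis ι ℝ E) :
    Measurable fun x : E => (ZSpan.floor b x : E) := by
  have e : (fun x : E => (ZSpan.floor b x : E)) =
      fun x => ∑ i, ((⌊b.repr x i⌋ : ℤ) : ℝ) • b i := by
    funext x
    refine b.ext_elem fun i => ?_
    rw [ZSpan.repr_floor_apply, Basis.repr_sum_self]
  rw [e]
  refine Finset.measurable_sum _ fun i _ => ?_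
  have h1 : Measurable fun x : E => b.repr x i :=
    (b.coord i).continuous_of_finiteDimensional.measurable
  exact ((measurable_of_countable (fun n : ℤ => (n : ℝ))).comp
    (Int.measurable_floor.comp h1)).smul_const _

/-- Riemann sums over a shifted lattice. -/
theorem riemann_98 {ι : Type*} [Fintype ι] (b : Basis ι ℝ E) (a : E) {g : E → ℂ}
    (hg : Continuous g) {G : E → ℝ} (hG : Integrable G μ)
    (hb : ∀ x y, ‖y - x‖ ≤ 1 → ‖g y‖ ≤ G x) :
    Tendsto (fun s : ℝ => ((s ^ finrank ℝ E : ℝ) : ℂ) *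
        ∑' l : span ℤ (Set.range b), g (s • ((l : E) + a))) (𝓝[>] 0)
      (𝓝 ((∫ x, g x ∂μ) / (μ.real (ZSpan.fundamentalDomain b) : ℂ))) := by
  set D := ZSpan.fundamentalDomain b with hD
  have hD0 : μ.real D ≠ 0 := by
    refine (ENNReal.toReal_pos (ZSpan.measure_fundamentalDomain_ne_zero b) ?_).ne'
    exact (ZSpan.fundamentalDomain_isBounded b).measure_lt_top.ne
  have hD0' : (μ.real D : ℂ) ≠ 0 := by exact_mod_cast hD0
  set K : ℝ := ∑ i, ‖b i‖ + ‖a‖ + 1 with hK
  have hK0 : 0 < K := by positivity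
  set h : ℝ → E → ℂ := fun s x => g (s • ((ZSpan.floor b (s⁻¹ • x) : E) + a)) with hh
  have hmeas : ∀ s, Measurable (h s) := fun s =>
    hg.measurable.comp ((((measurable_floor b).comp (measurable_const_smul s⁻¹)).add_const
      a).const_smul s)
  have hclose : ∀ s : ℝ, 0 < s → ∀ x : E,
      ‖s • ((ZSpan.floor b (s⁻¹ • x) : E) + a) - x‖ ≤ s * K := by
    intro s hs x
    have e : s • ((ZSpan.floor b (s⁻¹ • x) : E) + a) - x =
        s • (a - ZSpan.fract b (s⁻¹ • x)) := by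
      rw [ZSpan.fract_apply, smul_sub, smul_sub, smul_inv_smul₀ hs.ne', smul_add]
      abel
    rw [e, norm_smul, Real.norm_of_nonneg hs.le]
    refine mul_le_mul_of_nonneg_left ((norm_sub_le _ _).trans ?_) hs.le
    have := ZSpan.norm_fract_le b (s⁻¹ • x)
    linarith
  have hev : ∀ᶠ s : ℝ in 𝓝[>] 0, 0 < s ∧ s * K ≤ 1 := by
    have h1 : ∀ᶠ s : ℝ in 𝓝[>] 0, s < K⁻¹ :=
      mem_nhdsWithin_of_mem_nhds (Iio_mem_nhds (inv_pos.2 hK0))
    filter_upwards [h1, self_mem_nhdsWithin] with s h1 h2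
    refine ⟨h2, ?_⟩
    have := mul_lt_mul_of_pos_right h1 hK0
    rw [inv_mul_cancel₀ hK0.ne'] at this
    exact this.le
  have hbd : ∀ s : ℝ, 0 < s → s * K ≤ 1 → ∀ x, ‖h s x‖ ≤ G x := fun s hs hs1 x =>
    hb _ _ ((hclose s hs x).trans hs1)
  have hlim : Tendsto (fun s : ℝ => ∫ x, h s x ∂μ) (𝓝[>] 0) (𝓝 (∫ x, g x ∂μ)) := by
    refine tendsto_integral_filter_of_dominated_convergence G
      (Eventually.of_forall fun s => (hmeas s).aestronglyMeasurable)
      (hev.mono fun s hs => Eventually.of_forall (hbd s hs.1 hs.2)) hG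
      (Eventually.of_forall fun x => ?_)
    refine (hg.tendsto x).comp ?_
    rw [tendsto_iff_norm_sub_tendsto_zero]
    have h0 : Tendsto (fun s : ℝ => s * K) (𝓝[>] 0) (𝓝 0) := by
      have : Tendsto (fun s : ℝ => s * K) (𝓝 0) (𝓝 (0 * K)) :=
        (continuous_id.mul continuous_const).tendsto 0
      rw [zero_mul] at this
      exact this.mono_left nhdsWithin_le_nhds
    exact squeeze_zero' (Eventually.of_forall fun _ => norm_nonneg _)
      (hev.mono fun s hs => hclose s hs.1 x) h0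
  refine (hlim.div_const (μ.real D : ℂ)).congr' (hev.mono fun s hs => ?_)
  obtain ⟨hs, hs1⟩ := hs
  have hint : Integrable (h s) μ :=
    hG.mono' (hmeas s).aestronglyMeasurable (Eventually.of_forall (hbd s hs hs1))
  set k : E → ℂ := fun y => g (s • ((ZSpan.floor b y : E) + a)) with hk
  have e1 : h s = fun x => k (s⁻¹ • x) := rfl
  have hint2 : Integrable k μ := by
    have := hint.comp_smul hs.ne'
    refine this.congr (Eventually.of_forall fun y => ?_)
    simp only [e1, inv_smul_smul₀ hs.ne']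
  have e2 : ∫ x, h s x ∂μ = (s ^ finrank ℝ E : ℝ) • ∫ y, k y ∂μ := by
    rw [e1, Measure.integral_comp_inv_smul, abs_of_pos (pow_pos hs _)]
  have e3 : ∫ y, k y ∂μ = ∑' l : span ℤ (Set.range b), (μ.real D : ℂ) * g (s • ((l : E) + a)) := by
    have : VAddInvariantMeasure (span ℤ (Set.range b)) E μ :=
      ⟨fun c s _ => measure_preimage_add μ (c : E) s⟩
    rw [(ZSpan.isAddFundamentalDomain b μ).integral_eq_tsum'' k hint2]
    refine tsum_congr fun l => ?_
    rw [setIntegral_congr_fun (ZSpan.fundamentalDomain_measurableSet b)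
      (g := fun _ => g (s • ((l : E) + a))) fun y hy => ?_]
    · rw [setIntegral_const, Complex.real_smul]
    · have h1 : (ZSpan.floor b (l +ᵥ y) : E) = l := by
        have h2 : ZSpan.fract b ((l : E) + y) = y := by
          rw [ZSpan.fract_zSpan_add b y l.2]
          exact ZSpan.fract_eq_self.2 hy
        rw [ZSpan.fract_apply] at h2
        have h3 : (l +ᵥ y : E) = (l : E) + y := rfl
        rw [h3]
        exact (add_right_cancel (sub_eq_iff_eq_add'.1 h2)).symm
      simp only [hk, h1]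
  simp only
  rw [e2, e3, tsum_mul_left, Complex.real_smul]
  field_simp

theorem pow_mul_exp_le (k : ℕ) {m : ℝ} (hm : 0 < m) {u : ℝ} (hu : 0 ≤ u) :
    u ^ k * Real.exp (-(m * u)) ≤ k.factorial / m ^ k := by
  have h := Real.pow_div_factorial_le_exp (m * u) (by positivity) k
  have hk : (0 : ℝ) < k.factorial := by exact_mod_cast k.factorial_pos
  rw [div_le_iff₀ hk, mul_pow] at h
  rw [le_div_iff₀ (by positivity), Real.exp_neg]
  have := Real.exp_pos (m * u)
  calc _ = m ^ k * u ^ k / Real.exp (m * u) := by field_simp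
    _ ≤ _ := by rw [div_le_iff₀ this, mul_comm (k.factorial : ℝ)]; exact h

theorem integrable_exp_neg_norm {m : ℝ} (hm : 0 < m) :
    Integrable (fun x : E => Real.exp (-(m * ‖x‖))) μ := by
  set k : ℕ := finrank ℝ E + 1 with hk
  have h := (integrable_one_add_norm (E := E) (μ := μ) (r := k)
    (by rw [hk]; push_cast; linarith)).const_mul (Real.exp m * (k.factorial / m ^ k))
  refine h.mono' (Continuous.aestronglyMeasurable (by fun_prop)) (Eventually.of_forall fun x => ?_)
  have h1 := pow_mul_exp_le k hm (u := 1 + ‖x‖) (by positivity)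
  have h2 : (0 : ℝ) < (1 + ‖x‖) ^ k := by positivity
  rw [Real.norm_of_nonneg (Real.exp_pos _).le, Real.rpow_neg (by positivity), Real.rpow_natCast,
    ← div_eq_mul_inv, le_div_iff₀ h2]
  calc Real.exp (-(m * ‖x‖)) * (1 + ‖x‖) ^ k
      = Real.exp m * ((1 + ‖x‖) ^ k * Real.exp (-(m * (1 + ‖x‖)))) := by
        rw [mul_comm (_ ^ k), ← mul_assoc, ← Real.exp_add]
        congr 2
        ring
    _ ≤ _ := mul_le_mul_of_nonneg_left h1 (Real.exp_pos _).le

omit μ in
/-- Packing bound. -/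
theorem packing_98 : ∃ C : ℝ, 0 < C ∧ ∀ {α : Type} (y : α → E) (δ : ℝ), 0 < δ → δ ≤ 1 →
    (∀ i j, i ≠ j → δ ≤ ‖y i - y j‖) →
    Summable (fun i => Real.exp (-‖y i‖)) ∧
      ∑' i, Real.exp (-‖y i‖) ≤ C / δ ^ finrank ℝ E := by
  let μ : Measure E := Measure.addHaar
  have hI := integrable_exp_neg_norm μ one_pos
  simp only [one_mul] at hI
  set I : ℝ := ∫ x : E, Real.exp (-‖x‖) ∂μ with hIdef
  have hI0 : 0 ≤ I := integral_nonneg fun _ => (Real.exp_pos _).le
  set V : ℝ := μ.real (Metric.ball (0 : E) 1) with hV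
  have hV0 : 0 < V := ENNReal.toReal_pos (Metric.measure_ball_pos μ _ one_pos).ne'
    measure_ball_lt_top.ne
  refine ⟨Real.exp 1 * I * 2 ^ finrank ℝ E / V + 1, by positivity, fun y δ hδ hδ1 hsep => ?_⟩
  have hvol : ∀ x : E, μ.real (Metric.ball x (δ / 2)) = (δ / 2) ^ finrank ℝ E * V := fun x => by
    rw [Measure.real, Measure.addHaar_ball_of_pos μ x (half_pos hδ), ENNReal.toReal_mul,
      ENNReal.toReal_ofReal (by positivity)]
    rfl
  have key : ∀ T : Finset _, ∑ i ∈ T, Real.exp (-‖y i‖) ≤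
      (Real.exp 1 * I * 2 ^ finrank ℝ E / V + 1) / δ ^ finrank ℝ E := by
    intro T
    have h1 : ∀ i, Real.exp (-‖y i‖) * ((δ / 2) ^ finrank ℝ E * V) ≤
        Real.exp 1 * ∫ x in Metric.ball (y i) (δ / 2), Real.exp (-‖x‖) ∂μ := by
      intro i
      rw [← hvol (y i), ← integral_const_mul, mul_comm, ← smul_eq_mul, ← setIntegral_const]
      refine setIntegral_mono_on (integrableOn_const measure_ball_lt_top.ne)
        (hI.const_mul _).integrableOn measurableSet_ball fun x hx => ?_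
      rw [← Real.exp_add, Real.exp_le_exp]
      have h2 : ‖x‖ ≤ ‖y i‖ + ‖x - y i‖ := by simpa using norm_add_le (y i) (x - y i)
      rw [mem_ball_iff_norm] at hx
      linarith
    have h2 : ∑ i ∈ T, ∫ x in Metric.ball (y i) (δ / 2), Real.exp (-‖x‖) ∂μ ≤ I := by
      rw [← integral_biUnion_finset T (fun _ _ => measurableSet_ball) ?_
        (fun _ _ => hI.integrableOn)]
      · exact setIntegral_le_integral hI (Eventually.of_forall fun _ => (Real.exp_pos _).le)
      · intro i _ j _ hij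
        refine Metric.ball_disjoint_ball ?_
        rw [dist_eq_norm, add_halves]
        exact hsep i j hij
    have h3 : (∑ i ∈ T, Real.exp (-‖y i‖)) * ((δ / 2) ^ finrank ℝ E * V) ≤ Real.exp 1 * I := by
      rw [Finset.sum_mul]
      refine (Finset.sum_le_sum fun i _ => h1 i).trans ?_
      rw [← Finset.mul_sum]
      exact mul_le_mul_of_nonneg_left h2 (Real.exp_pos _).le
    rw [le_div_iff₀ (by positivity)]
    have h4 : (∑ i ∈ T, Real.exp (-‖y i‖)) * δ ^ finrank ℝ E ≤
        Real.exp 1 * I * 2 ^ finrank ℝ E / V := by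
      rw [le_div_iff₀ hV0]
      calc _ = (∑ i ∈ T, Real.exp (-‖y i‖)) * ((δ / 2) ^ finrank ℝ E * V) * 2 ^ finrank ℝ E := by
            rw [div_pow]; field_simp
        _ ≤ _ := mul_le_mul_of_nonneg_right h3 (by positivity)
    linarith
  have hs : Summable fun i => Real.exp (-‖y i‖) :=
    summable_of_sum_le (fun _ => (Real.exp_pos _).le) key
  exact ⟨hs, hs.tsum_le_of_sum_le key⟩

end general

section field

open NumberField InfinitePlace

variable {K : Type} [Field K] [NumberField K]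

/-- `exp(-∑_w Z_w |x|_w^6)`. -/
def ex6 (Z : InfinitePlace K → ℝ) (x : K) : ℝ := Real.exp (-∑ w, Z w * w x ^ 6)

/-- `∏_w |x|_w^2` (the absolute norm for a totally complex field). -/
def nN (x : K) : ℝ := ∏ w : InfinitePlace K, w x ^ 2

theorem ex6_pos (Z : InfinitePlace K → ℝ) (x : K) : 0 < ex6 Z x := Real.exp_pos _

theorem nN_nonneg (x : K) : 0 ≤ nN x := Finset.prod_nonneg fun _ _ => sq_nonneg _

theorem nN_pos {x : K} (hx : x ≠ 0) : 0 < nN x :=
  Finset.prod_pos fun w _ => pow_pos (w.pos_iff.2 hx) _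

theorem nN_mul (x y : K) : nN (x * y) = nN x * nN y := by
  simp only [nN, map_mul, mul_pow, Finset.prod_mul_distrib]

theorem nN_one : nN (1 : K) = 1 := by simp [nN]

theorem nN_pow (x : K) (k : ℕ) : nN (x ^ k) = nN x ^ k := by
  induction k with
  | zero => simp [nN_one]
  | succ k ih => rw [pow_succ, nN_mul, ih, pow_succ]

theorem nN_inv (x : K) : nN x⁻¹ = (nN x)⁻¹ := by
  simp only [nN, map_inv₀, inv_pow, Finset.prod_inv_distrib]

theorem nN_eq [IsTotallyComplex K] (x : K) : nN x = |((Algebra.norm ℚ x : ℚ) : ℝ)| := by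
  have := prod_eq_abs_norm x
  simp only [IsTotallyComplex.mult_eq] at this
  rw [nN, this, Rat.cast_abs]

theorem ex6_mul (Z : InfinitePlace K → ℝ) (m x : K) :
    ex6 Z (m * x) = ex6 (fun w => Z w * w m ^ 6) x := by
  simp only [ex6, map_mul, mul_pow, mul_assoc]

theorem prod_rpow_mul (Z : InfinitePlace K → ℝ) (hZ : ∀ w, 0 < Z w) (m : K) :
    (∏ w, Z w * w m ^ 6) ^ (1 / 3 : ℝ) = (∏ w, Z w) ^ (1 / 3 : ℝ) * nN m := by
  have e : ∏ w : InfinitePlace K, w m ^ 6 = nN m ^ 3 := by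
    rw [nN, ← Finset.prod_pow]
    exact Finset.prod_congr rfl fun w _ => by ring
  rw [Finset.prod_mul_distrib, e, Real.mul_rpow (Finset.prod_nonneg fun w _ => (hZ w).le)
    (pow_nonneg (nN_nonneg m) _), show (1 / 3 : ℝ) = ((3 : ℕ) : ℝ)⁻¹ by norm_num,
    Real.pow_rpow_inv_natCast (nN_nonneg m) (by norm_num)]

/-- Shape-uniform bound for sums over sets whose elements and differences have norm `≥ ν`. -/
theorem bound_98 : ∃ C : ℝ, 0 < C ∧ ∀ (A : Set K) (ν : ℝ), 0 < ν → (∀ x ∈ A, ν ≤ nN x) →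
    (∀ x ∈ A, ∀ y ∈ A, x ≠ y → ν ≤ nN (x - y)) → ∀ Z : InfinitePlace K → ℝ, (∀ w, 0 < Z w) →
    Summable (fun x : A => ex6 Z x) ∧
      (∏ w, Z w) ^ (1 / 3 : ℝ) * ∑' x : A, ex6 Z x ≤ C / ν := by
  obtain ⟨C, hC, H⟩ := packing_98 (E := InfinitePlace K → ℂ)
  set d : ℕ := finrank ℝ (InfinitePlace K → ℂ) with hd
  have hd2 : d = 2 * Fintype.card (InfinitePlace K) := by
    rw [hd, Module.finrank_pi_fintype]
    simp [mul_comm]
  have hd0 : d ≠ 0 := by
    rw [hd2]
    exact mul_ne_zero two_ne_zero Fintype.card_ne_zero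
  refine ⟨Real.exp 2 * (d.factorial + 1) * C, by positivity, fun A ν hν hA hA2 Z hZ => ?_⟩
  set P : ℝ := (∏ w, Z w) ^ (1 / 3 : ℝ) with hP
  have hP0 : 0 < P := Real.rpow_pos_of_pos (Finset.prod_pos fun w _ => hZ w) _
  let y : K → InfinitePlace K → ℂ := fun x w => ((Z w ^ (1 / 6 : ℝ) : ℝ) : ℂ) * w.embedding x
  have hy : ∀ x w, ‖y x w‖ = Z w ^ (1 / 6 : ℝ) * w x := fun x w => by
    simp only [y, norm_mul, Complex.norm_real, norm_embedding_eq,
      Real.norm_of_nonneg (Real.rpow_nonneg (hZ w).le _)]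
  have hsub : ∀ x x', y x - y x' = y (x - x') := fun x x' => by
    funext w
    simp only [y, Pi.sub_apply, map_sub, mul_sub]
  have hpow : ∀ x, P * nN x ≤ ‖y x‖ ^ d := fun x => by
    have e : P * nN x = ∏ w, ‖y x w‖ ^ 2 := by
      rw [hP, nN, ← Real.finsetProd_rpow _ _ (fun w _ => (hZ w).le), ← Finset.prod_mul_distrib]
      refine Finset.prod_congr rfl fun w _ => ?_
      rw [hy, mul_pow, ← Real.rpow_natCast, ← Real.rpow_natCast (Z w ^ _),
        ← Real.rpow_mul (hZ w).le]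
      norm_num
    rw [e, hd2, pow_mul, ← Finset.card_univ, ← Finset.prod_const]
    exact Finset.prod_le_prod (fun _ _ => sq_nonneg _) fun w _ =>
      pow_le_pow_left₀ (norm_nonneg _) (norm_le_pi_norm _ w) 2
  have hex : ∀ x, ex6 Z x ≤ Real.exp 2 * (Real.exp (-‖y x‖) * Real.exp (-‖y x‖)) := fun x => by
    obtain ⟨w0, hw0⟩ : ∃ w0, ‖y x‖ ≤ ‖y x w0‖ := by
      obtain ⟨w0, -, h⟩ := Finset.exists_max_image Finset.univ (fun w => ‖y x w‖)
        Finset.univ_nonempty
      exact ⟨w0, (pi_norm_le_iff_of_nonneg (norm_nonneg _)).2 fun w => h w (Finset.mem_univ _)⟩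
    have h1 : ‖y x‖ ^ 6 ≤ ∑ w, Z w * w x ^ 6 := by
      refine (pow_le_pow_left₀ (norm_nonneg _) hw0 6).trans ?_
      have e : ‖y x w0‖ ^ 6 = Z w0 * w0 x ^ 6 := by
        rw [hy, mul_pow, ← Real.rpow_natCast (Z w0 ^ _), ← Real.rpow_mul (hZ w0).le]
        norm_num
      rw [e]
      exact Finset.single_le_sum (f := fun w => Z w * w x ^ 6)
        (fun w _ => mul_nonneg (hZ w).le (by positivity)) (Finset.mem_univ w0)
    rw [ex6, ← Real.exp_add, ← Real.exp_add, Real.exp_le_exp]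
    have h0 := norm_nonneg (y x)
    have h2 : 2 * ‖y x‖ - 2 ≤ ‖y x‖ ^ 6 := by
      rcases le_total ‖y x‖ 1 with h | h
      · nlinarith [pow_nonneg h0 6]
      · have h3 : ‖y x‖ ^ 2 ≤ ‖y x‖ ^ 6 := pow_le_pow_right₀ h (by norm_num)
        nlinarith [sq_nonneg (‖y x‖ - 1)]
    linarith
  have hfac : (0 : ℝ) ≤ d.factorial := Nat.cast_nonneg _
  have hνP : 0 < P * ν := mul_pos hP0 hν
  -- separation
  have hsep : ∀ δ : ℝ, 0 < δ → δ ^ d ≤ P * ν → ∀ i j : A, i ≠ j → δ ≤ ‖y i - y j‖ := by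
    intro δ hδ h i j hij
    rw [hsub]
    refine le_of_pow_le_pow_left₀ hd0 (norm_nonneg _) (h.trans (le_trans ?_ (hpow _)))
    exact mul_le_mul_of_nonneg_left (hA2 _ i.2 _ j.2 fun e => hij (Subtype.ext e)) hP0.le
  suffices h : ∃ B : ℝ, 0 ≤ B ∧ ∃ δ : ℝ, 0 < δ ∧ δ ≤ 1 ∧ δ ^ d ≤ P * ν ∧
      (∀ x : A, Real.exp (-‖y x‖) ≤ B) ∧ P * ν * B ≤ (d.factorial + 1) * δ ^ d by
    obtain ⟨B, hB, δ, hδ, hδ1, h1, h2, h3⟩ := h
    obtain ⟨hs, hle⟩ := H (fun x : A => y x) δ hδ hδ1 (hsep δ hδ h1)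
    have hterm : ∀ x : A, ex6 Z x ≤ Real.exp 2 * B * Real.exp (-‖y x‖) := fun x => by
      refine (hex x).trans ?_
      rw [mul_assoc]
      gcongr
      exact h2 x
    have hs2 := hs.mul_left (Real.exp 2 * B)
    have hs3 : Summable fun x : A => ex6 Z x :=
      hs2.of_nonneg_of_le (fun _ => (ex6_pos _ _).le) hterm
    refine ⟨hs3, ?_⟩
    have h4 := hs3.tsum_le_tsum hterm hs2
    rw [tsum_mul_left] at h4
    have h5 : ∑' x : A, ex6 Z x ≤ Real.exp 2 * B * (C / δ ^ d) :=
      h4.trans (mul_le_mul_of_nonneg_left hle (by positivity))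
    rw [le_div_iff₀ hν]
    have hδd : 0 < δ ^ d := pow_pos hδ _
    calc P * (∑' x : A, ex6 Z x) * ν ≤ P * (Real.exp 2 * B * (C / δ ^ d)) * ν := by gcongr
      _ = Real.exp 2 * (P * ν * B) * C / δ ^ d := by ring
      _ ≤ Real.exp 2 * ((d.factorial + 1) * δ ^ d) * C / δ ^ d := by gcongr
      _ = _ := by field_simp
  rcases le_total (P * ν) 1 with h | h
  · have e : ((P * ν) ^ ((d : ℝ)⁻¹)) ^ d = P * ν := Real.rpow_inv_natCast_pow hνP.le hd0
    refine ⟨1, zero_le_one, (P * ν) ^ ((d : ℝ)⁻¹), Real.rpow_pos_of_pos hνP _,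
      Real.rpow_le_one hνP.le h (by positivity), e.le, fun x => ?_, ?_⟩
    · exact Real.exp_le_one_iff.2 (neg_nonpos.2 (norm_nonneg _))
    · rw [e]
      nlinarith
  · refine ⟨d.factorial / (P * ν), by positivity, 1, one_pos, le_rfl, by simpa using h,
      fun x => ?_, ?_⟩
    · have h1 := pow_mul_exp_le d one_pos (norm_nonneg (y x))
      simp only [one_mul, one_pow, div_one] at h1
      rw [le_div_iff₀ hνP]
      refine le_trans ?_ h1
      rw [mul_comm]
      refine mul_le_mul_of_nonneg_right (le_trans ?_ (hpow x)) (Real.exp_pos _).le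
      exact mul_le_mul_of_nonneg_left (hA _ x.2) hP0.le
    · rw [mul_div_cancel₀ _ hνP.ne']
      simp

open mixedEmbedding in
/-- The profile on the mixed space. -/
def gM (Z : InfinitePlace K → ℝ) (x : mixedSpace K) : ℝ :=
  Real.exp (-∑ w, Z w * normAtPlace w x ^ 6)

/-- The one-variable constant. -/
def c6 : ℝ := ∫ z : ℂ, Real.exp (-‖z‖ ^ 6)

theorem exp_six_le {m : ℝ} (hm : 0 < m) {u : ℝ} (hu : 0 ≤ u) :
    Real.exp (-(m * u ^ 6)) ≤ Real.exp m * Real.exp (-(m * u)) := by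
  rw [← Real.exp_add, Real.exp_le_exp]
  have h2 : u - 1 ≤ u ^ 6 := by
    rcases le_total u 1 with h | h
    · nlinarith [pow_nonneg hu 6]
    · have h3 : u ^ 1 ≤ u ^ 6 := pow_le_pow_right₀ h (by norm_num)
      linarith [pow_one u]
  nlinarith

theorem c6_pos : 0 < c6 := by
  have hi : Integrable fun z : ℂ => Real.exp (-‖z‖ ^ 6) := by
    refine ((integrable_exp_neg_norm volume one_pos).const_mul (Real.exp 1)).mono'
      (Continuous.aestronglyMeasurable (by fun_prop)) (Eventually.of_forall fun z => ?_)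
    rw [Real.norm_of_nonneg (Real.exp_pos _).le]
    simpa using exp_six_le one_pos (norm_nonneg z)
  exact integral_exp_pos hi

theorem integral_c6 {η : ℝ} (hη : 0 < η) :
    ∫ z : ℂ, Real.exp (-(η * ‖z‖ ^ 6)) = (η ^ (1 / 3 : ℝ))⁻¹ * c6 := by
  have h := Measure.integral_comp_smul (volume : Measure ℂ) (fun z : ℂ => Real.exp (-‖z‖ ^ 6))
    (η ^ (1 / 6 : ℝ))
  have h1 : 0 < η ^ (1 / 6 : ℝ) := Real.rpow_pos_of_pos hη _
  have e1 : (η ^ (1 / 6 : ℝ)) ^ 6 = η := by
    rw [← Real.rpow_natCast, ← Real.rpow_mul hη.le]; norm_num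
  have e2 : (η ^ (1 / 6 : ℝ)) ^ 2 = η ^ (1 / 3 : ℝ) := by
    rw [← Real.rpow_natCast, ← Real.rpow_mul hη.le]; norm_num
  simp only [norm_smul, Real.norm_of_nonneg h1.le, mul_pow, e1, Complex.finrank_real_complex, e2,
    smul_eq_mul] at h
  rw [h, abs_of_pos (inv_pos.2 (Real.rpow_pos_of_pos hη _)), c6]

open scoped Classical in
open mixedEmbedding in
theorem integral_gM [IsTotallyComplex K] {Z : InfinitePlace K → ℝ} (hZ : ∀ w, 0 < Z w) :
    ∫ x, gM Z x = ((∏ w, Z w) ^ (1 / 3 : ℝ))⁻¹ * c6 ^ Fintype.card (InfinitePlace K) := by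
  let e : {w : InfinitePlace K // IsComplex w} ≃ InfinitePlace K :=
    Equiv.subtypeUnivEquiv IsTotallyComplex.isComplex
  have e1 : ∀ x : mixedSpace K, gM Z x =
      ∏ w : {w : InfinitePlace K // IsComplex w}, Real.exp (-(Z w * ‖x.2 w‖ ^ 6)) := fun x => by
    rw [gM, ← Real.exp_sum, Finset.sum_neg_distrib, ← e.sum_comp]
    congr 2
    refine Finset.sum_congr rfl fun w _ => ?_
    rw [← normAtPlace_apply_of_isComplex w.2]
    rfl
  simp only [e1]
  have hemp : IsEmpty {w : InfinitePlace K // IsReal w} :=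
    ⟨fun w => (not_isReal_iff_isComplex.2 (IsTotallyComplex.isComplex w.1)) w.2⟩
  rw [Measure.volume_eq_prod, integral_fun_snd
    (fun y : {w : InfinitePlace K // IsComplex w} → ℂ =>
      ∏ w : {w : InfinitePlace K // IsComplex w}, Real.exp (-(Z w * ‖y w‖ ^ 6))),
    integral_fintype_prod_volume_eq_prod
      (fun (w : {w : InfinitePlace K // IsComplex w}) (z : ℂ) => Real.exp (-(Z w * ‖z‖ ^ 6)))]
  have e2 : (volume : Measure ({w : InfinitePlace K // IsReal w} → ℝ)).real Set.univ = 1 := by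
    rw [Measure.real, volume_pi, Measure.pi_univ]
    simp
  rw [e2, one_smul]
  simp only [fun w : {w : InfinitePlace K // IsComplex w} => integral_c6 (hZ w)]
  rw [Finset.prod_mul_distrib, Finset.prod_const, Finset.card_univ, Fintype.card_congr e,
    Finset.prod_inv_distrib, Real.finsetProd_rpow _ _ (fun w _ => (hZ _).le), ← e.prod_comp]
  rfl

open mixedEmbedding in
theorem limit_one [IsTotallyComplex K] : ∃ κ : ℝ, 0 < κ ∧ ∀ (a : K) (η : InfinitePlace K → ℝ),
    (∀ w, 0 < η w) → Tendsto (fun t : ℝ => (∏ w, t * η w) ^ (1 / 3 : ℝ) *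
      ∑' x : 𝓞 K, ex6 (fun w => t * η w) (a + x)) (𝓝[>] 0) (𝓝 κ) := by
  classical
  set V : ℝ := volume.real (ZSpan.fundamentalDomain (latticeBasis K)) with hV
  have hV0 : 0 < V :=
    ENNReal.toReal_pos (ZSpan.measure_fundamentalDomain_ne_zero _)
      (ZSpan.fundamentalDomain_isBounded _).measure_lt_top.ne
  refine ⟨c6 ^ Fintype.card (InfinitePlace K) / V, div_pos (pow_pos c6_pos _) hV0,
    fun a η hη => ?_⟩
  obtain ⟨w0, -, hw0⟩ := Finset.exists_min_image Finset.univ η Finset.univ_nonempty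
  have hm := hη w0
  have hcont : Continuous fun x : mixedSpace K => (gM η x : ℂ) := by
    refine Complex.continuous_ofReal.comp (Real.continuous_exp.comp (Continuous.neg ?_))
    exact continuous_finsetSum _ fun w _ =>
      continuous_const.mul ((continuous_normAtPlace w).pow 6)
  have H := riemann_98 volume (latticeBasis K) (mixedEmbedding K a) hcont
    ((integrable_exp_neg_norm volume hm).const_mul (Real.exp (η w0) * Real.exp (η w0)))
    (fun x y hxy => by
      rw [Complex.norm_real, gM, Real.norm_of_nonneg (Real.exp_pos _).le]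
      obtain ⟨w1, -, h1⟩ := Finset.exists_mem_eq_sup' Finset.univ_nonempty
        (fun w => normAtPlace w y)
      rw [← norm_eq_sup'_normAtPlace] at h1
      have h2 : η w0 * ‖y‖ ^ 6 ≤ ∑ w, η w * normAtPlace w y ^ 6 := by
        refine le_trans ?_ (Finset.single_le_sum (f := fun w => η w * normAtPlace w y ^ 6)
          (fun w _ => mul_nonneg (hη w).le (pow_nonneg (normAtPlace_nonneg _ _) _))
          (Finset.mem_univ w1))
        rw [h1]
        exact mul_le_mul_of_nonneg_right (hw0 _ (Finset.mem_univ _))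
          (pow_nonneg (normAtPlace_nonneg _ _) _)
      refine (Real.exp_le_exp.2 (neg_le_neg h2)).trans
        ((exp_six_le hm (norm_nonneg y)).trans ?_)
      rw [mul_assoc, ← Real.exp_add (η w0) (-(η w0 * ‖x‖))]
      refine mul_le_mul_of_nonneg_left (Real.exp_le_exp.2 ?_) (Real.exp_pos _).le
      have h3 : ‖x‖ ≤ ‖y‖ + ‖y - x‖ := by simpa using norm_sub_le y (y - x)
      nlinarith)
  have hs : Tendsto (fun t : ℝ => t ^ (1 / 6 : ℝ)) (𝓝[>] 0) (𝓝[>] 0) := by
    refine tendsto_nhdsWithin_iff.2 ⟨?_, ?_⟩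
    · have := (Real.continuousAt_rpow_const 0 (1 / 6 : ℝ) (Or.inr (by norm_num))).tendsto
      rw [Real.zero_rpow (by norm_num)] at this
      exact this.mono_left nhdsWithin_le_nhds
    · filter_upwards [self_mem_nhdsWithin] with t ht
      exact Real.rpow_pos_of_pos ht _
  set P : ℝ := (∏ w, η w) ^ (1 / 3 : ℝ) with hP
  have hP0 : 0 < P := Real.rpow_pos_of_pos (Finset.prod_pos fun w _ => hη w) _
  have H2 := (H.comp hs).const_mul (P : ℂ)
  rw [integral_complex_ofReal, integral_gM hη, ← hP, ← hV] at H2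
  have e0 : (P : ℂ) * (((P⁻¹ * c6 ^ Fintype.card (InfinitePlace K) : ℝ) : ℂ) / (V : ℂ)) =
      ((c6 ^ Fintype.card (InfinitePlace K) / V : ℝ) : ℂ) := by
    have : (P : ℂ) ≠ 0 := by exact_mod_cast hP0.ne'
    push_cast
    field_simp
  rw [e0] at H2
  rw [← Filter.tendsto_ofReal_iff]
  refine H2.congr' ?_
  filter_upwards [self_mem_nhdsWithin] with t (ht : 0 < t)
  let e : 𝓞 K ≃ span ℤ (Set.range (latticeBasis K)) := Equiv.ofBijective
    (fun x => ⟨mixedEmbedding K x, (mem_span_latticeBasis K).2 ⟨x, rfl⟩⟩) (by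
      constructor
      · intro x y h
        exact RingOfIntegers.ext (mixedEmbedding_injective K (congrArg Subtype.val h))
      · rintro ⟨y, hy⟩
        obtain ⟨x, rfl⟩ := (mem_span_latticeBasis K).1 hy
        exact ⟨x, rfl⟩)
  have e1 : (t ^ (1 / 6 : ℝ)) ^ 6 = t := by
    rw [← Real.rpow_natCast, ← Real.rpow_mul ht.le]; norm_num
  have e2 : (∏ w, t * η w) ^ (1 / 3 : ℝ) = P * (t ^ (1 / 6 : ℝ)) ^ finrank ℝ (mixedSpace K) := by
    have hcard : finrank ℝ (mixedSpace K) = 2 * Fintype.card (InfinitePlace K) := by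
      rw [mixedEmbedding.finrank, IsTotallyComplex.finrank, card_eq_nrRealPlaces_add_nrComplexPlaces,
        IsTotallyComplex.nrRealPlaces_eq_zero, zero_add]
    rw [Finset.prod_mul_distrib, Finset.prod_const, Finset.card_univ,
      Real.mul_rpow (by positivity) (Finset.prod_nonneg fun w _ => (hη w).le), mul_comm, hcard,
      ← Real.rpow_natCast, ← Real.rpow_natCast, ← Real.rpow_mul ht.le, ← Real.rpow_mul ht.le]
    congr 2
    push_cast
    ring
  simp only [Function.comp]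
  rw [e2, ← e.tsum_eq]
  push_cast
  rw [mul_assoc]
  congr 2
  refine tsum_congr fun x => ?_
  congr 1
  have e3 : ((e x : span ℤ (Set.range (latticeBasis K))) : mixedSpace K) + mixedEmbedding K a =
      mixedEmbedding K (a + x) := by
    rw [map_add, add_comm]
    rfl
  rw [e3, gM, ex6]
  congr 2
  refine Finset.sum_congr rfl fun w _ => ?_
  rw [normAtPlace_smul, normAtPlace_apply, abs_of_pos (Real.rpow_pos_of_pos ht _), mul_pow, e1]
  ring

/-- The lattice sum over a coset `a + M 𝓞`. -/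
theorem limit_98 [IsTotallyComplex K] : ∃ κ : ℝ, 0 < κ ∧ ∀ (a M : K), M ≠ 0 →
    ∀ η : InfinitePlace K → ℝ, (∀ w, 0 < η w) →
    Tendsto (fun t : ℝ => (∏ w, t * η w) ^ (1 / 3 : ℝ) *
      ∑' x : 𝓞 K, ex6 (fun w => t * η w) (a + M * x)) (𝓝[>] 0) (𝓝 (κ / nN M)) := by
  obtain ⟨κ, hκ, H⟩ := limit_one (K := K)
  refine ⟨κ, hκ, fun a M hM η hη => ?_⟩
  have h := (H (a / M) (fun w => η w * w M ^ 6)
    fun w => mul_pos (hη w) (pow_pos (w.pos_iff.2 hM) _)).div_const (nN M)
  refine h.congr' ?_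
  filter_upwards [self_mem_nhdsWithin] with t (ht : 0 < t)
  simp only [← mul_assoc]
  rw [prod_rpow_mul _ (fun w => mul_pos ht (hη w))]
  have e : ∀ x : 𝓞 K, ex6 (fun w => t * η w * w M ^ 6) (a / M + x) =
      ex6 (fun w => t * η w) (a + M * x) := fun x => by
    rw [← ex6_mul]
    congr 1
    field_simp
  simp only [e]
  have := (nN_pos hM).ne'
  field_simp

end field

end Crest.Agent.T27.Lam98
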