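import Crest.Agent.T27.LamA_98
import Crest.Agent.T27.ThA_54

/-!
# Row 27, theta module B3 (part B): the smoothed sums `TT ψ Z` and mean values
-/

set_option autoImplicit false
set_option linter.unusedSectionVars false

noncomputable section

namespace Crest.Agent.T27.Lam98

open Filter Topology NumberField TH

variable {F : Type} [Field F] [NumberField F]

/-- `(∏ Z)^{1/3}`. -/
def PZ (Z : Pl F → ℝ) : ℝ := (∏ w, Z w) ^ (1 / 3 : ℝ)

theorem PZ_pos {Z : Pl F → ℝ} (hZ : ∀ w, 0 < Z w) : 0 < PZ Z :=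
  Real.rpow_pos_of_pos (Finset.prod_pos fun w _ => hZ w) _

/-- The smoothed sum. -/
def TT (ψ : F → ℂ) (Z : Pl F → ℝ) : ℂ := (PZ Z : ℂ) * ∑' x : F, ψ x * (ex6 Z x : ℂ)

/-- `ψ` is dominated with the bound `b`. -/
def Dom (ψ : F → ℂ) (b : ℝ) : Prop := ∀ Z : Pl F → ℝ, (∀ w, 0 < Z w) →
  Summable (fun x => ‖ψ x‖ * ex6 Z x) ∧ PZ Z * ∑' x, ‖ψ x‖ * ex6 Z x ≤ b

theorem norm_term (ψ : F → ℂ) (Z : Pl F → ℝ) (x : F) :
    ‖ψ x * (ex6 Z x : ℂ)‖ = ‖ψ x‖ * ex6 Z x := by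
  rw [norm_mul, Complex.norm_real, Real.norm_of_nonneg (ex6_pos _ _).le]

theorem Dom.summable {ψ : F → ℂ} {b : ℝ} (h : Dom ψ b) {Z : Pl F → ℝ} (hZ : ∀ w, 0 < Z w) :
    Summable fun x => ψ x * (ex6 Z x : ℂ) :=
  Summable.of_norm (by simpa only [norm_term] using (h Z hZ).1)

theorem Dom.norm_le {ψ : F → ℂ} {b : ℝ} (h : Dom ψ b) {Z : Pl F → ℝ} (hZ : ∀ w, 0 < Z w) :
    ‖TT ψ Z‖ ≤ b := by
  rw [TT, norm_mul, Complex.norm_real, Real.norm_of_nonneg (PZ_pos hZ).le]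
  refine le_trans (mul_le_mul_of_nonneg_left ?_ (PZ_pos hZ).le) (h Z hZ).2
  simpa only [norm_term] using norm_tsum_le_tsum_norm
    (f := fun x => ψ x * (ex6 Z x : ℂ)) (by simpa only [norm_term] using (h Z hZ).1)

theorem exists_dom : ∃ C : ℝ, 0 < C ∧ ∀ (A : Set F) (ν : ℝ), 0 < ν → (∀ x ∈ A, ν ≤ nN x) →
    (∀ x ∈ A, ∀ y ∈ A, x ≠ y → ν ≤ nN (x - y)) → ∀ (ψ : F → ℂ) (B : ℝ), (∀ x, ‖ψ x‖ ≤ B) →
    (∀ x, ψ x ≠ 0 → x ∈ A) → Dom ψ (B * (C / ν)) := by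
  obtain ⟨C, hC, H⟩ := bound_98 (K := F)
  refine ⟨C, hC, fun A ν hν h1 h2 ψ B hB hs Z hZ => ?_⟩
  obtain ⟨s1, s2⟩ := H A ν hν h1 h2 Z hZ
  have hB0 : 0 ≤ B := (norm_nonneg _).trans (hB 0)
  have s3 : Summable (A.indicator (ex6 Z)) := summable_subtype_iff_indicator.1 s1
  have hle : ∀ x, ‖ψ x‖ * ex6 Z x ≤ B * A.indicator (ex6 Z) x := fun x => by
    by_cases hx : x ∈ A
    · rw [Set.indicator_of_mem hx]
      exact mul_le_mul_of_nonneg_right (hB x) (ex6_pos _ _).le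
    · have : ψ x = 0 := by_contra fun h => hx (hs x h)
      rw [Set.indicator_of_notMem hx, this]
      simp
  have s4 : Summable fun x => ‖ψ x‖ * ex6 Z x :=
    (s3.mul_left B).of_nonneg_of_le (fun x => mul_nonneg (norm_nonneg _) (ex6_pos _ _).le) hle
  refine ⟨s4, ?_⟩
  have h3 := s4.tsum_le_tsum hle (s3.mul_left B)
  rw [tsum_mul_left, ← tsum_subtype] at h3
  calc _ ≤ PZ Z * (B * ∑' x : A, ex6 Z x) := mul_le_mul_of_nonneg_left h3 (PZ_pos hZ).le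
    _ = B * (PZ Z * ∑' x : A, ex6 Z x) := by ring
    _ ≤ _ := mul_le_mul_of_nonneg_left s2 hB0

/-- Exchange of a series of test sequences with the smoothed sum. -/
theorem TT_tsum {ι : Type} {ψ : ι → F → ℂ} {b : ι → ℝ} (hb : Summable b)
    (h : ∀ i, Dom (ψ i) (b i)) {Z : Pl F → ℝ} (hZ : ∀ w, 0 < Z w) :
    TT (fun x => ∑' i, ψ i x) Z = ∑' i, TT (ψ i) Z := by
  have hP := PZ_pos hZ
  have hs : Summable fun p : ι × F => ψ p.1 p.2 * (ex6 Z p.2 : ℂ) := by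
    refine Summable.of_norm ?_
    simp only [norm_term]
    rw [summable_prod_of_nonneg fun p => mul_nonneg (norm_nonneg _) (ex6_pos _ _).le]
    refine ⟨fun i => (h i Z hZ).1, (hb.div_const (PZ Z)).of_nonneg_of_le
      (fun i => tsum_nonneg fun x => mul_nonneg (norm_nonneg _) (ex6_pos _ _).le) fun i => ?_⟩
    rw [le_div_iff₀ hP, mul_comm]
    exact (h i Z hZ).2
  simp only [TT]
  rw [tsum_mul_left, ← Summable.tsum_comm (f := fun i x => ψ i x * (ex6 Z x : ℂ)) hs]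
  simp only [tsum_mul_right]

theorem tendsto_TT_tsum {ι : Type} {ψ : ι → F → ℂ} {b : ι → ℝ} (hb : Summable b)
    (h : ∀ i, Dom (ψ i) (b i)) {η : Pl F → ℝ} (hη : ∀ w, 0 < η w) {l : ι → ℂ}
    (hl : ∀ i, Tendsto (fun t : ℝ => TT (ψ i) fun w => t * η w) (𝓝[>] 0) (𝓝 (l i))) :
    Tendsto (fun t : ℝ => TT (fun x => ∑' i, ψ i x) fun w => t * η w) (𝓝[>] 0)
      (𝓝 (∑' i, l i)) := by
  refine (tendsto_tsum_of_dominated_convergence hb hl ?_).congr' ?_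
  · filter_upwards [self_mem_nhdsWithin] with t (ht : 0 < t) i
    exact (h i).norm_le fun w => mul_pos ht (hη w)
  · filter_upwards [self_mem_nhdsWithin] with t (ht : 0 < t)
    exact (TT_tsum hb h fun w => mul_pos ht (hη w)).symm

theorem tendsto_PZ {η : Pl F → ℝ} :
    Tendsto (fun t : ℝ => PZ fun w => t * η w) (𝓝[>] 0) (𝓝 0) := by
  have h1 : Continuous fun t : ℝ => ∏ w : Pl F, t * η w := by fun_prop
  have h2 := ((Real.continuous_rpow_const (q := 1 / 3) (by norm_num)).comp h1).tendsto 0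
  have e : ((fun x : ℝ => x ^ (1 / 3 : ℝ)) ∘ fun t : ℝ => ∏ w : Pl F, t * η w) 0 = 0 := by
    simp [Fintype.card_ne_zero]
  rw [e] at h2
  exact h2.mono_left nhdsWithin_le_nhds

open Classical in
/-- Removing the value at `0`. -/
def cut (ψ : F → ℂ) (x : F) : ℂ := if x = 0 then 0 else ψ x

theorem norm_cut_le {ψ : F → ℂ} {B : ℝ} (h : ∀ x, ‖ψ x‖ ≤ B) (x : F) : ‖cut ψ x‖ ≤ B := by
  unfold cut
  split_ifs
  · rw [norm_zero]; exact (norm_nonneg _).trans (h 0)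
  · exact h x

theorem cut_ne {ψ : F → ℂ} {x : F} (h : cut ψ x ≠ 0) : x ≠ 0 ∧ ψ x ≠ 0 := by
  unfold cut at h
  split_ifs at h with hx
  · exact absurd rfl h
  · exact ⟨hx, h⟩

variable [Emb F]

theorem norm_em (x : F) (j : Pl F) : ‖em x j‖ = j x := by
  conv_rhs => rw [← Emb.mk_σ j]
  rfl

theorem nF_eq_nN (x : F) : nF x = nN x := by simp only [nF, nN, norm_em]

theorem one_le_nN {x : F} (hx : x ≠ 0) (h : IsIntegral ℤ x) : 1 ≤ nN x := by
  have := Emb.tc (F := F)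
  rw [nN_eq]
  have h2 : IsIntegral ℤ (Algebra.norm ℚ x) := Algebra.isIntegral_norm ℚ h
  obtain ⟨m, hm⟩ := IsIntegrallyClosed.isIntegral_iff.1 h2
  have h3 : m ≠ 0 := by
    rintro rfl
    rw [map_zero, eq_comm, Algebra.norm_eq_zero_iff] at hm
    exact hx hm
  rw [← hm, eq_intCast, Rat.cast_intCast, ← Int.cast_abs]
  exact_mod_cast Int.one_le_abs h3

theorem nN_natCast (N : ℕ) : nN (N : F) = (N : ℝ) ^ Module.finrank ℚ F := by
  have := Emb.tc (F := F)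
  rw [nN_eq, show (N : F) = algebraMap ℚ F N by simp, Algebra.norm_algebraMap]
  push_cast
  exact abs_of_nonneg (by positivity)

theorem summable_latt {N : ℕ} (hN : N ≠ 0) {Z : Pl F → ℝ} (hZ : ∀ w, 0 < Z w) :
    Summable ({x : F | IsIntegral ℤ ((N : F) * x)}.indicator (ex6 Z)) := by
  classical
  obtain ⟨C, -, H⟩ := bound_98 (K := F)
  have hN0 : (N : F) ≠ 0 := Nat.cast_ne_zero.2 hN
  have key : ∀ x : F, x ≠ 0 → IsIntegral ℤ ((N : F) * x) → (nN (N : F))⁻¹ ≤ nN x := fun x hx h => by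
    have := one_le_nN (mul_ne_zero hN0 hx) h
    rw [nN_mul] at this
    rw [inv_le_iff_one_le_mul₀' (nN_pos hN0)]
    exact this
  have h1 : Summable fun x : {x : F | x ≠ 0 ∧ IsIntegral ℤ ((N : F) * x)} => ex6 Z x :=
    (H {x : F | x ≠ 0 ∧ IsIntegral ℤ ((N : F) * x)} _ (inv_pos.2 (nN_pos hN0))
    (fun x hx => key x hx.1 hx.2) (fun x hx y hy hxy => key _ (sub_ne_zero.2 hxy)
      (by rw [mul_sub]; exact hx.2.sub hy.2)) Z hZ).1
  have h3 : Summable ({x : F | x ≠ 0 ∧ IsIntegral ℤ ((N : F) * x)}.indicator (ex6 Z)) :=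
    summable_subtype_iff_indicator.1 h1
  have h2 := h3.update 0 (ex6 Z 0)
  refine h2.congr fun x => ?_
  by_cases hx : x = 0
  · subst hx
    rw [Function.update_self, Set.indicator_of_mem]
    simpa using isIntegral_zero
  · rw [Function.update_of_ne hx]
    simp [Set.indicator, hx]

/-- The smoothed sum of a periodic function tends to `κ` times its mean value. -/
theorem mean_limit (hM : MeanStmt F) : ∃ κ : ℝ, 0 < κ ∧ ∀ ψ : F → ℂ, Per ψ →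
    ∀ η : Pl F → ℝ, (∀ w, 0 < η w) →
    Tendsto (fun t : ℝ => TT (cut ψ) fun w => t * η w) (𝓝[>] 0) (𝓝 (κ * mean ψ)) := by
  classical
  have := Emb.tc (F := F)
  obtain ⟨κ, hκ, H⟩ := limit_98 (K := F)
  refine ⟨κ, hκ, fun ψ ⟨N, hψ⟩ η hη => ?_⟩
  have hN := hψ.1
  have hN0 : (N : F) ≠ 0 := Nat.cast_ne_zero.2 hN
  obtain ⟨S, -, hS1, hS2, hS3⟩ := hM.reps N hN
  rw [hM.sum ψ N S hψ hS2 fun x hx => hS3 x (hψ.2.2 x hx)]
  let e : S × 𝓞 F → F := fun p => p.1 + N * p.2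
  have he : Function.Injective e := by
    rintro ⟨a, x⟩ ⟨b, y⟩ h
    have h1 : (a : F) + N * x = b + N * y := h
    have h2 : a = b := Subtype.ext (hS2 _ a.2 _ b.2 ⟨y - x, y.isIntegral_coe.sub x.isIntegral_coe,
      by linear_combination h1⟩)
    subst h2
    rw [RingOfIntegers.ext (mul_left_cancel₀ hN0 (add_left_cancel h1))]
  have hψe : ∀ p, ψ (e p) = ψ p.1 := fun p => hψ.2.1 _ _ ⟨p.2, p.2.isIntegral_coe, rfl⟩
  have hsupp : ∀ Z : Pl F → ℝ, Function.support (fun x => ψ x * (ex6 Z x : ℂ)) ⊆ Set.range e := by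
    intro Z x hx
    obtain ⟨y, hy, z, hz, h⟩ := hS3 x (hψ.2.2 x (left_ne_zero_of_mul hx))
    exact ⟨(⟨y, hy⟩, ⟨z, hz⟩), (sub_eq_iff_eq_add'.1 h).symm⟩
  obtain ⟨B, hB⟩ : ∃ B : ℝ, ∀ x, ‖ψ x‖ ≤ B := by
    refine ⟨∑ a ∈ S, ‖ψ a‖, fun x => ?_⟩
    by_cases hx : ψ x = 0
    · rw [hx, norm_zero]; positivity
    · obtain ⟨y, hy, h⟩ := hS3 x (hψ.2.2 x hx)
      have : ψ x = ψ y := by rw [← hψ.2.1 y _ h]; congr 1; ring
      rw [this]
      exact Finset.single_le_sum (f := fun a => ‖ψ a‖) (fun _ _ => norm_nonneg _) hy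
  have hsum : ∀ Z : Pl F → ℝ, (∀ w, 0 < Z w) → Summable fun x => ψ x * (ex6 Z x : ℂ) := by
    intro Z hZ
    refine Summable.of_norm_bounded ((summable_latt hN hZ).mul_left B) fun x => ?_
    rw [norm_term]
    by_cases hx : ψ x = 0
    · rw [hx, norm_zero, zero_mul]
      exact mul_nonneg ((norm_nonneg _).trans (hB 0))
        (Set.indicator_nonneg (fun _ _ => (ex6_pos _ _).le) _)
    · rw [Set.indicator_of_mem (by exact hψ.2.2 x hx)]
      exact mul_le_mul_of_nonneg_right (hB x) (ex6_pos _ _).le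
  have hTT : ∀ Z : Pl F → ℝ, (∀ w, 0 < Z w) → TT (cut ψ) Z =
      ∑ a ∈ S, ψ a * ((PZ Z * ∑' x : 𝓞 F, ex6 Z (a + N * x) : ℝ) : ℂ) - PZ Z * ψ 0 := by
    intro Z hZ
    have e1 : ∑' x, cut ψ x * (ex6 Z x : ℂ) = ∑' x, ψ x * (ex6 Z x : ℂ) - ψ 0 := by
      rw [(hsum Z hZ).tsum_eq_add_tsum_ite 0]
      have : ex6 Z (0 : F) = 1 := by simp [ex6]
      rw [this, Complex.ofReal_one, mul_one, add_sub_cancel_left]
      refine tsum_congr fun x => ?_
      unfold cut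
      split_ifs <;> simp
    have e2 : ∑' x, ψ x * (ex6 Z x : ℂ) =
        ∑ a ∈ S, ψ a * ((∑' x : 𝓞 F, ex6 Z (a + N * x) : ℝ) : ℂ) := by
      have h5 : Summable fun p => ψ (e p) * (ex6 Z (e p) : ℂ) := (hsum Z hZ).comp_injective he
      rw [← he.tsum_eq (hsupp Z), h5.tsum_prod, tsum_fintype, ← Finset.sum_coe_sort S]
      refine Finset.sum_congr rfl fun a _ => ?_
      simp only [hψe]
      rw [tsum_mul_left, Complex.ofReal_tsum]
    rw [TT, e1, e2, mul_sub, Finset.mul_sum]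
    congr 1
    refine Finset.sum_congr rfl fun a _ => ?_
    push_cast
    ring
  have h1 : Tendsto (fun t : ℝ => ∑ a ∈ S, ψ a * ((PZ (fun w => t * η w) *
      ∑' x : 𝓞 F, ex6 (fun w => t * η w) (a + N * x) : ℝ) : ℂ) - PZ (fun w => t * η w) * ψ 0)
      (𝓝[>] 0) (𝓝 (∑ a ∈ S, ψ a * ((κ / nN (N : F) : ℝ) : ℂ) - (0 : ℝ) * ψ 0)) :=
    (tendsto_finsetSum _ fun a _ => (H a N hN0 η hη).ofReal.const_mul _).sub
      (tendsto_PZ.ofReal.mul_const _)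
  have e3 : ∑ a ∈ S, ψ a * ((κ / nN (N : F) : ℝ) : ℂ) - (0 : ℝ) * ψ 0 =
      κ * (((N : ℂ) ^ Module.finrank ℚ F)⁻¹ * ∑ x ∈ S, ψ x) := by
    rw [← Finset.sum_mul, nN_natCast]
    push_cast
    ring
  rw [e3] at h1
  refine h1.congr' ?_
  filter_upwards [self_mem_nhdsWithin] with t (ht : 0 < t)
  exact (hTT _ fun w => mul_pos ht (hη w)).symm

end Crest.Agent.T27.Lam98
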