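import Crest.Agent.T27.LamB_98
import Crest.Agent.T27.ThB_54

/-!
# Row 27, theta module B3 (part C): primes of `R`, norms, character sums, the values of `mf`
-/

set_option autoImplicit false
set_option linter.unusedSectionVars false

noncomputable section

namespace Crest.Agent.T27.Lam98

open Filter Topology NumberField TH IsDedekindDomain

section pid

variable {A : Type} [CommRing A] [IsDomain A] [IsPrincipalIdealRing A]

/-- A generator of a maximal ideal. -/
def gen (v : HeightOneSpectrum A) : A := Submodule.IsPrincipal.generator v.asIdeal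

theorem prime_gen (v : HeightOneSpectrum A) : Prime (gen v) :=
  have := v.isPrime
  Submodule.IsPrincipal.prime_generator_of_isPrime _ v.ne_bot

theorem gen_dvd_iff (v : HeightOneSpectrum A) (x : A) : gen v ∣ x ↔ x ∈ v.asIdeal :=
  (Submodule.IsPrincipal.mem_iff_generator_dvd _).symm

theorem span_gen (v : HeightOneSpectrum A) : Ideal.span {gen v} = v.asIdeal :=
  Ideal.span_singleton_generator _

theorem isCoprime_gen {v w : HeightOneSpectrum A} (h : v ≠ w) : IsCoprime (gen v) (gen w) := by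
  rw [← Ideal.isCoprime_span_singleton_iff, span_gen, span_gen]
  exact HeightOneSpectrum.isCoprime_of_ne v w h

theorem finite_gen {x : A} (hx : x ≠ 0) : {v : HeightOneSpectrum A | gen v ∣ x}.Finite := by
  simp only [gen_dvd_iff, ← Ideal.dvd_span_singleton]
  exact Ideal.finite_factors (by simpa using hx)

/-- The product of the generators. -/
def dS (s : Finset (HeightOneSpectrum A)) : A := ∏ v ∈ s, gen v

theorem dS_ne (s : Finset (HeightOneSpectrum A)) : dS s ≠ 0 :=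
  Finset.prod_ne_zero_iff.2 fun v _ => (prime_gen v).ne_zero

theorem dS_dvd_iff (s : Finset (HeightOneSpectrum A)) (x : A) : dS s ∣ x ↔ ∀ v ∈ s, gen v ∣ x :=
  ⟨fun h _ hv => (Finset.dvd_prod_of_mem _ hv).trans h,
    Finset.prod_dvd_of_coprime fun _ _ _ _ h => isCoprime_gen h⟩

theorem isCoprime_iff_gen {x : A} (hx : x ≠ 0) (y : A) :
    IsCoprime y x ↔ ∀ v : HeightOneSpectrum A, gen v ∣ x → ¬ gen v ∣ y := by
  refine ⟨fun h v h1 h2 => (prime_gen v).not_isUnit (h.isUnit_of_dvd' h2 h1), fun h => ?_⟩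
  by_contra hc
  rw [← Ideal.isCoprime_span_singleton_iff, Ideal.isCoprime_iff_sup_eq] at hc
  obtain ⟨m, hm, hle⟩ := Ideal.exists_le_maximal _ hc
  have h1 : x ∈ m := hle (Ideal.mem_sup_right (Ideal.mem_span_singleton_self x))
  have h2 : y ∈ m := hle (Ideal.mem_sup_left (Ideal.mem_span_singleton_self y))
  let v : HeightOneSpectrum A := ⟨m, hm.isPrime, fun h0 => hx (by simpa [h0] using h1)⟩
  exact h v ((gen_dvd_iff v x).2 h1) ((gen_dvd_iff v y).2 h2)

open Classical in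
/-- Inclusion–exclusion. -/
theorem ind_coprime {x : A} (hx : x ≠ 0) (y : A) :
    (if IsCoprime y x then (1 : ℂ) else 0) =
      ∑ s ∈ (finite_gen hx).toFinset.powerset, (-1) ^ s.card * if dS s ∣ y then 1 else 0 := by
  have e : ∀ s : Finset (HeightOneSpectrum A), ((-1 : ℂ) ^ s.card * if dS s ∣ y then 1 else 0) =
      ∏ v ∈ s, -(if gen v ∣ y then (1 : ℂ) else 0) := fun s => by
    rw [Finset.prod_neg, Finset.prod_boole]
    simp only [dS_dvd_iff]
  simp only [e]
  rw [← Finset.prod_one_add, isCoprime_iff_gen hx]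
  split_ifs with h
  · refine (Finset.prod_eq_one fun v hv => ?_).symm
    rw [if_neg (h v ((finite_gen hx).mem_toFinset.1 hv))]
    simp
  · push Not at h
    obtain ⟨v, h1, h2⟩ := h
    refine (Finset.prod_eq_zero ((finite_gen hx).mem_toFinset.2 h1) ?_).symm
    rw [if_pos h2]
    simp

theorem cube_or {x : A} (hx : x ≠ 0) : (∃ u n : A, IsUnit u ∧ n ≠ 0 ∧ x = u * n ^ 3) ∨
    ∃ (p : A) (k : ℕ) (y : A), Prime p ∧ ¬ 3 ∣ k ∧ ¬ p ∣ y ∧ x = p ^ k * y := by
  induction x using (wellFounded_dvdNotUnit (α := A)).induction with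
  | _ x ih =>
    by_cases hu : IsUnit x
    · exact Or.inl ⟨x, 1, hu, one_ne_zero, by simp⟩
    obtain ⟨p, hp, hpx⟩ := WfDvdMonoid.exists_irreducible_factor hu hx
    obtain ⟨k, y, hy, e⟩ := WfDvdMonoid.max_power_factor hx hp
    by_cases hk : 3 ∣ k
    swap
    · exact Or.inr ⟨p, k, y, hp.prime, hk, hy, e⟩
    have hy0 : y ≠ 0 := by rintro rfl; exact hy (dvd_zero _)
    have hk0 : k ≠ 0 := by
      rintro rfl
      rw [pow_zero, one_mul] at e
      exact hy (e ▸ hpx)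
    obtain ⟨j, rfl⟩ := hk
    rcases ih y ⟨hy0, p ^ (3 * j), fun h => hp.not_isUnit ((isUnit_pow_iff hk0).1 h),
      e.trans (mul_comm _ _)⟩ hy0 with ⟨u, n, h1, h2, h3⟩ | ⟨q, l, z, h1, h2, h3, h4⟩
    · exact Or.inl ⟨u, n * p ^ j, h1, mul_ne_zero h2 (pow_ne_zero _ hp.ne_zero), by
        rw [e, h3]; ring⟩
    · refine Or.inr ⟨q, l, p ^ (3 * j) * z, h1, h2, fun h => ?_, by rw [e, h4]; ring⟩
      rcases h1.dvd_or_dvd h with h | h
      · have h5 : Associated q p := h1.irreducible.associated_of_dvd hp (h1.dvd_of_dvd_pow h)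
        have hl : l ≠ 0 := by rintro rfl; exact h2 (dvd_zero _)
        exact hy (h4 ▸ (h5.symm.dvd.trans (dvd_pow_self q hl)).mul_right z)
      · exact h3 h

end pid

variable {F : Type} [Field F] [NumberField F] [Emb F] [Ar F]

theorem N_ne : (Ar.N F : F) ≠ 0 :=
  Nat.cast_ne_zero.2 (by have := Ar.two_le (F := F); omega)

theorem mem_R_of_int {x : F} (h : IsIntegral ℤ x) : x ∈ (Ar.R : Subring F) :=
  (Ar.mem_R x).2 ⟨0, by simpa using h⟩

theorem N_mem_R : (Ar.N F : F) ∈ (Ar.R : Subring F) := natCast_mem _ _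

theorem one_le_nm {x : RR F} (hx : x ≠ 0) : 1 ≤ Ar.nm (x : F) := by
  have := Ar.fin_quot x hx
  rw [Ar.nm_eq x hx]
  exact_mod_cast Nat.card_pos

theorem nm_one : Ar.nm (1 : F) = 1 := by
  have h := Ar.nm_mul (1 : F) 1
  have h1 := Ar.nm_pos (1 : F) one_ne_zero
  rw [one_mul] at h
  exact (mul_eq_left₀ h1.ne').1 h.symm

theorem two_le_nm {p : RR F} (hp : Prime p) : 2 ≤ Ar.nm (p : F) := by
  have := Ar.fin_quot p hp.ne_zero
  have : Nontrivial (RR F ⧸ Ideal.span {p}) :=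
    Ideal.Quotient.nontrivial_iff.2 (by rw [Ne, Ideal.span_singleton_eq_top]; exact hp.not_isUnit)
  rw [Ar.nm_eq p hp.ne_zero]
  exact_mod_cast Finite.one_lt_card

theorem nm_dS (s : Finset (HeightOneSpectrum (RR F))) :
    Ar.nm ((dS s : RR F) : F) = ∏ v ∈ s, Ar.nm ((gen v : RR F) : F) := by
  classical
  induction s using Finset.induction_on with
  | empty => simp [dS, nm_one]
  | insert v s hv ih =>
    rw [dS, Finset.prod_insert hv, Finset.prod_insert hv, Subring.coe_mul, Ar.nm_mul, ← ih, dS]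

theorem nm_le_nN {z : F} (hz : z ≠ 0) (h : IsIntegral ℤ z) : Ar.nm z ≤ nN z := by
  have := Emb.tc (F := F)
  let a : 𝓞 F := ⟨z, h⟩
  let r : RR F := ⟨z, mem_R_of_int h⟩
  have hr : r ≠ 0 := fun e => hz (congrArg Subtype.val e)
  let φ : 𝓞 F →+* RR F := (algebraMap (𝓞 F) F).codRestrict _ fun x => mem_R_of_int x.isIntegral_coe
  let ψ : 𝓞 F ⧸ Ideal.span {a} →+* RR F ⧸ Ideal.span {r} := Ideal.quotientMap _ φ (by
    rw [Ideal.span_le, Set.singleton_subset_iff]
    exact Ideal.mem_span_singleton_self r)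
  have hψ : Function.Surjective ψ := by
    intro q
    obtain ⟨x, rfl⟩ := Ideal.Quotient.mk_surjective q
    obtain ⟨r1, hr1, l, hl, e⟩ := Ar.approx ((x : F) / z) z⁻¹ (inv_ne_zero hz)
    have e2 : l = x - z * r1 := by field_simp at e; linear_combination -e
    have hl2 : l ∈ (Ar.R : Subring F) := e2 ▸ sub_mem x.2 (mul_mem r.2 hr1)
    refine ⟨Ideal.Quotient.mk _ ⟨l, Ar.int_of l hl2 hl⟩, ?_⟩
    refine Ideal.Quotient.eq.2 (Ideal.mem_span_singleton.2 ?_)
    exact ⟨-⟨r1, hr1⟩, Subtype.ext (by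
      change l - x = z * -r1
      rw [e2]; ring)⟩
  have ha : a ≠ 0 := fun e => hz (congrArg Subtype.val e)
  have hfin : Finite (𝓞 F ⧸ Ideal.span {a}) :=
    Ideal.finiteQuotientOfFreeOfNeBot _ (by simpa using ha)
  have h1 := Nat.card_le_card_of_surjective ψ hψ
  have h2 : Nat.card (𝓞 F ⧸ Ideal.span {a}) = (Algebra.norm ℤ a).natAbs := by
    rw [← Ideal.absNorm_span_singleton, Ideal.absNorm_apply, Submodule.cardQuot_apply]
  have h3 : nN z = ((Algebra.norm ℤ a).natAbs : ℝ) := by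
    rw [nN_eq, show z = algebraMap (𝓞 F) F a from rfl, ← Algebra.coe_norm_int, Nat.cast_natAbs]
    push_cast
    rfl
  rw [show z = (r : F) from rfl, Ar.nm_eq r hr, show (r : F) = z from rfl, h3, ← h2]
  exact_mod_cast h1

/-- Norm of the elements of `d R ∩ N^{-J} L`. -/
theorem nN_ge {d : RR F} (hd : d ≠ 0) (J : ℕ) {x : F} (hx : x ≠ 0)
    (h1 : x / d ∈ (Ar.R : Subring F)) (h2 : (Ar.N F : F) ^ J * x ∈ (Ar.L : Subring F)) :
    Ar.nm (d : F) / nN ((Ar.N F : F) ^ J) ≤ nN x := by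
  have hd0 : (d : F) ≠ 0 := fun e => hd (Subtype.ext e)
  have hN : (Ar.N F : F) ^ J ≠ 0 := pow_ne_zero _ N_ne
  have h3 : (Ar.N F : F) ^ J * (x / d) ∈ (Ar.R : Subring F) := mul_mem (pow_mem N_mem_R _) h1
  have e : (Ar.N F : F) ^ J * x = d * ((Ar.N F : F) ^ J * (x / d)) := by field_simp
  have h4 := nm_le_nN (mul_ne_zero hN hx) (Ar.int_of _ (e ▸ mul_mem d.2 h3) h2)
  have h5 : 1 ≤ Ar.nm ((Ar.N F : F) ^ J * (x / d)) :=
    one_le_nm (x := ⟨_, h3⟩) fun e => mul_ne_zero hN (div_ne_zero hx hd0) (congrArg Subtype.val e)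
  rw [nN_mul, e, Ar.nm_mul] at h4
  rw [div_le_iff₀' (nN_pos hN)]
  nlinarith [Ar.nm_pos (d : F) hd0]

theorem summable_inv_nm_sq :
    Summable fun v : HeightOneSpectrum (RR F) => ((Ar.nm ((gen v : RR F) : F))⁻¹) ^ 2 := by
  classical
  obtain ⟨C, hC⟩ := Ar.count_nm (F := F)
  have hC0 : 0 ≤ C := by simpa using hC 1 ∅ zero_le_one (by simp) (by simp)
  let q : HeightOneSpectrum (RR F) → ℝ := fun v => Ar.nm ((gen v : RR F) : F)
  have hq : ∀ v, 2 ≤ q v := fun v => two_le_nm (prime_gen v)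
  let key : HeightOneSpectrum (RR F) → ℕ := fun v => Nat.log 2 ⌊q v⌋₊
  have hk1 : ∀ v, (2 : ℝ) ^ key v ≤ q v := fun v => by
    have h1 : ⌊q v⌋₊ ≠ 0 := (Nat.floor_pos.2 (by linarith [hq v])).ne'
    refine le_trans ?_ (Nat.floor_le (by linarith [hq v]))
    exact_mod_cast Nat.pow_log_le_self 2 h1
  have hk2 : ∀ v, q v ≤ (2 : ℝ) ^ (key v + 1) := fun v => by
    refine (Nat.lt_floor_add_one (q v)).le.trans ?_
    exact_mod_cast Nat.lt_pow_succ_log_self (by norm_num : 1 < 2) ⌊q v⌋₊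
  have hg : Summable fun k : ℕ => 2 * C * (1 / 2 : ℝ) ^ k := summable_geometric_two.mul_left _
  refine summable_of_sum_le (c := ∑' k : ℕ, 2 * C * (1 / 2 : ℝ) ^ k) (fun _ => sq_nonneg _)
    fun T => ?_
  rw [← Finset.sum_fiberwise_of_maps_to (t := T.image key) (g := key)
    fun v hv => Finset.mem_image_of_mem _ hv]
  refine le_trans (Finset.sum_le_sum fun k _ => ?_) (hg.sum_le_tsum _ fun k _ => by positivity)
  have h1 : (((T.filter fun v => key v = k).image gen).card : ℝ) ≤ C * 2 ^ (k + 1) := by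
    refine hC _ _ (by positivity) (fun x hx => ?_) fun x hx y hy hxy => ?_
    · obtain ⟨v, hv, rfl⟩ := Finset.mem_image.1 hx
      exact ⟨(prime_gen v).ne_zero, (Finset.mem_filter.1 hv).2 ▸ hk2 v⟩
    · obtain ⟨v, -, rfl⟩ := Finset.mem_image.1 hx
      obtain ⟨w, -, rfl⟩ := Finset.mem_image.1 hy
      by_contra h
      exact (prime_gen v).not_isUnit
        ((isCoprime_gen (fun e => h (by rw [e]))).isUnit_of_dvd' dvd_rfl hxy.dvd)
  rw [Finset.card_image_of_injective _ fun v w h => HeightOneSpectrum.ext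
    (by rw [← span_gen, ← span_gen, h])] at h1
  have h2 : ∀ v ∈ T.filter fun v => key v = k, (q v)⁻¹ ^ 2 ≤ (((2 : ℝ) ^ k)⁻¹) ^ 2 := fun v hv => by
    have h3 := hk1 v
    rw [(Finset.mem_filter.1 hv).2] at h3
    have := hq v
    gcongr
  refine (Finset.sum_le_card_nsmul _ _ _ h2).trans ?_
  rw [nsmul_eq_mul]
  calc _ ≤ C * 2 ^ (k + 1) * (((2 : ℝ) ^ k)⁻¹) ^ 2 := by gcongr
    _ = _ := by rw [one_div, inv_pow 2 k, pow_succ]; field_simp

/-- The weights of the sieve. -/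
def wS (s : Finset (HeightOneSpectrum (RR F))) : ℝ := (-1) ^ s.card * (Ar.nm ((dS s : RR F) : F))⁻¹

theorem nm_dS_pos (s : Finset (HeightOneSpectrum (RR F))) : 0 < Ar.nm ((dS s : RR F) : F) :=
  lt_of_lt_of_le one_pos (one_le_nm (dS_ne s))

theorem abs_wS (s : Finset (HeightOneSpectrum (RR F))) :
    |wS s| = (Ar.nm ((dS s : RR F) : F))⁻¹ := by
  rw [wS, abs_mul, abs_pow, abs_neg, abs_one, one_pow, one_mul, abs_of_pos (inv_pos.2 (nm_dS_pos s))]

theorem summable_wS : Summable fun s : Finset (HeightOneSpectrum (RR F)) =>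
    (Ar.nm ((dS s : RR F) : F))⁻¹ * (Ar.nm ((dS s : RR F) : F))⁻¹ := by
  refine (summable_finsetProd_of_summable_nonneg (fun _ => sq_nonneg _)
    summable_inv_nm_sq).congr fun s => ?_
  rw [nm_dS, ← sq, ← Finset.prod_inv_distrib, ← Finset.prod_pow]

variable (F) in
/-- `1 / ζ_R(2)`. -/
def cS : ℝ := ∑' s : Finset (HeightOneSpectrum (RR F)), wS s * (Ar.nm ((dS s : RR F) : F))⁻¹

theorem cS_pos : 0 < cS F := by
  let f : HeightOneSpectrum (RR F) → ℝ := fun v => -((Ar.nm ((gen v : RR F) : F))⁻¹) ^ 2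
  have h1 : Summable fun v => ‖f v‖ := by
    simpa only [f, norm_neg, Real.norm_of_nonneg (sq_nonneg _)] using summable_inv_nm_sq (F := F)
  have h2 : ∀ v, 0 < 1 + f v := fun v => by
    have h3 := two_le_nm (prime_gen v)
    have h4 : (Ar.nm ((gen v : RR F) : F))⁻¹ ≤ 2⁻¹ := by gcongr
    have h5 : 0 ≤ (Ar.nm ((gen v : RR F) : F))⁻¹ := by positivity
    simp only [f]
    nlinarith
  have e : cS F = ∏' v, (1 + f v) := by
    rw [tprod_one_add (summable_finsetProd_of_summable_norm h1), cS]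
    refine tsum_congr fun s => ?_
    rw [wS, Finset.prod_neg, mul_assoc, nm_dS, ← sq, ← Finset.prod_inv_distrib, ← Finset.prod_pow]
  rw [e]
  exact lt_of_le_of_ne (tprod_nonneg fun v => (h2 v).le)
    (tprod_one_add_ne_zero_of_summable (fun v => (h2 v).ne') h1).symm

end Crest.Agent.T27.Lam98
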