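import Crest.Agent.T27.ThBi_83

/-!
# Row 27, theta module B1: definitions (internal tools for `opStmt_83`)

The abstract arithmetic datum `Ar F` (`R = O[1/N]`, `L = O_S`, the bicharacter `c`, the cubic
symbol), test functions and the virtual operators.
-/

set_option autoImplicit false

noncomputable section

namespace Crest.Agent.T27.B83

open scoped BigOperators

/-- The character `k ↦ exp(2πik/3)` of `ZMod 3`. -/
def e3 (k : ZMod 3) : ℂ := ZMod.stdAddChar k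

/-- The arithmetic datum.  In the application `R = O_F[1/N]`, `L = O_S` (elements of `F` integral
at the primes over `N`), `B.c` is the cubic reciprocity defect and `S.s x y` is the
exponent of the cubic symbol `(x / y)`. -/
structure Ar (F : Type*) [Field F] where
  B : Bi F
  R : Subring F
  L : Subring F
  N : F
  N_ne : N ≠ 0
  N_L : N ∈ L
  N_R : N ∈ R
  Ninv_R : N⁻¹ ∈ R
  P_ne : ∀ x ∈ L, 1 + N * x ≠ 0
  P_inv : ∀ x ∈ L, (1 + N * x)⁻¹ ∈ L
  bdd : ∀ x : F, ∃ m : ℕ, N ^ m * x ∈ L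
  c_P : ∀ x ∈ L, ∀ y, B.c (1 + N * x) y = 0
  dense : ∀ y : F, ∃ r ∈ R, y - r ∈ L
  pid : IsPrincipalIdealRing R
  inf : Infinite R
  frac : ∀ x : F, ∃ b ∈ R, b ≠ 0 ∧ b * x ∈ R
  S : Sy B R

namespace Ar

variable {F : Type*} [Field F] (A : Ar F)

/-- `m L` as an additive subgroup of `F` (for `m ≠ 0`). -/
def lat (m : F) : AddSubgroup F := A.L.toAddSubgroup.comap (AddMonoidHom.mulLeft m⁻¹)

theorem mem_lat {m x : F} : x ∈ A.lat m ↔ m⁻¹ * x ∈ A.L := Iff.rfl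

/-- `x ∈ P_j = 1 + N^j L`. -/
def P (j : ℕ) (x : F) : Prop := x - 1 ∈ A.lat (A.N ^ j)

/-- Test functions of level `j`. -/
structure Test (j : ℕ) (f : F → F → ℂ) : Prop where
  bdd : ∃ C : ℝ, ∀ c d, ‖f c d‖ ≤ C
  supp : ∀ c d, f c d ≠ 0 →
    A.N ^ j * c ∈ A.L ∧ A.N ^ j * d ∈ A.L ∧ ∃ p ∈ A.L, ∃ q ∈ A.L, c * p + d * q = A.N ^ j
  loc : ∀ c d c' d', c' - c ∈ A.lat (A.N ^ j) → d' - d ∈ A.lat (A.N ^ j) →
    f c' d' = f c d * e3 (A.B.c d c - A.B.c d c')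

/-- Test functions. -/
def IsTest (f : F → F → ℂ) : Prop := ∃ j, A.Test j f

open Classical in
/-- `ξ_f (c, d) = f (c, d) (d / c)` on `R`-coprime rows, `0` elsewhere. -/
def xi (f : F → F → ℂ) (c d : F) : ℂ :=
  if h : c ∈ A.R ∧ d ∈ A.R then
    if IsCoprime (⟨c, h.1⟩ : A.R) ⟨d, h.2⟩ then f c d * e3 (A.S.s ⟨d, h.2⟩ ⟨c, h.1⟩) else 0
  else 0

/-- The unipotent `n(x)`. -/
def opN (x : F) (f : F → F → ℂ) (c d : F) : ℂ := f c (d + c * x)

/-- The torus element `diag(1, s)`. -/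
def opD (s : F) (f : F → F → ℂ) (c d : F) : ℂ := f c (s * d) * e3 (A.B.c s c)

/-- The torus element `diag(t, 1)`; the phase is trivial unless `c = 0`. -/
def opA (t : F) (f : F → F → ℂ) (c d : F) : ℂ :=
  f (t * c) d * e3 (A.B.c d (t * c) - A.B.c d c - A.B.c d t)

/-- The Weyl element `(c, d) ↦ (d, -c)`. -/
def opW (f : F → F → ℂ) (c d : F) : ℂ := f d (-c) * e3 (A.B.c c d)

/-- `f⟨t⟩ (c, d) = f (t² c, t d) c(t, c)` (for `c ≠ 0`). -/
def br (t : F) (f : F → F → ℂ) : F → F → ℂ := A.opA (t ^ 2) (A.opD t f)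

/-- `(c, d) ↦ f (m³ c, n³ d)`; `f[m³] = sc m 1 f`. -/
def sc (m n : F) (f : F → F → ℂ) (c d : F) : ℂ := f (m ^ 3 * c) (n ^ 3 * d)

/-- Kubota's cocycle for the row `u = (c, d)` and `g = (a b; c₁ d₁)`. -/
def kap (a b c1 d1 c d : F) : ZMod 3 :=
  A.B.c (X (c * a + d * c1) (c * b + d * d1) / X c d) (X (c * a + d * c1) (c * b + d * d1) / X c1 d1)

/-- The virtual action of `g = (a b; c₁ d₁) ∈ SL₂(F)` on test functions. -/
def rho (a b c1 d1 : F) (f : F → F → ℂ) (c d : F) : ℂ :=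
  f (c * a + d * c1) (c * b + d * d1) * e3 (- A.kap a b c1 d1 c d)

end Ar

end Crest.Agent.T27.B83
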