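import Crest.Agent.T27.RecDefs_64
import Crest.Agent.T27.Sar_77
import Crest.Agent.T27.ThAr_83

/-!
# Row 27: the reciprocity bicharacter `T` of `RecStmt` on `R = O_F[1/N]` (helper61)

`RecT F N ζ` bundles the output of `Rc.RecStmt` for `S = RS F N`.  We show that `T` kills sixth
powers and `P₃ = 1 + N³ Λ`, that `T b b = (-1 / b)`, the Steinberg relation, and we build the
cubic data `Bi`, `Sy` of the theta module.
-/

set_option autoImplicit false
set_option linter.unusedSectionVars false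

noncomputable section

open NumberField

namespace Crest.Agent.T27

open Rc

/-- The output of `RecStmt` for `S = O_F[1/N]`. -/
structure RecT (F : Type) [Field F] (N : ℕ) (ζ : RS F N) where
  /-- the bicharacter -/
  T : F → F → ZMod 6
  mul_left : ∀ x x' y, x ≠ 0 → x' ≠ 0 → y ≠ 0 → T (x * x') y = T x y + T x' y
  anti : ∀ x y, x ≠ 0 → y ≠ 0 → T y x = -T x y
  deep : ∀ t y, IsIntegral ℤ t → y ≠ 0 → T (1 + (N : F) ^ 3 * t) y = 0
  recip : ∀ a b : RS F N, a ≠ 0 → b ≠ 0 → IsCoprime a b →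
    T (a : F) (b : F) = zs ζ a b - zs ζ b a
  zeta : ζ ^ 2 - ζ + 1 = 0
  fin : ∀ b : RS F N, b ≠ 0 → Finite (RS F N ⧸ Ideal.span {b})

theorem nonempty_RecT (h : RecStmt) (F : Type) [Field F] [NumberField F] (N : ℕ) [hG : SGood F N]
    (ζ : RS F N) (hζ : ζ ^ 2 - ζ + 1 = 0) : Nonempty (RecT F N ζ) := by
  obtain ⟨-, hfin, T, h1, h2, h3, h4⟩ := h F N hG.six hG.ne (RS F N) Subtype.val_injective
    (fun x => by
      rw [← mem_RS]
      exact ⟨fun ⟨y, hy⟩ => hy ▸ y.2, fun hx => ⟨⟨x, hx⟩, rfl⟩⟩) ζ hζ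
  exact ⟨⟨T, h1, h2, h3, h4, hζ, hfin⟩⟩

namespace RecT

variable {F : Type} [Field F] {N : ℕ} {ζ : RS F N} (r : RecT F N ζ)

theorem mul_right {x y y' : F} (hx : x ≠ 0) (hy : y ≠ 0) (hy' : y' ≠ 0) :
    r.T x (y * y') = r.T x y + r.T x y' := by
  rw [r.anti _ x (mul_ne_zero hy hy') hx, r.mul_left _ _ _ hy hy' hx, r.anti y x hy hx,
    r.anti y' x hy' hx]
  ring

theorem one_left {y : F} (hy : y ≠ 0) : r.T 1 y = 0 := by
  have h := r.mul_left 1 1 y one_ne_zero one_ne_zero hy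
  rw [mul_one] at h
  linear_combination -h

theorem one_right {x : F} (hx : x ≠ 0) : r.T x 1 = 0 := by
  rw [r.anti 1 x one_ne_zero hx, r.one_left hx, neg_zero]

theorem inv_left {x y : F} (hx : x ≠ 0) (hy : y ≠ 0) : r.T x⁻¹ y = -r.T x y := by
  have h := r.mul_left x x⁻¹ y hx (inv_ne_zero hx) hy
  rw [mul_inv_cancel₀ hx, r.one_left hy] at h
  linear_combination -h

theorem inv_right {x y : F} (hx : x ≠ 0) (hy : y ≠ 0) : r.T x y⁻¹ = -r.T x y := by
  rw [r.anti _ x (inv_ne_zero hy) hx, r.inv_left hy hx, r.anti y x hy hx]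

theorem div_left {x x' y : F} (hx : x ≠ 0) (hx' : x' ≠ 0) (hy : y ≠ 0) :
    r.T (x / x') y = r.T x y - r.T x' y := by
  rw [div_eq_mul_inv, r.mul_left _ _ _ hx (inv_ne_zero hx') hy, r.inv_left hx' hy, sub_eq_add_neg]

theorem div_right {x y y' : F} (hx : x ≠ 0) (hy : y ≠ 0) (hy' : y' ≠ 0) :
    r.T x (y / y') = r.T x y - r.T x y' := by
  rw [div_eq_mul_inv, r.mul_right hx hy (inv_ne_zero hy'), r.inv_right hx hy', sub_eq_add_neg]

theorem pow_left {x y : F} (hx : x ≠ 0) (hy : y ≠ 0) (n : ℕ) : r.T (x ^ n) y = n * r.T x y := by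
  induction n with
  | zero => simp [r.one_left hy]
  | succ n ih => rw [pow_succ, r.mul_left _ _ _ (pow_ne_zero _ hx) hx hy, ih]; push_cast; ring

theorem pow_right {x y : F} (hx : x ≠ 0) (hy : y ≠ 0) (n : ℕ) : r.T x (y ^ n) = n * r.T x y := by
  rw [r.anti _ x (pow_ne_zero _ hy) hx, r.pow_left hy hx, r.anti y x hy hx]; ring

theorem six_eq : (6 : ZMod 6) = 0 := by decide

theorem pow_six_left {x y : F} (hx : x ≠ 0) (hy : y ≠ 0) : r.T (x ^ 6) y = 0 := by
  rw [r.pow_left hx hy, Nat.cast_ofNat, six_eq, zero_mul]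

theorem pow_six_right {x y : F} (hx : x ≠ 0) (hy : y ≠ 0) : r.T x (y ^ 6) = 0 := by
  rw [r.pow_right hx hy, Nat.cast_ofNat, six_eq, zero_mul]

variable [NumberField F] [hG : SGood F N]

/-- `T` is trivial on `1 + N³ Λ`. -/
theorem deep_LS {l y : F} (hl : l ∈ LS F N) (hy : y ≠ 0) : r.T (1 + (N : F) ^ 3 * l) y = 0 := by
  obtain ⟨d, hd, a, ha⟩ := exists_eq_of_mem_LS hl
  have hd0 : (d : F) ≠ 0 := by exact_mod_cast ne_zero_of_coprime F hd
  have hN3 : 1 < N ^ 3 := Nat.one_lt_pow (by norm_num) (SGood.one_lt F N)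
  have h1 : d ^ (N ^ 3).totient ≡ 1 [MOD N ^ 3] := Nat.ModEq.pow_totient (hd.pow_right 3)
  obtain ⟨k, hk⟩ : ∃ k, (N ^ 3).totient = k + 1 :=
    Nat.exists_eq_succ_of_ne_zero (Nat.totient_pos.2 (by omega)).ne'
  obtain ⟨m, hm⟩ := (Nat.modEq_iff_dvd.1 h1.symm)
  have hm' : (d : F) ^ (k + 1) = 1 + (N : F) ^ 3 * m := by
    have := congrArg (Int.cast : ℤ → F) hm
    rw [hk] at this
    push_cast at this
    linear_combination this
  have h2 := r.deep m y (isIntegral_intCast m) hy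
  have h3 := r.deep (m + (d : F) ^ k * a) y ((isIntegral_intCast m).add
    (((isIntegral_natCast d).pow k).mul a.isIntegral_coe)) hy
  have h4 : 1 + (N : F) ^ 3 * (m + (d : F) ^ k * a) =
      (1 + (N : F) ^ 3 * m) * (1 + (N : F) ^ 3 * l) := by
    rw [← hm', ← ha]
    linear_combination -hm'
  rw [h4, r.mul_left _ _ _ (hm' ▸ pow_ne_zero _ hd0) (one_add_pow_mul_LS (by norm_num) hl).1 hy,
    h2, zero_add] at h3
  exact h3

theorem deep_LS_right {l x : F} (hl : l ∈ LS F N) (hx : x ≠ 0) :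
    r.T x (1 + (N : F) ^ 3 * l) = 0 := by
  rw [r.anti _ x (one_add_pow_mul_LS (by norm_num) hl).1 hx, r.deep_LS hl hx, neg_zero]

theorem PJ_left {j : ℕ} (hj : 3 ≤ j) {x : Fˣ} (hx : x ∈ PJ F N j) {y : F} (hy : y ≠ 0) :
    r.T x y = 0 := by
  obtain ⟨-, l, hl, h⟩ := PJ_anti hj hx
  rw [h, r.deep_LS hl hy]

theorem PJ_right {j : ℕ} (hj : 3 ≤ j) {y : Fˣ} (hy : y ∈ PJ F N j) {x : F} (hx : x ≠ 0) :
    r.T x y = 0 := by
  rw [r.anti _ x y.ne_zero hx, r.PJ_left hj hy hx, neg_zero]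

theorem unit_left {u b : RS F N} (hu : IsUnit u) (hb : b ≠ 0) : r.T u b = zs ζ u b := by
  obtain ⟨v, hv⟩ := hu.exists_right_inv
  rw [r.recip u b hu.ne_zero hb ⟨v, 0, by linear_combination hv⟩, zs_unit ζ b hu, sub_zero]

include r in
theorem zs_neg_one_add (b : RS F N) (hb : b ≠ 0) : zs ζ (-1) b + zs ζ (-1) b = 0 := by
  have := r.fin b hb
  have h1 : IsCoprime (-1 : RS F N) b := isCoprime_one_left.neg_left
  rw [← zs_mul_left r.zeta isUnit_six_RS h1 h1, neg_mul_neg, mul_one, zs_one_left]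

theorem self_aux {b : RS F N} (hb : b ≠ 0) {l : F} (hl : l ∈ LS F N)
    (h : (b : F)⁻¹ = (N : F) ^ 3 * l) : r.T b b = zs ζ (-1) b := by
  have hb' : (b : F) ≠ 0 := by simpa using hb
  have h1 := one_add_pow_mul_LS (j := 3) (by norm_num) hl
  have e : ((1 + b : RS F N) : F) = b * (1 + (N : F) ^ 3 * l) := by
    rw [← h]; push_cast; field_simp; ring
  have hb1 : (1 + b : RS F N) ≠ 0 := by
    intro h0
    rw [h0] at e
    exact mul_ne_zero hb' h1.1 e.symm
  have h2 := r.recip (1 + b) b hb1 hb ⟨1, -1, by ring⟩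
  rw [e, r.mul_left _ _ _ hb' h1.1 hb', r.deep_LS hl hb', add_zero,
    zs_congr ζ (a := 1 + b) (a' := 1) (by simp), zs_one_left,
    zs_congr ζ (a := b) (a' := -1) (b := 1 + b) ⟨1, by ring⟩,
    ← r.unit_left isUnit_one.neg hb1, e,
    r.mul_right (by simp) hb' h1.1, r.deep_LS_right hl (by simp), add_zero,
    r.unit_left isUnit_one.neg hb] at h2
  rw [h2]
  linear_combination -r.zs_neg_one_add b hb

/-- `T b b = (-1 / b)`. -/
theorem self_eq {b : RS F N} (hb : b ≠ 0) : r.T b b = zs ζ (-1) b := by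
  have hb' : (b : F) ≠ 0 := by simpa using hb
  have hN : (N : F) ≠ 0 := SGood.cast_ne F N
  obtain ⟨k, hk⟩ := exists_pow_mul_mem_LS hG.ne (b : F)⁻¹
  let u : RS F N := ⟨((N : F)⁻¹ ^ (k + 1)) ^ 6, pow_mem (pow_mem inv_N_mem_RS _) _⟩
  have hu : IsUnit u := isUnit_iff_subring.2 ⟨by simp [u, hN], by
    simpa [u] using pow_mem (pow_mem (natCast_mem (RS F N) N) (k + 1)) 6⟩
  have hu0 : ((N : F)⁻¹ ^ (k + 1)) ≠ 0 := pow_ne_zero _ (inv_ne_zero hN)
  have h1 := r.self_aux (b := u * b) (mul_ne_zero hu.ne_zero hb)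
    (l := (N : F) ^ (5 * k + 3) * ((N : F) ^ k * (b : F)⁻¹))
    (mul_mem (pow_mem (natCast_mem _ N) _) hk) (by
      simp only [u, Subring.coe_mul, mul_inv, inv_pow, inv_inv]
      ring)
  rw [zs_assoc ζ (-1) (b := u * b) (b' := b) (associated_unit_mul_left b u hu)] at h1
  rw [← h1]
  change _ = r.T (((N : F)⁻¹ ^ (k + 1)) ^ 6 * b) (((N : F)⁻¹ ^ (k + 1)) ^ 6 * b)
  rw [r.mul_left _ _ _ (pow_ne_zero _ hu0) hb' (mul_ne_zero (pow_ne_zero _ hu0) hb'),
    r.pow_six_left hu0 (mul_ne_zero (pow_ne_zero _ hu0) hb'), zero_add,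
    r.mul_right hb' (pow_ne_zero _ hu0) hb', r.pow_six_right hb' hu0, zero_add]

theorem exists_coprime_frac (x : F) :
    ∃ a b : RS F N, b ≠ 0 ∧ IsCoprime a b ∧ x = (a : F) / b := by
  classical
  obtain ⟨a, b, hb, rfl⟩ := IsFractionRing.div_surjective (A := RS F N) x
  have hb0 : b ≠ 0 := nonZeroDivisors.ne_zero hb
  obtain ⟨g, hg⟩ := (IsPrincipalIdealRing.principal (Ideal.span {a, b})).principal
  have ha : g ∣ a := Ideal.mem_span_singleton.1 (by
    change a ∈ Submodule.span _ {g}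
    rw [← hg]; exact Ideal.subset_span (by simp))
  have hb' : g ∣ b := Ideal.mem_span_singleton.1 (by
    change b ∈ Submodule.span _ {g}
    rw [← hg]; exact Ideal.subset_span (by simp))
  obtain ⟨a', rfl⟩ := ha
  obtain ⟨b', rfl⟩ := hb'
  have hg0 : g ≠ 0 := left_ne_zero_of_mul hb0
  obtain ⟨p, q, hpq⟩ := Ideal.mem_span_pair.1 (show g ∈ Ideal.span {g * a', g * b'} by
    rw [hg]; exact Submodule.mem_span_singleton_self g)
  refine ⟨a', b', right_ne_zero_of_mul hb0, ⟨p, q, mul_left_cancel₀ hg0 (by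
    linear_combination hpq)⟩, ?_⟩
  have : (g : F) ≠ 0 := by simpa using hg0
  change ((g * a' : RS F N) : F) / ((g * b' : RS F N) : F) = _
  push_cast
  rw [mul_div_mul_left _ _ this]

/-- The Steinberg relation. -/
theorem stein {x : F} (hx : x ≠ 0) (hx1 : 1 - x ≠ 0) : r.T x (1 - x) = 0 := by
  obtain ⟨a, b, hb, hab, rfl⟩ := exists_coprime_frac (N := N) x
  have hb' : (b : F) ≠ 0 := by simpa using hb
  have ha' : (a : F) ≠ 0 := fun h => hx (by simp [h])
  have ha : a ≠ 0 := by simpa using ha'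
  have e : 1 - (a : F) / b = ((b - a : RS F N) : F) / b := by push_cast; field_simp
  rw [e] at hx1 ⊢
  have hc' : ((b - a : RS F N) : F) ≠ 0 := fun h => hx1 (by rw [h, zero_div])
  have hc : b - a ≠ 0 := fun h => hc' (by rw [h]; rfl)
  obtain ⟨p, q, hpq⟩ := id hab
  have := r.fin b hb
  rw [r.div_left ha' hb' hx1, r.div_right ha' hc' hb', r.div_right hb' hc' hb',
    r.recip a (b - a) ha hc ⟨p + q, q, by linear_combination hpq⟩, r.recip a b ha hb hab,
    r.recip b (b - a) hb hc ⟨p + q, -p, by linear_combination hpq⟩, r.self_eq hb,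
    zs_congr ζ (a := b - a) (a' := b) (b := a) ⟨-1, by ring⟩,
    zs_congr ζ (a := b) (a' := a) (b := b - a) ⟨1, by ring⟩,
    zs_congr ζ (a := b - a) (a' := -1 * a) (b := b) ⟨1, by ring⟩,
    zs_mul_left r.zeta isUnit_six_RS isCoprime_one_left.neg_left hab]
  linear_combination r.zs_neg_one_add b hb

theorem self_add {x : F} (hx : x ≠ 0) : r.T x x + r.T x x = 0 := by
  linear_combination r.anti x x hx hx

end RecT

/-- The reduction `ℤ/6 → ℤ/3`. -/
def c63 : ZMod 6 →+* ZMod 3 := ZMod.castHom (by norm_num) (ZMod 3)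

namespace RecT

variable {F : Type} [Field F] [NumberField F] {N : ℕ} [hG : SGood F N] {ζ : RS F N}
  (r : RecT F N ζ)

open Classical in
/-- The cubic bicharacter `c = T mod 3`. -/
def bi : B83.Bi F where
  c x y := if x = 0 ∨ y = 0 then 0 else c63 (r.T x y)
  zero_left y := by simp
  zero_right x := by simp
  mul_left {x x'} y hx hx' := by
    by_cases hy : y = 0
    · simp [hy]
    · simp [hx, hx', hy, r.mul_left x x' y hx hx' hy]
  mul_right x {y y'} hy hy' := by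
    by_cases hx : x = 0
    · simp [hx]
    · simp [hx, hy', hy, r.mul_right hx hy hy']
  self x := by
    by_cases hx : x = 0
    · simp [hx]
    · simp only [hx, or_self, if_false]
      apply B83.eq_zero_of_two
      rw [← map_add, r.self_add hx, map_zero]
  stein x := by
    split_ifs with h
    · rfl
    · rw [r.stein (fun h0 => h (Or.inl h0)) (fun h0 => h (Or.inr h0)), map_zero]

theorem bi_c {x y : F} (hx : x ≠ 0) (hy : y ≠ 0) : r.bi.c x y = c63 (r.T x y) := by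
  simp [bi, hx, hy]

open Classical in
/-- The cubic symbol `s x y = zs ζ x y mod 3`. -/
def sy : B83.Sy r.bi (RS F N) where
  s x y := if y = 0 then 0 else c63 (zs ζ x y)
  congr h := by rw [zs_congr ζ h]
  mul_left {x x' y} h h' := by
    by_cases hy : y = 0
    · simp [hy]
    · have := r.fin y hy
      simp [hy, zs_mul_left r.zeta isUnit_six_RS h h']
  mul_right {x y y'} h h' hy hy' := by
    have := r.fin _ (mul_ne_zero hy hy')
    simp [hy, hy', zs_mul_right r.zeta isUnit_six_RS hy (h.mul_right h')]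
  unit x {y} hy := by simp [zs_unit ζ x hy]
  zero x := by simp
  recip {x y} h hx hy := by
    have hx' : (x : F) ≠ 0 := by simpa using hx
    have hy' : (y : F) ≠ 0 := by simpa using hy
    change r.bi.c (x : F) (y : F) = _
    rw [r.bi_c hx' hy', r.recip x y hx hy h, if_neg hx, if_neg hy, map_sub]

theorem sy_s (x : RS F N) {y : RS F N} (hy : y ≠ 0) : r.sy.s x y = c63 (zs ζ x y) := by
  simp [sy, hy]

end RecT

end Crest.Agent.T27
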