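import Crest.Agent.T27.LnkA_61

/-!
# Row 27: the (conjugate) cubic symbol and the cubic bicharacter on `F` (helper60)

`syS ζ x y = conj (x / y)₃` for coprime `x, y ∈ RS F N` (zero otherwise), `ccS T x y = e(-T(x,y)/3)`.
These are the fields `sy`, `cc` of `TH.Ar F`.
-/

set_option autoImplicit false
set_option linter.unusedSectionVars false

noncomputable section

open NumberField
open scoped ComplexConjugate

namespace Crest.Agent.T27

open Rc

/-- `k ↦ exp(-2πik/3)` on `ZMod 6`. -/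
def w3 (k : ZMod 6) : ℂ := ZMod.stdAddChar (4 * k)

theorem w3_add (k l : ZMod 6) : w3 (k + l) = w3 k * w3 l := by
  rw [w3, mul_add, AddChar.map_add_eq_mul]; rfl

theorem w3_zero : w3 0 = 1 := by rw [w3, mul_zero, AddChar.map_zero_eq_one]

theorem w3_cube (k : ZMod 6) : w3 k ^ 3 = 1 := by
  have h : k + k + k = 3 * k := by ring
  have h2 : 4 * (3 * k) = 0 := by rw [← mul_assoc, show (4 * 3 : ZMod 6) = 0 from rfl, zero_mul]
  calc w3 k ^ 3 = w3 (k + k + k) := by rw [w3_add, w3_add]; ring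
    _ = 1 := by rw [h, w3, h2, AddChar.map_zero_eq_one]

theorem norm_w3 (k : ZMod 6) : ‖w3 k‖ = 1 := by
  rw [w3, ZMod.stdAddChar_apply, Circle.norm_coe]

theorem w3_neg (k : ZMod 6) : w3 (-k) = conj (w3 k) := by
  have h1 : w3 (-k) * w3 k = 1 := by rw [← w3_add, neg_add_cancel, w3_zero]
  have h2 : conj (w3 k) * w3 k = 1 := by
    rw [mul_comm, Complex.mul_conj, Complex.normSq_eq_norm_sq, norm_w3]; simp
  have h3 : w3 k ≠ 0 := right_ne_zero_of_mul_eq_one h1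
  exact mul_right_cancel₀ h3 (h1.trans h2.symm)

theorem w3_sub (k l : ZMod 6) : w3 (k - l) = w3 k * conj (w3 l) := by
  rw [sub_eq_add_neg, w3_add, w3_neg]

theorem w3_eq_one_iff {k : ZMod 6} : w3 k = 1 ↔ 4 * k = 0 := by
  rw [w3, ← AddChar.map_zero_eq_one (ZMod.stdAddChar (N := 6)), ZMod.injective_stdAddChar.eq_iff]

theorem cop_of_unit60 {R : Type*} [CommRing R] {u : R} (hu : IsUnit u) (b : R) :
    IsCoprime u b := by
  obtain ⟨v, hv⟩ := hu.exists_left_inv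
  exact ⟨v, 0, by rw [hv, zero_mul, add_zero]⟩

variable {F : Type} [Field F] {N : ℕ}

open Classical in
/-- The conjugate cubic symbol `conj (x / y)₃` on `RS F N`, as a function on `F`. -/
def syS (ζ : RS F N) (x y : F) : ℂ :=
  if h : x ∈ RS F N ∧ y ∈ RS F N then
    if IsCoprime (⟨x, h.1⟩ : RS F N) ⟨y, h.2⟩ then w3 (zs ζ ⟨x, h.1⟩ ⟨y, h.2⟩) else 0
  else 0

/-- The cubic bicharacter. -/
def ccS (T : F → F → ZMod 6) (x y : F) : ℂ := w3 (T x y)

theorem syS_cop (ζ : RS F N) {x y : RS F N} (h : IsCoprime x y) : syS ζ x y = w3 (zs ζ x y) := by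
  rw [syS, dif_pos ⟨x.2, y.2⟩, if_pos h]

theorem syS_ncop (ζ : RS F N) {x y : RS F N} (h : ¬ IsCoprime x y) : syS ζ (x : F) y = 0 := by
  rw [syS, dif_pos ⟨x.2, y.2⟩, if_neg h]

namespace RecT

variable {ζ : RS F N} (h : RecT F N ζ) [NumberField F] [hG : SGood F N]

include h

theorem sy_mul_left : ∀ x ∈ RS F N, ∀ x' ∈ RS F N, ∀ y ∈ RS F N, y ≠ 0 →
    syS ζ (x * x') y = syS ζ x y * syS ζ x' y := by
  intro x hx x' hx' y hy h0
  lift x to RS F N using hx
  lift x' to RS F N using hx'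
  lift y to RS F N using hy
  have := h.fin y fun e => h0 (by rw [e]; rfl)
  rw [← Subring.coe_mul]
  by_cases h1 : IsCoprime x y
  · by_cases h2 : IsCoprime x' y
    · rw [syS_cop ζ h1, syS_cop ζ h2, syS_cop ζ (h1.mul_left h2),
        zs_mul_left h.zeta isUnit_six_RS h1 h2, w3_add]
    · rw [syS_ncop ζ h2, mul_zero, syS_ncop ζ fun e => h2 e.of_mul_left_right]
  · rw [syS_ncop ζ h1, zero_mul, syS_ncop ζ fun e => h1 e.of_mul_left_left]

theorem sy_mul_right : ∀ x ∈ RS F N, ∀ y ∈ RS F N, ∀ y' ∈ RS F N, y ≠ 0 → y' ≠ 0 →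
    syS ζ x (y * y') = syS ζ x y * syS ζ x y' := by
  intro x hx y hy y' hy' h0 h0'
  lift x to RS F N using hx
  lift y to RS F N using hy
  lift y' to RS F N using hy'
  have n1 : y ≠ 0 := fun e => h0 (by rw [e]; rfl)
  have n2 : y' ≠ 0 := fun e => h0' (by rw [e]; rfl)
  have := h.fin _ (mul_ne_zero n1 n2)
  rw [← Subring.coe_mul]
  by_cases h1 : IsCoprime x y
  · by_cases h2 : IsCoprime x y'
    · rw [syS_cop ζ h1, syS_cop ζ h2, syS_cop ζ (h1.mul_right h2),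
        zs_mul_right h.zeta isUnit_six_RS n1 (h1.mul_right h2), w3_add]
    · rw [syS_ncop ζ h2, mul_zero, syS_ncop ζ fun e => h2 e.of_mul_right_right]
  · rw [syS_ncop ζ h1, zero_mul, syS_ncop ζ fun e => h1 e.of_mul_right_left]

theorem sy_congr : ∀ x ∈ RS F N, ∀ y ∈ RS F N, ∀ t ∈ RS F N, y ≠ 0 →
    syS ζ (x + y * t) y = syS ζ x y := by
  intro x hx y hy t ht _
  lift x to RS F N using hx
  lift y to RS F N using hy
  lift t to RS F N using ht
  rw [← Subring.coe_mul, ← Subring.coe_add]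
  by_cases h1 : IsCoprime x y
  · rw [syS_cop ζ h1, syS_cop ζ (h1.add_mul_left_left t), zs_congr ζ (a' := x) ⟨t, by ring⟩]
  · rw [syS_ncop ζ h1, syS_ncop ζ fun e => h1 (IsCoprime.add_mul_left_left_iff.1 e)]

theorem sy_unit : ∀ x ∈ RS F N, ∀ y ∈ RS F N, y ≠ 0 → y⁻¹ ∈ RS F N → syS ζ x y = 1 := by
  intro x hx y hy h0 hi
  lift x to RS F N using hx
  lift y to RS F N using hy
  have hu : IsUnit y := isUnit_iff_subring.2 ⟨h0, hi⟩
  rw [syS_cop ζ (cop_of_unit60 hu x).symm, zs_unit ζ x hu, w3_zero]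

theorem sy_cube (x y : RS F N) (_ : y ≠ 0) (hc : IsCoprime x y) : syS ζ (x : F) y ^ 3 = 1 := by
  rw [syS_cop ζ hc, w3_cube]

theorem sy_nontriv (p : RS F N) (hp : Prime p) :
    ∃ x : RS F N, IsCoprime x p ∧ syS ζ (x : F) p ≠ 1 := by
  have hfin := h.fin p hp.ne_zero
  have hpr : (Ideal.span {p}).IsPrime := (Ideal.span_singleton_prime hp.ne_zero).2 hp
  set K := RS F N ⧸ Ideal.span {p} with hK
  obtain ⟨g, hg⟩ := IsCyclic.exists_generator (α := Kˣ)
  obtain ⟨x, hx⟩ := Ideal.Quotient.mk_surjective (g : K)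
  have hnd : ¬ p ∣ x := fun e => g.ne_zero (by
    rw [← hx]; exact Ideal.Quotient.eq_zero_iff_mem.2 (Ideal.mem_span_singleton.2 e))
  have hc : IsCoprime x p := ((hp.irreducible.coprime_iff_not_dvd).2 hnd).symm
  refine ⟨x, hc, fun e => ?_⟩
  rw [syS_cop ζ hc, w3_eq_one_iff] at e
  have h1 := zs_prime h.zeta isUnit_six_RS hp hnd
  have h2 : ((Ideal.Quotient.mk (Ideal.span {p})) x) ^ ((Nat.card K - 1) / 6) =
      (Ideal.Quotient.mk (Ideal.span {p}) ζ) ^ (zs ζ x p).val := by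
    rw [← map_pow, ← map_pow]
    exact Ideal.Quotient.eq.2 (Ideal.mem_span_singleton.2 h1)
  have h3 : ζ ^ ((zs ζ x p).val * 2) = 1 := by
    have : 6 ∣ (zs ζ x p).val * 2 := by
      generalize zs ζ x p = k at e
      revert k; decide
    obtain ⟨c, hc⟩ := this
    rw [hc, pow_mul, zeta_six h.zeta, one_pow]
  have h4 : g ^ ((Nat.card K - 1) / 6 * 2) = 1 := by
    apply Units.ext
    rw [Units.val_pow_eq_pow_val, ← hx, pow_mul, h2, ← pow_mul, ← map_pow, h3, map_one,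
      Units.val_one]
  have h5 := orderOf_dvd_of_pow_eq_one h4
  let _ : Field K := (Finite.isField_of_domain K).toField
  rw [orderOf_eq_card_of_forall_mem_zpowers hg, Nat.card_units] at h5
  have h6 := card_eq (Q := K) h.zeta isUnit_six_RS
  have h7 : 1 < Nat.card K := Finite.one_lt_card
  have h8 := Nat.le_of_dvd (by omega) h5
  omega

theorem cc_mul_left (x x' y : F) (hx : x ≠ 0) (hx' : x' ≠ 0) (hy : y ≠ 0) :
    ccS h.T (x * x') y = ccS h.T x y * ccS h.T x' y := by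
  rw [ccS, h.mul_left _ _ _ hx hx' hy, w3_add]; rfl

theorem cc_mul_right (x y y' : F) (hx : x ≠ 0) (hy : y ≠ 0) (hy' : y' ≠ 0) :
    ccS h.T x (y * y') = ccS h.T x y * ccS h.T x y' := by
  rw [ccS, h.mul_right hx hy hy', w3_add]; rfl

theorem cc_swap (x y : F) (hx : x ≠ 0) (hy : y ≠ 0) : ccS h.T x y * ccS h.T y x = 1 := by
  rw [ccS, ccS, ← w3_add, h.anti x y hx hy, add_neg_cancel, w3_zero]

theorem cc_P : ∀ z ∈ LS F N, ∀ y : F, y ≠ 0 → ccS h.T (1 + (N : F) ^ 3 * z) y = 1 := by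
  intro z hz y hy
  rw [ccS, h.deep_LS hz hy, w3_zero]

theorem cc_eq (x y : RS F N) (hx : x ≠ 0) (hy : y ≠ 0) (hc : IsCoprime x y) :
    ccS h.T x y = syS ζ (x : F) y * conj (syS ζ (y : F) x) := by
  rw [ccS, h.recip x y hx hy hc, w3_sub, syS_cop ζ hc, syS_cop ζ hc.symm]

end RecT

end Crest.Agent.T27
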