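import Crest.Agent.T27.ThB_54

/-!
# Row 27, theta leaf C2 (helper94), part A: the Gauss sums `gn` and the coefficients `thF`
-/

set_option autoImplicit false

noncomputable section

namespace Crest.Agent.T27.TH

open scoped ComplexConjugate
open NumberField

namespace M94

section Gen

variable {R : Type*} [CommRing R]

/-- The sum over the residue classes. -/
def sumI (I : Ideal R) (φ : R → ℂ) : ℂ := ∑ᶠ x : R ⧸ I, φ x.out

/-- Periodic functions. -/
def PerI (I : Ideal R) (φ : R → ℂ) : Prop := ∀ x y, x - y ∈ I → φ x = φ y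

theorem sumI_eq {I : Ideal R} {φ : R → ℂ} (hφ : PerI I φ) {ι : Type*} (g : ι → R)
    (hg : Function.Bijective fun i => Ideal.Quotient.mk I (g i)) :
    sumI I φ = ∑ᶠ i, φ (g i) := by
  symm
  refine finsum_eq_of_bijective _ hg fun i => hφ _ _ ?_
  rw [← Ideal.Quotient.eq, Ideal.Quotient.mk_out]

theorem sumI_mul {m t : R} {φ : R → ℂ} (hφ : PerI (Ideal.span {m}) φ) (h : IsCoprime t m) :
    sumI (Ideal.span {m}) φ = sumI (Ideal.span {m}) fun x => φ (t * x) := by
  refine sumI_eq hφ (fun x : R ⧸ Ideal.span {m} => t * x.out) ?_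
  obtain ⟨a, b, hab⟩ := h
  have hu : IsUnit (Ideal.Quotient.mk (Ideal.span {m}) t) := by
    refine IsUnit.of_mul_eq_one (Ideal.Quotient.mk (Ideal.span {m}) a) ?_
    rw [← map_mul, ← map_one (Ideal.Quotient.mk (Ideal.span {m})), Ideal.Quotient.eq,
      Ideal.mem_span_singleton]
    exact ⟨-b, by linear_combination hab⟩
  simp only [map_mul, Ideal.Quotient.mk_out]
  exact hu.unit.mulLeft_bijective

theorem sumI_crt {m m' : R} (h : IsCoprime m m') [Finite (R ⧸ Ideal.span {m})]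
    [Finite (R ⧸ Ideal.span {m'})] {φ φ₁ φ₂ : R → ℂ} (hφ : PerI (Ideal.span {m * m'}) φ)
    (hf : ∀ a b, φ (m' * a + m * b) = φ₁ a * φ₂ b) :
    sumI (Ideal.span {m * m'}) φ = sumI (Ideal.span {m}) φ₁ * sumI (Ideal.span {m'}) φ₂ := by
  have := Fintype.ofFinite (R ⧸ Ideal.span {m})
  have := Fintype.ofFinite (R ⧸ Ideal.span {m'})
  rw [sumI_eq hφ (fun p : (R ⧸ Ideal.span {m}) × (R ⧸ Ideal.span {m'}) =>
    m' * p.1.out + m * p.2.out)]
  · simp only [sumI, finsum_eq_sum_of_fintype, hf, Fintype.sum_prod_type, Finset.sum_mul_sum]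
  constructor
  · rintro ⟨a, b⟩ ⟨a', b'⟩ hab
    simp only [Ideal.Quotient.eq, Ideal.mem_span_singleton] at hab
    obtain ⟨c, hc⟩ := hab
    have h1 : m ∣ a.out - a'.out :=
      h.dvd_of_dvd_mul_left ⟨m' * c - (b.out - b'.out), by linear_combination hc⟩
    have h2 : m' ∣ b.out - b'.out :=
      h.symm.dvd_of_dvd_mul_left ⟨m * c - (a.out - a'.out), by linear_combination hc⟩
    rw [← Ideal.mem_span_singleton, ← Ideal.Quotient.eq, Ideal.Quotient.mk_out,
      Ideal.Quotient.mk_out] at h1 h2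
    rw [h1, h2]
  · intro x
    obtain ⟨x, rfl⟩ := Ideal.Quotient.mk_surjective x
    obtain ⟨u, v, huv⟩ := h
    refine ⟨(Ideal.Quotient.mk _ (v * x), Ideal.Quotient.mk _ (u * x)), ?_⟩
    have h1 : m ∣ (Ideal.Quotient.mk (Ideal.span {m}) (v * x)).out - v * x := by
      rw [← Ideal.mem_span_singleton, ← Ideal.Quotient.eq, Ideal.Quotient.mk_out]
    have h2 : m' ∣ (Ideal.Quotient.mk (Ideal.span {m'}) (u * x)).out - u * x := by
      rw [← Ideal.mem_span_singleton, ← Ideal.Quotient.eq, Ideal.Quotient.mk_out]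
    obtain ⟨c, hc⟩ := h1
    obtain ⟨d, hd⟩ := h2
    simp only [Ideal.Quotient.eq, Ideal.mem_span_singleton]
    exact ⟨c + d, by linear_combination m' * hc + m * hd + x * huv⟩

theorem sumI_const_mul (I : Ideal R) [Finite (R ⧸ I)] (c : ℂ) (φ : R → ℂ) :
    (sumI I fun x => c * φ x) = c * sumI I φ := by
  have := Fintype.ofFinite (R ⧸ I)
  simp only [sumI, finsum_eq_sum_of_fintype, Finset.mul_sum]

theorem sumI_unit {m : R} (hm : IsUnit m) {φ : R → ℂ} {c : ℂ} (h : ∀ x, φ x = c) :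
    sumI (Ideal.span {m}) φ = c := by
  have : Subsingleton (R ⧸ Ideal.span {m}) :=
    Ideal.Quotient.subsingleton_iff.2 (Ideal.span_singleton_eq_top.2 hm)
  have : Unique (R ⧸ Ideal.span {m}) := uniqueOfSubsingleton 0
  rw [sumI, finsum_unique, h]

end Gen

theorem mul_conj_of_cube {z : ℂ} (h : z ^ 3 = 1) : z * conj z = 1 := by
  have h1 : ‖z‖ = 1 := Complex.norm_eq_one_of_pow_eq_one h (by norm_num)
  rw [Complex.mul_conj, Complex.normSq_eq_norm_sq, h1]; norm_num

theorem sq_of_cube {z : ℂ} (h : z ^ 3 = 1) : z * z = conj z := by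
  have := mul_conj_of_cube h
  linear_combination (-(z * z)) * this + conj z * h

variable {F : Type} [Field F] [NumberField F] [Emb F] [Ar F]

theorem ur_of_isUnit {u : RR F} (hu : IsUnit u) : UR (u : F) := by
  obtain ⟨v, hv⟩ := hu.exists_right_inv
  have hv' : (u : F) * v = 1 := by exact_mod_cast congrArg (fun x : RR F => (x : F)) hv
  have h0 : (u : F) ≠ 0 := left_ne_zero_of_mul_eq_one hv'
  refine ⟨h0, u.2, ?_⟩
  rw [← eq_inv_of_mul_eq_one_right hv']; exact v.2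

theorem isUnit_of_ur {u : F} (hu : UR u) : IsUnit (⟨u, hu.2.1⟩ : RR F) :=
  IsUnit.of_mul_eq_one ⟨u⁻¹, hu.2.2⟩ (Subtype.ext (mul_inv_cancel₀ hu.1))

theorem coe_ne {m : RR F} (hm : m ≠ 0) : (m : F) ≠ 0 := fun h => hm (Subtype.ext h)

theorem nm_unit {u : RR F} (hu : IsUnit u) : Ar.nm (u : F) = 1 := by
  have : Subsingleton (RR F ⧸ Ideal.span {u}) :=
    Ideal.Quotient.subsingleton_iff.2 (Ideal.span_singleton_eq_top.2 hu)
  have : Unique (RR F ⧸ Ideal.span {u}) := uniqueOfSubsingleton 0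
  rw [Ar.nm_eq u hu.ne_zero, Nat.card_unique, Nat.cast_one]

theorem nm_ur {u : F} (hu : UR u) : Ar.nm u = 1 := nm_unit (isUnit_of_ur hu)

theorem sy_mul_conj {x y : RR F} (hy : y ≠ 0) (h : IsCoprime x y) :
    Ar.sy (x : F) y * conj (Ar.sy (x : F) y) = 1 := mul_conj_of_cube (Ar.sy_cube x y hy h)

theorem sy_mulL (x x' : RR F) {y : RR F} (hy : y ≠ 0) :
    Ar.sy ((x * x' : RR F) : F) y = Ar.sy (x : F) y * Ar.sy (x' : F) y :=
  Ar.sy_mul_left _ x.2 _ x'.2 _ y.2 (coe_ne hy)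

theorem sy_mulR (x : RR F) {y y' : RR F} (hy : y ≠ 0) (hy' : y' ≠ 0) :
    Ar.sy (x : F) ((y * y' : RR F) : F) = Ar.sy (x : F) y * Ar.sy (x : F) y' :=
  Ar.sy_mul_right _ x.2 _ y.2 _ y'.2 (coe_ne hy) (coe_ne hy')

theorem sy_per {x x' y : RR F} (hy : y ≠ 0) (h : y ∣ x - x') :
    Ar.sy (x : F) y = Ar.sy (x' : F) y := by
  obtain ⟨t, ht⟩ := h
  have : x = x' + y * t := by linear_combination ht
  rw [this]
  exact Ar.sy_congr _ x'.2 _ y.2 _ t.2 (coe_ne hy)

theorem sy_unitR (x : RR F) {u : RR F} (hu : IsUnit u) : Ar.sy (x : F) u = 1 :=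
  Ar.sy_unit _ x.2 _ u.2 (ur_of_isUnit hu).1 (ur_of_isUnit hu).2.2

theorem sy_cubeL {x y : RR F} (hy : y ≠ 0) (h : IsCoprime x y) :
    Ar.sy ((x ^ 3 : RR F) : F) y = 1 := by
  rw [pow_three, sy_mulL _ _ hy, sy_mulL _ _ hy, ← pow_three, Ar.sy_cube x y hy h]

theorem sy_cubeR {x y : RR F} (hy : y ≠ 0) (h : IsCoprime x y) :
    Ar.sy (x : F) ((y ^ 3 : RR F) : F) = 1 := by
  rw [pow_three, sy_mulR _ hy (mul_ne_zero hy hy), sy_mulR _ hy hy, ← pow_three,
    Ar.sy_cube x y hy h]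

theorem sy_one {y : RR F} (hy : y ≠ 0) : Ar.sy ((1 : RR F) : F) y = 1 := by
  have := sy_cubeL hy (isCoprime_one_left (x := y))
  rwa [one_pow] at this

/-- The summand of the Gauss sum. -/
def gt (r : F) (m x : RR F) : ℂ := conj (Ar.sy (x : F) (m : F)) * Ar.psi (r * (x : F) / (m : F))

/-- The Gauss sum. -/
def GS (r : F) (m : RR F) : ℂ := sumI (Ideal.span {m}) (gt r m)

theorem gn_eq (r : F) (m : RR F) :
    gn r m = ((Real.sqrt (Ar.nm (m : F)) : ℝ) : ℂ)⁻¹ * GS r m := rfl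

theorem gt_per (r : RR F) {m : RR F} (hm : m ≠ 0) : PerI (Ideal.span {m}) (gt (r : F) m) := by
  intro x y h
  rw [Ideal.mem_span_singleton] at h
  rw [gt, gt, sy_per hm h]
  obtain ⟨t, ht⟩ := h
  have h1 : (x : F) = y + m * t := by
    have : x = y + m * t := by linear_combination ht
    rw [this]; simp
  have h2 : (r : F) * x / m = r * y / m + r * t := by
    rw [h1]; field_simp [coe_ne hm]
  rw [h2, Ar.psi_add, Ar.psi_R ((r : F) * t) (mul_mem r.2 t.2), mul_one]

theorem GS_twist (r : RR F) {t m : RR F} (hm : m ≠ 0) (h : IsCoprime t m) :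
    GS ((r * t : RR F) : F) m = Ar.sy (t : F) m * GS (r : F) m := by
  have := Ar.fin_quot m hm
  have h1 : GS (r : F) m = conj (Ar.sy (t : F) m) * GS ((r * t : RR F) : F) m := by
    rw [GS, sumI_mul (gt_per r hm) h, GS, ← sumI_const_mul]
    congr 1
    funext x
    rw [gt, gt, sy_mulL _ _ hm, map_mul, mul_assoc]
    congr 3
    simp only [Subring.coe_mul]; ring
  rw [h1, ← mul_assoc, sy_mul_conj hm h, one_mul]

theorem GS_unit_mul (r : F) {u m : RR F} (hm : m ≠ 0) (hu : IsUnit u) :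
    GS (r * u) (u * m) = GS r m := by
  rw [GS, GS, Ideal.span_singleton_mul_left_unit hu]
  congr 1
  funext x
  rw [gt, gt, sy_mulR _ hu.ne_zero hm, sy_unitR _ hu, one_mul]
  congr 2
  have := coe_ne hm
  have := coe_ne hu.ne_zero
  simp only [Subring.coe_mul]; field_simp

theorem GS_cube {u m : RR F} (hm : m ≠ 0) (hu : IsUnit u) : GS 1 (u ^ 3 * m) = GS 1 m := by
  have hu3 : IsUnit (u ^ 3) := hu.pow 3
  have hm' : u ^ 3 * m ≠ 0 := mul_ne_zero hu3.ne_zero hm
  have hc : ∀ v : RR F, IsUnit v → IsCoprime v (u ^ 3 * m) := fun v hv => by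
    obtain ⟨w, hw⟩ := hv.exists_left_inv
    exact ⟨w, 0, by rw [hw, zero_mul, add_zero]⟩
  have h1 := GS_twist (1 : RR F) hm' (hc _ hu3)
  rw [sy_cubeL hm' (hc _ hu), one_mul, one_mul] at h1
  have h2 := GS_unit_mul (1 : F) hm hu3
  rw [one_mul] at h2
  rw [← h2, h1, OneMemClass.coe_one]

theorem GS_crt (r : RR F) {m m' : RR F} (hm : m ≠ 0) (hm' : m' ≠ 0) (h : IsCoprime m m') :
    GS (r : F) (m * m') =
      conj (Ar.sy (m' : F) m) * conj (Ar.sy (m : F) m') * (GS (r : F) m * GS (r : F) m') := by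
  have := Ar.fin_quot m hm
  have := Ar.fin_quot m' hm'
  rw [GS, sumI_crt h (gt_per r (mul_ne_zero hm hm'))
    (φ₁ := fun a => conj (Ar.sy (m' : F) m) * gt (r : F) m a)
    (φ₂ := fun b => conj (Ar.sy (m : F) m') * gt (r : F) m' b), sumI_const_mul, sumI_const_mul,
    GS, GS]
  · ring
  intro a b
  have e1 : Ar.sy ((m' * a + m * b : RR F) : F) m = Ar.sy ((m' * a : RR F) : F) m :=
    sy_per hm ⟨b, by ring⟩
  have e2 : Ar.sy ((m' * a + m * b : RR F) : F) m' = Ar.sy ((m * b : RR F) : F) m' :=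
    sy_per hm' ⟨a, by ring⟩
  have e3 : (r : F) * ((m' * a + m * b : RR F) : F) / ((m * m' : RR F) : F) =
      r * a / m + r * b / m' := by
    have := coe_ne hm
    have := coe_ne hm'
    simp only [Subring.coe_mul, Subring.coe_add]; field_simp
  rw [gt, gt, gt, sy_mulR _ hm hm', e1, e2, sy_mulL _ _ hm, sy_mulL _ _ hm', e3, Ar.psi_add]
  simp only [map_mul]; ring

theorem GS_of_unit (r : RR F) {u : RR F} (hu : IsUnit u) : GS (r : F) u = 1 := by
  refine sumI_unit hu fun x => ?_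
  rw [gt, sy_unitR _ hu, map_one, one_mul, div_eq_mul_inv]
  exact Ar.psi_R _ (mul_mem (mul_mem r.2 x.2) (ur_of_isUnit hu).2.2)

theorem GS_prime {p : RR F} (hp : Prime p) : ‖GS 1 p‖ ^ 2 = Ar.nm (p : F) := by
  have hp0 := hp.ne_zero
  have := Ar.fin_quot p hp0
  have := Fintype.ofFinite (RR F ⧸ Ideal.span {p})
  have hmax : (Ideal.span {p}).IsMaximal :=
    PrincipalIdealRing.isMaximal_of_irreducible hp.irreducible
  let : Field (RR F ⧸ Ideal.span {p}) := Ideal.Quotient.field _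
  have hout : ∀ x y : RR F, Ideal.Quotient.mk (Ideal.span {p}) x = Ideal.Quotient.mk _ y →
      p ∣ x - y := fun x y h => by rwa [Ideal.Quotient.eq, Ideal.mem_span_singleton] at h
  let χ : MulChar (RR F ⧸ Ideal.span {p}) ℂ :=
    { toFun := fun x => conj (Ar.sy ((x.out : RR F) : F) p)
      map_one' := by
        rw [sy_per hp0 (hout _ 1 (by rw [Ideal.Quotient.mk_out, map_one])), sy_one hp0, map_one]
      map_mul' := fun x y => by
        rw [sy_per hp0 (hout _ (x.out * y.out) (by simp only [map_mul, Ideal.Quotient.mk_out])),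
          sy_mulL _ _ hp0, map_mul]
      map_nonunit' := fun x hx => by
        have hx0 : x = 0 := by simpa using hx
        have : p ∣ x.out := by
          simpa using hout x.out 0 (by rw [Ideal.Quotient.mk_out, map_zero, hx0])
        show conj (Ar.sy ((x.out : RR F) : F) p) = 0
        rw [Ar.sy_zero _ _ hp0 fun h => hp.not_isUnit (h.isUnit_of_dvd' this dvd_rfl), map_zero] }
  have hps : ∀ x y : RR F, p ∣ x - y → Ar.psi (1 * (x : F) / p) = Ar.psi (1 * (y : F) / p) := by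
    rintro x y ⟨t, ht⟩
    have h1 : (x : F) = y + p * t := by
      have : x = y + p * t := by linear_combination ht
      rw [this]; simp
    have h2 : 1 * (x : F) / p = 1 * y / p + t := by
      rw [h1]; field_simp [coe_ne hp0]
    rw [h2, Ar.psi_add, Ar.psi_R (t : F) t.2, mul_one]
  let ψ : AddChar (RR F ⧸ Ideal.span {p}) ℂ :=
    { toFun := fun x => Ar.psi (1 * ((x.out : RR F) : F) / p)
      map_zero_eq_one' := by
        rw [hps _ 0 (hout _ 0 (by rw [Ideal.Quotient.mk_out, map_zero]))]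
        exact Ar.psi_R _ (by simp)
      map_add_eq_mul' := fun x y => by
        rw [hps _ (x.out + y.out) (hout _ _ (by simp only [map_add, Ideal.Quotient.mk_out])),
          ← Ar.psi_add]
        congr 1
        simp only [Subring.coe_add]; ring }
  have hχ : χ ≠ 1 := by
    obtain ⟨x, hx, hx1⟩ := Ar.sy_nontriv p hp
    intro h
    have hu : IsUnit (Ideal.Quotient.mk (Ideal.span {p}) x) := by
      rw [isUnit_iff_ne_zero, Ne, Ideal.Quotient.eq_zero_iff_mem, Ideal.mem_span_singleton]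
      exact fun h => hp.not_isUnit (hx.isUnit_of_dvd' h dvd_rfl)
    have h1 : χ (Ideal.Quotient.mk _ x) = 1 := by rw [h, MulChar.one_apply hu]
    have h2 : χ (Ideal.Quotient.mk _ x) = conj (Ar.sy (x : F) p) := by
      show conj (Ar.sy (((Ideal.Quotient.mk (Ideal.span {p}) x).out : RR F) : F) p) = _
      rw [sy_per hp0 (hout _ x (Ideal.Quotient.mk_out _))]
    rw [h2] at h1
    exact hx1 (by simpa using congrArg conj h1)
  have hψ : ψ ≠ 1 := by
    intro h
    have h1 : ((p : F)⁻¹) ∈ (Ar.R : Subring F) := by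
      refine Ar.psi_prim _ fun y hy => ?_
      have h2 : ψ (Ideal.Quotient.mk _ ⟨y, hy⟩) = 1 := by rw [h, AddChar.one_apply]
      have h3 : ψ (Ideal.Quotient.mk _ ⟨y, hy⟩) = Ar.psi (1 * y / p) :=
        hps _ ⟨y, hy⟩ (hout _ _ (Ideal.Quotient.mk_out _))
      rw [← h2, h3]; congr 1; ring
    exact hp.not_isUnit (isUnit_of_ur ⟨coe_ne hp0, p.2, h1⟩)
  have hG : GS 1 p = gaussSum χ ψ := by
    rw [GS, sumI, finsum_eq_sum_of_fintype]; rfl
  have h1 := gaussSum_mul_gaussSum_eq_card hχ (AddChar.IsPrimitive.of_ne_one hψ)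
  rw [← star_gaussSum_eq, ← hG, ← starRingEnd_apply, Complex.mul_conj,
    Complex.normSq_eq_norm_sq] at h1
  rw [Ar.nm_eq p hp0, Nat.card_eq_fintype_card]
  exact_mod_cast h1

theorem gn_unit (r : RR F) {u : RR F} (hu : IsUnit u) : gn (r : F) u = 1 := by
  rw [gn_eq, GS_of_unit r hu, nm_unit hu]; simp

theorem gn_crt (r : RR F) {m m' : RR F} (hm : m ≠ 0) (hm' : m' ≠ 0) (h : IsCoprime m m') :
    gn (r : F) (m * m') =
      conj (Ar.sy (m' : F) m) * conj (Ar.sy (m : F) m') * (gn (r : F) m * gn (r : F) m') := by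
  rw [gn_eq, gn_eq, gn_eq, GS_crt r hm hm' h, Subring.coe_mul, Ar.nm_mul,
    Real.sqrt_mul (Ar.nm_pos _ (coe_ne hm)).le, Complex.ofReal_mul, mul_inv]
  ring

theorem gn_twist {t m : RR F} (hm : m ≠ 0) (h : IsCoprime t m) :
    gn (t : F) m = Ar.sy (t : F) m * gn 1 m := by
  have := GS_twist (1 : RR F) hm h
  rw [one_mul, OneMemClass.coe_one] at this
  rw [gn_eq, gn_eq, this]; ring

theorem gn_cube {u m : RR F} (hm : m ≠ 0) (hu : IsUnit u) : gn 1 (u ^ 3 * m) = gn 1 m := by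
  rw [gn_eq, gn_eq, GS_cube hm hu, Subring.coe_mul, Ar.nm_mul, nm_unit (hu.pow 3), one_mul]

theorem norm_gn_prime {p : RR F} (hp : Prime p) : ‖gn 1 p‖ = 1 := by
  have h0 := Ar.nm_pos _ (coe_ne hp.ne_zero)
  rw [gn_eq, norm_mul, norm_inv, Complex.norm_real, Real.norm_of_nonneg (Real.sqrt_nonneg _),
    ← GS_prime hp, Real.sqrt_sq (norm_nonneg _), inv_mul_cancel₀]
  intro h
  rw [← GS_prime hp, h] at h0
  norm_num at h0

theorem norm_gn (m : RR F) (hm : Squarefree m) : ‖gn 1 m‖ = 1 := by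
  induction m using UniqueFactorizationMonoid.induction_on_prime with
  | h₁ => exact absurd hm not_squarefree_zero
  | h₂ u hu => have := gn_unit (1 : RR F) hu; rw [OneMemClass.coe_one] at this; rw [this, norm_one]
  | h₃ a p ha hp ih =>
    have hc : IsCoprime p a := by
      rw [hp.irreducible.coprime_iff_not_dvd]
      rintro ⟨c, rfl⟩
      exact hp.not_isUnit (hm p ⟨c, by ring⟩)
    have := gn_crt (1 : RR F) hp.ne_zero ha hc
    rw [OneMemClass.coe_one] at this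
    rw [this, norm_mul, norm_mul, norm_mul, norm_gn_prime hp, ih hm.of_mul_right,
      Complex.norm_conj, Complex.norm_conj,
      Complex.norm_eq_one_of_pow_eq_one (Ar.sy_cube a p hp.ne_zero hc.symm) (by norm_num),
      Complex.norm_eq_one_of_pow_eq_one (Ar.sy_cube p a ha hc) (by norm_num)]
    norm_num

theorem thF_spec (m d : RR F) (hm : Squarefree m) (hd : d ≠ 0) :
    thF ((m : F) * (d : F) ^ 3) = gn 1 m * ((Real.sqrt (Ar.nm (d : F)) : ℝ) : ℂ) := by
  have h : ∃ p : RR F × RR F, Squarefree p.1 ∧ p.2 ≠ 0 ∧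
      (m : F) * (d : F) ^ 3 = (p.1 : F) * (p.2 : F) ^ 3 := ⟨(m, d), hm, hd, rfl⟩
  rw [thF, dif_pos h]
  obtain ⟨hm', hd', he⟩ := h.choose_spec
  generalize h.choose.1 = m' at hm' he ⊢
  generalize h.choose.2 = d' at hd' he ⊢
  have he' : m * d ^ 3 = m' * d' ^ 3 := Subtype.ext (by simpa using he)
  obtain ⟨a, b, g, hab, rfl, rfl⟩ := UniqueFactorizationMonoid.exists_reduced_factors d hd d'
  have hg : g ≠ 0 := left_ne_zero_of_mul hd
  have hc : IsCoprime a b := hab.isCoprime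
  have h1 : a ^ 3 * m = b ^ 3 * m' :=
    mul_left_cancel₀ (pow_ne_zero 3 hg) (by linear_combination he')
  have ha : IsUnit a := hm' a (Dvd.dvd.trans ⟨a, by ring⟩
    ((hc.pow (m := 3) (n := 3)).dvd_of_dvd_mul_left ⟨m, h1.symm⟩))
  have hb : IsUnit b := hm b (Dvd.dvd.trans ⟨b, by ring⟩
    ((hc.symm.pow (m := 3) (n := 3)).dvd_of_dvd_mul_left ⟨m', h1⟩))
  rw [← gn_cube hm.ne_zero ha, h1, gn_cube hm'.ne_zero hb, Subring.coe_mul, Subring.coe_mul,
    Ar.nm_mul, Ar.nm_mul, nm_unit ha, nm_unit hb]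

/-- The elements of the form `m d³`. -/
def Shape (r : RR F) : Prop := ∃ m d : RR F, Squarefree m ∧ d ≠ 0 ∧ r = m * d ^ 3

theorem thF_of_not_mem {r : F} (hr : r ∉ (Ar.R : Subring F)) : thF r = 0 := by
  rw [thF, dif_neg]
  rintro ⟨p, -, -, h⟩
  exact hr (h ▸ mul_mem p.1.2 (pow_mem p.2.2 3))

theorem thF_of_not_shape {r : RR F} (hr : ¬ Shape r) : thF (r : F) = 0 := by
  rw [thF, dif_neg]
  rintro ⟨p, h1, h2, h⟩
  exact hr ⟨p.1, p.2, h1, h2, Subtype.ext (by simpa using h)⟩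

theorem thF_unit {u : RR F} (hu : IsUnit u) : thF (u : F) = 1 := by
  have h := thF_spec u 1 hu.squarefree one_ne_zero
  have h1 := gn_unit (1 : RR F) hu
  rw [nm_unit isUnit_one] at h
  rw [OneMemClass.coe_one] at h h1
  rw [h1] at h
  simpa using h

theorem thF_cube {p : RR F} (hp : Prime p) (r : RR F) :
    thF ((p : F) ^ 3 * r) = ((Real.sqrt (Ar.nm (p : F)) : ℝ) : ℂ) * thF (r : F) := by
  by_cases h : Shape r
  · obtain ⟨m, d, hm, hd, rfl⟩ := h
    have e : (p : F) ^ 3 * ((m * d ^ 3 : RR F) : F) = m * ((p * d : RR F) : F) ^ 3 := by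
      simp only [Subring.coe_mul, Subring.coe_pow]; ring
    rw [e, thF_spec m _ hm (mul_ne_zero hp.ne_zero hd), Subring.coe_mul, Subring.coe_mul,
      Subring.coe_pow, thF_spec m d hm hd, Ar.nm_mul,
      Real.sqrt_mul (Ar.nm_pos _ (coe_ne hp.ne_zero)).le, Complex.ofReal_mul]
    ring
  · have e : (p : F) ^ 3 * r = ((p ^ 3 * r : RR F) : F) := by simp
    rw [e, thF_of_not_shape h, mul_zero, thF_of_not_shape]
    rintro ⟨m, d, hm, hd, he⟩
    have hpd : p ∣ d := by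
      by_contra hn
      have hc : IsCoprime (p ^ 3) (d ^ 3) := (hp.irreducible.coprime_iff_not_dvd.2 hn).pow
      exact hp.not_isUnit (hm p (Dvd.dvd.trans ⟨p, by ring⟩ (hc.dvd_of_dvd_mul_right ⟨r, he.symm⟩)))
    obtain ⟨d', rfl⟩ := hpd
    exact h ⟨m, d', hm, right_ne_zero_of_mul hd,
      mul_left_cancel₀ (pow_ne_zero 3 hp.ne_zero) (by linear_combination he)⟩

theorem thF_sq {p : RR F} (hp : Prime p) {r : RR F} (hr : ¬ p ∣ r) : thF ((p : F) ^ 2 * r) = 0 := by
  have e : (p : F) ^ 2 * r = ((p ^ 2 * r : RR F) : F) := by simp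
  rw [e, thF_of_not_shape]
  rintro ⟨m, d, hm, hd, he⟩
  by_cases hn : p ∣ d
  · obtain ⟨d', rfl⟩ := hn
    exact hr ⟨m * d' ^ 3, mul_left_cancel₀ (pow_ne_zero 2 hp.ne_zero) (by linear_combination he)⟩
  · have hc : IsCoprime (p ^ 2) (d ^ 3) := (hp.irreducible.coprime_iff_not_dvd.2 hn).pow
    exact hp.not_isUnit (hm p (Dvd.dvd.trans ⟨1, by ring⟩ (hc.dvd_of_dvd_mul_right ⟨r, he.symm⟩)))

theorem thF_prime {p : RR F} (hp : Prime p) {r : RR F} (hr : ¬ p ∣ r) :
    thF ((p : F) * r) = gn (r : F) p * conj (Ar.cc (p : F) r) * thF (r : F) := by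
  have hp0 := hp.ne_zero
  by_cases h : Shape r
  · obtain ⟨m, d, hm, hd, rfl⟩ := h
    have hm0 := hm.ne_zero
    have hc : IsCoprime p (m * d ^ 3) := hp.irreducible.coprime_iff_not_dvd.2 hr
    have hcm : IsCoprime p m := hc.of_mul_right_left
    have hcd : IsCoprime p d := (IsCoprime.pow_right_iff (by norm_num)).1 hc.of_mul_right_right
    have hsq : Squarefree (p * m) :=
      squarefree_mul_iff.2 ⟨hcm.isRelPrime, hp.squarefree, hm⟩
    have e : (p : F) * ((m * d ^ 3 : RR F) : F) = ((p * m : RR F) : F) * (d : F) ^ 3 := by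
      simp only [Subring.coe_mul, Subring.coe_pow]; ring
    have e2 : thF ((m * d ^ 3 : RR F) : F) = gn 1 m * ((Real.sqrt (Ar.nm (d : F)) : ℝ) : ℂ) := by
      rw [Subring.coe_mul, Subring.coe_pow, thF_spec m d hm hd]
    have e3 := gn_crt (1 : RR F) hp0 hm0 hcm
    rw [OneMemClass.coe_one] at e3
    rw [e, thF_spec _ d hsq hd, e2, e3, gn_twist hp0 hc.symm,
      Ar.cc_eq p _ hp0 (mul_ne_zero hm0 (pow_ne_zero 3 hd)) hc, sy_mulL _ _ hp0,
      sy_mulR _ hm0 (pow_ne_zero 3 hd), sy_cubeL hp0 hcd.symm, sy_cubeR hd hcd,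
      ← sq_of_cube (Ar.sy_cube m p hp0 hcm.symm)]
    simp only [mul_one, map_mul, Complex.conj_conj]
    ring
  · have e : (p : F) * r = ((p * r : RR F) : F) := by simp
    rw [e, thF_of_not_shape h, mul_zero, thF_of_not_shape]
    rintro ⟨m, d, hm, hd, he⟩
    have hn : ¬ p ∣ d := by
      rintro ⟨d', rfl⟩
      exact hr ⟨m * p * d' ^ 3, mul_left_cancel₀ hp0 (by linear_combination he)⟩
    have hc : IsCoprime p (d ^ 3) := (hp.irreducible.coprime_iff_not_dvd.2 hn).pow_right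
    obtain ⟨m', rfl⟩ := hc.dvd_of_dvd_mul_right ⟨r, he.symm⟩
    exact h ⟨m', d, hm.of_mul_right, hd, mul_left_cancel₀ hp0 (by linear_combination he)⟩

end M94

end Crest.Agent.T27.TH
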