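import Crest.Agent.T27.MelA_71
import Crest.Agent.T27.ThA_54
import Crest.Agent.T27.HeckeA_87

/-!
# Row 27, reflection, Mellin part B (helper71): unfolding over the unit torus and Mellin transfer

* `exists_weight` : a weight for a discrete group of translations of `P → ℝ`;
* `unfold_family` : unfolding of a countable family of integrable functions;
* `transfer_torus` : the `r`-variable Voronoi identity implies the reflection formula;
* `transfer_F` : the same in the language of `ThA_54` (number fields).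
-/

set_option autoImplicit false

noncomputable section

namespace Crest.Agent.T27.Mel

open scoped ComplexConjugate Topology ENNReal
open MeasureTheory Complex Filter Set
open Crest.Agent.R17

/-! ## unfolding of a family -/

section family

variable {Γ X : Type*} [Group Γ] [Countable Γ] [MulAction Γ X] [MeasurableSpace X]
  {μ : Measure X} {ϖ : X → ℝ}

theorem unfold_family (h : IsWt Γ ϖ)
    (hμ : ∀ γ : Γ, MeasurePreserving (fun x : X => γ • x) μ μ) {ι : Type*} [Countable ι]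
    {φ : ι → X → ℂ} (hφm : ∀ i, Measurable (φ i)) (hφ : ∑' i, ∫⁻ x, ‖φ i x‖ₑ ∂μ ≠ ⊤) :
    Integrable (fun x => (ϖ x : ℂ) * ∑' q : ι × Γ, φ q.1 (q.2 • x)) μ ∧
      ∫ x, (ϖ x : ℂ) * ∑' q : ι × Γ, φ q.1 (q.2 • x) ∂μ = ∑' i, ∫ x, φ i x ∂μ := by
  have hϖ : Measurable fun x => (ϖ x : ℂ) := Complex.measurable_ofReal.comp h.meas
  have hn : ∀ x, ‖(ϖ x : ℂ)‖ₑ = ENNReal.ofReal (ϖ x) := fun x => by
    rw [← ofReal_norm, Complex.norm_real, Real.norm_of_nonneg (h.nonneg x)]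
  have hm0 : ∀ q : ι × Γ, Measurable fun x => φ q.1 (q.2 • x) := fun q =>
    (hφm q.1).comp (hμ q.2).measurable
  have hm : ∀ q : ι × Γ, Measurable fun x => (ϖ x : ℂ) * φ q.1 (q.2 • x) := fun q =>
    hϖ.mul (hm0 q)
  have hrow : ∀ i, ∑' γ : Γ, ∫⁻ x, ‖(ϖ x : ℂ) * φ i (γ • x)‖ₑ ∂μ = ∫⁻ x, ‖φ i x‖ₑ ∂μ := by
    intro i
    rw [← lintegral_tsum fun γ => (hm (i, γ)).enorm.aemeasurable]
    simp only [enorm_mul, hn, ENNReal.tsum_mul_left]
    exact h.lintegral_unfold hμ (hφm i).enorm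
  have htot : ∑' q : ι × Γ, ∫⁻ x, ‖(ϖ x : ℂ) * φ q.1 (q.2 • x)‖ₑ ∂μ ≠ ⊤ := by
    rw [ENNReal.tsum_prod']
    simpa only [hrow] using hφ
  have hfin : ∀ i, ∫⁻ x, ‖φ i x‖ₑ ∂μ ≠ ⊤ := fun i => ENNReal.ne_top_of_tsum_ne_top hφ i
  refine ⟨⟨(hϖ.mul (Measurable.tsum hm0)).aestronglyMeasurable, ?_⟩, ?_⟩
  · refine lt_of_le_of_lt (lintegral_mono fun x => ?_)
      ((lintegral_tsum fun q => (hm q).enorm.aemeasurable).trans_lt htot.lt_top)
    simp only [← tsum_mul_left]
    exact enorm_tsum_le_tsum_enorm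
  simp only [← tsum_mul_left]
  rw [integral_tsum (fun q => (hm q).aestronglyMeasurable) htot]
  have hs : Summable fun q : ι × Γ => ∫ x, (ϖ x : ℂ) * φ q.1 (q.2 • x) ∂μ := by
    refine Summable.of_enorm (ne_top_of_le_ne_top htot (ENNReal.tsum_le_tsum fun q => ?_))
    exact enorm_integral_le_lintegral_enorm _
  rw [hs.tsum_prod]
  refine tsum_congr fun i => ?_
  have hi : Integrable (φ i) μ := ⟨(hφm i).aestronglyMeasurable, (hfin i).lt_top⟩
  rw [← (h.integral_unfold hμ (hφm i) hi).2]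
  simp only [← tsum_mul_left]
  rw [integral_tsum (fun γ => (hm (i, γ)).aestronglyMeasurable) (by rw [hrow]; exact hfin i)]

end family

/-! ## weights for discrete groups of translations -/

section weight

variable {P : Type*} {G : Type*} [Group G]

theorem l_one {l : G → P → ℝ} (hl : ∀ g g', l (g * g') = l g + l g') : l 1 = 0 := by
  have := hl 1 1
  rw [mul_one] at this
  exact left_eq_add.1 this

theorem l_inv {l : G → P → ℝ} (hl : ∀ g g', l (g * g') = l g + l g') (g : G) : l g⁻¹ = -l g := by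
  have := hl g⁻¹ g
  rw [inv_mul_cancel, l_one hl] at this
  exact eq_neg_of_add_eq_zero_left this.symm

/-- The action by translations. -/
@[reducible] def actL (l : G → P → ℝ) (hl : ∀ g g', l (g * g') = l g + l g') :
    MulAction G (P → ℝ) where
  smul g x := x + l g
  one_smul x := by
    show x + l 1 = x
    rw [l_one hl, add_zero]
  mul_smul g g' x := by
    show x + l (g * g') = x + l g' + l g
    rw [hl]; abel

variable [Fintype P]

omit [Group G] in
theorem exists_pos_summable (l : G → P → ℝ) (hd : ∀ R : ℝ, {g | ‖l g‖ ≤ R}.Finite) :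
    ∃ φ : (P → ℝ) → ℝ, Measurable φ ∧ (∀ x, 0 < φ x) ∧ ∀ x, Summable fun g => φ (x + l g) := by
  classical
  set n : ℕ → ℕ := fun k => (hd (2 * k + 1)).toFinset.card with hn
  set ψ : ℕ → ℝ := fun k => (1 / 2) ^ k / (1 + n k) with hψ
  have hψ0 : ∀ k, 0 < ψ k := fun k => by simp only [hψ]; positivity
  refine ⟨fun x => ψ ⌊‖x‖⌋₊, (measurable_from_top (f := ψ)).comp (Nat.measurable_floor.comp
    measurable_norm), fun x => hψ0 _, fun x => ?_⟩
  -- outside of the finite set `‖l g‖ ≤ 2 ‖x‖ + 1`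
  rw [← (hd (2 * ‖x‖ + 1)).summable_compl_iff]
  refine summable_of_sum_le (fun g => (hψ0 _).le) (c := 2) fun S => ?_
  set k : ↥{g | ‖l g‖ ≤ 2 * ‖x‖ + 1}ᶜ → ℕ := fun g => ⌊‖x + l g‖⌋₊ with hk
  have hfib : ∀ j, ∑ g ∈ S.filter (fun g => k g = j), ψ (k g) ≤ (1 / 2) ^ j := by
    intro j
    rw [Finset.sum_congr rfl (g := fun _ => ψ j) fun g hg => by rw [(Finset.mem_filter.1 hg).2],
      Finset.sum_const, nsmul_eq_mul]
    have hc : (S.filter fun g => k g = j).card ≤ n j := by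
      refine Finset.card_le_card_of_injOn (fun g => g.1) (fun g hg => ?_)
        (fun a _ b _ hab => Subtype.ext hab)
      have h1 : k g = j := (Finset.mem_filter.1 (Finset.mem_coe.1 hg)).2
      have h2 : ¬ ‖l g.1‖ ≤ 2 * ‖x‖ + 1 := g.2
      have h3 : ‖x + l g.1‖ < j + 1 := by
        rw [← h1]; exact Nat.lt_floor_add_one _
      have h4 : ‖l g.1‖ ≤ ‖x + l g.1‖ + ‖x‖ := by
        simpa using norm_sub_le (x + l g.1) x
      simp only [Finset.mem_coe, Set.Finite.mem_toFinset, Set.mem_ofPred_eq]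
      linarith
    have hc' : ((S.filter fun g => k g = j).card : ℝ) ≤ 1 + n j := by
      have : ((S.filter fun g => k g = j).card : ℝ) ≤ n j := by exact_mod_cast hc
      linarith
    calc ((S.filter fun g => k g = j).card : ℝ) * ψ j ≤ (1 + n j) * ψ j :=
          mul_le_mul_of_nonneg_right hc' (hψ0 j).le
      _ = (1 / 2) ^ j := by simp only [hψ]; field_simp
  calc ∑ g ∈ S, ψ ⌊‖x + l g.1‖⌋₊ = ∑ j ∈ S.image k, ∑ g ∈ S.filter (fun g => k g = j), ψ (k g) :=
        (Finset.sum_fiberwise_of_maps_to (fun g hg => Finset.mem_image_of_mem k hg) _).symm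
    _ ≤ ∑ j ∈ S.image k, (1 / 2 : ℝ) ^ j := Finset.sum_le_sum fun j _ => hfib j
    _ ≤ ∑' j : ℕ, (1 / 2 : ℝ) ^ j :=
        summable_geometric_two.sum_le_tsum _ fun j _ => by positivity
    _ = 2 := tsum_geometric_two

theorem exists_weight [Countable G] {l : G → P → ℝ} (hl : ∀ g g', l (g * g') = l g + l g')
    (hd : ∀ R : ℝ, {g | ‖l g‖ ≤ R}.Finite) :
    ∃ ϖ : (P → ℝ) → ℝ, Measurable ϖ ∧ (∀ x, 0 ≤ ϖ x) ∧
      ∀ x, HasSum (fun g => ϖ (x + l g)) 1 := by
  obtain ⟨φ, hm, hpos, hs⟩ := exists_pos_summable l hd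
  have hT : ∀ x, 0 < ∑' g, φ (x + l g) := fun x =>
    (hs x).tsum_pos (fun g => (hpos _).le) 1 (hpos _)
  refine ⟨fun x => φ x / ∑' g, φ (x + l g),
    hm.div (Measurable.tsum fun g => hm.comp (measurable_add_const _)),
    fun x => div_nonneg (hpos x).le (hT x).le, fun x => ?_⟩
  have e : ∀ g, ∑' g', φ (x + l g + l g') = ∑' g', φ (x + l g') := fun g => by
    rw [← (Equiv.mulLeft g).tsum_eq fun g' => φ (x + l g')]
    simp only [Equiv.coe_mulLeft, hl, add_assoc]
  simp only [e]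
  have := (hs x).hasSum.div_const (∑' g', φ (x + l g'))
  rwa [div_self (hT x).ne'] at this

end weight

/-! ## the profile in logarithmic coordinates -/

theorem measurable_U1exp : Measurable fun y : ℝ => (U1 (Real.exp y) : ℂ) :=
  (continuous_ofReal.comp (continuousOn_U1.comp_continuous Real.continuous_exp
    fun y => Real.exp_pos y)).measurable

theorem mellin_log {w : ℂ} (hw : -(1 / 3) < w.re) :
    Integrable (fun y : ℝ => (U1 (Real.exp y) : ℂ) * cexp (w * y)) ∧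
      ∫ y : ℝ, (U1 (Real.exp y) : ℂ) * cexp (w * y) = GG w := by
  obtain ⟨h1, h2⟩ := mellin_U1 hw
  have e : ∀ x : ℝ, |Real.exp x| • ((U1 (Real.exp x) : ℂ) * ((Real.exp x : ℝ) : ℂ) ^ (w - 1)) =
      (U1 (Real.exp x) : ℂ) * cexp (w * x) := by
    intro x
    rw [abs_of_pos (Real.exp_pos x), Complex.cpow_def_of_ne_zero (ofReal_ne_zero.2 (Real.exp_pos x).ne'),
      ← Complex.ofReal_log (Real.exp_pos x).le, Real.log_exp, Complex.real_smul, Complex.ofReal_exp,
      mul_left_comm, ← Complex.exp_add]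
    congr 2
    ring
  rw [← Real.range_exp, ← Set.image_univ] at h1 h2
  rw [integrableOn_image_iff_integrableOn_abs_deriv_smul MeasurableSet.univ
    (fun x _ => (Real.hasDerivAt_exp x).hasDerivWithinAt) Real.exp_injective.injOn,
    integrableOn_univ] at h1
  rw [integral_image_eq_integral_abs_deriv_smul MeasurableSet.univ
    (fun x _ => (Real.hasDerivAt_exp x).hasDerivWithinAt) Real.exp_injective.injOn,
    Measure.restrict_univ] at h2
  simp only [e] at h1 h2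
  exact ⟨h1, h2⟩

section torus

variable {P : Type*} [Fintype P] {G : Type*} [Group G] [Countable G]

/-- The product profile. -/
def PU (y : P → ℝ) : ℂ := ∏ j, (U1 (Real.exp (y j)) : ℂ)

theorem measurable_PU : Measurable (PU : (P → ℝ) → ℂ) :=
  Finset.measurable_prod _ fun j _ => measurable_U1exp.comp (measurable_pi_apply j)

theorem mellin_PU {w : ℂ} (hw : -(1 / 3) < w.re) :
    Integrable (fun y : P → ℝ => PU y * cexp (w * ((∑ j, y j : ℝ) : ℂ))) ∧
      ∫ y : P → ℝ, PU y * cexp (w * ((∑ j, y j : ℝ) : ℂ)) = GG w ^ Fintype.card P := by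
  obtain ⟨h1, h2⟩ := mellin_log hw
  have e : ∀ y : P → ℝ, PU y * cexp (w * ((∑ j, y j : ℝ) : ℂ)) =
      ∏ j, ((U1 (Real.exp (y j)) : ℂ) * cexp (w * (y j : ℝ))) := by
    intro y
    rw [Finset.prod_mul_distrib, ← Complex.exp_sum, ← Finset.mul_sum, ofReal_sum, PU]
  simp only [e]
  exact ⟨Integrable.fintype_prod (f := fun _ (y : ℝ) => (U1 (Real.exp y) : ℂ) * cexp (w * y))
    fun _ => h1, by
      rw [integral_fintype_prod_volume_eq_pow (fun y : ℝ => (U1 (Real.exp y) : ℂ) * cexp (w * y)),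
        h2]⟩

/-- The sum over all translates. -/
def fT {ι : Type*} (l : G → P → ℝ) (a : ι → ℂ) (p : ι → P → ℝ) (x : P → ℝ) : ℂ :=
  ∑' q : ι × G, a q.1 * PU (p q.1 + l q.2 + x)

theorem exp_cpow (y : ℝ) (w : ℂ) : ((Real.exp y : ℝ) : ℂ) ^ w = cexp (w * y) := by
  rw [Complex.cpow_def_of_ne_zero (ofReal_ne_zero.2 (Real.exp_pos y).ne'),
    ← Complex.ofReal_log (Real.exp_pos y).le, Real.log_exp, mul_comm]

theorem unfold_torus {l : G → P → ℝ} (hl : ∀ g g', l (g * g') = l g + l g')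
    (h0 : ∀ g, ∑ j, l g j = 0) {ϖ : (P → ℝ) → ℝ} (hm : Measurable ϖ) (hpos : ∀ x, 0 ≤ ϖ x)
    (hs : ∀ x, HasSum (fun g => ϖ (x + l g)) 1) {ι : Type*} [Countable ι] {a : ι → ℂ}
    {p : ι → P → ℝ} {w : ℂ} (hw : -(1 / 3) < w.re)
    (ha : Summable fun i => ‖a i‖ * Real.exp (∑ j, p i j) ^ (-w.re)) :
    Integrable (fun x : P → ℝ => (ϖ x : ℂ) * fT l a p x * cexp (w * ((∑ j, x j : ℝ) : ℂ))) ∧
      ∫ x : P → ℝ, (ϖ x : ℂ) * fT l a p x * cexp (w * ((∑ j, x j : ℝ) : ℂ)) =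
        GG w ^ Fintype.card P * dS a (fun i => Real.exp (∑ j, p i j)) w := by
  let _ := actL l hl
  have hW : IsWt G ϖ := ⟨hm, hpos, hs⟩
  have hμ : ∀ g : G, MeasurePreserving (fun x : P → ℝ => g • x) volume volume := fun g =>
    measurePreserving_add_right volume (l g)
  obtain ⟨i1, i2⟩ := mellin_PU (P := P) hw
  set Φ : (P → ℝ) → ℂ := fun y => PU y * cexp (w * ((∑ j, y j : ℝ) : ℂ)) with hΦ
  have hΦm : Measurable Φ := measurable_PU.mul (by fun_prop)
  set c : ι → ℂ := fun i => a i * ((Real.exp (∑ j, p i j) : ℝ) : ℂ) ^ (-w) with hc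
  have hcs : Summable fun i => ‖c i‖ := by
    refine ha.congr fun i => ?_
    rw [hc, norm_mul, Complex.norm_cpow_eq_rpow_re_of_pos (Real.exp_pos _), neg_re]
  have key := unfold_family hW hμ (φ := fun i x => c i * Φ (p i + x))
    (fun i => (hΦm.comp (measurable_const_add _)).const_mul _) (by
      have e : ∀ i, ∫⁻ x, ‖c i * Φ (p i + x)‖ₑ = ‖c i‖ₑ * ∫⁻ x, ‖Φ x‖ₑ := fun i => by
        simp only [enorm_mul]
        rw [lintegral_const_mul' _ _ enorm_ne_top,
          lintegral_add_left_eq_self (fun x => ‖Φ x‖ₑ) (p i)]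
      simp only [e]
      rw [ENNReal.tsum_mul_right]
      refine ENNReal.mul_ne_top ?_ i1.2.ne
      simp only [← ofReal_norm]
      rw [← ENNReal.ofReal_tsum_of_nonneg (fun _ => norm_nonneg _) hcs]
      exact ENNReal.ofReal_ne_top)
  have e : ∀ x : P → ℝ, (ϖ x : ℂ) * ∑' q : ι × G, c q.1 * Φ (p q.1 + q.2 • x) =
      (ϖ x : ℂ) * fT l a p x * cexp (w * ((∑ j, x j : ℝ) : ℂ)) := by
    intro x
    rw [mul_assoc, fT, ← tsum_mul_right]
    congr 1
    refine tsum_congr fun q => ?_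
    have e1 : p q.1 + q.2 • x = p q.1 + l q.2 + x := by
      show p q.1 + (x + l q.2) = _
      abel
    have e2 : ∑ j, (p q.1 + l q.2 + x) j = ∑ j, p q.1 j + ∑ j, x j := by
      simp only [Pi.add_apply, Finset.sum_add_distrib, h0, add_zero]
    rw [e1, hc, hΦ]
    simp only
    rw [e2, exp_cpow, ofReal_add, mul_add, Complex.exp_add, neg_mul, Complex.exp_neg]
    field_simp
  simp only [e] at key
  refine ⟨key.1, key.2.trans ?_⟩
  rw [dS, ← tsum_mul_left]
  refine tsum_congr fun i => ?_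
  rw [integral_const_mul, integral_add_left_eq_self Φ (p i), i2, mul_comm]

/-- **Mellin transfer with unfolding over the torus.** -/
theorem transfer_torus {l : G → P → ℝ} (hl : ∀ g g', l (g * g') = l g + l g')
    (h0 : ∀ g, ∑ j, l g j = 0) (hd : ∀ R : ℝ, {g | ‖l g‖ ≤ R}.Finite)
    {ι κ : Type*} [Countable ι] [Countable κ] {a : ι → ℂ} {p : ι → P → ℝ} {b : κ → ℂ}
    {q : κ → P → ℝ}
    (ha : ∀ σ : ℝ, 3 ≤ σ → Summable fun i => ‖a i‖ * Real.exp (∑ j, p i j) ^ (-σ))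
    (hb : ∀ σ : ℝ, 3 ≤ σ → Summable fun k => ‖b k‖ * Real.exp (∑ j, q k j) ^ (-σ)) {ω : ℂ}
    (h : ∀ x : P → ℝ, fT l a p x = ω * (Real.exp (-∑ j, x j) : ℝ) * fT l b q (-x))
    {X : ℝ} (hX : 0 < X) (s : ℂ) :
    ∑' i, a i * Wc (Real.exp (∑ j, p i j) / X) s =
      ω * (X : ℂ) * ∑' k, b k * VR (Fintype.card P) (X * Real.exp (∑ j, q k j)) s := by
  obtain ⟨ϖ, hm, hpos, hs⟩ := exists_weight hl hd
  have hs' : ∀ x, HasSum (fun g => ϖ (-(x + l g))) 1 := fun x => by
    refine (Equiv.inv G).hasSum_iff.1 ?_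
    simpa only [Function.comp_def, Equiv.inv_apply, l_inv hl, neg_add, neg_neg] using hs (-x)
  have hA := fun (w : ℂ) (hw : 3 ≤ w.re) =>
    unfold_torus hl h0 hm hpos hs (w := w) (by linarith) (ha _ hw)
  have hB := fun (w : ℂ) (hw : 3 ≤ w.re) =>
    unfold_torus hl h0 (ϖ := fun x => ϖ (-x)) (hm.comp measurable_neg) (fun x => hpos _) hs'
      (w := w) (by linarith) (hb _ hw)
  set H : (P → ℝ) → ℂ := fun x => (ϖ x : ℂ) * fT l a p x with hH
  have hrefl : ∀ (t : ℂ) (x : P → ℝ), H (-x) * cexp ((1 - t) * ((∑ j, (-x) j : ℝ) : ℂ)) =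
      ω * ((ϖ (-x) : ℂ) * fT l b q x * cexp (t * ((∑ j, x j : ℝ) : ℂ))) := by
    intro t x
    have e : ∑ j, (-x) j = -∑ j, x j := by simp
    rw [hH]
    simp only
    rw [h (-x), neg_neg, e, neg_neg, ofReal_exp, ofReal_neg,
      show t * ((∑ j, x j : ℝ) : ℂ) = ((∑ j, x j : ℝ) : ℂ) + (1 - t) * -((∑ j, x j : ℝ) : ℂ) by ring,
      Complex.exp_add]
    ring
  have hlm : Measurable fun x : P → ℝ => ∑ j, x j := by fun_prop
  have hHm : AEStronglyMeasurable H volume := by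
    have h1 := (hA 3 (by simp)).1.1.mul
      (show Measurable fun x : P → ℝ => cexp (-(3 * ((∑ j, x j : ℝ) : ℂ))) by
        fun_prop).aestronglyMeasurable
    refine h1.congr (ae_of_all _ fun x => ?_)
    simp only [Pi.mul_apply, hH]
    rw [mul_assoc, ← Complex.exp_add, add_neg_cancel, Complex.exp_zero, mul_one]
  have hnorm : ∀ (w : ℂ) (x : P → ℝ), ‖H x * cexp (w * ((∑ j, x j : ℝ) : ℂ))‖ =
      ‖H x‖ * Real.exp (w.re * ∑ j, x j) := fun w x => by
    rw [norm_mul, Complex.norm_exp]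
    simp only [mul_re, ofReal_re, ofReal_im, mul_zero, sub_zero]
  have hI1 : ∀ σ : ℝ, 3 ≤ σ → Integrable fun x => ‖H x‖ * Real.exp (σ * ∑ j, x j) := by
    intro σ hσ
    exact (hA σ (by simpa using hσ)).1.norm.congr (ae_of_all _ fun x => hnorm σ x)
  have hI2 : ∀ σ : ℝ, σ ≤ -2 → Integrable fun x => ‖H x‖ * Real.exp (σ * ∑ j, x j) := by
    intro σ hσ
    have h1 := ((hB (1 - σ) (by simp; linarith)).1.const_mul ω).congr
      (ae_of_all _ fun x => (hrefl (1 - σ) x).symm)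
    have h2 := (h1.comp_neg).norm
    refine h2.congr (ae_of_all _ fun x => ?_)
    simp only [neg_neg, sub_sub_cancel]
    exact hnorm σ x
  have hmid : ∀ σ : ℝ, -2 ≤ σ → σ ≤ 3 → ∀ x : P → ℝ, ‖H x‖ * Real.exp (σ * ∑ j, x j) ≤
      ‖H x‖ * Real.exp (-2 * ∑ j, x j) + ‖H x‖ * Real.exp (3 * ∑ j, x j) := by
    intro σ h1 h2 x
    rw [← mul_add]
    refine mul_le_mul_of_nonneg_left ?_ (norm_nonneg _)
    rcases le_total 0 (∑ j, x j) with h | h
    · exact (Real.exp_le_exp.2 (mul_le_mul_of_nonneg_right h2 h)).trans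
        (le_add_of_nonneg_left (Real.exp_pos _).le)
    · exact (Real.exp_le_exp.2 (mul_le_mul_of_nonpos_right h1 h)).trans
        (le_add_of_nonneg_right (Real.exp_pos _).le)
  have hsum := (hI2 (-2) le_rfl).add (hI1 3 le_rfl)
  have hI : ∀ σ : ℝ, Integrable fun x => ‖H x‖ * Real.exp (σ * ∑ j, x j) := by
    intro σ
    rcases le_total 3 σ with h1 | h1
    · exact hI1 σ h1
    rcases le_total σ (-2) with h2 | h2
    · exact hI2 σ h2
    refine hsum.mono' (hHm.norm.mul (Measurable.aestronglyMeasurable (by fun_prop)))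
      (ae_of_all _ fun x => ?_)
    rw [Real.norm_of_nonneg (by positivity)]
    exact hmid σ h2 h1 x
  have hdiff := HeckeA87.differentiable_integral_exp hHm hlm hI
  refine transfer_core (Fintype.card P) (fun _ => Real.exp_pos _) (fun _ => Real.exp_pos _)
    (ha 3 le_rfl) (hb 3 le_rfl)
    (L := fun w => ∫ x, H x * cexp (w * ((∑ j, x j : ℝ) : ℂ)))
    (K := ∫ x, (‖H x‖ * Real.exp (-2 * ∑ j, x j) + ‖H x‖ * Real.exp (3 * ∑ j, x j)))
    (fun w h1 h2 => ⟨hdiff w, norm_integral_le_of_norm_le hsum (ae_of_all _ fun x => ?_)⟩)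
    (fun w hw => (hA w hw.ge).2) (fun t ht => ?_) hX s
  · rw [hnorm]
    exact hmid _ h1 h2 x
  · rw [← (hB t ht.ge).2, ← integral_const_mul, ← integral_neg_eq_self]
    simp only [hrefl]

end torus

/-! ## number fields -/

section field

open NumberField TH

variable {F : Type} [Field F] [NumberField F] [Emb F]

theorem norm_em (x : F) (j : Pl F) : ‖em x j‖ = j x := by
  conv_rhs => rw [← Emb.mk_σ j]
  rfl

theorem em_mul (x y : F) (j : Pl F) : em (x * y) j = em x j * em y j := map_mul _ _ _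

theorem norm_em_pos {x : F} (hx : x ≠ 0) (j : Pl F) : 0 < ‖em x j‖ :=
  norm_pos_iff.2 ((map_ne_zero _).2 hx)

theorem nF_eq_norm (x : F) : nF x = |((Algebra.norm ℚ x : ℚ) : ℝ)| := by
  have := Emb.tc (F := F)
  rw [← Rat.cast_abs, ← InfinitePlace.prod_eq_abs_norm, nF]
  refine Finset.prod_congr rfl fun j _ => ?_
  rw [norm_em, (IsTotallyComplex.isComplex j).mult_eq_two]

theorem nF_pos {x : F} (hx : x ≠ 0) : 0 < nF x :=
  Finset.prod_pos fun j _ => pow_pos (norm_em_pos hx j) 2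

theorem nF_mul (x y : F) : nF (x * y) = nF x * nF y := by
  simp only [nF, em_mul, norm_mul, mul_pow, Finset.prod_mul_distrib]

theorem nF_one : nF (1 : F) = 1 := by simp [nF, TH.em]

theorem one_le_nF {x : F} (hx : x ≠ 0) (hi : IsIntegral ℤ x) : 1 ≤ nF x := by
  obtain ⟨z, hz⟩ := IsIntegrallyClosed.isIntegral_iff.1 (Algebra.isIntegral_norm ℚ hi)
  have h0 : z ≠ 0 := by
    rintro rfl
    exact (Algebra.norm_ne_zero_iff.2 hx) (by rw [← hz, map_zero])
  rw [nF_eq_norm, ← hz]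
  simp only [algebraMap_int_eq, eq_intCast, Rat.cast_intCast]
  exact_mod_cast Int.one_le_abs h0

theorem exp_lg {x : F} (hx : x ≠ 0) (j : Pl F) : Real.exp (lg x j) = ‖em x j‖ ^ 2 :=
  Real.exp_log (pow_pos (norm_em_pos hx j) 2)

theorem exp_sum_lg {x : F} (hx : x ≠ 0) : Real.exp (∑ j, lg x j) = nF x := by
  rw [Real.exp_sum, nF]
  exact Finset.prod_congr rfl fun j _ => exp_lg hx j

theorem lg_mul {x y : F} (hx : x ≠ 0) (hy : y ≠ 0) : lg (x * y) = lg x + lg y := by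
  funext j
  simp only [lg, Pi.add_apply, em_mul, norm_mul, mul_pow]
  exact Real.log_mul (pow_pos (norm_em_pos hx j) 2).ne' (pow_pos (norm_em_pos hy j) 2).ne'

theorem nF_unit {U : Subgroup Fˣ} (hU : ∀ u ∈ U, IsIntegral ℤ (u : F)) {u : Fˣ} (hu : u ∈ U) :
    nF (u : F) = 1 := by
  have h1 := one_le_nF u.ne_zero (hU u hu)
  have h2 := one_le_nF (u⁻¹).ne_zero (hU _ (U.inv_mem hu))
  have h3 : nF (u : F) * nF ((u⁻¹ : Fˣ) : F) = 1 := by rw [← nF_mul, Units.mul_inv, nF_one]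
  nlinarith

omit [Emb F] in
theorem countable_F : Countable F := Countable.of_equiv _ (Module.finBasis ℚ F).equivFun.toEquiv.symm

theorem finite_units {U : Subgroup Fˣ} (hU : ∀ u ∈ U, IsIntegral ℤ (u : F)) (R : ℝ) :
    {u : U | ‖lg ((u : Fˣ) : F)‖ ≤ R}.Finite := by
  refine Set.Finite.of_finite_image (f := fun u : U => ((u : Fˣ) : F))
    ((Embeddings.finite_of_norm_le F ℂ (1 + Real.exp R)).subset ?_)
    fun a _ b _ hab => Subtype.ext (Units.ext hab)
  rintro _ ⟨u, hu, rfl⟩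
  refine ⟨hU _ u.2, fun φ => ?_⟩
  have h1 : ‖φ ((u : Fˣ) : F)‖ = ‖em ((u : Fˣ) : F) (InfinitePlace.mk φ)‖ := by
    rw [norm_em]; rfl
  have h2 : ‖em ((u : Fˣ) : F) (InfinitePlace.mk φ)‖ ^ 2 ≤ Real.exp R := by
    rw [← exp_lg (u : Fˣ).ne_zero]
    refine Real.exp_le_exp.2 ((le_abs_self _).trans ?_)
    exact (norm_le_pi_norm (lg ((u : Fˣ) : F)) _).trans hu
  rw [h1]
  nlinarith [sq_nonneg (‖em ((u : Fˣ) : F) (InfinitePlace.mk φ)‖ - 1), Real.exp_pos R]

/-- `e` is a system of representatives modulo `U` for the support of `a`. -/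
structure Reps {ι : Type*} (U : Subgroup Fˣ) (a : F → ℂ) (e : ι → F) : Prop where
  ne : ∀ i, e i ≠ 0
  inj : ∀ u ∈ U, ∀ i i', (u : F) * e i = e i' → i = i'
  surj : ∀ x, a x ≠ 0 → ∃ u ∈ U, ∃ i, x = (u : F) * e i
  inv : ∀ u ∈ U, ∀ i, a ((u : F) * e i) = a (e i)

omit [Emb F] in
theorem Reps.countable {ι : Type*} {U : Subgroup Fˣ} {a : F → ℂ} {e : ι → F} (h : Reps U a e) :
    Countable ι := by
  have := countable_F (F := F)
  exact Function.Injective.countable (f := e) fun i i' hi => h.inj 1 U.one_mem i i' (by simpa using hi)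

omit [NumberField F] [Emb F] in
theorem Reps.tsum_eq {ι : Type*} {U : Subgroup Fˣ} {a : F → ℂ} {e : ι → F} (h : Reps U a e)
    (k : F → ℂ) : ∑' x : F, a x * k x = ∑' q : ι × U, a (e q.1) * k (((q.2 : Fˣ) : F) * e q.1) := by
  have hinj : Function.Injective fun q : ι × U => ((q.2 : Fˣ) : F) * e q.1 := by
    rintro ⟨i, u⟩ ⟨i', u'⟩ hq
    simp only at hq
    have h1 : i = i' := h.inj (u'⁻¹ * u : U) (u'⁻¹ * u).2 i i' (by
      rw [Subgroup.coe_mul, Units.val_mul, mul_assoc, hq, ← mul_assoc, Subgroup.coe_inv,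
        Units.inv_mul, one_mul])
    subst h1
    rw [Subtype.ext (Units.ext (mul_right_cancel₀ (h.ne i) hq))]
  rw [← hinj.tsum_eq (f := fun x => a x * k x)]
  · exact tsum_congr fun q => by rw [h.inv _ q.2.2]
  · intro x hx
    obtain ⟨u, hu, i, rfl⟩ := h.surj x (left_ne_zero_of_mul hx)
    exact ⟨(i, ⟨u, hu⟩), rfl⟩

/-- **Mellin transfer over a number field.**  From the Voronoi identity in all the archimedean
variables to the reflection formula for sums over representatives modulo a group of units. -/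
theorem transfer_F {U : Subgroup Fˣ} (hU : ∀ u ∈ U, IsIntegral ℤ (u : F)) {ι κ : Type*}
    {a b : F → ℂ} {e : ι → F} {e' : κ → F} (he : Reps U a e) (he' : Reps U b e')
    (ha : ∀ σ : ℝ, 3 ≤ σ → Summable fun i => ‖a (e i)‖ * nF (e i) ^ (-σ))
    (hb : ∀ σ : ℝ, 3 ≤ σ → Summable fun k => ‖b (e' k)‖ * nF (e' k) ^ (-σ))
    {A B : Pl F → ℝ} (hA : ∀ j, 0 < A j) (hB : ∀ j, 0 < B j) {ω : ℂ}
    (h : ∀ x : Pl F → ℝ, (∀ j, 0 < x j) →
      ∑' ρ : F, a ρ * ∏ j, (U1 (A j * ‖em ρ j‖ ^ 2 * x j) : ℂ) =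
        ω * ((∏ j, x j : ℝ) : ℂ)⁻¹ * ∑' ν : F, b ν * ∏ j, (U1 (B j * ‖em ν j‖ ^ 2 / x j) : ℂ))
    {X : ℝ} (hX : 0 < X) (s : ℂ) :
    ∑' i, a (e i) * Wc (nF (e i) / X) s = ω * (((∏ j, A j) * X : ℝ) : ℂ) *
      ∑' k, b (e' k) * VR (Fintype.card (Pl F)) ((∏ j, A j) * (∏ j, B j) * X * nF (e' k)) s := by
  have := countable_F (F := F)
  have := he.countable
  have := he'.countable
  have : Countable U := Function.Injective.countable (f := fun u : U => ((u : Fˣ) : F))
    fun a b hab => Subtype.ext (Units.ext hab)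
  have hPA : 0 < ∏ j, A j := Finset.prod_pos fun j _ => hA j
  have hPB : 0 < ∏ j, B j := Finset.prod_pos fun j _ => hB j
  have hexp : ∀ (A : Pl F → ℝ), (∀ j, 0 < A j) → ∀ x : F, x ≠ 0 →
      Real.exp (∑ j, (Real.log (A j) + lg x j)) = (∏ j, A j) * nF x := fun A hA x hx => by
    rw [Finset.sum_add_distrib, Real.exp_add, exp_sum_lg hx, Real.exp_sum]
    simp only [Real.exp_log (hA _)]
  have hsum : ∀ (A : Pl F → ℝ), (∀ j, 0 < A j) → ∀ (σ c : ℝ) (y : F), y ≠ 0 →
      (∏ j, A j) ^ (-σ) * (c * nF y ^ (-σ)) =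
        c * Real.exp (∑ j, (Real.log (A j) + lg y j)) ^ (-σ) := by
    intro A hA σ c y hy
    rw [hexp A hA _ hy, Real.mul_rpow (Finset.prod_pos fun j _ => hA j).le (nF_pos hy).le]
    ring
  have key := transfer_torus (G := U) (l := fun u => lg ((u : Fˣ) : F))
    (fun g g' => by
      rw [Subgroup.coe_mul, Units.val_mul, lg_mul (g : Fˣ).ne_zero (g' : Fˣ).ne_zero])
    (fun g => Real.exp_injective (by
      rw [exp_sum_lg (g : Fˣ).ne_zero, nF_unit hU g.2, Real.exp_zero]))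
    (finite_units hU) (a := fun i => a (e i)) (p := fun i j => Real.log (A j) + lg (e i) j)
    (b := fun k => b (e' k)) (q := fun k j => Real.log (B j) + lg (e' k) j)
    (fun σ hσ => ((ha σ hσ).mul_left _).congr fun i => hsum A hA σ _ _ (he.ne i))
    (fun σ hσ => ((hb σ hσ).mul_left _).congr fun i => hsum B hB σ _ _ (he'.ne i))
    (ω := ω) (fun x => ?_) (mul_pos hPA hX) s
  · simp only [hexp A hA _ (he.ne _), hexp B hB _ (he'.ne _), mul_div_mul_left _ _ hPA.ne'] at key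
    rw [key]
    congr 1
    refine tsum_congr fun k => ?_
    congr 2
    ring
  have h1 := h (fun j => Real.exp (x j)) fun j => Real.exp_pos _
  rw [he.tsum_eq, he'.tsum_eq, ← Real.exp_sum, ← ofReal_inv, ← Real.exp_neg] at h1
  have e1 : ∀ (A : Pl F → ℝ), (∀ j, 0 < A j) → ∀ (y : F) (u : Fˣ) (x : Pl F → ℝ), y ≠ 0 →
      PU ((fun j => Real.log (A j) + lg y j) + lg (u : F) + x) =
        ∏ j, (U1 (A j * ‖em ((u : F) * y) j‖ ^ 2 * Real.exp (x j)) : ℂ) := by
    intro A hA y u x hy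
    refine Finset.prod_congr rfl fun j _ => ?_
    simp only [Pi.add_apply, Real.exp_add, Real.exp_log (hA _), exp_lg hy, exp_lg u.ne_zero,
      em_mul, norm_mul, mul_pow]
    congr 2
    ring
  simp only [fT, e1 A hA _ _ _ (he.ne _), e1 B hB _ _ _ (he'.ne _), Pi.neg_apply, Real.exp_neg (x _),
    ← div_eq_mul_inv]
  exact h1

end field

end Crest.Agent.T27.Mel
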