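import Crest.Agent.T27.Mn1_85

/-!
# Row 27, sextic reciprocity by a Euclidean algorithm on polynomials, part 2

`O` is a Euclidean ring (`ℤ[ω]`), `A = O[1/T]`, and the reciprocity law is known in `A`.  For a
monic `Q ∈ O[t]` and `g ∈ O[t]` the symbol of `g` on `A[t] / (Q, t - τ)` (`τ = -1/T`) is equal to
the symbol of `t - τ` on `A[t] / (Q, g)`.  The variable `X` of `A[X]` is `t - τ`.
-/

set_option autoImplicit false

noncomputable section

namespace Crest.Agent.T27.Mn

open Rc Polynomial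

/-- the data over the base ring -/
structure Bs (O A : Type*) [CommRing O] [CommRing A] [Algebra O A] where
  ζ : A
  T : O
  τ : A
  nm : O → ℕ
  hζ : ζ ^ 2 - ζ + 1 = 0
  h6 : IsUnit (6 : A)
  hτ : algebraMap O A T * τ = -1
  hT : ¬ IsUnit T
  inj : Function.Injective (algebraMap O A)
  fin : ∀ y : A, y ≠ 0 → Finite (A ⧸ Ideal.span {y})
  den : ∀ a : A, ∃ (k : ℕ) (o : O), algebraMap O A T ^ k * a = algebraMap O A o
  euc : ∀ u w : O, u ≠ 0 → ¬ u ∣ w →
    ∃ s s', s ≠ s' ∧ nm (w + s * u) < nm u ∧ nm (w + s' * u) < nm u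
  law : ∀ x y : A, x ≠ 0 → IsCoprime x y →
    (∃ (k : ℕ) (o : O), algebraMap O A T ^ k * y = algebraMap O A (1 + T * o)) →
    zs ζ x y = zs ζ y x

theorem monic_dvd {A : Type*} [CommRing A] [IsDomain A] {P x : A[X]} (hP : P.Monic) {c : A}
    (hc : c ≠ 0) (h : P ∣ C c * x) : P ∣ x := by
  rw [← modByMonic_eq_zero_iff_dvd hP] at h ⊢
  rw [← smul_eq_C_mul, smul_modByMonic] at h
  exact (smul_eq_zero.1 h).resolve_left hc

theorem mem_pair_X {A : Type*} [CommRing A] (b x : A[X]) :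
    x ∈ Ideal.span ({b, X} : Set A[X]) ↔ constantCoeff x ∈ Ideal.span {constantCoeff b} := by
  rw [Ideal.mem_span_pair, Ideal.mem_span_singleton]
  constructor
  · rintro ⟨s, t, rfl⟩
    exact ⟨constantCoeff s, by simp [mul_comm]⟩
  · rintro ⟨c, hc⟩
    obtain ⟨k, hk⟩ : X ∣ x - C c * b := X_dvd_iff.2 (by
      simp only [constantCoeff_apply] at hc
      simp [hc, mul_comm])
    exact ⟨C c, k, by linear_combination -hk⟩

theorem mem_pair_C {A : Type*} [CommRing A] (P x : A[X]) (c : A) :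
    x ∈ Ideal.span ({P, C c} : Set A[X]) ↔
      mapRingHom (Ideal.Quotient.mk (Ideal.span {c})) x ∈
        Ideal.span {P.map (Ideal.Quotient.mk (Ideal.span {c}))} := by
  have hc : Ideal.Quotient.mk (Ideal.span {c}) c = 0 :=
    Ideal.Quotient.eq_zero_iff_mem.2 (Ideal.mem_span_singleton_self c)
  rw [Ideal.mem_span_pair, Ideal.mem_span_singleton]
  constructor
  · rintro ⟨s, t, rfl⟩
    exact ⟨s.map (Ideal.Quotient.mk _), by simp [hc, mul_comm]⟩
  · rintro ⟨k, hk⟩
    obtain ⟨k, rfl⟩ := map_surjective _ Ideal.Quotient.mk_surjective k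
    obtain ⟨t, ht⟩ : C c ∣ x - P * k := (C_dvd_iff_dvd_coeff _ _).2 fun i => by
      rw [← Ideal.mem_span_singleton, ← Ideal.Quotient.eq_zero_iff_mem, ← coeff_map,
        Polynomial.map_sub, Polynomial.map_mul, ← hk]
      simp
    exact ⟨k, t, by linear_combination -ht⟩

theorem finite_monic {B : Type*} [CommRing B] [Finite B] {P : B[X]} (hP : P.Monic) :
    Finite (B[X] ⧸ Ideal.span {P}) := by
  have : Module.Finite B (AdjoinRoot P) := hP.finite_adjoinRoot
  exact Module.finite_of_finite (M := AdjoinRoot P) B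

/-- a non-zero constant is a combination of `g` and `Q` -/
def Cop {O : Type*} [CommRing O] (g Q : O[X]) : Prop := ∃ c ≠ 0, ∃ a b : O[X], a * g + b * Q = C c

theorem cop_iff {O : Type*} [CommRing O] [IsDomain O] (g Q : O[X]) :
    Cop g Q ↔ IsCoprime (g.map (algebraMap O (FractionRing O)))
      (Q.map (algebraMap O (FractionRing O))) := by
  have hinj := IsFractionRing.injective O (FractionRing O)
  constructor
  · rintro ⟨c, hc, a, b, h⟩
    have h1 := congrArg (Polynomial.map (algebraMap O (FractionRing O))) h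
    have h2 : algebraMap O (FractionRing O) c ≠ 0 := (map_ne_zero_iff _ hinj).2 hc
    simp only [Polynomial.map_add, Polynomial.map_mul, map_C] at h1
    refine ⟨C (algebraMap O _ c)⁻¹ * a.map (algebraMap O _),
      C (algebraMap O _ c)⁻¹ * b.map (algebraMap O _), ?_⟩
    rw [mul_assoc, mul_assoc, ← mul_add, h1, ← C_mul, inv_mul_cancel₀ h2, C_1]
  · rintro ⟨a, b, h⟩
    obtain ⟨c, hc, ha⟩ := IsLocalization.integerNormalization_spec (nonZeroDivisors O) a
    obtain ⟨d, hd, hb⟩ := IsLocalization.integerNormalization_spec (nonZeroDivisors O) b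
    refine ⟨c * d, mul_ne_zero (nonZeroDivisors.ne_zero hc) (nonZeroDivisors.ne_zero hd),
      C d * IsLocalization.integerNormalization (nonZeroDivisors O) a,
      C c * IsLocalization.integerNormalization (nonZeroDivisors O) b,
      map_injective _ hinj ?_⟩
    simp only [Polynomial.map_add, Polynomial.map_mul, map_C, ha, hb, map_mul]
    rw [← IsScalarTower.algebraMap_smul (FractionRing O) c a,
      ← IsScalarTower.algebraMap_smul (FractionRing O) d b, smul_eq_C_mul, smul_eq_C_mul]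
    linear_combination C (algebraMap O (FractionRing O) c) * C (algebraMap O (FractionRing O) d) * h

theorem finite_bad {K : Type*} [Field K] {G g Q : K[X]} (hG : G ≠ 0) (h : IsCoprime g Q) :
    {r : K | ¬ IsCoprime G (Q + C r * g)}.Finite := by
  classical
  have h1 : ∀ r : K, ¬ IsCoprime G (Q + C r * g) →
      ∃ p ∈ UniqueFactorizationMonoid.normalizedFactors G, p ∣ Q + C r * g := fun r hr => by
    by_contra hne
    push Not at hne
    refine hr (isCoprime_of_irreducible_dvd (fun h => hG h.1) fun z hz hzG hzQ => ?_)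
    obtain ⟨p, hp, hzp⟩ := UniqueFactorizationMonoid.exists_mem_normalizedFactors_of_dvd hG hz hzG
    exact hne p hp (hzp.symm.dvd.trans hzQ)
  choose! p hp using h1
  refine Set.Finite.of_finite_image (f := p)
    ((UniqueFactorizationMonoid.normalizedFactors G).finite_toSet.subset ?_) ?_
  · rintro _ ⟨r, hr, rfl⟩
    exact (hp r hr).1
  · intro r hr r' hr' hrr
    by_contra hne
    have h2 := (hp r hr).2
    have h3 := (hp r' hr').2
    rw [← hrr] at h3
    have h4 : p r ∣ g := by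
      have := (dvd_sub h2 h3).mul_left (C (r - r')⁻¹)
      rwa [show C (r - r')⁻¹ * (Q + C r * g - (Q + C r' * g)) = C ((r - r')⁻¹ * (r - r')) * g by
        simp only [map_mul, map_sub]; ring, inv_mul_cancel₀ (sub_ne_zero.2 hne), C_1, one_mul] at this
    have h5 : p r ∣ Q := (dvd_add_left (h4.mul_left _)).1 h2
    exact (UniqueFactorizationMonoid.irreducible_of_normalized_factor _ (hp r hr).1).not_isUnit
      (h.isUnit_of_dvd' h4 h5)

namespace Bs

variable {O A : Type*} [CommRing O] [CommRing A] [Algebra O A] (B : Bs O A)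

/-- the substitution `t = X + τ` -/
def mp : O[X] →+* A[X] := (taylorAlgHom B.τ).toRingHom.comp (mapRingHom (algebraMap O A))

/-- evaluation at `τ` -/
def ev : O[X] →+* A := constantCoeff.comp B.mp

theorem mp_apply (p : O[X]) : B.mp p = taylor B.τ (p.map (algebraMap O A)) := rfl

theorem mp_C (c : O) : B.mp (C c) = C (algebraMap O A c) := by
  rw [mp_apply, map_C, taylor_C]

theorem mp_X : B.mp X = X + C B.τ := by rw [mp_apply, map_X, taylor_X]

theorem ev_apply (p : O[X]) : B.ev p = constantCoeff (B.mp p) := rfl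

theorem ev_C (c : O) : B.ev (C c) = algebraMap O A c := by simp [ev_apply, mp_C]

theorem ev_X : B.ev X = B.τ := by simp [ev_apply, mp_X]

theorem mp_monic {Q : O[X]} (h : Q.Monic) : (B.mp Q).Monic := by
  rw [Monic, mp_apply, leadingCoeff_taylor]
  exact h.map _

theorem natDegree_mp (Q : O[X]) : (B.mp Q).natDegree = Q.natDegree := by
  rw [mp_apply, natDegree_taylor, natDegree_map_eq_of_injective B.inj]

theorem ev_scale (n : ℕ) (p : O[X]) (h : p.natDegree ≤ n) :
    ∃ o : O, (-algebraMap O A B.T) ^ n * B.ev p = algebraMap O A (p.coeff n + B.T * o) := by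
  induction n generalizing p with
  | zero =>
    refine ⟨0, ?_⟩
    rw [eq_C_of_natDegree_le_zero h]
    simp [ev_C]
  | succ n ih =>
    obtain ⟨o, ho⟩ := ih p.divX (by rw [natDegree_divX_eq_natDegree_tsub_one]; omega)
    refine ⟨o - (-B.T) ^ n * p.coeff 0, ?_⟩
    rw [coeff_divX] at ho
    conv_lhs => rw [← divX_mul_X_add p]
    simp only [map_add, map_mul, ev_C, ev_X, map_sub, map_pow, map_neg] at ho ⊢
    linear_combination ho - (-algebraMap O A B.T) ^ n * B.ev p.divX * B.hτ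

theorem ev_monic {Q : O[X]} (h : Q.Monic) : ∃ (k : ℕ) (o : O),
    algebraMap O A B.T ^ k * ((-1) ^ Q.natDegree * B.ev Q) = algebraMap O A (1 + B.T * o) := by
  obtain ⟨o, ho⟩ := B.ev_scale _ Q le_rfl
  refine ⟨Q.natDegree, o, ?_⟩
  rw [h.coeff_natDegree, neg_pow] at ho
  rw [← ho]; ring

theorem ev_ne {Q : O[X]} (h : Q.Monic) : B.ev Q ≠ 0 := fun h0 => by
  obtain ⟨k, o, ho⟩ := B.ev_monic h
  rw [h0, mul_zero, mul_zero, eq_comm, map_eq_zero_iff _ B.inj] at ho
  exact B.hT (IsUnit.of_mul_eq_one (-o) (by linear_combination -ho))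

include B in
theorem sur {y : A} (hy : y ≠ 0) (a : A) : ∃ o : O, y ∣ a - algebraMap O A o := by
  have := B.fin y hy
  obtain ⟨k, o, ho⟩ := B.den a
  set t := algebraMap O A B.T ^ k with ht
  have hu : IsUnit t := (IsUnit.of_mul_eq_one (-B.τ) (by linear_combination -B.hτ)).pow k
  obtain ⟨n, hn, hi⟩ := exists_idem (Ideal.Quotient.mk (Ideal.span {y}) t)
  rw [← map_pow, ← map_mul, Ideal.Quotient.eq, Ideal.mem_span_singleton,
    show t ^ n * t ^ n - t ^ n = t ^ n * (t ^ n - 1) by ring, (hu.pow n).dvd_mul_left] at hi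
  refine ⟨(B.T ^ k) ^ (n - 1) * o, ?_⟩
  rw [map_mul, map_pow, map_pow, ← ht, ← ho, ← mul_assoc, ← pow_succ, Nat.sub_add_cancel hn,
    show a - t ^ n * a = (t ^ n - 1) * (-a) by ring]
  exact hi.mul_right _

/-- admissible pairs -/
def Adm (g Q : O[X]) : Prop := IsCoprime (B.ev g) (B.ev Q) ∧ Cop g Q

/-- the defect -/
def Φ (g Q : O[X]) : ZMod 6 := zz (C B.ζ) (B.mp g) (B.mp Q) X - zz (C B.ζ) X (B.mp Q) (B.mp g)

variable {B}

theorem Adm.symm {g Q : O[X]} (h : B.Adm g Q) : B.Adm Q g := by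
  obtain ⟨h1, c, hc, a, b, h⟩ := h
  exact ⟨h1.symm, c, hc, b, a, by linear_combination h⟩

theorem Adm.left {g g' Q : O[X]} (h : B.Adm (g * g') Q) : B.Adm g Q := by
  obtain ⟨h1, c, hc, a, b, h⟩ := h
  rw [map_mul] at h1
  exact ⟨h1.of_mul_left_left, c, hc, a * g', b, by linear_combination h⟩

theorem Adm.right {g g' Q : O[X]} (h : B.Adm (g * g') Q) : B.Adm g' Q :=
  Adm.left (g' := g) (by rwa [mul_comm])

theorem Adm.add {g Q : O[X]} (h : B.Adm g Q) (r : O[X]) : B.Adm (g + r * Q) Q := by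
  obtain ⟨h1, c, hc, a, b, h⟩ := h
  refine ⟨?_, c, hc, a, b - a * r, by linear_combination h⟩
  rw [map_add, map_mul]
  exact h1.add_mul_right_left _

theorem un_of_coprime {a b : A[X]} (h : IsCoprime (constantCoeff a) (constantCoeff b)) :
    Un a b X := by
  obtain ⟨u, v, h⟩ := h
  obtain ⟨k, hk⟩ : X ∣ C u * a + C v * b - 1 := X_dvd_iff.2 (by
    simp only [constantCoeff_apply] at h
    simp [h])
  exact ⟨C u, C v, -k, by linear_combination hk⟩

theorem Adm.un {g Q : O[X]} (h : B.Adm g Q) : Un (B.mp g) (B.mp Q) X := un_of_coprime h.1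

theorem Adm.un' {g Q : O[X]} (h : B.Adm g Q) : Un X (B.mp Q) (B.mp g) := h.un.swap₂.swap₁.swap₂

theorem zz_X (B : Bs O A) {g Q : O[X]} (hQ : Q.Monic) (h : IsCoprime (B.ev g) (B.ev Q)) :
    zz (C B.ζ) (B.mp g) (B.mp Q) X = zs B.ζ (B.ev g) (B.ev Q) := by
  have : Finite (A ⧸ Ideal.span {constantCoeff (B.mp Q)}) := B.fin _ (B.ev_ne hQ)
  have h1 := zm_hom constantCoeff (mem_pair_X (B.mp Q)) (fun c => ⟨C c, by simp⟩)
    (map_zeta C B.hζ) (map_six C B.h6) (un_of_coprime h).canc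
  rw [constantCoeff_apply (C B.ζ), coeff_C_zero] at h1
  exact h1

theorem Φ_add (g Q r : O[X]) : B.Φ (g + r * Q) Q = B.Φ g Q := by
  rw [Φ, Φ, map_add, map_mul, zz_congr, zz_add]

variable [IsDomain A]

theorem Adm.finite {g Q : O[X]} (h : B.Adm g Q) (hQ : Q.Monic) :
    Finite (A[X] ⧸ Ideal.span ({B.mp Q, B.mp g} : Set A[X])) := by
  obtain ⟨-, c, hc, a, b, h⟩ := h
  have := B.fin _ ((map_ne_zero_iff _ B.inj).2 hc)
  have := finite_monic ((B.mp_monic hQ).map (Ideal.Quotient.mk (Ideal.span {algebraMap O A c})))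
  refine finite_quot (mapRingHom (Ideal.Quotient.mk (Ideal.span {algebraMap O A c})))
    (J := Ideal.span {(B.mp Q).map (Ideal.Quotient.mk (Ideal.span {algebraMap O A c}))})
    fun x hx => ?_
  obtain ⟨s, t, rfl⟩ := Ideal.mem_span_pair.1 ((mem_pair_C (B.mp Q) x _).2 hx)
  rw [← B.mp_C, ← h, map_add, map_mul, map_mul]
  exact Ideal.mem_span_pair.2 ⟨s + t * B.mp b, t * B.mp a, by ring⟩

theorem Φ_mul {g g' Q : O[X]} (hQ : Q.Monic) (h : B.Adm (g * g') Q) :
    B.Φ (g * g') Q = B.Φ g Q + B.Φ g' Q := by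
  have h1 := h.finite hQ
  have h2 := h.un'
  have h3 := B.fin _ (B.ev_ne hQ)
  rw [map_mul] at h1 h2
  have h4 : ∀ x, B.mp Q ∣ B.mp g * x → B.mp Q ∣ x := fun x hx => by
    obtain ⟨-, c, hc, a, b, h⟩ := h.left
    refine monic_dvd (B.mp_monic hQ) ((map_ne_zero_iff _ B.inj).2 hc) ?_
    rw [← B.mp_C, ← h, map_add, map_mul, map_mul, add_mul, mul_assoc]
    exact dvd_add (hx.mul_left _) (((dvd_refl _).mul_left _).mul_right _)
  rw [Φ, Φ, Φ, B.zz_X hQ h.1, B.zz_X hQ h.left.1, B.zz_X hQ h.right.1, map_mul, map_mul,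
    zs_mul_left B.hζ B.h6 h.left.1 h.right.1,
    zz_mul_right (map_zeta C B.hζ) (map_six C B.h6) h4 h2]
  ring

omit [IsDomain A] in
theorem assoc_neg (n : ℕ) (y : A) : Associated y ((-1) ^ n * y) :=
  (associated_unit_mul_left y _ (isUnit_one.neg.pow n)).symm

theorem zs_ev {x : A} {Q : O[X]} (hQ : Q.Monic) (hx : x ≠ 0) (h : IsCoprime x (B.ev Q)) :
    zs B.ζ x (B.ev Q) = zs B.ζ ((-1) ^ Q.natDegree * B.ev Q) x := by
  rw [zs_assoc _ _ (assoc_neg Q.natDegree _)]
  exact B.law _ _ hx ((isCoprime_mul_unit_left_right (isUnit_one.neg.pow _) _ _).2 h) (B.ev_monic hQ)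

theorem Φ_shift {g Q : O[X]} (r : O[X]) (hQ : Q.Monic) (hQ' : (Q + r * g).Monic)
    (hd : (Q + r * g).natDegree = Q.natDegree) (h : B.Adm g Q) : B.Φ g (Q + r * g) = B.Φ g Q := by
  have h' := (h.symm.add r).symm
  rw [Φ, Φ, B.zz_X hQ h.1, B.zz_X hQ' h'.1, zz_comm _ X, zz_comm _ X (B.mp Q)]
  congr 1
  · by_cases h0 : B.ev g = 0
    · simp [h0]
    · rw [zs_ev hQ h0 h.1, zs_ev hQ' h0 h'.1, hd]
      refine zs_congr _ ⟨(-1) ^ Q.natDegree * B.ev r, ?_⟩
      simp only [map_add, map_mul]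
      ring
  · rw [map_add, map_mul, zz_add]

theorem Φ_swap {m Q : O[X]} (hQ : Q.Monic) (hm : m.Monic) (h : B.Adm m Q) : B.Φ m Q = B.Φ Q m := by
  have := B.fin _ (B.ev_ne hm)
  have hu : IsUnit ((-1 : A) ^ Q.natDegree) := isUnit_one.neg.pow _
  have hc : IsCoprime ((-1 : A) ^ Q.natDegree) (B.ev m) := by
    simpa using (isCoprime_mul_unit_left_left hu 1 (B.ev m)).2 isCoprime_one_left
  rw [Φ, Φ, B.zz_X hQ h.1, B.zz_X hm h.symm.1, zz_comm _ X, zs_ev hQ (B.ev_ne hm) h.1,
    zs_mul_left B.hζ B.h6 hc h.symm.1, zs_ev hm hu.ne_zero hc, zs_unit _ _ hu, zero_add]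

variable [IsDomain O] [IsPrincipalIdealRing O]

theorem Φ_prime {s : O} {Q : O[X]} (hQ : Q.Monic) (h : B.Adm (C s) Q) (hs : IsUnit s ∨ Prime s) :
    B.Φ (C s) Q = 0 := by
  have hs0 : algebraMap O A s ≠ 0 :=
    (map_ne_zero_iff _ B.inj).2 (hs.elim IsUnit.ne_zero Prime.ne_zero)
  have h1 := h.1
  have h2 := h.un'
  rw [Φ, B.zz_X hQ h1]
  rw [B.ev_C] at h1 ⊢
  rw [B.mp_C] at h2 ⊢
  rw [zs_ev hQ hs0 h1, sub_eq_zero]
  set π := algebraMap O A s with hπ
  by_cases hu : IsUnit π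
  · have : Subsingleton (A[X] ⧸ Ideal.span ({B.mp Q, C π} : Set A[X])) :=
      Ideal.Quotient.subsingleton_iff.2 (Ideal.eq_top_of_isUnit_mem _
        (Ideal.subset_span (by simp)) (hu.map C))
    rw [zs_unit _ _ hu, zz, zm_subsingleton]
  have hp : Prime s := hs.resolve_left fun h => hu (h.map _)
  have hmax : (Ideal.span {π}).IsMaximal := by
    rw [Ideal.isMaximal_iff]
    refine ⟨fun h => hu (isUnit_of_dvd_one (Ideal.mem_span_singleton.1 h)), fun J x hJ hx hxJ => ?_⟩
    obtain ⟨o, ho⟩ := B.sur hs0 x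
    have h3 : ¬ s ∣ o := fun hd => hx (Ideal.mem_span_singleton.2 (by
      simpa using dvd_add ho (map_dvd (algebraMap O A) hd)))
    obtain ⟨u, v, huv⟩ := (hp.coprime_iff_not_dvd.2 h3).map (algebraMap O A)
    have h4 : algebraMap O A o ∈ J := by
      simpa using J.sub_mem hxJ (hJ (Ideal.mem_span_singleton.2 ho))
    rw [← huv]
    exact J.add_mem (J.mul_mem_left _ (hJ (Ideal.mem_span_singleton_self _))) (J.mul_mem_left _ h4)
  have hfin := B.fin π hs0
  let _ := Ideal.Quotient.field (Ideal.span {π})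
  have hm := (B.mp_monic hQ).map (Ideal.Quotient.mk (Ideal.span {π}))
  have := finite_monic hm
  have hζ' := map_zeta (Ideal.Quotient.mk (Ideal.span {π})) B.hζ
  have h6' := map_six (Ideal.Quotient.mk (Ideal.span {π})) B.h6
  have e1 := zm_hom _ (mem_pair_C (B.mp Q) · π) (fun c => by
    obtain ⟨c, rfl⟩ := map_surjective _ Ideal.Quotient.mk_surjective c
    exact ⟨c, by simp⟩) (map_zeta C B.hζ) (map_six C B.h6) h2.canc
  have h0 : ((B.mp Q).map (Ideal.Quotient.mk (Ideal.span {π}))).coeff 0 ≠ 0 := by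
    rw [coeff_map, Ne, Ideal.Quotient.eq_zero_iff_mem, Ideal.mem_span_singleton]
    exact fun hd => hu (h1.isUnit_of_dvd' dvd_rfl hd)
  have e2 := zs_field hζ' h6' _ hm h0
  rw [coe_mapRingHom, map_C, map_X] at e1
  rw [zz, e1, ← zs, e2, (B.mp_monic hQ).natDegree_map, B.natDegree_mp, coeff_map]
  refine zm_equiv B.hζ B.h6 hζ' h6' (AddEquiv.refl _) (fun q => ?_) (fun q => ?_)
    (smul_inj_of_coprime ((isCoprime_mul_unit_left_left (isUnit_one.neg.pow _) _ _).2 h1.symm))
  · rfl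
  · simp only [AddEquiv.refl_apply, Algebra.smul_def, map_mul, map_pow, map_neg, map_one]
    rfl

theorem Φ_C {s : O} {Q : O[X]} (hQ : Q.Monic) (hs : s ≠ 0) (h : B.Adm (C s) Q) :
    B.Φ (C s) Q = 0 := by
  induction s using UniqueFactorizationMonoid.induction_on_prime with
  | h₁ => exact absurd rfl hs
  | h₂ u hu => exact Φ_prime hQ h (Or.inl hu)
  | h₃ a p ha hp ih =>
    rw [C_mul] at h ⊢
    rw [Φ_mul hQ h, Φ_prime hQ h.left (Or.inr hp), ih ha h.right, add_zero]

variable [CharZero O]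

theorem exists_shift {G g Q : O[X]} (hG : G ≠ 0) (h : B.Adm g Q) (h0 : B.ev G ≠ 0 ∨ B.ev g = 0) :
    ∃ r : O, B.Adm G (Q + C r * g) := by
  obtain ⟨r₀, μ, hμ, hr⟩ : ∃ r₀ μ : O, μ ≠ 0 ∧
      ∀ n : ℕ, IsCoprime (B.ev G) (B.ev (Q + C (r₀ + n * μ) * g)) := by
    rcases h0 with h0 | h0
    · have := B.fin _ h0
      obtain ⟨e, -, he⟩ := exists_coprime (y := B.ev G) h.1.symm
      obtain ⟨r₀, c, hc⟩ := B.sur h0 e
      obtain ⟨k, μ, hμ⟩ := B.den (B.ev G)
      have hT : IsUnit (algebraMap O A B.T) :=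
        IsUnit.of_mul_eq_one (-B.τ) (by linear_combination -B.hτ)
      refine ⟨r₀, μ, fun h1 => ?_, fun n => ?_⟩
      · rw [h1, map_zero] at hμ
        exact h0 ((hT.pow k).mul_right_eq_zero.1 hμ)
      · have := (he 1 one_pos).add_mul_left_right ((n * algebraMap O A B.T ^ k - c) * B.ev g)
        convert this using 1
        simp only [map_add, map_mul, ev_C, map_natCast, ← hμ]
        linear_combination (-B.ev g) * hc
    · refine ⟨0, 1, one_ne_zero, fun n => ?_⟩
      have h1 := h.1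
      rw [h0, isCoprime_zero_left] at h1
      rw [map_add, map_mul, h0, mul_zero, add_zero]
      simpa using (isCoprime_mul_unit_left_right h1 (B.ev G) 1).2 isCoprime_one_right
  have hinj := IsFractionRing.injective O (FractionRing O)
  have hfin := finite_bad ((Polynomial.map_ne_zero_iff hinj).2 hG) ((cop_iff _ _).1 h.2)
  obtain ⟨_, ⟨n, rfl⟩, hn⟩ := (Set.infinite_range_of_injective
    (f := fun n : ℕ => algebraMap O (FractionRing O) (r₀ + n * μ)) fun n n' hn => by
      simpa [hμ] using hinj hn).exists_notMem_finite hfin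
  refine ⟨r₀ + n * μ, hr n, (cop_iff _ _).2 ?_⟩
  simpa only [Set.mem_ofPred_eq, not_not, Polynomial.map_add, Polynomial.map_mul, map_C] using hn

theorem Φ_step {d : ℕ} (ih : ∀ m Q : O[X], m.Monic → m.natDegree < d → B.Adm Q m → B.Φ Q m = 0)
    (n : ℕ) {g Q : O[X]} (hQ : Q.Monic) (hd : Q.natDegree = d) (hg : g.natDegree < d)
    (h : B.Adm g Q) (hn : B.nm g.leadingCoeff = n) : B.Φ g Q = 0 := by
  induction n using Nat.strong_induction_on generalizing g Q with
  | _ n ihn =>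
  have hg0 : g ≠ 0 := by
    rintro rfl
    obtain ⟨-, c, hc, a, b, h⟩ := h
    have := natDegree_le_of_dvd (p := Q) (q := C c) ⟨b, by linear_combination -h⟩ (C_ne_zero.2 hc)
    rw [natDegree_C] at this
    omega
  set u := g.leadingCoeff with hu
  have hu0 : u ≠ 0 := leadingCoeff_ne_zero.2 hg0
  by_cases hdv : C u ∣ g
  · obtain ⟨m, hm⟩ := hdv
    have h1 : m.Monic := by
      have := congrArg leadingCoeff hm
      rw [leadingCoeff_mul, leadingCoeff_C, ← hu] at this
      exact (mul_left_cancel₀ hu0 (this.symm.trans (mul_one u).symm))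
    have h2 : m.natDegree < d := by rwa [hm, natDegree_C_mul hu0] at hg
    rw [hm] at h ⊢
    rw [Φ_mul hQ h, Φ_C hQ hu0 h.left, Φ_swap hQ h1 h.right, ih m Q h1 h2 h.right.symm, add_zero]
  set ψ := Ideal.Quotient.mk (Ideal.span {u}) with hψ
  have hψ0 : ∀ x, ψ x = 0 ↔ u ∣ x := fun x => by
    rw [hψ, Ideal.Quotient.eq_zero_iff_mem, Ideal.mem_span_singleton]
  have hb : g.map ψ ≠ 0 := fun h0 => hdv ((C_dvd_iff_dvd_coeff _ _).2 fun i => by
    rw [← hψ0, ← coeff_map, h0, coeff_zero])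
  have hnt : Nontrivial (O ⧸ Ideal.span {u}) := Nontrivial.of_polynomial_ne hb
  have he : (g.map ψ).natDegree < g.natDegree := by
    refine lt_of_le_of_ne natDegree_map_le fun he => hb (leadingCoeff_eq_zero.1 ?_)
    rw [leadingCoeff, he, coeff_map, hψ0]
    exact dvd_rfl
  obtain ⟨i, hi⟩ : ∃ i, g.natDegree + i + 1 = d := ⟨d - 1 - g.natDegree, by omega⟩
  obtain ⟨j, hj⟩ : ∃ j, (g.map ψ).natDegree + j + 1 = d := ⟨d - 1 - (g.map ψ).natDegree, by omega⟩
  have hQ1 : Q ≠ 1 := by rintro rfl; simp at hd; omega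
  set w := (g * X ^ j %ₘ Q).coeff (d - 1) with hw
  have hw0 : ¬ u ∣ w := by
    rw [← hψ0, hw, ← coeff_map, map_modByMonic _ hQ, Polynomial.map_mul, Polynomial.map_pow, map_X,
      (modByMonic_eq_self_iff (hQ.map ψ)).2 (degree_lt_degree (by
        rw [natDegree_mul_X_pow _ hb, hQ.natDegree_map]; omega)),
      show d - 1 = (g.map ψ).natDegree + j by omega, coeff_mul_X_pow]
    exact leadingCoeff_ne_zero.2 hb
  let G : O → O[X] := fun s => g * X ^ j %ₘ Q + C s * (g * X ^ i)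
  obtain ⟨s, hs, hs0⟩ : ∃ s, B.nm (w + s * u) < B.nm u ∧ (B.ev (G s) ≠ 0 ∨ B.ev g = 0) := by
    obtain ⟨s, s', hss, h1, h2⟩ := B.euc u w hu0 hw0
    by_contra hne
    push Not at hne
    have h3 := (hne s h1).1
    have h4 := (hne s' h2).1
    have hτ : B.τ ≠ 0 := fun h => by simpa [h] using B.hτ
    simp only [G, map_add, map_mul, ev_C, map_pow, ev_X] at h3 h4
    have h5 : algebraMap O A (s - s') * (B.ev g * B.τ ^ i) = 0 := by
      rw [map_sub]; linear_combination h3 - h4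
    exact mul_ne_zero ((map_ne_zero_iff _ B.inj).2 (sub_ne_zero.2 hss))
      (mul_ne_zero (hne s h1).2 (pow_ne_zero _ hτ)) h5
  have hc : (G s).coeff (d - 1) = w + s * u := by
    simp only [G, coeff_add, coeff_C_mul]
    rw [show d - 1 = g.natDegree + i by omega, coeff_mul_X_pow, show g.natDegree + i = d - 1 by omega]
    rfl
  have hc0 : w + s * u ≠ 0 := fun h0 => hw0 ⟨-s, by linear_combination h0⟩
  have hGd : (G s).natDegree = d - 1 := by
    refine natDegree_eq_of_le_of_coeff_ne_zero ?_ (hc ▸ hc0)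
    refine (natDegree_add_le _ _).trans (max_le ?_ ((natDegree_C_mul_le _ _).trans ?_))
    · have := natDegree_modByMonic_lt (g * X ^ j) hQ hQ1
      omega
    · rw [natDegree_mul_X_pow _ hg0]; omega
  have hG0 : G s ≠ 0 := fun h0 => hc0 (by rw [← hc, h0, coeff_zero])
  obtain ⟨r, hr⟩ := exists_shift hG0 h hs0
  have hlt : (C r * g).degree < Q.degree :=
    degree_lt_degree (lt_of_le_of_lt (natDegree_C_mul_le _ _) (by omega))
  have hQ' : (Q + C r * g).Monic := hQ.add_of_left hlt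
  have hd' : (Q + C r * g).natDegree = Q.natDegree := natDegree_add_eq_left_of_degree_lt hlt
  have h1 := ihn _ (hn ▸ hs) hQ' (hd'.trans hd) (by omega) hr (by rw [leadingCoeff, hGd, hc])
  set k := g * X ^ j /ₘ Q with hk
  have hlt' : (C s * X ^ i + C r * k).natDegree < j := by
    refine lt_of_le_of_lt (natDegree_add_le _ _) (max_lt (lt_of_le_of_lt (natDegree_C_mul_le _ _) ?_)
      (lt_of_le_of_lt (natDegree_C_mul_le _ _) ?_))
    · rw [natDegree_X_pow]; omega
    · rw [hk, natDegree_divByMonic _ hQ, natDegree_mul_X_pow _ hg0]; omega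
  have hm : (X ^ j + (C s * X ^ i + C r * k)).Monic :=
    monic_X_pow_add (lt_of_le_of_lt degree_le_natDegree (by exact_mod_cast hlt'))
  have hmd : (X ^ j + (C s * X ^ i + C r * k)).natDegree < d := by
    rw [natDegree_add_eq_left_of_natDegree_lt (by rwa [natDegree_X_pow]), natDegree_X_pow]
    omega
  have hid : G s + k * (Q + C r * g) = g * (X ^ j + (C s * X ^ i + C r * k)) := by
    have := modByMonic_add_div (g * X ^ j) Q
    simp only [G]
    linear_combination this
  have h2 := hr.add k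
  rw [← Φ_add _ _ k] at h1
  rw [hid] at h1 h2
  rw [Φ_mul hQ' h2, Φ_swap hQ' hm h2.right, ih _ _ hm hmd h2.right.symm, add_zero,
    Φ_shift _ hQ hQ' hd' h] at h1
  exact h1

/-- the reciprocity law for polynomials -/
theorem Φ_eq_zero {g Q : O[X]} (hQ : Q.Monic) (h : B.Adm g Q) : B.Φ g Q = 0 := by
  induction hd : Q.natDegree using Nat.strong_induction_on generalizing g Q with
  | _ d ih =>
  by_cases hQ1 : Q = 1
  · rw [hQ1, Φ, map_one, zz_one, zz_one, sub_zero]
  have h1 : g %ₘ Q = g + (-(g /ₘ Q)) * Q := by linear_combination modByMonic_add_div g Q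
  rw [← Φ_add g Q (-(g /ₘ Q)), ← h1]
  exact Φ_step (fun m Q' hm hlt h' => ih _ hlt hm h' rfl) _ hQ hd
    (hd ▸ natDegree_modByMonic_lt g hQ hQ1) (h1 ▸ h.add _) rfl

end Bs

end Crest.Agent.T27.Mn
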