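import Crest.Agent.T27.Mn2_85
import Crest.Agent.PVc.R17.Recip

/-!
# Row 27, sextic reciprocity by a Euclidean algorithm on polynomials, part 3

The data `Bs` for `ℤ[ω]` and `ℤ[ω][1/M]`, from the reciprocity laws in `ℤ[ω]`.
-/

set_option autoImplicit false

noncomputable section

namespace Crest.Agent.T27.Mn

open Rc

section den
variable {O A : Type*} [CommRing O] [CommRing A] (φ : O →+* A) {T : O} (hT : IsUnit (φ T))
  (den : ∀ a : A, ∃ (k : ℕ) (o : O), φ T ^ k * a = φ o)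
include hT den

theorem sur_of_den {y : A} {μ : O} (h : y ∣ φ μ) [Finite (O ⧸ Ideal.span {μ})] (a : A) :
    ∃ o, y ∣ a - φ o := by
  obtain ⟨n, hn, hi⟩ := exists_idem (Ideal.Quotient.mk (Ideal.span {μ}) T)
  rw [← map_pow, ← map_mul, Ideal.Quotient.eq, Ideal.mem_span_singleton] at hi
  have h1 := h.trans (map_dvd φ hi)
  rw [map_sub, map_mul, map_pow, show φ T ^ n * φ T ^ n - φ T ^ n = φ T ^ n * (φ T ^ n - 1) by ring,
    (hT.pow n).dvd_mul_left] at h1
  obtain ⟨k, o, ho⟩ := den a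
  obtain ⟨n, rfl⟩ := Nat.exists_eq_add_of_lt hn
  refine ⟨(T ^ n) ^ k * o, ?_⟩
  rw [map_mul, map_pow, map_pow, ← ho, show a - (φ T ^ n) ^ k * (φ T ^ k * a) =
    ((φ T ^ (0 + n + 1)) ^ k - 1 ^ k) * (-a) by ring]
  exact (h1.trans (sub_dvd_pow_sub_pow _ _ k)).mul_right _

theorem finite_of_den {y : A} {μ : O} (h : y ∣ φ μ) [Finite (O ⧸ Ideal.span {μ})] :
    Finite (A ⧸ Ideal.span {y}) := by
  refine Finite.of_surjective (Ideal.quotientMap (I := Ideal.span {μ}) (Ideal.span {y}) φ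
    fun x hx => Ideal.mem_span_singleton.2 (h.trans (map_dvd φ (Ideal.mem_span_singleton.1 hx))))
    fun c => ?_
  obtain ⟨c, rfl⟩ := Ideal.Quotient.mk_surjective c
  obtain ⟨o, ho⟩ := sur_of_den φ hT den h c
  exact ⟨Ideal.Quotient.mk _ o, by
    rw [Ideal.quotientMap_mk, eq_comm, Ideal.Quotient.eq, Ideal.mem_span_singleton]; exact ho⟩

omit hT in
theorem coprime_of_den (hφ : Function.Injective φ) {x y : O} (hy : IsCoprime y T)
    (h : IsCoprime (φ x) (φ y)) : IsCoprime x y := by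
  obtain ⟨u, v, h⟩ := h
  obtain ⟨k, u', hu⟩ := den u
  obtain ⟨l, v', hv⟩ := den v
  have h1 : T ^ l * u' * x + T ^ k * v' * y = T ^ (k + l) := hφ (by
    simp only [map_add, map_mul, map_pow, ← hu, ← hv]
    linear_combination φ T ^ (k + l) * h)
  obtain ⟨a, b, hab⟩ := hy.pow_right (n := k + l)
  exact ⟨b * (T ^ l * u'), a + b * (T ^ k * v'), by linear_combination hab + b * h1⟩

omit hT in
theorem dvd_of_den (hφ : Function.Injective φ) {x y : O} (hy : IsCoprime y T)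
    (h : φ y ∣ φ x) : y ∣ x := by
  obtain ⟨c, hc⟩ := h
  obtain ⟨k, o, ho⟩ := den c
  refine (hy.pow_right (n := k)).dvd_of_dvd_mul_left ⟨o, hφ ?_⟩
  simp only [map_mul, map_pow, hc, ← ho]
  ring

end den

theorem zs_pow {S : Type*} [CommRing S] {ζ : S} (hζ : ζ ^ 2 - ζ + 1 = 0) (h6 : IsUnit (6 : S))
    {a b : S} [Finite (S ⧸ Ideal.span {b})] (h : IsCoprime a b) (n : ℕ) :
    zs ζ (a ^ n) b = n * zs ζ a b := by
  induction n with
  | zero => simp [zs_one_left]
  | succ n ih => rw [pow_succ, zs_mul_left hζ h6 h.pow_left h, ih]; push_cast; ring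

theorem zs_six {S : Type*} [CommRing S] {ζ : S} (hζ : ζ ^ 2 - ζ + 1 = 0) (h6 : IsUnit (6 : S))
    {a b c : S} [Finite (S ⧸ Ideal.span {b})] (h : IsCoprime a b) (hc : IsCoprime c b) :
    zs ζ (c ^ 6 * a) b = zs ζ a b := by
  rw [zs_mul_left hζ h6 hc.pow_left h, zs_pow hζ h6 hc, show ((6 : ℕ) : ZMod 6) = 0 from rfl,
    zero_mul, zero_add]

theorem coprime_unit {S : Type*} [CommRing S] {c : S} (hc : IsUnit c) (b : S) : IsCoprime c b := by
  simpa using (isCoprime_mul_unit_left_left hc 1 b).2 isCoprime_one_left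

open R17

theorem six_ineq {a b c d : ℤ} (h : 0 < a ^ 2 - a * b + b ^ 2)
    (h' : a ^ 2 - a * b + b ^ 2 < c ^ 2 - c * d + d ^ 2)
    (a1 : 2 * a * c - a * d - b * c + 2 * b * d ≤ a ^ 2 - a * b + b ^ 2)
    (a2 : -(a ^ 2 - a * b + b ^ 2) ≤ 2 * a * c - a * d - b * c + 2 * b * d)
    (a3 : -a * c - a * d + 2 * b * c - b * d ≤ a ^ 2 - a * b + b ^ 2)
    (a4 : -(a ^ 2 - a * b + b ^ 2) ≤ -a * c - a * d + 2 * b * c - b * d)
    (a5 : a * c - 2 * a * d + b * c + b * d ≤ a ^ 2 - a * b + b ^ 2)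
    (a6 : -(a ^ 2 - a * b + b ^ 2) ≤ a * c - 2 * a * d + b * c + b * d) : False := by
  have b1 := sq_le_sq' a2 a1
  have b2 := sq_le_sq' a4 a3
  have b3 := sq_le_sq' a6 a5
  have h1 : (2 * a * c - a * d - b * c + 2 * b * d) ^ 2 + (-a * c - a * d + 2 * b * c - b * d) ^ 2 +
      (a * c - 2 * a * d + b * c + b * d) ^ 2 =
      6 * ((a ^ 2 - a * b + b ^ 2) * (c ^ 2 - c * d + d ^ 2)) := by ring
  generalize a ^ 2 - a * b + b ^ 2 = R at *
  generalize c ^ 2 - c * d + d ^ 2 = U at *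
  have h2 : R * R < R * U := mul_lt_mul_of_pos_left h' h
  have h3 : 0 < R * R := mul_pos h h
  linarith

theorem two_choices (u w : O) (hu : u ≠ 0) (hw : ¬ u ∣ w) :
    ∃ s s', s ≠ s' ∧ nm (w + s * u) < nm u ∧ nm (w + s' * u) < nm u := by
  have h1 := nm_sub_mul_quo_lt w hu
  set r := w - u * quo w u with hr
  have h2 : nm r ≠ 0 := fun h => hw ⟨quo w u, sub_eq_zero.1 (nm_eq_zero.1 h)⟩
  obtain ⟨e, he, h3⟩ : ∃ e : O, e ≠ 0 ∧ nm (r - e * u) < nm u := by
    by_contra hne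
    push Not at hne
    have a1 := hne ⟨1, 0⟩ (by decide)
    have a2 := hne ⟨-1, 0⟩ (by decide)
    have a3 := hne ⟨0, 1⟩ (by decide)
    have a4 := hne ⟨0, -1⟩ (by decide)
    have a5 := hne ⟨1, 1⟩ (by decide)
    have a6 := hne ⟨-1, -1⟩ (by decide)
    have h4 : (0 : ℤ) < nm r := by omega
    have key : ∀ x y : ℤ, nm u ≤ nm (r - ⟨x, y⟩ * u) → u.re ^ 2 - u.re * u.im + u.im ^ 2 ≤
        (r.re - (x * u.re - y * u.im)) ^ 2 -
          (r.re - (x * u.re - y * u.im)) * (r.im - (x * u.im + y * u.re - y * u.im)) +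
          (r.im - (x * u.im + y * u.re - y * u.im)) ^ 2 := fun x y h => by
      have h' : (nm u : ℤ) ≤ nm (r - ⟨x, y⟩ * u) := by exact_mod_cast h
      rw [nm_cast, nm_cast] at h'
      simp only [QuadraticAlgebra.re_sub, QuadraticAlgebra.im_sub, QuadraticAlgebra.re_mul,
        QuadraticAlgebra.im_mul] at h'
      convert h' using 1
      ring
    have h5 : (nm r : ℤ) < nm u := by exact_mod_cast h1
    rw [nm_cast] at h4
    rw [nm_cast, nm_cast] at h5
    exact six_ineq h4 h5 (by linarith [key _ _ a1]) (by linarith [key _ _ a2])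
      (by linarith [key _ _ a3]) (by linarith [key _ _ a4]) (by linarith [key _ _ a5])
      (by linarith [key _ _ a6])
  refine ⟨-quo w u, -quo w u - e, fun h => he (by linear_combination h), ?_, ?_⟩
  · rwa [show w + -quo w u * u = r by rw [hr]; ring]
  · rwa [show w + (-quo w u - e) * u = r - e * u by rw [hr]; ring]

theorem hz0 : (1 + om) ^ 2 - (1 + om) + 1 = 0 := by linear_combination om_sq_add

theorem sym_of_dvd {p a : O} (hp : Prime p) (h : PO p) (ha : ¬ p ∣ a) {i : ℕ}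
    (hi : p ∣ a ^ ((nm p - 1) / 6) - (1 + om) ^ i) : sym p a = ι (1 + om) ^ i := by
  have h6 := (nm_prime_mod_six hp h.1 (RecipB.ne_neg_two h)).1
  have h2 : (1 + om) ^ 2 = om := by linear_combination om_sq_add
  have h3 : (1 + om) ^ 3 = -1 := by linear_combination (om + 2) * om_sq_add
  have e2 : sym p a ^ 2 = (ι (1 + om) ^ i) ^ 2 := by
    rw [sym_sq h.1, cub_prime hp h.1, ← pow_mul, mul_comm, pow_mul, ← map_pow, h2, ι_om,
      cub1_eq_pow_iff hp h.1, show (nm p - 1) / 3 = (nm p - 1) / 6 * 2 by omega, pow_mul, ← h2,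
      ← pow_mul (1 + om), mul_comm 2 i, pow_mul]
    exact hi.trans (sub_dvd_pow_sub_pow _ _ 2)
  have e3 : sym p a ^ 3 = (ι (1 + om) ^ i) ^ 3 := by
    have h4 := hi.trans (sub_dvd_pow_sub_pow _ _ 3)
    rw [← pow_mul, ← pow_mul, mul_comm i, pow_mul (1 + om), h3,
      show (nm p - 1) / 6 * 3 = (nm p - 1) / 2 by omega] at h4
    rw [sym_pow_three h.1, RecipB.quad_prime hp h.1, ← pow_mul, mul_comm, pow_mul, ← map_pow, h3,
      map_neg, map_one, quad1, if_neg ha]
    rcases neg_one_pow_eq_or ℤ i with h5 | h5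
    · have h7 := (neg_one_pow_eq_one_iff_even (by norm_num)).1 h5
      rw [h7.neg_one_pow] at h4 ⊢
      rw [if_pos h4]
    · have h7 := (neg_one_pow_eq_neg_one_iff_odd (by norm_num)).1 h5
      rw [h7.neg_one_pow] at h4 ⊢
      rw [if_neg fun h8 => hp.not_isUnit (h.2.isUnit_of_dvd' dvd_rfl (by
        have := dvd_sub h4 h8
        rwa [show a ^ ((nm p - 1) / 2) - -1 - (a ^ ((nm p - 1) / 2) - 1) = 2 by ring] at this))]
  have h0 : ι (1 + om) ^ i ≠ 0 :=
    pow_ne_zero _ ((map_ne_zero_iff _ ι_injective).2 (by decide))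
  refine mul_right_cancel₀ (pow_ne_zero 2 h0) ?_
  rw [← pow_succ', ← e3, ← e2, ← pow_succ']

section base
variable {A : Type*} [CommRing A] [IsDomain A] (φ : O →+* A) {T : O} (hT : IsUnit (φ T))
  (den : ∀ a : A, ∃ (k : ℕ) (o : O), φ T ^ k * a = φ o) (hφ : Function.Injective φ)
  (h72 : (72 : O) ∣ T)

omit [IsDomain A] in
include hT h72 in
theorem six_unit : IsUnit (6 : A) := by
  have := isUnit_of_dvd_unit (map_dvd φ ((show (6 : O) ∣ 72 from ⟨12, by norm_num⟩).trans h72)) hT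
  rwa [map_ofNat] at this

omit [IsDomain A] in
include hT den in
theorem fin_base (y : A) (hy : y ≠ 0) : Finite (A ⧸ Ideal.span {y}) := by
  obtain ⟨k, μ, h⟩ := den y
  have : Fact (μ ≠ 0) := ⟨fun h0 => by
    rw [h0, map_zero] at h
    exact hy ((hT.pow k).mul_right_eq_zero.1 h)⟩
  exact finite_of_den φ hT den (μ := μ) ⟨φ T ^ k, by rw [← h, mul_comm]⟩

include hT den hφ h72

theorem link {n a : O} (hn : PO n) (hc : IsCoprime n T) (ha : IsCoprime a n) :
    sym n a = ι (1 + om) ^ (zs (φ (1 + om)) (φ a) (φ n)).val := by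
  have hζ := map_zeta φ hz0
  have h6 := six_unit φ hT h72
  revert hc ha
  refine RecipB.PO_induction (P := fun n => IsCoprime n T → IsCoprime a n →
    sym n a = ι (1 + om) ^ (zs (φ (1 + om)) (φ a) (φ n)).val) ?_ ?_ hn
  · intro _ _
    rw [map_one, zs_unit _ _ isUnit_one]
    simp
  intro p n hp hp' hn ih hc ha
  have h0 : φ p ≠ 0 := (map_ne_zero_iff _ hφ).2 hp.ne_zero
  have := fin_base φ hT den _ (mul_ne_zero h0 ((map_ne_zero_iff _ hφ).2 hn.1.ne_zero))
  rw [sym_mul_left hp.ne_zero hn.1.ne_zero, map_mul,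
    zs_mul_right hζ h6 h0 (by simpa using ha.map φ), pow_val_add (map_zeta ι hz0),
    ih hc.of_mul_left_right ha.of_mul_right_right]
  congr 1
  have hc' := hc.of_mul_left_left
  have hpa : ¬ p ∣ a := hp.coprime_iff_not_dvd.1 ha.of_mul_right_left.symm
  refine sym_of_dvd hp hp' hpa (dvd_of_den φ den hφ hc' ?_)
  have := fin_base φ hT den _ h0
  have : Fact (p ≠ 0) := ⟨hp.ne_zero⟩
  have hb : Function.Bijective (Ideal.quotientMap (I := Ideal.span {p}) (Ideal.span {φ p}) φ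
      fun x hx => Ideal.mem_span_singleton.2 (map_dvd φ (Ideal.mem_span_singleton.1 hx))) := by
    refine ⟨Ideal.quotientMap_injective' fun x hx => Ideal.mem_span_singleton.2
      (dvd_of_den φ den hφ hc' (Ideal.mem_span_singleton.1 hx)), fun c => ?_⟩
    obtain ⟨c, rfl⟩ := Ideal.Quotient.mk_surjective c
    obtain ⟨o, ho⟩ := sur_of_den φ hT den (dvd_refl (φ p)) c
    exact ⟨Ideal.Quotient.mk _ o, by
      rw [Ideal.quotientMap_mk, eq_comm, Ideal.Quotient.eq, Ideal.mem_span_singleton]; exact ho⟩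
  have : (Ideal.span {p}).IsPrime := (Ideal.span_singleton_prime hp.ne_zero).2 hp
  have : IsDomain (A ⧸ Ideal.span {φ p}) := MulEquiv.isDomain _ (RingEquiv.ofBijective _ hb).symm.toMulEquiv
  have hpr : Prime (φ p) :=
    (Ideal.span_singleton_prime h0).1 ((Ideal.Quotient.isDomain_iff_prime _).1 this)
  have h1 := zs_prime hζ h6 hpr (a := φ a) fun h => hpa (dvd_of_den φ den hφ hc' h)
  rwa [← Nat.card_congr (Equiv.ofBijective _ hb), card_quot hp.ne_zero, ← map_pow, ← map_pow,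
    ← map_sub] at h1

theorem law_int {x y : O} (hx : x ≠ 0) (hy : T ∣ y - 1) (h : IsCoprime x y) :
    zs (φ (1 + om)) (φ x) (φ y) = zs (φ (1 + om)) (φ y) (φ x) := by
  have hζ := map_zeta φ hz0
  have h6 := six_unit φ hT h72
  have hc : IsCoprime y T := by
    obtain ⟨c, hc⟩ := hy
    exact ⟨1, -c, by linear_combination hc⟩
  have hy' : PO y := ⟨((show (3 : O) ∣ 72 from ⟨24, by norm_num⟩).trans h72).trans hy,
    hc.of_isCoprime_of_dvd_right ((show (2 : O) ∣ 72 from ⟨36, by norm_num⟩).trans h72)⟩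
  have h1 : PO 1 := ⟨primary_one, isCoprime_one_left⟩
  have hy0 : φ y ≠ 0 := (map_ne_zero_iff _ hφ).2 hy'.1.ne_zero
  have := fin_base φ hT den _ hy0
  have hinj : ∀ i j : ZMod 6, ι (1 + om) ^ i.val = ι (1 + om) ^ j.val → i = j := fun i j hij =>
    val_inj (map_zeta ι hz0) (by simp) (p := 0) not_isUnit_zero (by rw [hij, sub_self])
  have key : ∀ c : O, c ≠ 0 → c ∣ T → IsCoprime c y →
      zs (φ (1 + om)) (φ c) (φ y) = zs (φ (1 + om)) (φ y) (φ c) := fun c hc0 hcT hcy => by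
    rw [zs_unit _ _ (isUnit_of_dvd_unit (map_dvd φ hcT) hT)]
    refine hinj _ _ ?_
    rw [← link φ hT den hφ h72 hy' hc hcy, RecipB.sym_per h72 hy' h1 hy hc0
      fun p hp => ((mem_pf hc0).1 hp).2.2.trans hcT]
    simp
  revert h
  refine RecipB.gen_induction (P := fun x => IsCoprime x y →
    zs (φ (1 + om)) (φ x) (φ y) = zs (φ (1 + om)) (φ y) (φ x)) ?_ ?_ ?_ ?_ ?_ ?_ hx
  · intro a b ha hb iha ihb h
    have ha' : φ a ≠ 0 := (map_ne_zero_iff _ hφ).2 ha
    have := fin_base φ hT den _ (mul_ne_zero ha' ((map_ne_zero_iff _ hφ).2 hb))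
    rw [map_mul, zs_mul_left hζ h6 (h.of_mul_left_left.map φ) (h.of_mul_left_right.map φ),
      zs_mul_right hζ h6 ha' (by simpa using h.symm.map φ), iha h.of_mul_left_left,
      ihb h.of_mul_left_right]
  · exact key _ one_ne_zero (one_dvd _)
  · exact key _ (by simp) isUnit_one.neg.dvd
  · exact key _ (by decide) (isUnit_iff_nm.2 (by decide)).dvd
  · exact key _ prime_lam.ne_zero
      ((show lam ∣ 72 from ⟨-24 * lam, by linear_combination 24 * lam_sq⟩).trans h72)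
  · intro p hp hp' h
    by_cases hd : p ∣ T
    · exact key p hp.ne_zero hd h
    have h2 : PO p := (RecipB.po_or hp hp').resolve_left fun h3 => hd (by
      rw [h3]; exact (show (-2 : O) ∣ 72 from ⟨-36, by norm_num⟩).trans h72)
    refine hinj _ _ ?_
    rw [← link φ hT den hφ h72 hy' hc h,
      ← link φ hT den hφ h72 h2 (hp.coprime_iff_not_dvd.2 hd) h.symm, sym_recip hy' h2,
      Rs_congr (m' := 1) (n' := p) (((show (4 : O) ∣ 72 from ⟨18, by norm_num⟩).trans h72).trans hy)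
        (by simp), Rs_one_left h2.2, one_mul]

end base

/-- the data for `ℤ[ω][1/M]` -/
theorem exists_bs (M : ℕ) (h6 : 6 ∣ M) (hM : M ≠ 0) (A : Type*) [CommRing A] [Algebra O A]
    [IsLocalization.Away (M : O) A] : IsDomain A ∧
    ∃ B : Bs O A, B.ζ = algebraMap O A (1 + om) ∧ B.T = (M : O) ^ 6 := by
  have hM' : (M : O) ≠ 0 := Nat.cast_ne_zero.2 hM
  have hle := powers_le_nonZeroDivisors_of_noZeroDivisors hM'
  have hdom : IsDomain A := IsLocalization.isDomain_of_le_nonZeroDivisors A hle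
  have hφ : Function.Injective (algebraMap O A) := IsLocalization.injective A hle
  have hu : IsUnit (algebraMap O A M) := IsLocalization.Away.algebraMap_isUnit _
  have hT : IsUnit (algebraMap O A ((M : O) ^ 6)) := by rw [map_pow]; exact hu.pow 6
  have den : ∀ a : A, ∃ (k : ℕ) (o : O),
      algebraMap O A ((M : O) ^ 6) ^ k * a = algebraMap O A o := fun a => by
    obtain ⟨k, o, h⟩ := IsLocalization.Away.surj (M : O) a
    refine ⟨k, (M : O) ^ (5 * k) * o, ?_⟩
    rw [map_mul, ← h, map_pow, map_pow]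
    ring
  have h72 : (72 : O) ∣ (M : O) ^ 6 := by
    obtain ⟨m, rfl⟩ := h6
    exact ⟨648 * m ^ 6, by push_cast; ring⟩
  have hζ := map_zeta (algebraMap O A) hz0
  have h6' := six_unit _ hT h72
  have hfin := fin_base _ hT den
  obtain ⟨t, ht⟩ := hT.exists_right_inv
  refine ⟨hdom, ⟨algebraMap O A (1 + om), (M : O) ^ 6, -t, nm, hζ, h6', by rw [mul_neg, ht],
    fun h => prime_lam.not_isUnit (isUnit_of_dvd_unit
      ((show lam ∣ 72 from ⟨-24 * lam, by linear_combination 24 * lam_sq⟩).trans h72) h),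
    hφ, hfin, den, two_choices, ?_⟩, rfl, rfl⟩
  rintro x y hx h ⟨k, o, ho⟩
  obtain ⟨l, x₁, hx₁⟩ := den x
  have hx0 : x₁ ≠ 0 := fun h0 => by
    rw [h0, map_zero] at hx₁
    exact hx ((hT.pow l).mul_right_eq_zero.1 hx₁)
  have hc : IsCoprime x₁ (1 + (M : O) ^ 6 * o) := by
    refine coprime_of_den _ den hφ ⟨1, -o, by ring⟩ ?_
    rw [← ho, ← hx₁, isCoprime_mul_unit_left_left (hT.pow l), isCoprime_mul_unit_left_right (hT.pow k)]
    exact h
  have h1 := law_int _ hT den hφ h72 hx0 ⟨o, by ring⟩ hc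
  have hy : y ≠ 0 := by
    rintro rfl
    rw [mul_zero, eq_comm, map_eq_zero_iff _ hφ] at ho
    rw [ho, isCoprime_zero_right] at hc
    exact prime_lam.not_isUnit (isUnit_of_dvd_unit
      ((show lam ∣ 72 from ⟨-24 * lam, by linear_combination 24 * lam_sq⟩).trans h72)
      (IsUnit.of_mul_eq_one (-o) (by linear_combination -ho)))
  have := hfin x hx
  have := hfin y hy
  have hp : ∀ j : ℕ, algebraMap O A ((M : O) ^ 6) ^ j = (algebraMap O A M ^ j) ^ 6 := fun j => by
    rw [map_pow]; ring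
  rw [← ho, ← hx₁, ← zs_assoc _ _ (associated_unit_mul_left y _ (hT.pow k)).symm,
    ← zs_assoc _ _ (associated_unit_mul_left x _ (hT.pow l)).symm, hp, hp,
    zs_six hζ h6' h (coprime_unit (hu.pow _) _), zs_six hζ h6' h.symm (coprime_unit (hu.pow _) _)] at h1
  exact h1

end Crest.Agent.T27.Mn
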