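import Crest.Agent.T27.Mn3_85

/-!
# Row 27, sextic reciprocity by a Euclidean algorithm on polynomials, part 4

The reciprocity law for a *good* element `z = 1 + T η` of a finite extension `S` of `A`: every
element of `S` is congruent to an element of `A` modulo `z`.
-/

set_option autoImplicit false

noncomputable section

namespace Crest.Agent.T27.Mn

open Rc Polynomial

theorem exists_comb {O S : Type*} [CommRing O] [CommRing S] [IsDomain S] [Algebra O S] [Nontrivial O]
    {x : S} (hx : IsIntegral O x) (h0 : x ≠ 0) : ∃ c ≠ 0, ∃ q : O[X], aeval x (C c + X * q) = 0 := by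
  obtain ⟨q, hq, h⟩ := hx.isAlgebraic.exists_nonzero_coeff_and_aeval_eq_zero
    (mem_nonZeroDivisors_of_ne_zero h0)
  exact ⟨q.coeff 0, hq, q.divX, by rwa [add_comm, X_mul_divX_add]⟩

theorem good {O A S : Type*} [CommRing O] [IsDomain O] [IsPrincipalIdealRing O] [CharZero O]
    [CommRing A] [IsDomain A] [Algebra O A] [CommRing S] [IsDomain S] [Algebra O S] [Algebra A S]
    [IsScalarTower O A S] [Module.Finite A S] (B : Bs O A) {m : O} (hm : B.T = m ^ 6)
    (hinj : Function.Injective (algebraMap O S))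
    (hfin : ∀ b : S, b ≠ 0 → Finite (S ⧸ Ideal.span {b})) {η z : S} (hη : IsIntegral O η)
    (hz : z = 1 + algebraMap O S B.T * η) (hu : ¬ IsUnit z)
    (hs : ∀ s, ∃ a : A, z ∣ s - algebraMap A S a) {x : S} (hx : x ≠ 0) (hc : IsCoprime x z) :
    zs (algebraMap A S B.ζ) x z = zs (algebraMap A S B.ζ) z x := by
  have : Module.IsTorsionFree O S := Module.isTorsionFree_iff_algebraMap_injective.2 hinj
  set ζ := algebraMap A S B.ζ with hζdef
  have hζ := map_zeta (algebraMap A S) B.hζ
  have h6 := map_six (algebraMap A S) B.h6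
  have htw : ∀ o, algebraMap A S (algebraMap O A o) = algebraMap O S o := fun o =>
    (IsScalarTower.algebraMap_apply O A S o).symm
  set t := algebraMap O S B.T with ht
  have hτ : t * algebraMap A S B.τ = -1 := by
    simpa [htw] using congrArg (algebraMap A S) B.hτ
  have htu : IsUnit t := IsUnit.of_mul_eq_one (-algebraMap A S B.τ) (by linear_combination -hτ)
  set w := η - algebraMap A S B.τ with hw
  have hzw : z = t * w := by rw [hz, hw]; linear_combination hτ
  let ψ : A[X] →+* S := (aeval w : A[X] →ₐ[A] S).toRingHom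
  have hψC : ∀ a, ψ (C a) = algebraMap A S a := fun a => aeval_C w a
  have hψX : ψ X = w := aeval_X w
  have hψ : ∀ p, ψ (B.mp p) = aeval η p := fun p => by
    have : ψ.comp B.mp = (aeval η : O[X] →ₐ[O] S).toRingHom := by
      refine ringHom_ext (fun a => ?_) ?_
      · simp [B.mp_C, hψC, htw]
      · simp [B.mp_X, hψC, hψX, hw]
    exact DFunLike.congr_fun this p
  have h8 : ∀ h : A[X], ∃ (k : ℕ) (p : O[X]), B.mp (C B.T) ^ k * h = B.mp p := fun h => by
    induction h using Polynomial.induction_on with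
    | C a =>
      obtain ⟨k, o, h⟩ := B.den a
      exact ⟨k, C o, by rw [B.mp_C, B.mp_C, ← h, C_mul, C_pow]⟩
    | add p q hp hq =>
      obtain ⟨k, p', hp⟩ := hp
      obtain ⟨l, q', hq⟩ := hq
      exact ⟨k + l, C B.T ^ l * p' + C B.T ^ k * q', by
        rw [map_add, map_mul, map_mul, map_pow, map_pow, ← hp, ← hq]; ring⟩
    | monomial n a h =>
      obtain ⟨k, p, h⟩ := h
      refine ⟨k + 1, p * (C B.T * X + 1), ?_⟩
      have h1 := congrArg C B.hτ
      rw [C_mul, C_neg, C_1] at h1
      rw [map_mul, ← h, map_add, map_mul, map_one, B.mp_X, B.mp_C]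
      linear_combination (-C (algebraMap O A B.T) ^ k * (C a * X ^ n)) * h1
  set Q := minpoly O η with hQdef
  have hQ : Q.Monic := minpoly.monic hη
  have hTu : IsUnit (B.mp (C B.T)) := by
    rw [B.mp_C]
    exact (IsUnit.of_mul_eq_one (-B.τ) (by linear_combination -B.hτ)).map C
  have hker : ∀ y, ψ y = 0 ↔ B.mp Q ∣ y := fun y => by
    constructor
    · intro h
      obtain ⟨k, p, hp⟩ := h8 y
      have h1 : aeval η p = 0 := by rw [← hψ, ← hp, map_mul, h, mul_zero]
      have h2 := map_dvd B.mp (minpoly.isIntegrallyClosed_dvd hη h1)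
      rwa [← hp, (hTu.pow k).dvd_mul_left] at h2
    · rintro ⟨k, rfl⟩
      rw [map_mul, hψ, minpoly.aeval, zero_mul]
  have hs' : ∀ s, ∃ a : A, w ∣ s - algebraMap A S a := fun s =>
    (hs s).imp fun a h => (Dvd.intro_left t hzw.symm).trans h
  obtain ⟨e, he⟩ : ∃ e : A[X], ∀ s, ∃ y, ψ (1 + X * e) * s = ψ y := by
    let _ : Algebra A[X] S := ψ.toAlgebra
    have : IsScalarTower A A[X] S := IsScalarTower.of_algebraMap_eq fun a => (hψC a).symm
    have : Module.Finite A[X] S := Module.Finite.of_restrictScalars_finite A A[X] S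
    obtain ⟨r, hr, h⟩ := Submodule.exists_sub_one_mem_and_smul_le_of_fg_of_le_sup
      (I := Ideal.span {(X : A[X])}) (N := LinearMap.range (Algebra.linearMap A[X] S))
      (Module.Finite.fg_top (R := A[X]) (M := S)) le_rfl fun s _ => by
        obtain ⟨a, c, h⟩ := hs' s
        rw [show s = ψ (C a) + (X : A[X]) • c by
          rw [hψC, show (X : A[X]) • c = ψ X * c from rfl, hψX]; linear_combination h]
        exact Submodule.add_mem_sup ⟨C a, rfl⟩
          (Submodule.smul_mem_smul (Ideal.mem_span_singleton_self _) trivial)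
    obtain ⟨e, he⟩ := Ideal.mem_span_singleton.1 hr
    refine ⟨e, fun s => ?_⟩
    obtain ⟨y, hy⟩ := h (Submodule.smul_mem_pointwise_smul s r ⊤ trivial)
    exact ⟨y, by rw [show 1 + X * e = r by linear_combination -he]; exact hy.symm⟩
  have hδ : IsCoprime (ψ (1 + X * e)) z := by
    rw [hzw, isCoprime_mul_unit_left_right htu, map_add, map_one, map_mul, hψX]
    exact ⟨1, -ψ e, by ring⟩
  have hδ0 : ψ (1 + X * e) ≠ 0 := fun h => hu (isCoprime_zero_left.1 (h ▸ hδ))
  have hz0 : z ≠ 0 := by
    rintro rfl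
    obtain ⟨c, hc, q, h⟩ : ∃ c ≠ 0, ∃ q : O[X], aeval η (C c + X * q) = 0 :=
      exists_comb hη (by rintro rfl; simp at hz)
    have h1 := B.ev_ne hQ
    have h2 : w = 0 := (htu.mul_right_eq_zero).1 hzw.symm
    have h3 : ψ (C (B.ev Q)) = 0 := by
      have h4 := (hker _).2 dvd_rfl
      rw [← X_mul_divX_add (B.mp Q), map_add, map_mul, hψX, h2, zero_mul, zero_add] at h4
      exact h4
    have h5 := natDegree_le_of_dvd ((hker _).1 h3) (C_ne_zero.2 h1)
    rw [natDegree_C, B.natDegree_mp] at h5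
    exact absurd (minpoly.natDegree_pos hη) (by rw [← hQdef]; omega)
  have hw0 : w ≠ 0 := fun h => hz0 (by rw [hzw, h, mul_zero])
  have := hfin z hz0
  have := hfin w hw0
  have claim1 : ∀ g : O[X], aeval η g ≠ 0 → IsCoprime (aeval η g) z →
      zs ζ (aeval η g) z = zs ζ z (aeval η g) := fun g hg hgz => by
    have hgw : IsCoprime (aeval η g) w := by rwa [hzw, isCoprime_mul_unit_left_right htu] at hgz
    have hadm : B.Adm g Q := by
      constructor
      · obtain ⟨u, v, huv⟩ := hgw
        obtain ⟨a, c, ha⟩ := hs' u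
        obtain ⟨y, hy⟩ := he (v + c * aeval η g)
        obtain ⟨k, hk⟩ := (hker ((1 + X * e) * (1 - C a * B.mp g) - X * y)).1 (by
          rw [map_sub, map_mul, map_mul, ← hy, map_sub, map_mul ψ (C a), hψC, hψ, hψX, map_one]
          linear_combination (-ψ (1 + X * e)) * huv + ψ (1 + X * e) * aeval η g * ha)
        have h1 := congrArg constantCoeff hk
        simp only [map_sub, map_mul, map_add, map_one, constantCoeff_apply X, coeff_X_zero,
          constantCoeff_apply (C a), coeff_C_zero, ← B.ev_apply] at h1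
        exact ⟨a, constantCoeff k, by linear_combination -h1⟩
      · obtain ⟨c, hc, q, h⟩ := exists_comb
          (IsIntegral.of_mem_of_fg _ hη.fg_adjoin_singleton _ (aeval_mem_adjoin_singleton O η)) hg
        obtain ⟨k, hk⟩ := minpoly.isIntegrallyClosed_dvd hη (p := C c + g * q.comp g) (by
          simpa [aeval_comp] using h)
        exact ⟨c, hc, -q.comp g, k, by linear_combination -hk⟩
    have h1 := Bs.Φ_eq_zero hQ hadm
    have h2 := zm_hom ψ (I := Ideal.span {B.mp Q, X}) (J := Ideal.span {w}) (fun y => by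
      rw [Ideal.mem_span_pair, Ideal.mem_span_singleton]
      constructor
      · rintro ⟨s, s', rfl⟩
        exact ⟨ψ s', by rw [map_add, map_mul, map_mul, (hker _).2 dvd_rfl, hψX]; ring⟩
      · rintro ⟨s, hy⟩
        obtain ⟨y', hy'⟩ := he s
        obtain ⟨k, hk⟩ := (hker ((1 + X * e) * y - X * y')).1 (by
          rw [map_sub, map_mul, map_mul, ← hy', hy, hψX]; ring)
        exact ⟨k, y' - e * y, by linear_combination -hk⟩)
      (fun s => by
        obtain ⟨a, ha⟩ := hs' s
        exact ⟨C a, by rwa [hψC, Ideal.mem_span_singleton]⟩)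
      (map_zeta C B.hζ) (map_six C B.h6) hadm.un.canc
    have := hfin _ (mul_ne_zero (hψ g ▸ hg : ψ (B.mp g) ≠ 0) hδ0)
    have h3 := zz_lattice ψ (map_zeta C B.hζ) (map_six C B.h6) hker he (hψ g ▸ hg) hadm.un'
    rw [Bs.Φ, h3, zz, h2, ← zs, hψC, hψ, hψX, sub_eq_zero] at h1
    have := hfin _ hg
    have h4 : t = algebraMap O S m ^ 6 := by rw [ht, hm, map_pow]
    have h5 : IsUnit (algebraMap O S m) := (isUnit_pow_iff (by norm_num)).1 (h4 ▸ htu)
    rw [hzw, ← zs_assoc _ _ (associated_unit_mul_left w _ htu).symm, h4,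
      zs_six hζ h6 hgw.symm (coprime_unit h5 _)]
    exact h1
  have hmul : ∀ a b : S, a * b ≠ 0 → IsCoprime (a * b) z → zs ζ a z = zs ζ z a →
      zs ζ (a * b) z = zs ζ z (a * b) → zs ζ b z = zs ζ z b := fun a b h0 h ha hab => by
    have := hfin _ h0
    rw [zs_mul_left hζ h6 h.of_mul_left_left h.of_mul_left_right,
      zs_mul_right hζ h6 (left_ne_zero_of_mul h0) h.symm, ha] at hab
    exact add_left_cancel hab
  have claim2 : ∀ y : A[X], ψ y ≠ 0 → IsCoprime (ψ y) z → zs ζ (ψ y) z = zs ζ z (ψ y) :=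
    fun y hy hyz => by
      obtain ⟨k, p, hp⟩ := h8 y
      have h1 : aeval η (C B.T ^ k) * ψ y = aeval η p := by
        rw [← hψ, ← hψ, ← hp, map_mul, map_pow]
      have h2 : IsUnit (aeval η (C B.T ^ k)) := by simpa using htu.pow k
      have h3 : aeval η (C B.T ^ k) * ψ y ≠ 0 := mul_ne_zero h2.ne_zero hy
      have h4 := (coprime_unit h2 z).mul_left hyz
      refine hmul _ _ h3 h4 (claim1 _ h2.ne_zero (coprime_unit h2 z)) ?_
      rw [h1] at h3 h4 ⊢
      exact claim1 p h3 h4
  obtain ⟨y, hy⟩ := he x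
  have h3 : ψ (1 + X * e) * x ≠ 0 := mul_ne_zero hδ0 hx
  have h4 := hδ.mul_left hc
  refine hmul _ _ h3 h4 (claim2 _ hδ0 hδ) ?_
  rw [hy] at h3 h4 ⊢
  exact claim2 y h3 h4

end Crest.Agent.T27.Mn
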