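import Crest.Agent.T27.RecDefs_64
import Crest.Agent.PVc.R17.Recip

/-!
# Row 27: sextic reciprocity with all supplements over `ℚ(ω)`, in the vocabulary of `Rc.zs`

`S = ℤ[ω][1/M]` with `6 ∣ M`.  For `b ≡ 1 (mod M³)` and `a ∈ S` coprime to `b` the symbols
`(a / b)₆` and `(b / a)₆` are equal.
-/

set_option autoImplicit false
set_option linter.unusedSectionVars false

noncomputable section

namespace Crest.Agent.T27.H79

open Crest.Agent.R17 Crest.Agent.T27.Rc
open scoped ComplexConjugate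

/-- `S` is the ring `ℤ[ω][1/M]`. -/
structure Loc (M : ℕ) {S : Type*} [CommRing S] (φ : O →+* S) : Prop where
  six : 6 ∣ M
  ne : M ≠ 0
  inj : Function.Injective φ
  unit : IsUnit (M : S)
  surj : ∀ x : S, ∃ (j : ℕ) (y : O), φ y = (M : S) ^ j * x

theorem z0 : ((1 : O) + om) ^ 2 - (1 + om) + 1 = 0 := by linear_combination om_sq_add

/-- the character `k ↦ (1 + ω)^k` -/
def chi (k : ZMod 6) : ℂ := (1 + omC) ^ k.val

theorem zC : ((1 : ℂ) + omC) ^ 2 - (1 + omC) + 1 = 0 := by linear_combination omC_mul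

theorem chi_add (i j : ZMod 6) : chi (i + j) = chi i * chi j := pow_val_add zC i j

theorem chi_zero : chi 0 = 1 := by simp [chi]

theorem chi_inj {i j : ZMod 6} (h : chi i = chi j) : i = j :=
  val_inj (S := ℂ) (p := 0) zC (Ne.isUnit (by norm_num)) not_isUnit_zero
    (by rw [zero_dvd_iff, sub_eq_zero]; exact h)

variable {M : ℕ} {S : Type*} [CommRing S] {φ : O →+* S}

namespace Loc

theorem zeta (φ : O →+* S) : φ (1 + om) ^ 2 - φ (1 + om) + 1 = 0 := by
  have h := congrArg φ z0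
  simpa only [map_add φ _ 1, map_sub, map_pow, map_one, map_zero] using h

theorem h6 (h : Loc M φ) : IsUnit (6 : S) := by
  obtain ⟨k, hk⟩ := h.six
  have h1 := h.unit
  rw [hk, Nat.cast_mul] at h1
  exact isUnit_of_mul_isUnit_left h1

theorem dvd_iff (h : Loc M φ) {n a : O} (hn : IsCoprime n M) : φ n ∣ φ a ↔ n ∣ a := by
  refine ⟨fun ⟨x, hx⟩ => ?_, fun h' => map_dvd φ h'⟩
  obtain ⟨j, y, hy⟩ := h.surj x
  have h1 : (M : O) ^ j * a = n * y := h.inj (by
    rw [map_mul, map_mul, map_pow, map_natCast, hx, hy]; ring)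
  exact (hn.pow_right (n := j)).dvd_of_dvd_mul_left ⟨y, h1⟩

theorem exists_sub (h : Loc M φ) {n : O} (hn : IsCoprime n M) (x : S) : ∃ y : O, φ n ∣ x - φ y := by
  obtain ⟨j, y, hy⟩ := h.surj x
  obtain ⟨u, v, huv⟩ := hn.pow_right (n := j)
  have h1 := congrArg φ huv
  rw [map_add, map_mul, map_mul, map_pow, map_natCast, map_one] at h1
  refine ⟨v * y, φ u * x, ?_⟩
  rw [map_mul, hy]
  linear_combination (-x) * h1

/-- `O / n ≃ S / n` -/
theorem bij (h : Loc M φ) {n : O} (hn : IsCoprime n M) :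
    Nonempty ((O ⧸ Ideal.span {n}) ≃ (S ⧸ Ideal.span {φ n})) := by
  let f : (O ⧸ Ideal.span {n}) →+* (S ⧸ Ideal.span {φ n}) :=
    Ideal.Quotient.lift _ ((Ideal.Quotient.mk _).comp φ) fun a ha => by
      rw [RingHom.comp_apply, Ideal.Quotient.eq_zero_iff_mem, Ideal.mem_span_singleton]
      exact map_dvd φ (Ideal.mem_span_singleton.1 ha)
  have hf : ∀ a, f (Ideal.Quotient.mk _ a) = Ideal.Quotient.mk _ (φ a) := fun _ => rfl
  refine ⟨Equiv.ofBijective f ⟨(injective_iff_map_eq_zero f).2 fun q hq => ?_, fun q => ?_⟩⟩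
  · obtain ⟨a, rfl⟩ := Ideal.Quotient.mk_surjective q
    rw [hf, Ideal.Quotient.eq_zero_iff_mem, Ideal.mem_span_singleton, h.dvd_iff hn] at hq
    rwa [Ideal.Quotient.eq_zero_iff_mem, Ideal.mem_span_singleton]
  · obtain ⟨x, rfl⟩ := Ideal.Quotient.mk_surjective q
    obtain ⟨y, hy⟩ := h.exists_sub hn x
    refine ⟨Ideal.Quotient.mk _ y, ?_⟩
    rw [hf, eq_comm, Ideal.Quotient.eq, Ideal.mem_span_singleton]
    exact hy

theorem card (h : Loc M φ) {n : O} (hn : IsCoprime n M) :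
    Nat.card (S ⧸ Ideal.span {φ n}) = nm n := by
  obtain ⟨e⟩ := h.bij hn
  rw [← Nat.card_congr e, card_quot_aux]

theorem fin (h : Loc M φ) {n : O} (hn : IsCoprime n M) (h0 : n ≠ 0) :
    Finite (S ⧸ Ideal.span {φ n}) :=
  Nat.finite_of_card_ne_zero (by rw [h.card hn]; exact fun h' => h0 (nm_eq_zero.1 h'))

theorem prime (h : Loc M φ) {p : O} (hp : Prime p) (hn : IsCoprime p M) : Prime (φ p) := by
  refine ⟨fun h0 => hp.ne_zero (h.inj (by rw [h0, map_zero])), fun hu => ?_, fun x y hxy => ?_⟩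
  · have h1 : φ p ∣ φ 1 := by rw [map_one]; exact hu.dvd
    exact hp.not_dvd_one ((h.dvd_iff hn).1 h1)
  · obtain ⟨a, ha⟩ := h.exists_sub hn x
    obtain ⟨b, hb⟩ := h.exists_sub hn y
    have h1 : φ p ∣ φ (a * b) := by
      have e : φ (a * b) = x * y - ((x - φ a) * y + φ a * (y - φ b)) := by rw [map_mul]; ring
      rw [e]
      exact dvd_sub hxy (dvd_add (ha.mul_right _) (hb.mul_left _))
    rcases hp.dvd_or_dvd ((h.dvd_iff hn).1 h1) with h2 | h2
    · left
      have := dvd_add ha (map_dvd φ h2)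
      rwa [sub_add_cancel] at this
    · right
      have := dvd_add hb (map_dvd φ h2)
      rwa [sub_add_cancel] at this

theorem cop_two (h : Loc M φ) {n : O} (hn : IsCoprime n M) : IsCoprime n 2 := by
  obtain ⟨k, hk⟩ := h.six
  refine hn.of_isCoprime_of_dvd_right ⟨3 * k, ?_⟩
  rw [hk]; push_cast; ring

theorem link_prime (h : Loc M φ) {p a : O} (hp : Prime p) (hp' : Primary p) (hn : IsCoprime p M)
    (ha : ¬ p ∣ a) : chi (zs (φ (1 + om)) (φ a) (φ p)) = sym p a := by
  have := h.fin hn hp.ne_zero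
  have h1 := zs_prime (zeta φ) h.h6 (h.prime hp hn) (a := φ a) (fun h' => ha ((h.dvd_iff hn).1 h'))
  rw [h.card hn, ← map_pow, ← map_pow, ← map_sub, h.dvd_iff hn] at h1
  have h2 : ¬ p ∣ 2 := fun h' => hp.not_isUnit ((h.cop_two hn).isUnit_of_dvd' dvd_rfl h')
  obtain ⟨h6, -⟩ := SymbolAux.nm_mod_six hp hp' h2
  rw [chi]
  generalize (zs (φ (1 + om)) (φ a) (φ p)).val = k at h1 ⊢
  set e := (nm p - 1) / 6 with he
  have e3 : (nm p - 1) / 3 = e * 2 := by omega
  have e2 : (nm p - 1) / 2 = e * 3 := by omega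
  have c3 : p ∣ a ^ ((nm p - 1) / 3) - om ^ k := by
    have e4 : om ^ k = ((1 + om) ^ k) ^ 2 := by
      rw [← pow_mul, mul_comm, pow_mul, show (1 + om) ^ 2 = om by linear_combination om_sq_add]
    rw [e3, pow_mul, e4]
    exact h1.trans (sub_dvd_pow_sub_pow _ _ 2)
  have c2 : p ∣ a ^ ((nm p - 1) / 2) - (-1) ^ k := by
    have e4 : (-1 : O) ^ k = ((1 + om) ^ k) ^ 3 := by
      rw [← pow_mul, mul_comm, pow_mul,
        show (1 + om) ^ 3 = (-1 : O) by linear_combination (om + 2) * om_sq_add]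
    rw [e2, pow_mul, e4]
    exact h1.trans (sub_dvd_pow_sub_pow _ _ 3)
  have q2 : quad1 p a = (-1) ^ k := by
    rw [quad1, if_neg ha]
    rcases Nat.even_or_odd k with hk | hk
    · rw [hk.neg_one_pow] at c2 ⊢
      rw [if_pos c2]
    · rw [hk.neg_one_pow] at c2 ⊢
      rw [if_neg fun h' => h2 (by
        have := dvd_sub c2 h'
        rwa [show a ^ ((nm p - 1) / 2) - -1 - (a ^ ((nm p - 1) / 2) - 1) = 2 by ring] at this)]
  rw [sym, cub_prime hp hp', Symbol_quad_prime hp hp', (cub1_eq_pow_iff hp hp' k).2 c3, q2, map_pow,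
    SymbolAux.conj_omC, ← mul_pow]
  congr 1
  linear_combination omC_mul

variable [IsDomain S]

theorem link (h : Loc M φ) {n a : O} (hn : Primary n) :
    IsCoprime n M → IsCoprime a n → chi (zs (φ (1 + om)) (φ a) (φ n)) = sym n a := by
  refine Primary.induction (P := fun n => IsCoprime n M → IsCoprime a n →
    chi (zs (φ (1 + om)) (φ a) (φ n)) = sym n a) ?_ ?_ hn
  · intro _ _
    rw [map_one, zs_unit _ _ isUnit_one, chi_zero, sym_one_left]
  · intro p n hp hp' hn ih hM ha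
    have := h.fin hM (mul_ne_zero hp.ne_zero hn.ne_zero)
    rw [map_mul] at this
    have h0 : φ p ≠ 0 := fun h0 => hp.ne_zero (h.inj (by rw [h0, map_zero]))
    rw [map_mul, zs_mul_right (zeta φ) h.h6 h0 (by rw [← map_mul]; exact ha.map φ), chi_add,
      sym_mul_left hp.ne_zero hn.ne_zero, ih hM.of_mul_left_right ha.of_mul_right_right,
      h.link_prime hp hp' hM.of_mul_left_left fun h' =>
        hp.not_isUnit (ha.of_mul_right_left.isUnit_of_dvd' h' dvd_rfl)]

/-- every non-zero element of `O` is (an element dividing a power of `M`) times (a primary element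
coprime to `M`) -/
theorem split (h : Loc M φ) {a : O} (ha : a ≠ 0) :
    ∃ (c n : O) (j : ℕ), c ∣ (M : O) ^ j ∧ Primary n ∧ IsCoprime n M ∧ a = c * n := by
  induction a using UniqueFactorizationMonoid.induction_on_prime with
  | h₁ => exact absurd rfl ha
  | h₂ x hx => exact ⟨x, 1, 0, hx.dvd, primary_one, isCoprime_one_left, (mul_one x).symm⟩
  | h₃ a p ha' hp ih =>
    obtain ⟨c, n, j, hc, hn, hM, rfl⟩ := ih ha'
    by_cases hpM : p ∣ (M : O)
    · exact ⟨p * c, n, j + 1, by rw [pow_succ']; exact mul_dvd_mul hpM hc, hn, hM,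
        (mul_assoc _ _ _).symm⟩
    · have hl : ¬ lam ∣ p := fun h' => hpM (by
        obtain ⟨k, hk⟩ := h.six
        have h1 : lam ∣ (M : O) := ⟨-2 * k * lam, by
          rw [hk]; push_cast; linear_combination (2 * k : O) * lam_sq⟩
        exact ((prime_lam.irreducible.associated_of_dvd hp.irreducible h').symm.dvd).trans h1)
      obtain ⟨u, hu, hup⟩ := exists_unit_primary hl
      obtain ⟨w, hw⟩ := hu.exists_right_inv
      have hw' : IsUnit w := IsUnit.of_mul_eq_one_right u hw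
      refine ⟨w * c, u * p * n, j, (hw'.mul_left_dvd).2 hc, hup.mul hn, ?_, ?_⟩
      · refine IsCoprime.mul_left ?_ hM
        exact (isCoprime_mul_unit_left_left hu p M).2 ((hp.coprime_iff_not_dvd).2 hpM)
      · linear_combination (-(p * c * n)) * hw

theorem unit_of_dvd (h : Loc M φ) {c : O} {j : ℕ} (hc : c ∣ (M : O) ^ j) : IsUnit (φ c) := by
  have h1 := map_dvd φ hc
  rw [map_pow, map_natCast] at h1
  exact isUnit_of_dvd_unit h1 (h.unit.pow j)

/-- every non-zero element of `S` is a unit times a primary element coprime to `M` -/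
theorem assoc (h : Loc M φ) {a : S} (ha : a ≠ 0) :
    ∃ (c n : O) (i j : ℕ), c ∣ (M : O) ^ j ∧ Primary n ∧ IsCoprime n M ∧
      (M : S) ^ i * a = φ c * φ n := by
  obtain ⟨i, y, hy⟩ := h.surj a
  have hy0 : y ≠ 0 := by
    rintro rfl
    rw [map_zero] at hy
    exact mul_ne_zero (h.unit.pow i).ne_zero ha hy.symm
  obtain ⟨c, n, j, hc, hn, hM, rfl⟩ := h.split hy0
  exact ⟨c, n, i, j, hc, hn, hM, by rw [← hy, map_mul]⟩

theorem finite (h : Loc M φ) {a : S} (ha : a ≠ 0) : Finite (S ⧸ Ideal.span {a}) := by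
  obtain ⟨c, n, i, j, hc, hn, hM, e⟩ := h.assoc ha
  have h1 : Associated a (φ n) :=
    ((associated_unit_mul_right a _ (h.unit.pow i)).trans (Associated.of_eq e)).trans
      (associated_unit_mul_left _ _ (h.unit_of_dvd hc))
  rw [Ideal.span_singleton_eq_span_singleton.2 h1]
  exact h.fin hM hn.ne_zero

theorem d72 (h : Loc M φ) : (72 : O) ∣ (M : O) ^ 3 := by
  obtain ⟨k, hk⟩ := h.six
  exact ⟨3 * k ^ 3, by rw [hk]; push_cast; ring⟩

theorem cop_of (_h : Loc M φ) {b : O} (hb : (M : O) ^ 3 ∣ b - 1) : IsCoprime b M := by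
  obtain ⟨t, ht⟩ := hb
  exact ⟨1, -(M : O) ^ 2 * t, by linear_combination ht⟩

theorem prim_of (h : Loc M φ) {b : O} (hb : (M : O) ^ 3 ∣ b - 1) : Primary b :=
  ((show (3 : O) ∣ 72 from ⟨24, by norm_num⟩).trans h.d72).trans hb

/-- the supplements -/
theorem sym_dvd (h : Loc M φ) {b c : O} {j : ℕ} (hb : (M : O) ^ 3 ∣ b - 1)
    (hc : c ∣ (M : O) ^ j) : sym b c = 1 := by
  have hM : (M : O) ≠ 0 := fun h0 => h.unit.ne_zero (by rw [← map_natCast φ, h0, map_zero])
  have hc0 : c ≠ 0 := ne_zero_of_dvd_ne_zero (pow_ne_zero j hM) hc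
  rw [RecipB.sym_per h.d72 ⟨h.prim_of hb, h.cop_two (h.cop_of hb)⟩
    ⟨primary_one, isCoprime_one_left⟩ hb hc0 fun p hp => ?_, sym_one_left]
  obtain ⟨h1, -, h2⟩ := (mem_pf hc0).1 hp
  exact (h1.dvd_of_dvd_pow (h2.trans hc)).trans (dvd_pow_self _ (by norm_num))

theorem cop_down (h : Loc M φ) {n b : O} (hb : IsCoprime b M) (hc : IsCoprime (φ n) (φ b)) :
    IsCoprime n b := by
  obtain ⟨x, y, hxy⟩ := hc
  obtain ⟨u, hu⟩ := h.exists_sub hb x
  have h1 : φ b ∣ φ (1 - u * n) := by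
    have e : φ (1 - u * n) = (x - φ u) * φ n + y * φ b := by
      rw [map_sub, map_mul, map_one]; linear_combination -hxy
    rw [e]
    exact dvd_add (hu.mul_right _) (dvd_mul_left _ _)
  obtain ⟨v, hv⟩ := (h.dvd_iff hb).1 h1
  exact ⟨u, v, by linear_combination -hv⟩

/-- **Sextic reciprocity in `ℤ[ω][1/M]`, with all supplements.** -/
theorem recip (h : Loc M φ) {a : S} {b : O} (ha : a ≠ 0) (hb : (M : O) ^ 3 ∣ b - 1)
    (hab : IsCoprime a (φ b)) : zs (φ (1 + om)) a (φ b) = zs (φ (1 + om)) (φ b) a := by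
  obtain ⟨c, n, i, j, hc, hn, hM, e⟩ := h.assoc ha
  have hbM := h.cop_of hb
  have hbp := h.prim_of hb
  have := h.fin hbM hbp.ne_zero
  have huc := h.unit_of_dvd hc
  have h1 : Associated a (φ n) :=
    ((associated_unit_mul_right a _ (h.unit.pow i)).trans (Associated.of_eq e)).trans
      (associated_unit_mul_left _ _ huc)
  have hnb : IsCoprime (φ n) (φ b) := hab.of_isCoprime_of_dvd_left h1.symm.dvd
  have hnb' := h.cop_down hbM hnb
  have hu : ∀ {u : S}, IsUnit u → IsCoprime u (φ b) := fun hu =>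
    (isCoprime_one_left (x := φ b)).of_isCoprime_of_dvd_left hu.dvd
  have z1 : ∀ {c : O} {j : ℕ}, c ∣ (M : O) ^ j → zs (φ (1 + om)) (φ c) (φ b) = 0 := by
    intro c j hc
    apply chi_inj
    rw [h.link hbp hbM (hbM.symm.pow_left.of_isCoprime_of_dvd_left hc), h.sym_dvd hb hc, chi_zero]
  have h2 : zs (φ (1 + om)) ((M : S) ^ i * a) (φ b) = zs (φ (1 + om)) (φ c * φ n) (φ b) := by
    rw [e]
  rw [zs_mul_left (zeta φ) h.h6 (hu (h.unit.pow i)) hab, zs_mul_left (zeta φ) h.h6 (hu huc) hnb,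
    z1 hc, ← map_natCast φ, ← map_pow, z1 dvd_rfl, zero_add, zero_add] at h2
  rw [h2, zs_assoc _ _ h1]
  apply chi_inj
  have hpo : PO b := ⟨hbp, h.cop_two hbM⟩
  have h4 : (4 : O) ∣ b - 1 := ((show (4 : O) ∣ 72 from ⟨18, by norm_num⟩).trans h.d72).trans hb
  rw [h.link hbp hbM hnb', h.link hn hM hnb'.symm, sym_recip hpo ⟨hn, h.cop_two hM⟩,
    Rs_congr (n' := n) h4 (by simp), Rs_one_left (h.cop_two hM), one_mul]

end Loc

/-- the ring homomorphism `ℤ[ω] → S`, `ω ↦ ζ - 1` -/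
def hom {S : Type*} [CommRing S] {ζ : S} (hζ : ζ ^ 2 - ζ + 1 = 0) : O →+* S where
  toFun z := (z.re : S) + (z.im : S) * (ζ - 1)
  map_one' := by simp [QuadraticAlgebra.re_one, QuadraticAlgebra.im_one]
  map_mul' z w := by
    simp only [QuadraticAlgebra.re_mul, QuadraticAlgebra.im_mul]
    push_cast
    linear_combination (-(z.im : S) * w.im) * hζ
  map_zero' := by simp
  map_add' z w := by
    simp only [QuadraticAlgebra.re_add, QuadraticAlgebra.im_add]; push_cast; ring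

theorem hom_apply {S : Type*} [CommRing S] {ζ : S} (hζ : ζ ^ 2 - ζ + 1 = 0) (z : O) :
    hom hζ z = (z.re : S) + (z.im : S) * (ζ - 1) := rfl

theorem hom_zeta {S : Type*} [CommRing S] {ζ : S} (hζ : ζ ^ 2 - ζ + 1 = 0) :
    hom hζ (1 + om) = ζ := by
  rw [map_add, map_one, hom_apply]; simp [om]

theorem hom_inj {k : Type*} [Field k] [CharZero k] {ζ : k} (hζ : ζ ^ 2 - ζ + 1 = 0) :
    Function.Injective (hom hζ) := by
  refine (injective_iff_map_eq_zero _).2 fun z hz => ?_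
  have h1 := congrArg (hom hζ) (mul_cj z)
  rw [map_mul, hz, zero_mul, map_natCast] at h1
  exact nm_eq_zero.1 (by exact_mod_cast h1.symm)

/-- in a quadratic field containing `ω` the integers are `ℤ[ω]` -/
theorem exists_of_integral {k : Type*} [Field k] [NumberField k] (h2 : Module.finrank ℚ k = 2)
    {ζ : k} (hζ : ζ ^ 2 - ζ + 1 = 0) {x : k} (hx : IsIntegral ℤ x) : ∃ y : O, hom hζ y = x := by
  let _ : Algebra O k := (hom hζ).toAlgebra
  have ha : ∀ y : O, algebraMap O k y = hom hζ y := fun _ => rfl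
  have hli : LinearIndependent ℚ ![(1 : k), ζ - 1] := by
    rw [LinearIndependent.pair_iff]
    intro s t hst
    have h1 : hom hζ ⟨s.num * t.den, t.num * s.den⟩ = 0 := by
      rw [hom_apply]
      have hs : (s.num : k) = s * s.den := by exact_mod_cast (Rat.mul_den_eq_num s).symm
      have ht : (t.num : k) = t * t.den := by exact_mod_cast (Rat.mul_den_eq_num t).symm
      rw [Rat.smul_def, Rat.smul_def] at hst
      push_cast
      rw [hs, ht]
      linear_combination (s.den * t.den : k) * hst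
    have h3 := (injective_iff_map_eq_zero _).1 (hom_inj hζ) _ h1
    have h4 : s.num * t.den = 0 := congrArg QuadraticAlgebra.re h3
    have h5 : t.num * s.den = 0 := congrArg QuadraticAlgebra.im h3
    refine ⟨Rat.num_eq_zero.1 ((mul_eq_zero.1 h4).resolve_right ?_),
      Rat.num_eq_zero.1 ((mul_eq_zero.1 h5).resolve_right ?_)⟩
    · exact_mod_cast t.den_nz
    · exact_mod_cast s.den_nz
  have hsp := hli.span_eq_top_of_card_eq_finrank (by simp [h2])
  have hfr : IsFractionRing O k := by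
    have : FaithfulSMul O k := (faithfulSMul_iff_algebraMap_injective O k).2 (hom_inj hζ)
    refine IsFractionRing.of_field O k fun z => ?_
    have hz : z ∈ Submodule.span ℚ (Set.range ![(1 : k), ζ - 1]) := by rw [hsp]; trivial
    rw [Matrix.range_cons, Matrix.range_cons, Matrix.range_empty, Set.union_empty,
      Set.singleton_union, Submodule.mem_span_pair] at hz
    obtain ⟨s, t, rfl⟩ := hz
    refine ⟨⟨s.num * t.den, t.num * s.den⟩, ((s.den * t.den : ℕ) : O), ?_⟩
    have hs : (s.num : k) = s * s.den := by exact_mod_cast (Rat.mul_den_eq_num s).symm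
    have ht : (t.num : k) = t * t.den := by exact_mod_cast (Rat.mul_den_eq_num t).symm
    have hs0 : (s.den : k) ≠ 0 := by exact_mod_cast s.den_nz
    have ht0 : (t.den : k) ≠ 0 := by exact_mod_cast t.den_nz
    rw [map_natCast, ha, hom_apply, Rat.smul_def, Rat.smul_def]
    push_cast
    rw [hs, ht]
    field_simp
  exact IsIntegrallyClosed.algebraMap_eq_of_integral (R := O) (K := k) hx.tower_top

theorem loc_of {k : Type*} [Field k] [NumberField k] (h2 : Module.finrank ℚ k = 2) {M : ℕ}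
    (h6 : 6 ∣ M) (hM : M ≠ 0) {S : Type*} [CommRing S] [Algebra S k]
    (hi : Function.Injective (algebraMap S k))
    (hr : ∀ x : k, x ∈ (algebraMap S k).range ↔ ∃ j : ℕ, IsIntegral ℤ ((M : k) ^ j * x))
    {ζ : S} (hζ : ζ ^ 2 - ζ + 1 = 0) :
    Loc M (hom hζ) ∧ ∀ t : k, IsIntegral ℤ t → ∃ y : O, algebraMap S k (hom hζ y) = t := by
  have hζ' : algebraMap S k ζ ^ 2 - algebraMap S k ζ + 1 = 0 := by
    simpa using congrArg (algebraMap S k) hζ
  have hc : ∀ y, algebraMap S k (hom hζ y) = hom hζ' y := fun y => by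
    simp [hom_apply]
  have hM' : (M : k) ≠ 0 := by exact_mod_cast hM
  have h1 : ∀ t : k, IsIntegral ℤ t → ∃ y : O, algebraMap S k (hom hζ y) = t := fun t ht => by
    obtain ⟨y, hy⟩ := exists_of_integral h2 hζ' ht
    exact ⟨y, (hc y).trans hy⟩
  refine ⟨⟨h6, hM, fun x y hxy => hom_inj hζ' (by rw [← hc, ← hc, hxy]), ?_, fun x => ?_⟩, h1⟩
  · obtain ⟨u, hu⟩ := (hr (M : k)⁻¹).2 ⟨1, by
      rw [pow_one, mul_inv_cancel₀ hM']; exact isIntegral_one⟩
    exact IsUnit.of_mul_eq_one u (hi (by rw [map_mul, hu, map_natCast, mul_inv_cancel₀ hM', map_one]))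
  · obtain ⟨j, hj⟩ := (hr _).1 ⟨x, rfl⟩
    obtain ⟨y, hy⟩ := h1 _ hj
    exact ⟨j, y, hi (by rw [hy, map_mul, map_pow, map_natCast])⟩

end Crest.Agent.T27.H79

namespace Crest.Agent.T27

open Crest.Agent.T27.Rc

/-- **Sextic reciprocity with all supplements over `k = ℚ(ω)`**, in the ring `𝓞_k[1/M]`. -/
theorem recH_79 (k : Type*) [Field k] [NumberField k] (h2 : Module.finrank ℚ k = 2) (M : ℕ)
    (h6 : 6 ∣ M) (hM : M ≠ 0) (S : Type*) [CommRing S] [Algebra S k]
    (hi : Function.Injective (algebraMap S k))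
    (hr : ∀ x : k, x ∈ (algebraMap S k).range ↔ ∃ j : ℕ, IsIntegral ℤ ((M : k) ^ j * x))
    (ζ : S) (hζ : ζ ^ 2 - ζ + 1 = 0) (a b : S) (t : k) (ht : IsIntegral ℤ t)
    (hb : algebraMap S k b = 1 + (M : k) ^ 3 * t) (ha : a ≠ 0) (hab : IsCoprime a b) :
    zs ζ a b = zs ζ b a := by
  have : IsDomain S := hi.isDomain _
  obtain ⟨h, h1⟩ := H79.loc_of h2 h6 hM hi hr hζ
  obtain ⟨y, rfl⟩ := h1 t ht
  have e : b = H79.hom hζ (1 + (M : R17.O) ^ 3 * y) := hi (by rw [hb]; simp)
  have h3 := h.recip (a := a) (b := 1 + (M : R17.O) ^ 3 * y) ha ⟨y, by ring⟩ (e ▸ hab)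
  rwa [H79.hom_zeta, ← e] at h3

end Crest.Agent.T27
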