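import Crest.Agent.T27.Mn2_85
import Crest.Agent.T27.RecH_79

/-!
# Row 27: the base data `Bs` for `ℤ[ω]` and `ℤ[ω][1/M]` (helper55)
-/

set_option autoImplicit false

noncomputable section

namespace Crest.Agent.T27.MnBs

open Crest.Agent.R17 Crest.Agent.T27.Rc Crest.Agent.T27.Mn

theorem nm_cj (u : O) : nm (cj u) = nm u := by
  apply Int.natCast_inj.mp
  rw [nm_cast, nm_cast]
  simp only [cj]
  ring

theorem aux {x y n : ℤ} (hQ0 : 0 < x ^ 2 - x * y + y ^ 2) (hQ1 : x ^ 2 - x * y + y ^ 2 < n * n)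
    (e1 : n * n ≤ (x + 1 * n) ^ 2 - (x + 1 * n) * (y + 0 * n) + (y + 0 * n) ^ 2)
    (e2 : n * n ≤ (x + -1 * n) ^ 2 - (x + -1 * n) * (y + 0 * n) + (y + 0 * n) ^ 2)
    (e3 : n * n ≤ (x + 0 * n) ^ 2 - (x + 0 * n) * (y + 1 * n) + (y + 1 * n) ^ 2)
    (e4 : n * n ≤ (x + 0 * n) ^ 2 - (x + 0 * n) * (y + -1 * n) + (y + -1 * n) ^ 2)
    (e5 : n * n ≤ (x + 1 * n) ^ 2 - (x + 1 * n) * (y + 1 * n) + (y + 1 * n) ^ 2)
    (e6 : n * n ≤ (x + -1 * n) ^ 2 - (x + -1 * n) * (y + -1 * n) + (y + -1 * n) ^ 2) : False := by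
  obtain ⟨Q, hQ⟩ : ∃ Q, Q = x ^ 2 - x * y + y ^ 2 := ⟨_, rfl⟩
  rw [← hQ] at hQ0 hQ1
  have f1 := mul_nonneg (show 0 ≤ Q + n * (2 * x - y) by linarith)
    (show 0 ≤ Q - n * (2 * x - y) by linarith)
  have f2 := mul_nonneg (show 0 ≤ Q + n * (2 * y - x) by linarith)
    (show 0 ≤ Q - n * (2 * y - x) by linarith)
  have f3 := mul_nonneg (show 0 ≤ Q + n * (x + y) by linarith)
    (show 0 ≤ Q - n * (x + y) by linarith)
  have f0 : 6 * (n * n) * Q =
      (n * (2 * x - y)) ^ 2 + (n * (2 * y - x)) ^ 2 + (n * (x + y)) ^ 2 := by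
    rw [hQ]
    ring
  have f4 : 2 * (n * n) * Q ≤ Q * Q := by linarith
  have f5 := le_of_mul_le_mul_right f4 hQ0
  linarith

theorem exists_unit {r u : O} (hr : r ≠ 0) (h : nm r < nm u) :
    ∃ e : O, e ≠ 0 ∧ nm (r + e * u) < nm u := by
  have hn : (0 : ℤ) < nm u := by omega
  have hu : cj u ≠ 0 := fun h0 => by
    have := nm_cj u
    rw [h0, nm_eq_zero.2 rfl] at this
    omega
  have key : ∀ a b : ℤ, (nm (r + ⟨a, b⟩ * u) : ℤ) * nm u =
      ((r * cj u).re + a * nm u) ^ 2 - ((r * cj u).re + a * nm u) * ((r * cj u).im + b * nm u) +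
        ((r * cj u).im + b * nm u) ^ 2 := by
    intro a b
    have h1 : (r + ⟨a, b⟩ * u) * cj u = r * cj u + ⟨a, b⟩ * (nm u : O) := by
      rw [← mul_cj]
      ring
    have h2 := nm_cast ((r + ⟨a, b⟩ * u) * cj u)
    rw [nm_mul, nm_cj, h1] at h2
    simpa using h2
  have hQ := nm_cast (r * cj u)
  have hQ0 : (0 : ℤ) < nm (r * cj u) := by
    have : nm (r * cj u) ≠ 0 := fun h => mul_ne_zero hr hu (nm_eq_zero.1 h)
    omega
  have hQ1 : (nm (r * cj u) : ℤ) < nm u * nm u := by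
    rw [nm_mul, nm_cj]
    push_cast
    exact mul_lt_mul_of_pos_right (by exact_mod_cast h) hn
  by_contra hc
  push Not at hc
  have h3 : ∀ a b : ℤ, a ≠ 0 ∨ b ≠ 0 → (nm u : ℤ) * nm u ≤
      ((r * cj u).re + a * nm u) ^ 2 - ((r * cj u).re + a * nm u) * ((r * cj u).im + b * nm u) +
        ((r * cj u).im + b * nm u) ^ 2 := by
    intro a b hab
    rw [← key]
    refine mul_le_mul_of_nonneg_right ?_ hn.le
    exact_mod_cast hc ⟨a, b⟩ fun h0 => by
      rcases hab with h | h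
      · exact h (congrArg QuadraticAlgebra.re h0)
      · exact h (congrArg QuadraticAlgebra.im h0)
  rw [hQ] at hQ0 hQ1
  exact aux hQ0 hQ1 (h3 1 0 (by simp)) (h3 (-1) 0 (by simp)) (h3 0 1 (by simp))
    (h3 0 (-1) (by simp)) (h3 1 1 (by simp)) (h3 (-1) (-1) (by simp))

theorem euc (u w : O) (hu : u ≠ 0) (h : ¬ u ∣ w) :
    ∃ s s', s ≠ s' ∧ nm (w + s * u) < nm u ∧ nm (w + s' * u) < nm u := by
  have h1 := nm_sub_mul_quo_lt w hu
  obtain ⟨e, he, h2⟩ := exists_unit (r := w - u * quo w u)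
    (fun h0 => h ⟨_, sub_eq_zero.1 h0⟩) h1
  refine ⟨-quo w u, -quo w u + e, by simpa using he, ?_, ?_⟩
  · convert h1 using 2
    ring
  · convert h2 using 2
    ring

/-- The base data attached to a model of `ℤ[ω][1/M]`. -/
theorem exists_Bs {M : ℕ} {A : Type*} [CommRing A] [IsDomain A] [Algebra O A]
    (h : H79.Loc M (algebraMap O A)) :
    ∃ B : Bs O A, B.ζ = algebraMap O A (1 + om) ∧ B.T = (M : O) ^ 6 := by
  obtain ⟨w, hw⟩ := h.unit.exists_right_inv
  have hT : algebraMap O A ((M : O) ^ 6) = (M : A) ^ 6 := by simp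
  refine ⟨⟨algebraMap O A (1 + om), (M : O) ^ 6, -w ^ 6, nm, H79.Loc.zeta _, h.h6, ?_, ?_, h.inj,
    fun y hy => h.finite hy, fun a => ?_, euc, ?_⟩, rfl, rfl⟩
  · rw [hT, mul_neg, ← mul_pow, hw, one_pow]
  · intro hu
    have h1 := (isUnit_pow_iff (by norm_num)).1 hu
    rw [isUnit_iff_nm, nm_natCast] at h1
    have h2 := Nat.le_of_dvd (Nat.pos_of_ne_zero h.ne) h.six
    nlinarith
  · obtain ⟨j, y, hy⟩ := h.surj a
    refine ⟨j, (M : O) ^ (5 * j) * y, ?_⟩
    rw [hT, map_mul, hy, map_pow, map_natCast]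
    ring
  · rintro x y hx hxy ⟨k, o, ho⟩
    rw [hT, ← pow_mul, mul_comm 6 k, pow_mul] at ho
    have hu : IsUnit ((M : A) ^ k) := h.unit.pow k
    have hc : IsCoprime x (algebraMap O A (1 + (M : O) ^ 6 * o)) := by
      rw [← ho]
      exact (isCoprime_mul_unit_left_right (hu.pow 6) x y).2 hxy
    have h1 := h.recip hx (b := 1 + (M : O) ^ 6 * o) ⟨(M : O) ^ 3 * o, by ring⟩ hc
    have := h.finite hx
    have hcu : ∀ n : ℕ, IsCoprime (((M : A) ^ k) ^ n) x := fun n => by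
      obtain ⟨v, hv⟩ := (hu.pow n).exists_left_inv
      exact ⟨v, 0, by simp [hv]⟩
    have h2 : ∀ n : ℕ, zs (algebraMap O A (1 + om)) (((M : A) ^ k) ^ n) x =
        n * zs (algebraMap O A (1 + om)) ((M : A) ^ k) x := by
      intro n
      induction n with
      | zero => simp [zs_one_left]
      | succ n ih =>
        rw [pow_succ, zs_mul_left (H79.Loc.zeta _) h.h6 (hcu n) (by simpa using hcu 1), ih]
        push_cast
        ring
    rw [← ho, zs_mul_left (H79.Loc.zeta _) h.h6 (hcu 6) hxy.symm, h2,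
      ← zs_assoc _ x (associated_unit_mul_right y _ (hu.pow 6))] at h1
    simpa [show (6 : ZMod 6) = 0 from rfl] using h1

/-- The localisation `ℤ[ω][1/M]`. -/
theorem loc_away {M : ℕ} (h6 : 6 ∣ M) (h0 : M ≠ 0) :
    IsDomain (Localization.Away (M : O)) ∧
      H79.Loc M (algebraMap O (Localization.Away (M : O))) := by
  have hM : (M : O) ≠ 0 := by exact_mod_cast h0
  have hle : Submonoid.powers (M : O) ≤ nonZeroDivisors O := powers_le_nonZeroDivisors_of_noZeroDivisors hM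
  refine ⟨IsLocalization.isDomain_localization hle, h6, h0, IsLocalization.injective _ hle, ?_,
    fun x => ?_⟩
  · simpa using IsLocalization.Away.algebraMap_isUnit (S := Localization.Away (M : O)) (M : O)
  · obtain ⟨⟨y, _, j, rfl⟩, hy⟩ := IsLocalization.surj (Submonoid.powers (M : O)) x
    refine ⟨j, y, ?_⟩
    simpa [mul_comm] using hy.symm

/-- The structure map from `ℤ[ω][1/M]` to a ring with `ζ` in which `M` is invertible. -/
theorem exists_hom {M : ℕ} {S : Type*} [CommRing S] (hM : IsUnit (M : S)) {ζ : S}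
    (hζ : ζ ^ 2 - ζ + 1 = 0) : ∃ ψ : Localization.Away (M : O) →+* S,
      (∀ o : O, ψ (algebraMap O _ o) = H79.hom hζ o) ∧ ψ (algebraMap O _ (1 + om)) = ζ := by
  have h : IsUnit (H79.hom hζ (M : O)) := by simpa using hM
  exact ⟨IsLocalization.Away.lift (M : O) h, fun o => IsLocalization.Away.lift_eq _ h o,
    by rw [IsLocalization.Away.lift_eq, H79.hom_zeta]⟩

end Crest.Agent.T27.MnBs
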