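import Crest.Agent.T27.Weight_23

/-!
# Row 27 frame: the radial kernel and Poisson summation over the rows
(port of the generic part of `PVc/R17/Poisson.lean`)

Sums over the rows are written `∑' k : O, f k * gr k (nr k / X)`.  Differences with `R17`:
`gw` is only antitone on `(0, ∞)` and unbounded at `0⁺`, `tsum_gw_le` has an unspecified constant,
`poisson` needs `UInv f`, the Mellin transform of `gw` is `mel`.
-/

set_option autoImplicit false
set_option linter.unusedSectionVars false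

noncomputable section

namespace Crest.Agent.T27

open scoped ComplexConjugate
open MeasureTheory

section

variable [Fr0]

namespace PW

open Finset

theorem sum_sqrt_le (X : ℕ) :
    ∑ n ∈ (ball X).erase 0, nr n ^ (-(1 / 2 : ℝ)) ≤ 2 * c7 * Real.sqrt X := by
  have h7 := c7_pos
  refine (abel (fun k => (k : ℝ) ^ (-(1 / 2 : ℝ))) (fun k => by positivity) (fun k hk =>
    Real.rpow_le_rpow_of_nonpos (by exact_mod_cast hk) (by simp) (by norm_num)) X).trans ?_
  have h1 : ∀ Y : ℕ, ∑ k ∈ range Y, ((k + 1 : ℕ) : ℝ) ^ (-(1 / 2 : ℝ)) ≤ 2 * Real.sqrt Y := by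
    intro Y
    induction Y with
    | zero => simp
    | succ Y ih =>
      have h2 : (0 : ℝ) < ((Y + 1 : ℕ) : ℝ) := by positivity
      have h3 := Real.sqrt_pos.2 h2
      have h4 := Real.mul_self_sqrt h2.le
      have h5 := Real.mul_self_sqrt (Nat.cast_nonneg (α := ℝ) Y)
      have h6 : (Real.sqrt ((Y + 1 : ℕ) : ℝ))⁻¹ ≤
          2 * Real.sqrt ((Y + 1 : ℕ) : ℝ) - 2 * Real.sqrt Y := by
        rw [inv_eq_one_div, div_le_iff₀ h3]
        have h8 : ((Y + 1 : ℕ) : ℝ) = Y + 1 := by push_cast; rfl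
        nlinarith [sq_nonneg (Real.sqrt ((Y + 1 : ℕ) : ℝ) - Real.sqrt Y)]
      rw [sum_range_succ, Real.rpow_neg h2.le, ← Real.sqrt_eq_rpow]
      linarith
  calc _ ≤ c7 * (2 * Real.sqrt X) := mul_le_mul_of_nonneg_left (h1 X) h7.le
    _ = _ := by ring

end PW

/-- Fourier transform of a product of functions with coprime moduli. -/
theorem ft_mul {m n : O} (hm : m ≠ 0) (hn : n ≠ 0) (h : IsCoprime m n) (f g : O → ℂ)
    (hf : ∀ x y, m ∣ x - y → f x = f y) (hg : ∀ x y, n ∣ x - y → g x = g y) (k : O) :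
    ft (m * n) (fun x => f x * g x) k =
      ft m (fun x => f (n * x)) k * ft n (fun y => g (m * y)) k := by
  unfold ft
  rw [sum_res_crt hm hn h (fun x => f x * g x * eq (k * x) (m * n)), Finset.sum_mul_sum]
  · refine Finset.sum_congr rfl fun x _ => Finset.sum_congr rfl fun y _ => ?_
    rw [hf (n * x + m * y) (n * x) ⟨y, by ring⟩, hg (n * x + m * y) (m * y) ⟨x, by ring⟩,
      show k * (n * x + m * y) = n * (k * x) + m * (k * y) by ring, eq_crt hm hn]
    ring
  · intro x y hxy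
    rw [hf x y ((dvd_mul_right m n).trans hxy), hg x y ((dvd_mul_left n m).trans hxy),
      eq_congr (x := k * x) (y := k * y) (by rw [← mul_sub]; exact hxy.mul_left k)]

/-- Fourier inversion. -/
theorem ft_ft {q : O} (hq : q ≠ 0) (f : O → ℂ) (hf : ∀ x y, q ∣ x - y → f x = f y) (x : O) :
    ft q (ft q f) x = (nm q : ℂ) * f (-x) := by
  classical
  unfold ft
  simp only [Finset.sum_mul]
  rw [Finset.sum_comm]
  have e : ∀ y : O, ∑ h ∈ res q, f y * eq (h * y) q * eq (x * h) q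
      = f y * if q ∣ x + y then (nm q : ℂ) else 0 := by
    intro y
    rw [← sum_res_eq_char hq, Finset.mul_sum]
    refine Finset.sum_congr rfl fun h _ => ?_
    rw [mul_assoc, ← eq_add, show h * y + x * h = (x + y) * h by ring]
  simp only [e]
  obtain ⟨r, ⟨hr, hr'⟩, hu⟩ := exists_unique_res hq (-x)
  rw [Finset.sum_eq_single_of_mem r hr]
  · rw [if_pos (by rw [← dvd_neg]; convert hr' using 1; ring), hf (-x) r hr', mul_comm]
  · intro y hy hne
    rw [if_neg, mul_zero]
    intro hd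
    exact hne (hu y ⟨hy, by rw [← dvd_neg]; convert hd using 1; ring⟩)

/-- The trivial bound for the finite Fourier transform. -/
theorem norm_ft_le {q : O} (hq : q ≠ 0) {f : O → ℂ} (hf : ∀ x, ‖f x‖ ≤ 1) (k : O) :
    ‖ft q f k‖ ≤ nr q := by
  refine (norm_sum_le _ _).trans ?_
  refine (Finset.sum_le_card_nsmul _ _ 1 fun x _ => ?_).trans ?_
  · rw [norm_mul, norm_eq, mul_one]
    exact hf x
  · rw [card_res hq, nsmul_eq_mul, mul_one]

theorem ft_zero (q : O) (f : O → ℂ) : ft q f 0 = ∑ x ∈ res q, f x :=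
  Finset.sum_congr rfl fun x _ => by rw [zero_mul, eq_zero_left, mul_one]

/-- The finite Fourier transform is periodic. -/
theorem ft_congr {q : O} (f : O → ℂ) {k k' : O} (h : q ∣ k - k') : ft q f k = ft q f k' :=
  Finset.sum_congr rfl fun x _ => by
    rw [eq_congr (x := k * x) (y := k' * x) (by rw [← sub_mul]; exact h.mul_right x)]

/-- The finite Fourier transform of a `UInv` function is `UInv`. -/
theorem UInv.ft {q : O} (hq : q ≠ 0) {f : O → ℂ} (hf : ∀ x y, q ∣ x - y → f x = f y)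
    (hU : UInv f) : UInv (ft q f) := by
  intro u k hu h1
  unfold T27.ft
  have hper : ∀ x y, q ∣ x - y → f x * eq (k * x) q = f y * eq (k * y) q := fun x y h => by
    rw [hf x y h, eq_congr (x := k * x) (y := k * y) (by rw [← mul_sub]; exact h.mul_left k)]
  rw [← sum_res_affine hq (fun x => f x * eq (k * x) q) hper
    (isCoprime_of_isUnit q hu).symm 0]
  refine Finset.sum_congr rfl fun x _ => ?_
  rw [add_zero, hU u x hu h1, show u * k * x = k * (u * x) by ring]

/-- A periodic function is bounded. -/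
theorem norm_le_sum_res {q : O} (hq : q ≠ 0) {f : O → ℂ} (hf : ∀ x y, q ∣ x - y → f x = f y)
    (k : O) : ‖f k‖ ≤ ∑ x ∈ res q, ‖f x‖ := by
  obtain ⟨r, ⟨hr, hr'⟩, -⟩ := exists_unique_res hq k
  rw [hf k r hr']
  exact Finset.single_le_sum (f := fun x => ‖f x‖) (fun _ _ => norm_nonneg _) hr

end

variable [Fr]

theorem gw_pos (x : ℝ) : 0 < gw x := Fr.kerAx.pos x
@[simp] theorem gw_zero : gw 0 = 1 := Fr.kerAx.zero
theorem gw_antitoneOn : AntitoneOn gw (Set.Ioi 0) := Fr.kerAx.anti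
theorem gw_antitone {x y : ℝ} (hx : 0 < x) (h : x ≤ y) : gw y ≤ gw x :=
  gw_antitoneOn hx (hx.trans_le h) h

/-- `gw x ≪_A x^{-A}` for every `A > 0`. -/
theorem gw_le_rpow (A : ℝ) : ∃ C : ℝ, 0 < C ∧ ∀ x : ℝ, 0 < x → 0 < A → gw x ≤ C * x ^ (-A) := by
  by_cases hA : 0 < A
  · obtain ⟨C, hC, h⟩ := Fr.kerAx.le_rpow A hA
    exact ⟨C, hC, fun x hx _ => h x hx⟩
  · exact ⟨1, one_pos, fun _ _ h => absurd h hA⟩

/-- `gw x ≪_A x^{-A}` for `x ≥ 1` and every real `A`. -/
theorem gw_le_rpow_of_one_le (A : ℝ) :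
    ∃ C : ℝ, 0 < C ∧ ∀ x : ℝ, 1 ≤ x → gw x ≤ C * x ^ (-A) := by
  obtain ⟨C, hC, h⟩ := gw_le_rpow (|A| + 1)
  refine ⟨C, hC, fun x hx => (h x (by linarith) (by positivity)).trans ?_⟩
  exact mul_le_mul_of_nonneg_left (Real.rpow_le_rpow_of_exponent_le hx
    (by linarith [le_abs_self A])) hC.le

theorem gr_of_rep {k : O} (h : Rep k) (x : ℝ) : gr k x = gw x := if_pos h
theorem gr_of_not {k : O} (h : ¬ Rep k) (x : ℝ) : gr k x = 0 := if_neg h
theorem Primary.gr_eq {k : O} (h : Primary k) (x : ℝ) : gr k x = gw x := gr_of_rep h.rep x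
@[simp] theorem gr_zero (x : ℝ) : gr 0 x = gw x := gr_of_rep rep_zero x

theorem gr_nonneg (k : O) (x : ℝ) : 0 ≤ gr k x := by
  by_cases h : Rep k
  · rw [gr_of_rep h]; exact (gw_pos x).le
  · rw [gr_of_not h]

theorem gr_le_gw (k : O) (x : ℝ) : gr k x ≤ gw x := by
  by_cases h : Rep k
  · rw [gr_of_rep h]
  · rw [gr_of_not h]; exact (gw_pos x).le

theorem gr_antitone (k : O) {x y : ℝ} (hx : 0 < x) (h : x ≤ y) : gr k y ≤ gr k x := by
  by_cases hk : Rep k
  · rw [gr_of_rep hk, gr_of_rep hk]; exact gw_antitone hx h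
  · rw [gr_of_not hk, gr_of_not hk]

theorem gr_mul_primary {d : O} (hd : Primary d) (k : O) (x : ℝ) : gr (d * k) x = gr k x := by
  by_cases hk : Rep k
  · rw [gr_of_rep hk, gr_of_rep ((rep_mul_iff hd).2 hk)]
  · rw [gr_of_not hk, gr_of_not fun h => hk ((rep_mul_iff hd).1 h)]

theorem norm_gr (k : O) (x : ℝ) : ‖(gr k x : ℂ)‖ = gr k x := by
  rw [Complex.norm_real, Real.norm_of_nonneg (gr_nonneg k x)]

theorem norm_gw (x : ℝ) : ‖(gw x : ℂ)‖ = gw x := by
  rw [Complex.norm_real, Real.norm_of_nonneg (gw_pos x).le]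

theorem summable_gw {X : ℝ} (hX : 0 < X) (A : ℝ) :
    Summable (fun k : O => gr k (nr k / X) * (1 + nr k) ^ A) := by
  obtain ⟨C, hC, h⟩ := gw_le_rpow (|A| + 2)
  have hs := (PW.summable_rp (σ := 2) (by norm_num)).mul_left
    (C * X ^ (|A| + 2) * 2 ^ |A|)
  refine Summable.of_norm_bounded_eventually hs ?_
  filter_upwards [Filter.eventually_cofinite_ne (0 : O)] with k hk
  by_cases hr : Rep k
  swap
  · rw [gr_of_not hr, PW.rp_of_not hr, zero_mul, mul_zero, norm_zero]
  have h1 := one_le_nr hk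
  have h0 : 0 < nr k := by linarith
  have hA := abs_nonneg A
  have h2 := h (nr k / X) (div_pos h0 hX) (by linarith)
  have h3 : (1 + nr k) ^ A ≤ 2 ^ |A| * nr k ^ |A| := by
    rw [← Real.mul_rpow (by norm_num) h0.le]
    exact (Real.rpow_le_rpow_of_exponent_le (by linarith) (le_abs_self A)).trans
      (Real.rpow_le_rpow (by linarith) (by linarith) hA)
  rw [gr_of_rep hr, PW.rp_of_rep hr,
    Real.norm_of_nonneg (mul_nonneg (gw_pos _).le (Real.rpow_nonneg (by linarith) _))]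
  refine (mul_le_mul h2 h3 (Real.rpow_nonneg (by linarith) _) (by positivity)).trans (le_of_eq ?_)
  rw [Real.div_rpow h0.le hX.le, Real.rpow_neg hX.le, div_inv_eq_mul,
    show (-2 : ℝ) = -(|A| + 2) + |A| by ring, Real.rpow_add h0]
  ring

theorem summable_gw' {X : ℝ} (hX : 0 < X) : Summable (fun k : O => gr k (nr k / X)) := by
  simpa using summable_gw hX 0

theorem summable_gw_mul {Y : ℝ} (hY : 0 < Y) : Summable (fun k : O => gr k (Y * nr k)) := by
  refine (summable_gw' (inv_pos.2 hY)).congr fun k => ?_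
  rw [div_inv_eq_mul, mul_comm]

/-- A bounded function against the kernel. -/
theorem summable_mul_gw {f : O → ℂ} {H : ℝ} (hf : ∀ k, ‖f k‖ ≤ H) {X : ℝ} (hX : 0 < X) :
    Summable (fun k : O => f k * (gr k (nr k / X) : ℂ)) := by
  refine Summable.of_norm_bounded ((summable_gw' hX).mul_left H) fun k => ?_
  rw [norm_mul, norm_gr]
  exact mul_le_mul_of_nonneg_right (hf k) (gr_nonneg _ _)

/-- Tails. -/
theorem tsum_gw_tail_le (A B : ℝ) : ∃ C : ℝ, 0 < C ∧ ∀ X L : ℝ, 0 < X → 1 ≤ L →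
    ∑' k : O, (if X * L ≤ nr k then gr k (nr k / X) * (1 + nr k) ^ B else 0)
      ≤ C * (1 + X) ^ (|B| + 1) * L ^ (-A) := by
  obtain ⟨C, hC, h⟩ := gw_le_rpow (|A| + |B| + 2)
  obtain ⟨C', hC', h'⟩ := WeightB.tsum_le
  refine ⟨C * C', by positivity, fun X L hX hL => ?_⟩
  have hL0 : 0 < L := by linarith
  have hA := abs_nonneg A
  have hB := abs_nonneg B
  refine (h' _ (C * (1 + X) ^ |B| * L ^ (-A)) X hX (by positivity) (fun k => ?_)
    fun k => ?_).trans ?_
  · split_ifs
    · exact mul_nonneg (gr_nonneg _ _) (by positivity)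
    · exact le_rfl
  · have hg := WeightB.g_nonneg hX k
    split_ifs with hk
    swap
    · positivity
    by_cases hr : Rep k
    swap
    · rw [gr_of_not hr, zero_mul]
      positivity
    have ht : L ≤ nr k / X := by rw [le_div_iff₀ hX]; linarith
    have hk0 : k ≠ 0 := by
      rintro rfl
      rw [nr, nm_zero, Nat.cast_zero] at hk
      nlinarith
    rw [gr_of_rep hr, WeightB.g, if_neg (not_or.2 ⟨hk0, not_not.2 hr⟩)]
    set t := nr k / X with ht_def
    have ht1 : 1 ≤ t := hL.trans ht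
    have ht0 : 0 < t := by linarith
    have hk' : nr k = X * t := by rw [ht_def]; field_simp
    have a1 := h t ht0 (by positivity)
    have a3 : (1 + nr k) ^ B ≤ (1 + X) ^ |B| * t ^ |B| := by
      rw [← Real.mul_rpow (by linarith) ht0.le]
      have : 0 ≤ nr k := Nat.cast_nonneg _
      exact (Real.rpow_le_rpow_of_exponent_le (by linarith) (le_abs_self B)).trans
        (Real.rpow_le_rpow (by linarith) (by rw [hk']; nlinarith) hB)
    have a4 : t ^ (-|A|) ≤ L ^ (-A) :=
      (Real.rpow_le_rpow_of_nonpos hL0 ht (by linarith)).trans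
        (Real.rpow_le_rpow_of_exponent_le hL (neg_le_neg (le_abs_self A)))
    rw [min_eq_right (Real.rpow_le_one_of_one_le_of_nonpos ht1 (by norm_num))]
    calc gw t * (1 + nr k) ^ B ≤ C * t ^ (-(|A| + |B| + 2)) * ((1 + X) ^ |B| * t ^ |B|) :=
          mul_le_mul a1 a3 (by positivity) (by positivity)
      _ = C * (1 + X) ^ |B| * t ^ (-|A|) * t ^ (-2 : ℝ) := by
          have e : t ^ (-(|A| + |B| + 2)) * t ^ |B| = t ^ (-|A|) * t ^ (-2 : ℝ) := by
            rw [← Real.rpow_add ht0, ← Real.rpow_add ht0]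
            congr 1
            ring
          linear_combination (C * (1 + X) ^ |B|) * e
      _ ≤ _ := by gcongr
  · rw [Real.rpow_add (by linarith), Real.rpow_one]
    calc _ = C * C' * ((1 + X) ^ |B| * X) * L ^ (-A) := by ring
      _ ≤ _ := by gcongr; linarith

/-- The non-zero rows contribute `≪ X`. -/
theorem tsum_gw_ne_zero_le' : ∃ C : ℝ, 0 < C ∧ ∀ X : ℝ, 0 < X →
    ∑' k : O, (if k = 0 then 0 else gr k (nr k / X)) ≤ C * X := by
  classical
  obtain ⟨C₁, hC₁, h₁⟩ := gw_le_rpow (1 / 2)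
  obtain ⟨C₂, hC₂, h₂⟩ := gw_le_rpow 2
  obtain ⟨C', hC', h'⟩ := WeightB.tsum_g_le
  have h7 := c7_pos
  refine ⟨C₁ * (2 * c7) + C₂ * C', by positivity, fun X hX => ?_⟩
  have hn : ∀ k : O, 0 ≤ (if k = 0 then 0 else gr k (nr k / X)) := fun k => by
    split_ifs
    exacts [le_rfl, gr_nonneg _ _]
  refine Real.tsum_le_of_sum_le hn fun S => ?_
  rw [← Finset.sum_filter_add_sum_filter_not S fun n => n ∈ (ball ⌊X⌋₊).erase 0]
  have h2 : ∑ k ∈ S.filter fun n => n ∈ (ball ⌊X⌋₊).erase 0,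
      (if k = 0 then 0 else gr k (nr k / X)) ≤ C₁ * (2 * c7) * X := by
    calc _ ≤ ∑ k ∈ (ball ⌊X⌋₊).erase 0, (if k = 0 then 0 else gr k (nr k / X)) :=
          Finset.sum_le_sum_of_subset_of_nonneg (fun k hk => (Finset.mem_filter.1 hk).2)
            fun k _ _ => hn k
      _ ≤ ∑ k ∈ (ball ⌊X⌋₊).erase 0, C₁ * Real.sqrt X * nr k ^ (-(1 / 2 : ℝ)) := by
          refine Finset.sum_le_sum fun k hk => ?_
          have hk0 := Finset.ne_of_mem_erase hk
          rw [if_neg hk0]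
          refine ((gr_le_gw _ _).trans (h₁ _ (div_pos (nr_pos hk0) hX) (by norm_num))).trans_eq ?_
          rw [Real.div_rpow (nr_pos hk0).le hX.le, Real.rpow_neg hX.le, div_inv_eq_mul,
            ← Real.sqrt_eq_rpow]
          ring
      _ ≤ C₁ * Real.sqrt X * (2 * c7 * Real.sqrt X) := by
          rw [← Finset.mul_sum]
          refine mul_le_mul_of_nonneg_left ((PW.sum_sqrt_le _).trans ?_) (by positivity)
          exact mul_le_mul_of_nonneg_left (Real.sqrt_le_sqrt (Nat.floor_le hX.le)) (by positivity)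
      _ = C₁ * (2 * c7) * (Real.sqrt X * Real.sqrt X) := by ring
      _ = _ := by rw [Real.mul_self_sqrt hX.le]
  have h3 : ∑ k ∈ S.filter fun n => ¬ n ∈ (ball ⌊X⌋₊).erase 0,
      (if k = 0 then 0 else gr k (nr k / X)) ≤ C₂ * C' * X := by
    calc _ ≤ ∑ k ∈ S.filter fun n => ¬ n ∈ (ball ⌊X⌋₊).erase 0, C₂ * WeightB.g X k := by
          refine Finset.sum_le_sum fun k hk => ?_
          have hg := WeightB.g_nonneg hX k
          split_ifs with hk0
          · positivity
          by_cases hr : Rep k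
          swap
          · rw [gr_of_not hr]
            positivity
          have h4 : ¬ nm k ≤ ⌊X⌋₊ := fun h =>
            (Finset.mem_filter.1 hk).2 (PW.mem_erase_ball.2 ⟨⟨hk0, hr⟩, h⟩)
          have h5 : 1 ≤ nr k / X := by
            rw [one_le_div hX]
            exact (Nat.lt_of_floor_lt (not_le.1 h4)).le
          rw [gr_of_rep hr, WeightB.g, if_neg (not_or.2 ⟨hk0, not_not.2 hr⟩),
            min_eq_right (Real.rpow_le_one_of_one_le_of_nonpos h5 (by norm_num))]
          exact h₂ _ (by linarith) two_pos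
      _ ≤ C₂ * (C' * X) := by
          rw [← Finset.mul_sum]
          exact mul_le_mul_of_nonneg_left (((WeightB.summable_g hX).sum_le_tsum _
            fun k _ => WeightB.g_nonneg hX k).trans (h' X hX)) hC₂.le
      _ = _ := by ring
  linarith

theorem tsum_gw_le : ∃ C : ℝ, 0 < C ∧ ∀ X : ℝ, 0 < X → ∑' k : O, gr k (nr k / X) ≤ 1 + C * X := by
  obtain ⟨C, hC, h⟩ := tsum_gw_ne_zero_le'
  refine ⟨C, hC, fun X hX => ?_⟩
  rw [(summable_gw' hX).tsum_eq_add_tsum_ite 0, nr, nm_zero, Nat.cast_zero, zero_div, gr_zero,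
    gw_zero]
  exact add_le_add_right (h X hX) 1

/-- Non-zero frequencies with a large dilation are negligible:
`∑_{h ≠ 0} gw (Y N h) ≪_A Y^{-A}` for `Y ≥ 1`. -/
theorem tsum_gw_ne_zero_le (A : ℝ) : ∃ C : ℝ, 0 < C ∧ ∀ Y : ℝ, 1 ≤ Y →
    ∑' h : O, (if h = 0 then 0 else gr h (Y * nr h)) ≤ C * Y ^ (-A) := by
  obtain ⟨C, hC, h⟩ := tsum_gw_tail_le A 0
  refine ⟨C * 2, by positivity, fun Y hY => ?_⟩
  have hY0 : 0 < Y := by linarith
  have h1 := h Y⁻¹ Y (inv_pos.2 hY0) hY
  have h2 : Y⁻¹ ≤ 1 := inv_le_one_of_one_le₀ hY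
  rw [abs_zero, zero_add, Real.rpow_one, inv_mul_cancel₀ hY0.ne'] at h1
  refine le_trans (le_of_eq (tsum_congr fun k => ?_)) (h1.trans ?_)
  · by_cases hk : k = 0
    · rw [if_pos hk, hk, if_neg]
      rw [nr, nm_zero, Nat.cast_zero]
      norm_num
    · rw [if_neg hk, if_pos (one_le_nr hk), Real.rpow_zero, mul_one, div_inv_eq_mul, mul_comm]
  · gcongr
    linarith

/-- Poisson summation over the rows for a periodic function invariant under the units of trivial
class. -/
theorem poisson {q : O} (hq : q ≠ 0) (f : O → ℂ) (hf : ∀ x y, q ∣ x - y → f x = f y)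
    (hU : UInv f) {X : ℝ} (hX : 0 < X) :
    ∑' k : O, f k * (gr k (nr k / X) : ℂ) =
      (X / nr q : ℝ) * ∑' h : O, ft q f h * (gr h (X * nr h / nr q) : ℂ) :=
  Fr.kerAx.poisson q f X hq hf hU hX

theorem summable_ft_gw {q : O} (hq : q ≠ 0) (f : O → ℂ) {X : ℝ} (hX : 0 < X) :
    Summable fun h : O => ft q f h * (gr h (X * nr h / nr q) : ℂ) := by
  refine (summable_mul_gw (f := ft q f)
    (norm_le_sum_res hq fun x y h => ft_congr f h) (div_pos (nr_pos hq) hX)).congr fun k => ?_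
  rw [div_div_eq_mul_div, mul_comm (nr k)]

/-- A periodic function of mean zero and modulus `≤ 1` has a negligible sum over the rows as soon
as the length exceeds the conductor. -/
theorem norm_tsum_gw_le_of_mean_zero (A : ℝ) : ∃ C : ℝ, 0 < C ∧ ∀ (q : O) (f : O → ℂ) (X : ℝ),
    q ≠ 0 → (∀ x y, q ∣ x - y → f x = f y) → UInv f → (∀ x, ‖f x‖ ≤ 1) →
    ∑ x ∈ res q, f x = 0 → nr q ≤ X →
      ‖∑' k : O, f k * (gr k (nr k / X) : ℂ)‖ ≤ C * X * (X / nr q) ^ (-A) := by
  classical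
  obtain ⟨C, hC, h⟩ := tsum_gw_ne_zero_le A
  refine ⟨C, hC, fun q f X hq hf hU hf1 hf0 hX => ?_⟩
  have hq0 := nr_pos hq
  have hX0 : 0 < X := hq0.trans_le hX
  have hX' : 0 < X / nr q := div_pos hX0 hq0
  have hY : 1 ≤ X / nr q := (one_le_div hq0).2 hX
  rw [poisson hq f hf hU hX0, norm_mul, Complex.norm_real, Real.norm_of_nonneg hX'.le]
  have hs : Summable fun k : O => (if k = 0 then 0 else gr k (X / nr q * nr k)) := by
    refine (summable_gw_mul hX').of_nonneg_of_le (fun k => ?_) fun k => ?_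
    · split_ifs
      exacts [le_rfl, gr_nonneg _ _]
    · split_ifs
      exacts [gr_nonneg _ _, le_rfl]
  have hb : ‖∑' h : O, ft q f h * (gr h (X * nr h / nr q) : ℂ)‖
      ≤ nr q * ∑' k : O, (if k = 0 then 0 else gr k (X / nr q * nr k)) := by
    refine tsum_of_norm_bounded (hs.hasSum.mul_left (nr q)) fun k => ?_
    split_ifs with hk
    · rw [hk, ft_zero, hf0, zero_mul, norm_zero, mul_zero]
    · rw [norm_mul, norm_gr, show X * nr k / nr q = X / nr q * nr k by ring]
      exact mul_le_mul_of_nonneg_right (norm_ft_le hq hf1 k) (gr_nonneg _ _)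
  have h2 := mul_le_mul_of_nonneg_left (h _ hY) hq0.le
  refine (mul_le_mul_of_nonneg_left (hb.trans h2) hX'.le).trans (le_of_eq ?_)
  field_simp

/-- Mellin representation of the kernel. -/
theorem gw_eq_integral {x σ : ℝ} (hx : 0 < x) (hσ : 0 < σ) :
    (gw x : ℂ) = (1 / (2 * Real.pi) : ℂ) *
      ∫ u : ℝ, mel (σ + u * Complex.I) * (x : ℂ) ^ (-(σ + u * Complex.I)) :=
  Fr.kerAx.mel_eq x σ hx hσ

theorem continuous_mel_line {σ : ℝ} (hσ : 0 < σ) :
    Continuous fun u : ℝ => mel (σ + u * Complex.I) := Fr.kerAx.mel_cont σ hσ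

theorem integrable_mel_mul_pow {σ : ℝ} (hσ : 0 < σ) (J : ℕ) :
    Integrable (fun u : ℝ => ‖mel (σ + u * Complex.I)‖ * (1 + |u|) ^ J) :=
  Fr.kerAx.mel_int σ hσ J

end Crest.Agent.T27
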