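import Mathlib

/-!
# Row 27, PSD core, part A (helper51): positive semidefinite kernels

`PSD K`: Hermitian kernel with non-negative quadratic form.  Schur products, pull-backs, the tensor
inequality `∏ A_p ≤ ∏ B_p`, and the local lemma of the PSD domination (helper54, note 98).
-/

set_option autoImplicit false

noncomputable section

namespace Crest.Agent.T27

open scoped ComplexConjugate ComplexOrder
open Finset

/-- Positive semidefinite kernels. -/
def PSD {α : Type*} (K : α → α → ℂ) : Prop :=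
  (∀ i j, K j i = conj (K i j)) ∧
    ∀ (S : Finset α) (x : α → ℂ), 0 ≤ (∑ i ∈ S, ∑ j ∈ S, x i * conj (x j) * K i j).re

namespace PSD

variable {α : Type*}

theorem form_im {K : α → α → ℂ} (h : ∀ i j, K j i = conj (K i j)) (S : Finset α) (x : α → ℂ) :
    (∑ i ∈ S, ∑ j ∈ S, x i * conj (x j) * K i j).im = 0 := by
  have : conj (∑ i ∈ S, ∑ j ∈ S, x i * conj (x j) * K i j) =
      ∑ i ∈ S, ∑ j ∈ S, x i * conj (x j) * K i j := by
    rw [map_sum]
    conv_rhs => rw [Finset.sum_comm]
    refine Finset.sum_congr rfl fun i _ => ?_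
    rw [map_sum]
    refine Finset.sum_congr rfl fun j _ => ?_
    rw [h i j, map_mul, map_mul, Complex.conj_conj]
    ring
  exact Complex.conj_eq_iff_im.1 this

theorem toMat {K : α → α → ℂ} (h : PSD K) : (Matrix.of K).PosSemidef := by
  refine ⟨?_, fun x => ?_⟩
  · ext i j
    simp only [Matrix.conjTranspose_apply, Matrix.of_apply, RCLike.star_def]
    rw [h.1 i j, Complex.conj_conj]
  · have e : (x.sum fun i xi => x.sum fun j xj => star xi * Matrix.of K i j * xj) =
        ∑ i ∈ x.support, ∑ j ∈ x.support, conj (x i) * conj (conj (x j)) * K i j := by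
      simp only [Finsupp.sum, Matrix.of_apply, RCLike.star_def, Complex.conj_conj]
      refine Finset.sum_congr rfl fun i _ => Finset.sum_congr rfl fun j _ => ?_
      ring
    rw [e]
    exact Complex.nonneg_iff.2 ⟨h.2 _ (fun i => conj (x i)),
      (form_im h.1 _ (fun i => conj (x i))).symm⟩

theorem ofMat {K : α → α → ℂ} (h : (Matrix.of K).PosSemidef) : PSD K := by
  classical
  refine ⟨fun i j => ?_, fun S x => ?_⟩
  · have := congrFun (congrFun h.1 j) i
    simpa only [Matrix.conjTranspose_apply, Matrix.of_apply, RCLike.star_def] using this.symm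
  · have h1 := (h.submatrix ((↑) : S → α)).dotProduct_mulVec_nonneg (fun i : S => conj (x i))
    have e : star (fun i : S => conj (x i)) ⬝ᵥ
        ((Matrix.of K).submatrix ((↑) : S → α) ((↑) : S → α)).mulVec (fun i : S => conj (x i)) =
        ∑ i ∈ S, ∑ j ∈ S, x i * conj (x j) * K i j := by
      rw [← Finset.sum_coe_sort S]
      simp only [dotProduct, Matrix.mulVec, Pi.star_apply, RCLike.star_def, Complex.conj_conj,
        Matrix.submatrix_apply, Matrix.of_apply, Finset.mul_sum]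
      refine Finset.sum_congr rfl fun i _ => ?_
      rw [← Finset.sum_coe_sort S]
      refine Finset.sum_congr rfl fun j _ => ?_
      ring
    rw [e] at h1
    exact (Complex.nonneg_iff.1 h1).1

theorem mul {K L : α → α → ℂ} (hK : PSD K) (hL : PSD L) : PSD fun i j => K i j * L i j :=
  ofMat (hK.toMat.hadamard hL.toMat)

theorem comp {β : Type*} {K : α → α → ℂ} (hK : PSD K) (f : β → α) :
    PSD fun i j => K (f i) (f j) :=
  ofMat (hK.toMat.submatrix f)

theorem add {K L : α → α → ℂ} (hK : PSD K) (hL : PSD L) : PSD fun i j => K i j + L i j := by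
  refine ⟨fun i j => by beta_reduce; rw [hK.1 i j, hL.1 i j, map_add], fun S x => ?_⟩
  simp only [mul_add, Finset.sum_add_distrib, Complex.add_re]
  exact add_nonneg (hK.2 S x) (hL.2 S x)

theorem form_rank_one (c : ℝ) (u : α → ℂ) (S : Finset α) (x : α → ℂ) :
    (∑ i ∈ S, ∑ j ∈ S, x i * conj (x j) * ((c : ℂ) * (u i * conj (u j)))).re =
      c * ‖∑ i ∈ S, x i * u i‖ ^ 2 := by
  have : ∑ i ∈ S, ∑ j ∈ S, x i * conj (x j) * ((c : ℂ) * (u i * conj (u j))) =
      ((c * ‖∑ i ∈ S, x i * u i‖ ^ 2 : ℝ) : ℂ) := by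
    push_cast
    rw [← Complex.mul_conj', map_sum, Finset.sum_mul_sum, Finset.mul_sum]
    refine Finset.sum_congr rfl fun i _ => ?_
    rw [Finset.mul_sum]
    refine Finset.sum_congr rfl fun j _ => ?_
    rw [map_mul]; ring
  rw [this, Complex.ofReal_re]

theorem rank_one {c : ℝ} (hc : 0 ≤ c) (u : α → ℂ) :
    PSD fun i j => (c : ℂ) * (u i * conj (u j)) := by
  refine ⟨fun i j => ?_, fun S x => ?_⟩
  · simp only [map_mul, Complex.conj_conj, Complex.conj_ofReal]; ring
  · rw [form_rank_one]; positivity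

theorem congr {K L : α → α → ℂ} (hK : PSD K) (h : ∀ i j, L i j = K i j) : PSD L := by
  have : L = K := funext fun i => funext fun j => h i j
  rwa [this]

theorem one : PSD fun _ _ : α => (1 : ℂ) :=
  (rank_one (α := α) zero_le_one fun _ => 1).congr fun _ _ => by simp

theorem zero : PSD fun _ _ : α => (0 : ℂ) :=
  (rank_one (α := α) le_rfl fun _ => 1).congr fun _ _ => by simp

open Classical in
theorem diag {d : α → ℝ} (hd : ∀ i, 0 ≤ d i) : PSD fun i j => if i = j then (d i : ℂ) else 0 := by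
  refine ⟨fun i j => ?_, fun S x => ?_⟩
  · by_cases h : i = j
    · subst h; simp
    · simp [h, Ne.symm h]
  · rw [Complex.re_sum]
    refine Finset.sum_nonneg fun i hi => ?_
    simp only [mul_ite, mul_zero, Finset.sum_ite_eq, if_pos hi]
    rw [Complex.mul_conj', ← Complex.ofReal_pow, ← Complex.ofReal_mul, Complex.ofReal_re]
    exact mul_nonneg (sq_nonneg _) (hd i)

/-- The tensor inequality. -/
theorem tensor {ι : Type*} (P : Finset ι) {A B : ι → α → α → ℂ} (hA : ∀ p ∈ P, PSD (A p))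
    (hB : ∀ p ∈ P, PSD fun i j => B p i j - A p i j) :
    (PSD fun i j => ∏ p ∈ P, A p i j) ∧
      PSD fun i j => ∏ p ∈ P, B p i j - ∏ p ∈ P, A p i j := by
  classical
  induction P using Finset.induction_on with
  | empty => exact ⟨one.congr fun _ _ => by simp, zero.congr fun _ _ => by simp⟩
  | insert p P hp ih =>
    obtain ⟨h1, h2⟩ := ih (fun q hq => hA q (mem_insert_of_mem hq))
      (fun q hq => hB q (mem_insert_of_mem hq))
    have a := hA p (mem_insert_self _ _)
    have b := hB p (mem_insert_self _ _)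
    refine ⟨(a.mul h1).congr fun i j => by rw [prod_insert hp], ?_⟩
    refine ((((a.add b).mul h2)).add (b.mul h1)).congr fun i j => ?_
    rw [prod_insert hp, prod_insert hp]; ring

/-- The tensor inequality for quadratic forms. -/
theorem tensor_le {ι : Type*} (P : Finset ι) {A B : ι → α → α → ℂ} (hA : ∀ p ∈ P, PSD (A p))
    (hB : ∀ p ∈ P, PSD fun i j => B p i j - A p i j) (S : Finset α) (x : α → ℂ) :
    (∑ i ∈ S, ∑ j ∈ S, x i * conj (x j) * ∏ p ∈ P, A p i j).re ≤
      (∑ i ∈ S, ∑ j ∈ S, x i * conj (x j) * ∏ p ∈ P, B p i j).re := by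
  have := (tensor P hA hB).2.2 S x
  simp only [mul_sub, Finset.sum_sub_distrib, Complex.sub_re] at this
  linarith

theorem sum_inv_sq_le (S : Finset ℕ) :
    ∑ j ∈ S.filter (fun j => 0 < j), (1 : ℝ) / (4 * (j : ℝ) ^ 2) ≤ 1 / 2 := by
  have key : ∀ n : ℕ, ∑ j ∈ (range (n + 1)).filter (fun j => 0 < j),
      (1 : ℝ) / (4 * (j : ℝ) ^ 2) ≤ 1 / 2 - 1 / (2 * ((n : ℝ) + 1)) := by
    intro n
    induction n with
    | zero => simp [filter_singleton]
    | succ n ih =>
      rw [range_add_one, filter_insert, if_pos (Nat.succ_pos n), sum_insert (by simp)]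
      push_cast
      have h0 : (0 : ℝ) < (n : ℝ) + 1 := by positivity
      have : (1 : ℝ) / (4 * ((n : ℝ) + 1) ^ 2) ≤
          1 / (2 * ((n : ℝ) + 1)) - 1 / (2 * ((n : ℝ) + 1 + 1)) := by
        rw [div_sub_div _ _ (by positivity) (by positivity), div_le_div_iff₀ (by positivity)
          (by positivity)]
        nlinarith
      linarith
  refine le_trans (sum_le_sum_of_subset_of_nonneg (t := (range (S.sup id + 1)).filter
    (fun j => 0 < j)) (filter_subset_filter _ fun j hj => mem_range.2 (Nat.lt_succ_of_le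
      (Finset.le_sup (f := id) hj))) fun _ _ _ => by positivity) ((key _).trans ?_)
  have : (0 : ℝ) ≤ 1 / (2 * (((S.sup id : ℕ) : ℝ) + 1)) := by positivity
  linarith

/-- The local lemma (rows divisible by the prime). -/
theorem local_half {m : ℕ → ℕ → ℂ} {y D : ℕ → ℝ} {g : ℕ → Prop} [DecidablePred g]
    (hm : ∀ i j, m j i = conj (m i j)) (hy : ∀ i, 0 < y i) (hy0 : y 0 = 1) (hD : ∀ j, 0 ≤ D j)
    (h0 : 1 ≤ (m 0 0).re) (hd : ∀ j, 1 ≤ j → (if g j then y j / 2 else 0) - D j ≤ (m j j).re)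
    (ho : ∀ i j, i < j → ‖m i j‖ ^ 2 ≤ y i * D j) (hg : ∀ i j, i < j → ¬ g i → m i j = 0) :
    PSD fun i j => (m i j + if i = j then ((5 * (j : ℝ) ^ 3 * D j : ℝ) : ℂ) else 0) -
      (if i = 0 ∧ j = 0 then 1 / 2 else 0) := by
  classical
  refine ⟨fun i j => ?_, fun S x => ?_⟩
  · beta_reduce
    rw [hm i j, map_sub, map_add]
    congr 1
    · congr 1
      by_cases h : i = j
      · subst h; simp only [if_true, Complex.conj_ofReal]
      · simp [h, Ne.symm h]
    · by_cases h : i = 0 ∧ j = 0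
      · rw [if_pos h, if_pos ⟨h.2, h.1⟩, map_div₀, map_one, map_ofNat]
      · rw [if_neg h, if_neg (fun h' => h ⟨h'.2, h'.1⟩), map_zero]
  -- the pair bound
  set a : ℕ → ℕ → ℝ := fun i j => if i < j then
    (if g i then y i * ‖x i‖ ^ 2 / (4 * (j : ℝ) ^ 2) else 0) + 4 * (j : ℝ) ^ 2 * D j * ‖x j‖ ^ 2
    else 0 with ha
  have hpair : ∀ i j, i < j → 2 * (‖x i‖ * ‖x j‖ * ‖m i j‖) ≤ a i j := by
    intro i j hij
    simp only [ha, if_pos hij]
    have hj : (0 : ℝ) < j := by exact_mod_cast (Nat.zero_le i).trans_lt hij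
    by_cases hgi : g i
    · rw [if_pos hgi]
      have h1 := ho i j hij
      have h2 := hy i
      have h3 : ‖m i j‖ ^ 2 / y i ≤ D j := by rw [div_le_iff₀ h2]; linarith
      have h4 : 2 * (‖x i‖ * ‖x j‖ * ‖m i j‖) ≤ y i * ‖x i‖ ^ 2 / (4 * (j : ℝ) ^ 2) +
          4 * (j : ℝ) ^ 2 * (‖m i j‖ ^ 2 / y i) * ‖x j‖ ^ 2 := by
        have h5 : y i * ‖x i‖ ^ 2 / (4 * (j : ℝ) ^ 2) +
            4 * (j : ℝ) ^ 2 * (‖m i j‖ ^ 2 / y i) * ‖x j‖ ^ 2 - 2 * (‖x i‖ * ‖x j‖ * ‖m i j‖) =
            (y i * ‖x i‖ - 4 * (j : ℝ) ^ 2 * ‖m i j‖ * ‖x j‖) ^ 2 / (4 * (j : ℝ) ^ 2 * y i) := by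
          field_simp; ring
        have h6 : 0 ≤ (y i * ‖x i‖ - 4 * (j : ℝ) ^ 2 * ‖m i j‖ * ‖x j‖) ^ 2 /
            (4 * (j : ℝ) ^ 2 * y i) := by positivity
        linarith
      refine h4.trans ?_
      gcongr
    · rw [if_neg hgi, hg i j hij hgi]
      have := hD j
      simp only [norm_zero, mul_zero, zero_add]
      positivity
  set dg : ℕ → ℝ := fun j => (m j j).re + 5 * (j : ℝ) ^ 3 * D j - if j = 0 then 1 / 2 else 0
    with hdg
  have hterm : ∀ i j, (if i = j then dg i * ‖x i‖ ^ 2 else 0) - (a i j + a j i) / 2 ≤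
      (x i * conj (x j) * ((m i j + if i = j then ((5 * (j : ℝ) ^ 3 * D j : ℝ) : ℂ) else 0) -
        (if i = 0 ∧ j = 0 then 1 / 2 else 0))).re := by
    intro i j
    by_cases hij : i = j
    · subst hij
      have : a i i = 0 := by simp [ha]
      rw [this, if_pos rfl, if_pos rfl, Complex.mul_conj', ← Complex.ofReal_pow,
        Complex.re_ofReal_mul, Complex.sub_re, Complex.add_re, Complex.ofReal_re]
      have e : (if i = 0 ∧ i = 0 then (1 / 2 : ℂ) else 0).re = if i = 0 then 1 / 2 else 0 := by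
        by_cases h : i = 0 <;> simp [h]
      rw [e]; simp only [hdg]; linarith
    · rw [if_neg hij, if_neg hij, if_neg (fun h => hij (h.1.trans h.2.symm)), add_zero, sub_zero,
        zero_sub]
      have h1 : -‖x i * conj (x j) * m i j‖ ≤ (x i * conj (x j) * m i j).re :=
        (abs_le.1 (Complex.abs_re_le_norm _)).1
      rw [norm_mul, norm_mul, Complex.norm_conj] at h1
      rcases lt_or_gt_of_ne hij with h | h
      · have := hpair i j h
        have e : a j i = 0 := by simp [ha, not_lt.2 h.le]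
        rw [e]; linarith
      · have := hpair j i h
        have e : a i j = 0 := by simp [ha, not_lt.2 h.le]
        have e2 : ‖m i j‖ = ‖m j i‖ := by rw [hm i j, Complex.norm_conj]
        rw [e2] at h1
        rw [e]
        nlinarith
  rw [Complex.re_sum]
  simp only [Complex.re_sum]
  refine le_trans ?_ (sum_le_sum fun i _ => sum_le_sum fun j _ => hterm i j)
  have e1 : ∑ i ∈ S, ∑ j ∈ S, ((if i = j then dg i * ‖x i‖ ^ 2 else 0) - (a i j + a j i) / 2) =
      ∑ i ∈ S, dg i * ‖x i‖ ^ 2 - ∑ i ∈ S, ∑ j ∈ S, a i j := by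
    simp only [sum_sub_distrib, add_div, sum_add_distrib, ← sum_div]
    rw [Finset.sum_comm (f := fun i j => a j i)]
    congr 1
    · exact sum_congr rfl fun i hi => by rw [sum_ite_eq, if_pos hi]
    · ring
  rw [e1, sub_nonneg]
  have e2 : ∑ i ∈ S, ∑ j ∈ S, a i j =
      ∑ i ∈ S, ∑ j ∈ S, (if i < j then
        (if g i then y i * ‖x i‖ ^ 2 / (4 * (j : ℝ) ^ 2) else 0) else 0) +
      ∑ j ∈ S, ∑ i ∈ S, (if i < j then 4 * (j : ℝ) ^ 2 * D j * ‖x j‖ ^ 2 else 0) := by
    rw [Finset.sum_comm (f := fun (j i : ℕ) =>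
      if i < j then 4 * (j : ℝ) ^ 2 * D j * ‖x j‖ ^ 2 else 0), ← sum_add_distrib]
    refine sum_congr rfl fun i _ => ?_
    rw [← sum_add_distrib]
    refine sum_congr rfl fun j _ => ?_
    simp only [ha]
    split_ifs <;> simp
  rw [e2, ← sum_add_distrib]
  refine sum_le_sum fun i _ => ?_
  have b1 : ∑ j ∈ S, (if i < j then
      (if g i then y i * ‖x i‖ ^ 2 / (4 * (j : ℝ) ^ 2) else 0) else 0) ≤
      (if g i then y i / 2 else 0) * ‖x i‖ ^ 2 := by
    by_cases hgi : g i
    · simp only [if_pos hgi]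
      have h1 := sum_inv_sq_le S
      have h2 : 0 ≤ y i * ‖x i‖ ^ 2 := mul_nonneg (hy i).le (sq_nonneg _)
      calc _ ≤ ∑ j ∈ S, (if 0 < j then y i * ‖x i‖ ^ 2 * (1 / (4 * (j : ℝ) ^ 2)) else 0) := by
            refine sum_le_sum fun j _ => ?_
            by_cases h : i < j
            · rw [if_pos h, if_pos ((Nat.zero_le i).trans_lt h)]; exact le_of_eq (by ring)
            · rw [if_neg h]; split_ifs <;> positivity
        _ = y i * ‖x i‖ ^ 2 * ∑ j ∈ S.filter (fun j => 0 < j), (1 : ℝ) / (4 * (j : ℝ) ^ 2) := by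
            rw [mul_sum, sum_filter]
        _ ≤ y i * ‖x i‖ ^ 2 * (1 / 2) := by gcongr
        _ = _ := by ring
    · simp [hgi]
  have b2 : ∑ k ∈ S, (if k < i then 4 * (i : ℝ) ^ 2 * D i * ‖x i‖ ^ 2 else 0) ≤
      4 * (i : ℝ) ^ 3 * D i * ‖x i‖ ^ 2 := by
    rw [← sum_filter, sum_const, nsmul_eq_mul]
    have h1 : ((S.filter fun k => k < i).card : ℝ) ≤ i := by
      have : (S.filter fun k => k < i).card ≤ (range i).card :=
        card_le_card fun k hk => mem_range.2 (mem_filter.1 hk).2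
      rw [card_range] at this
      exact_mod_cast this
    have := hD i
    calc _ ≤ (i : ℝ) * (4 * (i : ℝ) ^ 2 * D i * ‖x i‖ ^ 2) := by gcongr
      _ = _ := by ring
  have b3 : (if g i then y i / 2 else 0) + 4 * (i : ℝ) ^ 3 * D i ≤ dg i := by
    simp only [hdg]
    rcases Nat.eq_zero_or_pos i with h | h
    · subst h
      simp only [hy0, Nat.cast_zero, if_true]
      split_ifs <;> norm_num <;> linarith
    · rw [if_neg h.ne']
      have h1 := hd i h
      have h2 : (1 : ℝ) ≤ (i : ℝ) ^ 3 := one_le_pow₀ (by exact_mod_cast h)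
      have := hD i
      nlinarith
  have := mul_le_mul_of_nonneg_right b3 (sq_nonneg ‖x i‖)
  linarith

end PSD

end Crest.Agent.T27
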