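import Mathlib

/-!
# Row 27, core leaf P1 (part A): positive semidefinite kernels, the local lemma, tensor products

No arithmetic in this file.  `PK K`: the kernel `K` is Hermitian and positive semidefinite.
`LocOK q D m`: hypotheses on the local kernel `m j j'` at a prime of norm `q`, where `D j` means
`p ^ j ∣ a`.  Main results: `LocOK.pk_sub` (local lemma), `tensor_dom` (tensor product).
-/

set_option autoImplicit false

noncomputable section

namespace Crest.Agent.T27.Psd

open scoped ComplexConjugate ComplexOrder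
open Finset

/-- Hermitian positive semidefinite kernels. -/
def PK {X : Type*} (K : X → X → ℂ) : Prop :=
  (∀ x y, K y x = conj (K x y)) ∧
    ∀ (S : Finset X) (t : X → ℂ), 0 ≤ (∑ x ∈ S, ∑ y ∈ S, t x * conj (t y) * K x y).re

section general

variable {X : Type*}

theorem form_im {K : X → X → ℂ} (h : ∀ x y, K y x = conj (K x y)) (S : Finset X) (t : X → ℂ) :
    (∑ x ∈ S, ∑ y ∈ S, t x * conj (t y) * K x y).im = 0 := by
  rw [← Complex.conj_eq_iff_im]
  simp only [map_sum, map_mul, Complex.conj_conj]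
  rw [Finset.sum_comm]
  refine sum_congr rfl fun x _ => sum_congr rfl fun y _ => ?_
  rw [h y x]; ring

theorem pk_iff (K : X → X → ℂ) : PK K ↔ (Matrix.of K).PosSemidef := by
  classical
  constructor
  · rintro ⟨h1, h2⟩
    refine ⟨?_, fun x => ?_⟩
    · ext i j
      simp only [Matrix.conjTranspose_apply, Matrix.of_apply, RCLike.star_def]
      exact (h1 j i).symm
    · have e : (x.sum fun i xi => x.sum fun j xj => star xi * Matrix.of K i j * xj) =
          ∑ i ∈ x.support, ∑ j ∈ x.support, conj (x i) * conj (conj (x j)) * K i j := by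
        simp only [Finsupp.sum, Matrix.of_apply, RCLike.star_def, Complex.conj_conj]
        refine sum_congr rfl fun i _ => sum_congr rfl fun j _ => by ring
      rw [e, Complex.nonneg_iff]
      exact ⟨h2 _ fun i => conj (x i), (form_im h1 _ fun i => conj (x i)).symm⟩
  · rintro ⟨h1, h2⟩
    refine ⟨fun x y => ?_, fun S t => ?_⟩
    · have := congrFun (congrFun h1 y) x
      simp only [Matrix.conjTranspose_apply, Matrix.of_apply, RCLike.star_def] at this
      exact this.symm
    · let x : X →₀ ℂ := Finsupp.onFinset S (fun i => if i ∈ S then conj (t i) else 0)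
        (fun i hi => by by_contra hc; exact hi (if_neg hc))
      have hx : ∀ i ∈ S, x i = conj (t i) := fun i hi => by simp [x, hi]
      have hs : x.support ⊆ S := Finsupp.support_onFinset_subset
      have := h2 x
      rw [Finsupp.sum_of_support_subset _ hs _ (fun i _ => by simp)] at this
      have e : ∑ i ∈ S, (x.sum fun j xj => star (x i) * Matrix.of K i j * xj) =
          ∑ i ∈ S, ∑ j ∈ S, t i * conj (t j) * K i j := by
        refine sum_congr rfl fun i hi => ?_
        rw [Finsupp.sum_of_support_subset _ hs _ (fun i _ => by simp)]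
        refine sum_congr rfl fun j hj => ?_
        rw [hx i hi, hx j hj]
        simp only [Matrix.of_apply, RCLike.star_def, Complex.conj_conj]
        ring
      rw [e] at this
      exact (Complex.nonneg_iff.1 this).1

/-- Schur product theorem. -/
theorem PK.mul {K L : X → X → ℂ} (hK : PK K) (hL : PK L) : PK fun x y => K x y * L x y := by
  rw [pk_iff] at *
  exact hK.hadamard hL

theorem PK.add {K L : X → X → ℂ} (hK : PK K) (hL : PK L) : PK fun x y => K x y + L x y := by
  refine ⟨fun x y => by simp only [hK.1 x y, hL.1 x y, map_add], fun S t => ?_⟩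
  simp only [mul_add, sum_add_distrib, Complex.add_re]
  exact add_nonneg (hK.2 S t) (hL.2 S t)

theorem PK.comp {Y : Type*} {K : X → X → ℂ} (hK : PK K) (f : Y → X) :
    PK fun x y => K (f x) (f y) := by
  rw [pk_iff] at *
  exact hK.submatrix f

theorem form_rank_one (c : ℝ) (u : X → ℂ) (S : Finset X) (t : X → ℂ) :
    (∑ x ∈ S, ∑ y ∈ S, t x * conj (t y) * ((c : ℂ) * (u x * conj (u y)))).re =
      c * ‖∑ x ∈ S, t x * u x‖ ^ 2 := by
  have : ∑ x ∈ S, ∑ y ∈ S, t x * conj (t y) * ((c : ℂ) * (u x * conj (u y))) =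
      (c : ℂ) * ((∑ x ∈ S, t x * u x) * conj (∑ x ∈ S, t x * u x)) := by
    rw [map_sum, sum_mul_sum, mul_sum]
    refine sum_congr rfl fun x _ => ?_
    rw [mul_sum]
    refine sum_congr rfl fun y _ => ?_
    rw [map_mul]; ring
  rw [this, Complex.mul_conj, Complex.normSq_eq_norm_sq, ← Complex.ofReal_mul, Complex.ofReal_re]

theorem pk_rank_one {c : ℝ} (hc : 0 ≤ c) (u : X → ℂ) :
    PK fun x y => (c : ℂ) * (u x * conj (u y)) := by
  refine ⟨fun x y => ?_, fun S t => ?_⟩
  · simp only [map_mul, Complex.conj_conj, Complex.conj_ofReal]; ring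
  · rw [form_rank_one]; positivity

theorem pk_one : PK fun _ _ : X => (1 : ℂ) := by
  simpa using pk_rank_one (X := X) zero_le_one fun _ => 1

theorem pk_zero : PK fun _ _ : X => (0 : ℂ) := ⟨by simp, by simp⟩

/-- Monotonicity of tensor products. -/
theorem pk_prod_sub {ι : Type*} (P : Finset ι) (A B : ι → X → X → ℂ)
    (hA : ∀ i ∈ P, PK (A i)) (hB : ∀ i ∈ P, PK fun x y => B i x y - A i x y) :
    (PK fun x y => ∏ i ∈ P, A i x y) ∧
      PK fun x y => ∏ i ∈ P, B i x y - ∏ i ∈ P, A i x y := by
  classical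
  induction P using Finset.induction_on with
  | empty => exact ⟨by simpa using pk_one, by simpa using pk_zero⟩
  | insert i P hi ih =>
    obtain ⟨h1, h2⟩ := ih (fun j hj => hA j (mem_insert_of_mem hj))
      (fun j hj => hB j (mem_insert_of_mem hj))
    have a1 := hA i (mem_insert_self _ _)
    have b1 := hB i (mem_insert_self _ _)
    simp only [prod_insert hi]
    refine ⟨a1.mul h1, ?_⟩
    have := (b1.mul (h2.add h1)).add (a1.mul h2)
    convert this using 3
    ring

/-- Weighted diagonal dominance. -/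
theorem pk_of_dom [DecidableEq X] {K : X → X → ℂ} (h : ∀ x y, K y x = conj (K x y))
    (w : X → X → ℝ) (hw : ∀ x y, 0 ≤ w x y) (h1 : ∀ x y, x ≠ y → ‖K x y‖ ^ 2 ≤ w x y * w y x)
    (h2 : ∀ x (S : Finset X), x ∉ S → ∑ y ∈ S, w x y ≤ (K x x).re) : PK K := by
  refine ⟨h, fun S t => ?_⟩
  have key : ∀ x y, x ≠ y → -((w x y * ‖t x‖ ^ 2 + w y x * ‖t y‖ ^ 2) / 2) ≤
      (t x * conj (t y) * K x y).re := by
    intro x y hxy
    have a1 := (abs_le.1 (Complex.abs_re_le_norm (t x * conj (t y) * K x y))).1
    rw [norm_mul, norm_mul, Complex.norm_conj] at a1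
    have a2 : ‖t x‖ * ‖t y‖ * ‖K x y‖ ≤ (w x y * ‖t x‖ ^ 2 + w y x * ‖t y‖ ^ 2) / 2 := by
      have b0 : 0 ≤ (w x y * ‖t x‖ ^ 2 + w y x * ‖t y‖ ^ 2) / 2 := by
        have := hw x y; have := hw y x; positivity
      refine le_of_sq_le_sq ?_ b0
      have b1 : (‖t x‖ * ‖t y‖ * ‖K x y‖) ^ 2 ≤ (‖t x‖ * ‖t y‖) ^ 2 * (w x y * w y x) := by
        rw [mul_pow (‖t x‖ * ‖t y‖)]
        exact mul_le_mul_of_nonneg_left (h1 x y hxy) (by positivity)
      nlinarith [sq_nonneg (w x y * ‖t x‖ ^ 2 - w y x * ‖t y‖ ^ 2)]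
    linarith
  have diag : ∀ x, (t x * conj (t x) * K x x).re = ‖t x‖ ^ 2 * (K x x).re := by
    intro x
    rw [Complex.mul_conj, Complex.normSq_eq_norm_sq, Complex.re_ofReal_mul]
  have e1 : (∑ x ∈ S, ∑ y ∈ S, t x * conj (t y) * K x y).re =
      ∑ x ∈ S, (‖t x‖ ^ 2 * (K x x).re + ∑ y ∈ S.erase x, (t x * conj (t y) * K x y).re) := by
    rw [Complex.re_sum]
    refine sum_congr rfl fun x hx => ?_
    rw [Complex.re_sum, ← add_sum_erase S _ hx, diag]
  have e2 : ∑ x ∈ S, ∑ y ∈ S.erase x, w y x * ‖t y‖ ^ 2 =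
      ∑ x ∈ S, ∑ y ∈ S.erase x, w x y * ‖t x‖ ^ 2 := by
    refine sum_comm' fun x y => ?_
    simp only [mem_erase]
    tauto
  have e3 : -∑ x ∈ S, ∑ y ∈ S.erase x, w x y * ‖t x‖ ^ 2 ≤
      ∑ x ∈ S, ∑ y ∈ S.erase x, (t x * conj (t y) * K x y).re := by
    have : ∑ x ∈ S, ∑ y ∈ S.erase x, -((w x y * ‖t x‖ ^ 2 + w y x * ‖t y‖ ^ 2) / 2) =
        -∑ x ∈ S, ∑ y ∈ S.erase x, w x y * ‖t x‖ ^ 2 := by
      simp only [sum_neg_distrib, ← sum_div, sum_add_distrib]
      rw [e2]; ring
    rw [← this]
    exact sum_le_sum fun x _ => sum_le_sum fun y hy => key x y (mem_erase.1 hy).1.symm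
  have e4 : ∑ x ∈ S, ∑ y ∈ S.erase x, w x y * ‖t x‖ ^ 2 ≤ ∑ x ∈ S, ‖t x‖ ^ 2 * (K x x).re := by
    refine sum_le_sum fun x _ => ?_
    rw [← sum_mul, mul_comm]
    exact mul_le_mul_of_nonneg_left (h2 x _ (notMem_erase _ _)) (by positivity)
  rw [e1, sum_add_distrib]
  linarith

end general

/-! ## The local lemma -/

open Classical in
/-- Hypotheses on the local kernel at a prime of norm `q`; `D j` means `p ^ j ∣ a`. -/
structure LocOK (q : ℝ) (D : ℕ → Prop) (m : ℕ → ℕ → ℂ) : Prop where
  two_le : 2 ≤ q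
  zero : D 0
  anti : ∀ j, D (j + 1) → D j
  herm : ∀ j j', m j' j = conj (m j j')
  m00 : m 0 0 = 1
  diag : ∀ j, 1 ≤ j →
    (if D (2 * j) then q ^ j / 2 else if D (2 * j - 1) then -q ^ (j - 1) else 0) ≤ (m j j).re
  off : ∀ j j', j < j' →
    ‖m j j'‖ ^ 2 ≤ if D (j + j' - 1) then q ^ (j + j') * (if 6 ≤ j' then 1 else q⁻¹) else 0

/-- The local weight `5 j³ · (q if j ≥ 6)`. -/
def cl (q : ℝ) (j : ℕ) : ℝ := 5 * (j : ℝ) ^ 3 * if 6 ≤ j then q else 1

open Classical in
/-- The diagonal correction. -/
def dl (q : ℝ) (D : ℕ → Prop) (j : ℕ) : ℝ := if D (j - 1) then q ^ (j - 1) * cl q j else 0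

/-- The diagonal correction as a kernel. -/
def Dl (q : ℝ) (D : ℕ → Prop) (j j' : ℕ) : ℂ := if j = j' then (dl q D j : ℂ) else 0

open Classical in
/-- The vector of the minorant. -/
def ul (D : ℕ → Prop) (m : ℕ → ℕ → ℂ) (j : ℕ) : ℂ :=
  if j = 0 then 1 else if j = 1 ∧ ¬ D 1 then m 1 0 else 0

open Classical in
/-- The constant of the minorant. -/
def cD (D : ℕ → Prop) : ℝ := if D 1 then 1 / 2 else 1

theorem cD_nonneg (D : ℕ → Prop) : 0 ≤ cD D := by unfold cD; split_ifs <;> norm_num

theorem cl_nonneg {q : ℝ} (hq : 0 ≤ q) (j : ℕ) : 0 ≤ cl q j := by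
  unfold cl; split_ifs <;> positivity

theorem dl_zero (q : ℝ) (D : ℕ → Prop) : dl q D 0 = 0 := by simp [dl, cl]

theorem dl_nonneg {q : ℝ} (hq : 0 ≤ q) (D : ℕ → Prop) (j : ℕ) : 0 ≤ dl q D j := by
  have := cl_nonneg hq j
  unfold dl; split_ifs <;> positivity

theorem sum_inv_sq_le (S : Finset ℕ) : ∑ j ∈ S, (1 / (4 * (j : ℝ) ^ 2)) ≤ 1 / 2 := by
  have h : ∀ n : ℕ, ∑ j ∈ range (n + 2), (1 / (4 * (j : ℝ) ^ 2)) ≤ 1 / 2 - 1 / (4 * (n + 1 : ℝ)) := by
    intro n
    induction n with
    | zero => norm_num [sum_range_succ]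
    | succ n ih =>
      rw [show n + 1 + 2 = n + 2 + 1 from rfl, sum_range_succ]
      have hn : (0 : ℝ) ≤ n := Nat.cast_nonneg n
      have : 1 / (4 * ((n + 2 : ℕ) : ℝ) ^ 2) ≤
          1 / (4 * (n + 1 : ℝ)) - 1 / (4 * ((n + 1 : ℕ) + 1 : ℝ)) := by
        push_cast
        rw [div_sub_div _ _ (by positivity) (by positivity), div_le_div_iff₀ (by positivity)
          (by positivity)]
        nlinarith
      linarith
  have h2 : S ⊆ range (S.sup id + 2) := fun j hj =>
    mem_range.2 (by have := le_sup (f := id) hj; simp only [id] at this; omega)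
  have h3 := sum_le_sum_of_subset_of_nonneg (f := fun j : ℕ => 1 / (4 * (j : ℝ) ^ 2)) h2
    fun _ _ _ => by positivity
  have h4 := h (S.sup id)
  have h5 : (0 : ℝ) ≤ 1 / (4 * ((S.sup id : ℕ) + 1 : ℝ)) := by positivity
  linarith

namespace LocOK

variable {q : ℝ} {D : ℕ → Prop} {m : ℕ → ℕ → ℂ}

theorem mono (h : LocOK q D m) {i j : ℕ} (hij : i ≤ j) (hj : D j) : D i := by
  induction j, hij using Nat.le_induction with
  | base => exact hj
  | succ j _ ih => exact ih (h.anti j hj)

theorem pos (h : LocOK q D m) : 0 < q := lt_of_lt_of_le two_pos h.two_le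

theorem herm_sub (h : LocOK q D m) (j j' : ℕ) :
    m j' j + Dl q D j' j - (cD D : ℂ) * (ul D m j' * conj (ul D m j)) =
      conj (m j j' + Dl q D j j' - (cD D : ℂ) * (ul D m j * conj (ul D m j'))) := by
  simp only [map_sub, map_add, map_mul, Complex.conj_conj, Complex.conj_ofReal, h.herm j j']
  have : conj (Dl q D j j') = Dl q D j' j := by
    unfold Dl
    by_cases e : j = j'
    · subst e; simp
    · simp [e, Ne.symm e]
  rw [this]; ring

open Classical in
/-- The weights for the case `p ∣ a`. -/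
def wt (q : ℝ) (D : ℕ → Prop) (j j' : ℕ) : ℝ :=
  if D (j + j' - 1) then
    (if j < j' then q ^ j * (1 / (4 * (j' : ℝ) ^ 2))
      else 4 * (j : ℝ) ^ 2 * q ^ j * (if 6 ≤ j then 1 else q⁻¹)) else 0

theorem wt_nonneg (h : LocOK q D m) (j j' : ℕ) : 0 ≤ wt q D j j' := by
  have := h.pos
  unfold wt; split_ifs <;> positivity

theorem off_le (h : LocOK q D m) {j j' : ℕ} (hj : j < j') :
    ‖m j j'‖ ^ 2 ≤ wt q D j j' * wt q D j' j := by
  refine (h.off j j' hj).trans (le_of_eq ?_)
  have hj' : (0 : ℝ) < j' := by exact_mod_cast (show 0 < j' by omega)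
  unfold wt
  rw [add_comm j' j]
  by_cases hD : D (j + j' - 1)
  · simp only [if_pos hD, if_pos hj, if_neg (not_lt.2 hj.le), pow_add]
    field_simp
  · simp [hD]

open Classical in
theorem row_le (h : LocOK q D m) (j : ℕ) (S : Finset ℕ) (hj : j ∉ S) :
    ∑ j' ∈ S, wt q D j j' ≤ (if D (2 * j) then q ^ j / 2 else 0) +
      (if D (j - 1) then 4 * (j : ℝ) ^ 3 * q ^ j * (if 6 ≤ j then 1 else q⁻¹) else 0) := by
  have hq := h.pos
  rw [← sum_filter_add_sum_filter_not S (fun j' => j < j')]
  refine add_le_add ?_ ?_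
  · split_ifs with hD
    · calc _ ≤ ∑ j' ∈ S.filter (fun j' => j < j'), q ^ j * (1 / (4 * (j' : ℝ) ^ 2)) := by
            refine sum_le_sum fun j' hj' => ?_
            unfold wt
            rw [if_pos (mem_filter.1 hj').2]
            split_ifs
            · exact le_rfl
            · positivity
        _ ≤ q ^ j * (1 / 2) := by
            rw [← mul_sum]
            exact mul_le_mul_of_nonneg_left (sum_inv_sq_le _) (by positivity)
        _ = _ := by ring
    · refine le_of_eq (sum_eq_zero fun j' hj' => ?_)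
      have := (mem_filter.1 hj').2
      unfold wt
      rw [if_neg fun hc => hD (h.mono (by omega) hc)]
  · have hc : (S.filter fun j' => ¬ j < j').card ≤ j := by
      calc _ ≤ (range j).card := card_le_card fun j' hj' => by
            have h1 := mem_filter.1 hj'
            have : j' ≠ j := fun e => hj (e ▸ h1.1)
            exact mem_range.2 (by omega)
        _ = j := card_range j
    by_cases hD : D (j - 1)
    · rw [if_pos hD]
      set c : ℝ := if 6 ≤ j then 1 else q⁻¹ with hcdef
      have hc0 : 0 ≤ c := by rw [hcdef]; split_ifs <;> positivity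
      calc _ ≤ (S.filter fun j' => ¬ j < j').card • (4 * (j : ℝ) ^ 2 * q ^ j * c) := by
            refine sum_le_card_nsmul _ _ _ fun j' hj' => ?_
            unfold wt
            rw [if_neg (mem_filter.1 hj').2, ← hcdef]
            split_ifs
            · exact le_rfl
            · positivity
        _ ≤ (j : ℝ) * (4 * (j : ℝ) ^ 2 * q ^ j * c) := by
            rw [nsmul_eq_mul]
            exact mul_le_mul_of_nonneg_right (by exact_mod_cast hc) (by positivity)
        _ = _ := by ring
    · rw [if_neg hD]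
      refine le_of_eq (sum_eq_zero fun j' _ => ?_)
      unfold wt
      rw [if_neg fun hc => hD (h.mono (by omega) hc)]

/-- **Local lemma.** -/
theorem pk_sub (h : LocOK q D m) :
    PK fun j j' => m j j' + Dl q D j j' - (cD D : ℂ) * (ul D m j * conj (ul D m j')) := by
  classical
  have hq := h.pos
  have hq2 := h.two_le
  by_cases h1 : D 1
  · refine pk_of_dom (fun j j' => h.herm_sub j j') (wt q D) h.wt_nonneg (fun j j' hjj => ?_)
      fun j S hj => ?_
    · have e : ul D m j * conj (ul D m j') = 0 := by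
        unfold ul
        by_cases a : j = 0
        · have b : j' ≠ 0 := fun b => hjj (a.trans b.symm)
          simp [b, h1]
        · simp [a, h1]
      rw [e, mul_zero, sub_zero, Dl, if_neg hjj, add_zero]
      rcases lt_or_gt_of_ne hjj with a | a
      · exact h.off_le a
      · rw [h.herm j' j, Complex.norm_conj, mul_comm]; exact h.off_le a
    · refine (h.row_le j S hj).trans ?_
      rcases Nat.eq_zero_or_pos j with rfl | hj0
      · simp [h.m00, Dl, dl_zero, cD, h1, ul, h.zero]
        norm_num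
      · have e : ul D m j = 0 := by simp [ul, hj0.ne', h1]
        have hd := h.diag j hj0
        simp only [e, zero_mul, mul_zero, sub_zero, Dl, if_true, Complex.add_re,
          Complex.ofReal_re]
        have hj1 : (1 : ℝ) ≤ j := by exact_mod_cast hj0
        have hj3 : (1 : ℝ) ≤ (j : ℝ) ^ 3 := one_le_pow₀ hj1
        have hp : q ^ j = q ^ (j - 1) * q := by
          rw [← pow_succ]; congr 1; omega
        have hp0 : 0 < q ^ (j - 1) := by positivity
        have key : (if D (j - 1) then 4 * (j : ℝ) ^ 3 * q ^ j * (if 6 ≤ j then 1 else q⁻¹) else 0) +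
            (if D (j - 1) then q ^ (j - 1) else 0) ≤ dl q D j := by
          unfold dl cl
          by_cases hD : D (j - 1)
          · simp only [if_pos hD]
            rw [hp]
            split_ifs
            · nlinarith [mul_le_mul_of_nonneg_left (show 1 ≤ (j : ℝ) ^ 3 * q by nlinarith) hp0.le]
            · have : 4 * (j : ℝ) ^ 3 * (q ^ (j - 1) * q) * q⁻¹ = 4 * (j : ℝ) ^ 3 * q ^ (j - 1) := by
                field_simp
              rw [this]
              nlinarith [mul_le_mul_of_nonneg_left hj3 hp0.le]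
          · simp [hD]
        by_cases a : D (2 * j)
        · rw [if_pos a] at hd ⊢
          have : (0 : ℝ) ≤ if D (j - 1) then q ^ (j - 1) else 0 := by split_ifs <;> positivity
          linarith
        · rw [if_neg a] at hd ⊢
          by_cases b : D (2 * j - 1)
          · rw [if_pos b] at hd
            simp only [if_pos (h.mono (show j - 1 ≤ 2 * j - 1 by omega) b)] at key ⊢
            linarith
          · rw [if_neg b] at hd
            have : (0 : ℝ) ≤ if D (j - 1) then q ^ (j - 1) else 0 := by split_ifs <;> positivity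
            linarith
  · have hc : cD D = 1 := by simp [cD, h1]
    have hD : ∀ i, 1 ≤ i → ¬ D i := fun i hi hc => h1 (h.mono hi hc)
    have hoff : ∀ j j', j < j' → 2 ≤ j + j' → m j j' = 0 := by
      intro j j' a b
      have := h.off j j' a
      rw [if_neg (hD _ (by omega))] at this
      exact norm_eq_zero.1 (pow_eq_zero_iff two_ne_zero |>.1 (le_antisymm this (by positivity)))
    have main : ∀ j j', j < j' →
        m j j' + Dl q D j j' - (cD D : ℂ) * (ul D m j * conj (ul D m j')) = 0 := by
      intro j j' a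
      rw [Dl, if_neg a.ne, hc]
      by_cases b : 2 ≤ j + j'
      · have c : ul D m j * conj (ul D m j') = 0 := by
          by_cases c : j' = 1
          · omega
          · simp [ul, c, show j' ≠ 0 by omega]
        rw [hoff j j' a b, c]; simp
      · obtain rfl : j = 0 := by omega
        obtain rfl : j' = 1 := by omega
        simp [ul, h1, h.herm 1 0]
    refine pk_of_dom (fun j j' => h.herm_sub j j') (fun _ _ => 0) (fun _ _ => le_rfl)
      (fun j j' hjj => ?_) fun j S _ => ?_
    · rcases lt_or_gt_of_ne hjj with a | a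
      · rw [main j j' a]; simp
      · rw [h.herm_sub j' j, main j' j a]; simp
    · simp only [sum_const_zero]
      rcases Nat.eq_zero_or_pos j with rfl | hj0
      · simp [h.m00, Dl, dl_zero, hc, ul]
      · have hd := h.diag j hj0
        rw [if_neg (hD _ (by omega)), if_neg (hD _ (by omega))] at hd
        simp only [Dl, if_true, hc, Complex.ofReal_one, one_mul, Complex.sub_re, Complex.add_re,
          Complex.ofReal_re, Complex.mul_conj, Complex.normSq_eq_norm_sq]
        by_cases a : j = 1
        · subst a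
          have b := h.off 0 1 one_pos
          simp only [zero_add, tsub_self, h.zero, if_true, pow_one, show ¬ 6 ≤ 1 by norm_num,
            if_false, mul_inv_cancel₀ hq.ne'] at b
          rw [h.herm 1 0, Complex.norm_conj] at b
          have c : ul D m 1 = m 1 0 := by simp [ul, h1]
          have d : dl q D 1 = 5 := by simp [dl, cl, h.zero]
          rw [c, d]
          linarith
        · have c : ul D m j = 0 := by simp [ul, a, hj0.ne']
          have := dl_nonneg hq.le D j
          rw [c]
          simp only [norm_zero, ne_eq, OfNat.ofNat_ne_zero, not_false_eq_true, zero_pow, sub_zero]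
          linarith

end LocOK

/-- **Tensor domination**, expanded over the set `T` of primes where the diagonal is used. -/
theorem tensor_dom {ι X : Type*} [DecidableEq ι] (P : Finset ι) (q : ι → ℝ) (D : ι → ℕ → Prop)
    (m : ι → ℕ → ℕ → ℂ) (h : ∀ p ∈ P, LocOK (q p) (D p) (m p)) (v : ι → X → ℕ)
    (S : Finset X) (t : X → ℂ) :
    (∏ p ∈ P, cD (D p)) * ‖∑ x ∈ S, t x * ∏ p ∈ P, ul (D p) (m p) (v p x)‖ ^ 2 ≤
      (∑ x ∈ S, ∑ y ∈ S, t x * conj (t y) * ∑ T ∈ P.powerset,
        (∏ p ∈ T, Dl (q p) (D p) (v p x) (v p y)) * ∏ p ∈ P \ T, m p (v p x) (v p y)).re := by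
  have h1 := (pk_prod_sub P
    (fun p x y => (cD (D p) : ℂ) * (ul (D p) (m p) (v p x) * conj (ul (D p) (m p) (v p y))))
    (fun p x y => m p (v p x) (v p y) + Dl (q p) (D p) (v p x) (v p y))
    (fun p _ => pk_rank_one (cD_nonneg _) fun x => ul (D p) (m p) (v p x))
    (fun p hp => (h p hp).pk_sub.comp (v p))).2.2 S t
  rw [← form_rank_one]
  simp only [mul_sub, sum_sub_distrib, Complex.sub_re, sub_nonneg] at h1
  convert h1 using 5 with x _ y _ x _ y _
  · rw [prod_mul_distrib, prod_mul_distrib, Complex.ofReal_prod, map_prod]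
  · simp only [add_comm (m _ _ _)]
    rw [prod_add]

end Crest.Agent.T27.Psd
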