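import Crest.Agent.T27.PsdB_62
import Crest.Agent.T27.Gauss_55

/-!
# Row 27, core leaf P2 (part): the local kernels `mloc` satisfy `LocOK`
-/

set_option autoImplicit false

noncomputable section

namespace Crest.Agent.T27

open scoped ComplexConjugate
open Finset Psd

variable [Fr]

/-- The local kernel at the prime `p`. -/
def mloc (a p : O) (j j' : ℕ) : ℂ := sym p (-1) ^ (j' + j * j') * MK (p ^ j) (p ^ j') a

namespace Psd

theorem sym_neg_one_sq (n : O) : sym n (-1) ^ 2 = 1 := by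
  rw [← sym_pow_right', neg_one_sq, sym_one_right]

theorem conj_sym_neg_one {n : O} (hn : n ≠ 0) : conj (sym n (-1)) = sym n (-1) := by
  rw [conj_sym' hn, show 5 = 2 * 2 + 1 from rfl, pow_succ, pow_mul, sym_neg_one_sq, one_pow, one_mul]

theorem norm_sym_neg_one {n : O} (hn : n ≠ 0) : ‖sym n (-1)‖ = 1 :=
  norm_sym' hn isCoprime_one_right.neg_right

theorem conj_MK {k₁ k₂ : O} (h₁ : k₁ ≠ 0) (h₂ : k₂ ≠ 0) (a : O) :
    conj (MK k₁ k₂ a) = sym k₁ (-1) * sym k₂ (-1) * MK k₂ k₁ a := by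
  have hk := mul_ne_zero h₂ h₁
  have hper : ∀ x y, k₂ * k₁ ∣ x - y →
      sym k₂ x * conj (sym k₁ x) = sym k₂ y * conj (sym k₁ y) := fun x y h => by
    rw [sym_congr ((rad_dvd k₂).trans ((dvd_mul_right _ _).trans h)),
      sym_congr ((rad_dvd k₁).trans ((dvd_mul_left _ _).trans h))]
  have h := sum_res_affine hk _ (Gauss_per hper dvd_rfl a) isCoprime_one_left.neg_left 0
  rw [MK, MK, ft, ft, ← h, map_div₀, map_sum, map_mul, Complex.conj_ofReal, Complex.conj_ofReal,
    mul_comm k₁ k₂, ← mul_div_assoc, mul_sum, mul_comm (Real.sqrt (nr k₁) : ℂ)]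
  congr 1
  refine sum_congr rfl fun x _ => ?_
  simp only [add_zero, map_mul, Complex.conj_conj, sym_mul_right', ← eq_neg,
    conj_sym_neg_one h₁]
  have e1 := sym_neg_one_sq k₁
  have e2 := sym_neg_one_sq k₂
  rw [show a * (-1 * x) = -(a * x) by ring]
  linear_combination (-(conj (sym k₁ x) * sym k₂ x * eq (-(a * x)) (k₂ * k₁))) *
    (sym k₂ (-1) ^ 2 * e1 + e2)

theorem MK_one (a : O) : MK 1 1 a = 1 := by
  have := gs_one 0 a
  simp only [gs, sym_unit_left isUnit_one, one_pow] at this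
  simp only [MK, ft, mul_one, sym_unit_left isUnit_one, map_one, this, nr_unit isUnit_one,
    Real.sqrt_one, Complex.ofReal_one, div_one]

open Classical in
theorem MK_pow {p : O} (hp : Prime p) (h : Primary p) {j j' i : ℕ} (e : j + j' = i + 1) (a : O) :
    MK (p ^ j) (p ^ j') a =
      (if p ^ i ∣ a then (nm p : ℂ) ^ i * gs (j + 5 * j') p (a / p ^ i) else 0) /
        ((Real.sqrt (nr p) ^ (i + 1) : ℝ) : ℂ) := by
  have h0 := hp.ne_zero
  rw [MK, ← pow_add, e]
  congr 1
  · refine Eq.trans (sum_congr rfl fun x _ => ?_)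
      (Gauss_pow h0 (Gauss_sym_per p (j + 5 * j' + 6)) i a)
    beta_reduce
    rw [sym_pow_left h0, sym_pow_left h0, map_pow, conj_sym h, ← pow_mul, ← pow_add,
      sym_pow_add_six h x (by omega)]
  · rw [nr_pow, nr_pow, Real.sqrt_eq_rpow, Real.sqrt_eq_rpow, Real.sqrt_eq_rpow,
      ← Complex.ofReal_mul, ← e, pow_add, ← Real.rpow_natCast_mul (nr_pos h0).le,
      ← Real.rpow_natCast_mul (nr_pos h0).le, ← Real.rpow_mul_natCast (nr_pos h0).le,
      ← Real.rpow_mul_natCast (nr_pos h0).le, mul_comm (j : ℝ), mul_comm (j' : ℝ)]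

theorem norm_gs_le {p : O} (hp : Prime p) (j : ℕ) (k : O) :
    ‖gs j p k‖ ≤ nr p := by
  refine (norm_sum_le _ _).trans ?_
  refine (sum_le_card_nsmul _ _ 1 fun x _ => ?_).trans ?_
  · rw [norm_mul, norm_eq, mul_one, norm_pow]
    exact pow_le_one₀ (norm_nonneg _) (norm_sym_le _ _)
  · rw [card_res hp.ne_zero, nsmul_eq_mul, mul_one]

theorem norm_gs_sq_le {p : O} (hp : Prime p) (h : Primary p) {j : ℕ} (hj : ¬ 6 ∣ j) (k : O) :
    ‖gs j p k‖ ^ 2 ≤ nr p := by
  rw [gs_sqfree hj h.po hp.squarefree, norm_mul, Gauss_norm_gs hj h.po hp.squarefree, mul_pow,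
    Real.sq_sqrt (nr_pos hp.ne_zero).le, Complex.norm_conj, norm_pow]
  exact mul_le_of_le_one_left (nr_pos hp.ne_zero).le
    (pow_le_one₀ (by positivity) (pow_le_one₀ (norm_nonneg _) (norm_sym_le _ _)))

end Psd

theorem mloc_one_zero {p : O} (hp : Prime p) (h : Primary p) (a : O) :
    mloc a p 1 0 = conj (sym p a) * gam 1 p := by
  rw [mloc, MK_pow hp h (j := 1) (j' := 0) (i := 0) rfl]
  have : a / (1 : O) = a := by simpa using mul_div_cancel_left₀ a (one_ne_zero (α := O))
  simp only [mul_zero, add_zero, pow_zero, one_dvd, if_true, one_mul, zero_add, pow_one, this]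
  rw [gs_sqfree (by norm_num) h.po hp.squarefree, gam, pow_one, mul_div_assoc]

/-- The local kernels satisfy the hypotheses of the local lemma. -/
theorem locOK_mloc (a : O) {p : O} (hp : Prime p) (h : Primary p) :
    LocOK (nr p) (fun j => p ^ j ∣ a) (mloc a p) := by
  classical
  have h0 := hp.ne_zero
  have hq : (7 : ℝ) ≤ nr p := by exact_mod_cast (nm_prime_mod_six' hp).2
  have hq0 : (0 : ℝ) < nr p := nr_pos h0
  have hs := sym_neg_one_sq p
  refine ⟨by linarith, by simp, fun j hj => (pow_dvd_pow p j.le_succ).trans hj, fun j j' => ?_,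
    by simp [mloc, MK_one], fun j hj => ?_, fun j j' hj => ?_⟩
  · rw [mloc, mloc, map_mul, map_pow, conj_sym_neg_one h0,
      conj_MK (pow_ne_zero _ h0) (pow_ne_zero _ h0), sym_pow_left h0, sym_pow_left h0,
      ← mul_assoc, ← pow_add, ← pow_add,
      show j' + j * j' + (j + j') = j + j' * j + 2 * j' by ring, pow_add _ _ (2 * j'), pow_mul,
      hs, one_pow, mul_one]
  · obtain ⟨i, rfl⟩ : ∃ i, j = i + 1 := ⟨j - 1, by omega⟩
    have e0 : sym p (-1) ^ (i + 1 + (i + 1) * (i + 1)) = 1 := by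
      obtain ⟨r, hr⟩ := Nat.even_mul_succ_self (i + 1)
      rw [show i + 1 + (i + 1) * (i + 1) = 2 * r by rw [two_mul, ← hr]; ring, pow_mul, hs, one_pow]
    have e1 : Real.sqrt (nr p) ^ (2 * i + 1 + 1) = nr p ^ (i + 1) := by
      rw [show 2 * i + 1 + 1 = 2 * (i + 1) by ring, pow_mul, Real.sq_sqrt hq0.le]
    rw [mloc, e0, one_mul, MK_pow hp h (i := 2 * i + 1) (by ring),
      gs_prime_zero ⟨i + 1, by ring⟩ hp h.po, e1, Complex.div_ofReal_re,
      show 2 * (i + 1) - 1 = 2 * i + 1 by omega, show 2 * (i + 1) = 2 * i + 1 + 1 by ring,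
      Nat.add_sub_cancel, le_div_iff₀ (by positivity)]
    have hpw : (0 : ℝ) < nr p ^ (2 * i + 1) := by positivity
    by_cases h1 : p ^ (2 * i + 1) ∣ a
    · obtain ⟨b, rfl⟩ := h1
      have hi := pow_ne_zero (2 * i + 1) h0
      rw [if_pos (dvd_mul_right _ _), if_pos (dvd_mul_right _ _), mul_div_cancel_left₀ _ hi,
        pow_succ p (2 * i + 1), mul_dvd_mul_iff_left hi]
      split_ifs
      · have : ((nm p : ℂ) ^ (2 * i + 1) * ((nm p : ℂ) - 1)) =
            ((nr p ^ (2 * i + 1) * (nr p - 1) : ℝ) : ℂ) := by push_cast; rfl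
        rw [this, Complex.ofReal_re,
          show nr p ^ (i + 1) / 2 * nr p ^ (i + 1) = nr p ^ (2 * i + 1) * (nr p / 2) by ring]
        exact mul_le_mul_of_nonneg_left (by linarith) hpw.le
      · have : ((nm p : ℂ) ^ (2 * i + 1) * (0 - 1)) = ((-nr p ^ (2 * i + 1) : ℝ) : ℂ) := by
          push_cast; ring
        rw [this, Complex.ofReal_re]
        exact le_of_eq (by ring)
    · rw [if_neg h1, if_neg h1, if_neg fun hc => h1 ((pow_dvd_pow p (Nat.le_succ _)).trans hc)]
      simp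
  · obtain ⟨i, hi⟩ : ∃ i, j + j' = i + 1 := ⟨j + j' - 1, by omega⟩
    rw [mloc, norm_mul, norm_pow, norm_sym_neg_one h0, one_pow, one_mul, MK_pow hp h hi, hi,
      Nat.add_sub_cancel]
    by_cases h1 : p ^ i ∣ a
    · have e1 : (Real.sqrt (nr p) ^ (i + 1)) ^ 2 = nr p ^ (i + 1) := by
        rw [← pow_mul, mul_comm, pow_mul, Real.sq_sqrt hq0.le]
      rw [if_pos h1, if_pos h1, norm_div, div_pow, Complex.norm_real,
        Real.norm_of_nonneg (by positivity), e1, div_le_iff₀ (by positivity), norm_mul, norm_pow,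
        Complex.norm_natCast, mul_pow]
      split_ifs with h6
      · calc _ ≤ (nr p ^ i) ^ 2 * nr p ^ 2 := by
              gcongr
              exact norm_gs_le hp _ _
          _ = _ := by ring
      · calc _ ≤ (nr p ^ i) ^ 2 * nr p :=
              mul_le_mul_of_nonneg_left (norm_gs_sq_le hp h (by omega) _) (by positivity)
          _ = _ := by field_simp; ring
    · rw [if_neg h1, if_neg h1]; simp

end Crest.Agent.T27
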