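import Crest.Agent.T27.Core_51
import Crest.Agent.T27.Gauss_55
import Crest.Agent.T27.Cnt_21

/-!
# Row 27, PSD core, P3 (helper51): Poisson summation, `DomStmt → PsdStmt`
-/

set_option autoImplicit false

noncomputable section

namespace Crest.Agent.T27

open scoped ComplexConjugate
open Finset

variable [Fr]

namespace P3

theorem sym_unit_cls {n u : O} (hn : n ≠ 0) (hu : IsUnit u) (h : cls u = 1) : sym n u = 1 := by
  have h1 := Fr.recAx.recip n u hn hu.ne_zero (isCoprime_of_isUnit n hu)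
  have h2 := Fr.recAx.recip n 1 hn one_ne_zero isCoprime_one_right
  rw [sym_one_right, sym_one_left, mul_one] at h2
  rw [h1, sym_unit_left hu, mul_one, Fr.recAx.congr n n u 1 rfl (by rw [h, map_one]), ← h2]

open Classical in
theorem summable_gr' {X : ℝ} (hX : 0 < X) : Summable fun k : O => gr k (X * nr k) := by
  have h := Fr.kerAx
  obtain ⟨C, hC, hg⟩ := h.le_rpow 2 (by norm_num)
  unfold gr grp gw
  refine summable_of_sum_le (c := 1 + U0.card * (Fr0.kp * (C * (X ^ 2)⁻¹ * 2)))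
    (fun k => by by_cases hk : Rep k <;> simp [hk, (h.pos _).le]) fun S => ?_
  obtain ⟨M, hM⟩ := C21.sum_rows_le (fun m : ℕ => Fr.gwF (X * m)) (fun _ => (h.pos _).le) S
  refine hM.trans ?_
  simp only [Nat.cast_zero, mul_zero, h.zero]
  gcongr
  have h1 := C21.sum_pball_le (fun m : ℕ => Fr.gwF (X * m)) (fun _ => (h.pos _).le)
    (fun m hm => by
      have : (0 : ℝ) < m := by exact_mod_cast hm
      refine h.anti (Set.mem_Ioi.2 (by positivity)) (Set.mem_Ioi.2 (by positivity)) ?_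
      push_cast
      nlinarith) M
  refine h1.trans ?_
  gcongr
  have h2 := C21.sum_inv_sq 1 M one_pos
  calc ∑ m ∈ Finset.Ioc 0 M, Fr.gwF (X * m)
      ≤ ∑ m ∈ Finset.Ioc 0 M, C * (X ^ 2)⁻¹ * (((max m 1 : ℕ) : ℝ) ^ 2)⁻¹ := by
        refine Finset.sum_le_sum fun m hm => ?_
        have hm1 : 1 ≤ m := (Finset.mem_Ioc.1 hm).1
        have : (0 : ℝ) < m := by exact_mod_cast hm1
        refine (hg _ (by positivity)).trans (le_of_eq ?_)
        rw [max_eq_left hm1, Real.rpow_neg (by positivity), Real.rpow_two]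
        field_simp
    _ ≤ C * (X ^ 2)⁻¹ * 2 := by
        rw [← Finset.mul_sum]
        gcongr
        simpa using h2

theorem summable_gr {X : ℝ} (hX : 0 < X) : Summable fun k : O => gr k (nr k / X) := by
  simpa only [div_eq_inv_mul] using summable_gr' (inv_pos.2 hX)

theorem norm_Rq {m n : O} (hm : m ≠ 0) (hn : n ≠ 0) : ‖Rq m n‖ = 1 := by
  have h := congrArg norm (Fr.recAx.pow_six m n hm hn)
  rw [norm_pow, norm_one] at h
  have h1 : ‖Fr.RsF m n‖ = 1 := (pow_eq_one_iff_of_nonneg (norm_nonneg _) (by norm_num)).1 h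
  rw [Rq, norm_pow, Rs, h1, one_pow]

theorem gr_nonneg (k : O) (x : ℝ) : 0 ≤ gr k x := by
  unfold gr grp
  split_ifs
  · exact (Fr.kerAx.pos x).le
  · exact le_rfl

theorem rep_mul {e : O} (he : Primary e) (a : O) : Rep (e * a) ↔ Rep a := by
  constructor
  · rintro (h | ⟨u, hu, n, hn, h⟩)
    · exact Or.inl ((mul_eq_zero.1 h).resolve_left he.ne_zero)
    · have hu' : IsUnit u := Fr0.unit_U0F u hu
      obtain ⟨v, hv⟩ := hu'.exists_left_inv
      have h1 : n = e * (v * a) := by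
        calc n = v * (u * n) := by rw [← mul_assoc, hv, one_mul]
          _ = _ := by rw [← h]; ring
      refine Or.inr ⟨u, hu, v * a, he.of_mul (h1 ▸ hn), ?_⟩
      rw [← mul_assoc, mul_comm u v, hv, one_mul]
  · rintro (h | ⟨u, hu, n, hn, h⟩)
    · exact Or.inl (by rw [h, mul_zero])
    · exact Or.inr ⟨u, hu, e * n, he.mul hn, by rw [h]; ring⟩

theorem gr_mul {e : O} (he : Primary e) (a : O) (x : ℝ) : gr (e * a) x = gr a x := by
  unfold gr grp
  by_cases h : Rep a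
  · rw [if_pos h, if_pos ((rep_mul he a).2 h)]
  · rw [if_neg h, if_neg fun h' => h ((rep_mul he a).1 h')]

theorem gr_primary {a : O} (ha : Primary a) (x : ℝ) : gr a x = gw x := by
  unfold gr grp
  exact if_pos (Or.inr ⟨1, Fr0.one_mem_U0F, a, ha, (one_mul a).symm⟩)

theorem primary_eG (G : O) : Primary (eG G) :=
  BasicB.primary_prod_pow (fun _ hq => BasicB.pf_sub hq) _

theorem cop_eG {G k : O} (h : IsCoprime k G) : IsCoprime k (eG G) :=
  IsCoprime.prod_right fun _ hp =>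
    (h.of_isCoprime_of_dvd_right (BasicB.of_mem_pf hp).2.2).pow_right

theorem cG_nonneg (G : O) : 0 ≤ cG G :=
  prod_nonneg fun p _ => by split_ifs <;> positivity

theorem per (k₁ k₂ x y : O) (h : k₁ * k₂ ∣ x - y) :
    sym k₁ x * conj (sym k₂ x) = sym k₁ y * conj (sym k₂ y) := by
  rw [sym_congr ((rad_dvd k₁).trans ((dvd_mul_right k₁ k₂).trans h)),
    sym_congr ((rad_dvd k₂).trans ((dvd_mul_left k₂ k₁).trans h))]

theorem norm_pair_le (k₁ k₂ x : O) : ‖sym k₁ x * conj (sym k₂ x)‖ ≤ 1 := by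
  rw [norm_mul, Complex.norm_conj]
  exact mul_le_one₀ (norm_sym_le _ _) (norm_nonneg _) (norm_sym_le _ _)

theorem norm_MK_le (k₁ k₂ : O) : ∃ C : ℝ, ∀ a, ‖MK k₁ k₂ a‖ ≤ C := by
  refine ⟨(res (k₁ * k₂)).card / ‖(Real.sqrt (nr k₁) : ℂ) * (Real.sqrt (nr k₂) : ℂ)‖, fun a => ?_⟩
  rw [MK, norm_div]
  refine div_le_div_of_nonneg_right ?_ (norm_nonneg _)
  refine (norm_sum_le _ _).trans ?_
  calc _ ≤ ∑ _x ∈ res (k₁ * k₂), (1 : ℝ) := sum_le_sum fun x _ => by
        rw [norm_mul, norm_eq, mul_one]; exact norm_pair_le _ _ _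
    _ = _ := by simp

theorem summable_bdd {f : O → ℂ} {C X : ℝ} (hX : 0 < X) (hf : ∀ a, ‖f a‖ ≤ C) :
    Summable fun a => f a * (gr a (nr a / X) : ℂ) := by
  refine Summable.of_norm_bounded ((summable_gr hX).mul_left C) fun a => ?_
  rw [norm_mul, Complex.norm_real, Real.norm_of_nonneg (gr_nonneg _ _)]
  exact mul_le_mul_of_nonneg_right (hf a) (gr_nonneg _ _)

open Classical in
theorem summable_MK (e k₁ k₂ : O) {A : ℝ} (hA : 0 < A) :
    Summable fun a => (if e ∣ a then MK k₁ k₂ a else 0) * (gr a (nr a / A) : ℂ) := by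
  obtain ⟨C, hC⟩ := norm_MK_le k₁ k₂
  refine summable_bdd (C := C) hA fun a => ?_
  split_ifs
  · exact hC a
  · rw [norm_zero]; exact (norm_nonneg _).trans (hC 0)

open Classical in
/-- Poisson summation for one pair. -/
theorem pair {e k₁ k₂ : O} (he : Primary e) (h₁ : Primary k₁) (h₂ : Primary k₂)
    (c₁ : IsCoprime k₁ e) (c₂ : IsCoprime k₂ e) {A : ℝ} (hA : 0 < A) :
    ∑' a : O, (if e ∣ a then MK k₁ k₂ a else 0) * (gr a (nr a / A) : ℂ) =
      (A / nr e : ℝ) * (conj (sym k₁ e) * sym k₂ e) /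
        ((Real.sqrt (nr k₁) : ℂ) * (Real.sqrt (nr k₂) : ℂ)) *
        ∑' h : O, sym k₁ h * conj (sym k₂ h) *
          (gr h (A * nr h / (nr e * nr k₁ * nr k₂)) : ℂ) := by
  have he0 := he.ne_zero
  have hq : k₁ * k₂ ≠ 0 := mul_ne_zero h₁.ne_zero h₂.ne_zero
  have p₁ : PO k₁ := ⟨h₁, h₁.ne_zero⟩
  have p₂ : PO k₂ := ⟨h₂, h₂.ne_zero⟩
  have ne := nr_pos he0
  have n₁ := nr_pos h₁.ne_zero
  have n₂ := nr_pos h₂.ne_zero
  set f : O → ℂ := fun x => sym k₁ x * conj (sym k₂ x) with hf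
  have hmul : ∀ x y, f (x * y) = f x * f y := fun x y => by
    simp only [hf, sym_mul_right p₁, sym_mul_right p₂, map_mul]; ring
  have hP := Fr.kerAx.poisson (k₁ * k₂) f (nr e * nr k₁ * nr k₂ / A) hq (per k₁ k₂)
    (fun u x hu hc => by
      rw [hmul]
      simp only [hf, sym_unit_cls h₁.ne_zero hu hc, sym_unit_cls h₂.ne_zero hu hc, map_one,
        one_mul]) (by positivity)
  have e1 : ∀ h : O, nr h / (nr e * nr k₁ * nr k₂ / A) = A * nr h / (nr e * nr k₁ * nr k₂) :=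
    fun h => by field_simp
  have e2 : ∀ a : O, nr e * nr k₁ * nr k₂ / A * nr a / nr (k₁ * k₂) = nr (e * a) / A :=
    fun a => by rw [nr_mul, nr_mul]; field_simp
  have e3 : nr e * nr k₁ * nr k₂ / A / nr (k₁ * k₂) = nr e / A := by rw [nr_mul]; field_simp
  simp only [e1, e2, e3] at hP
  have hinj : Function.Injective fun a : O => e * a := mul_right_injective₀ he0
  rw [← hinj.tsum_eq (f := fun a => (if e ∣ a then MK k₁ k₂ a else 0) * (gr a (nr a / A) : ℂ))
    (fun a ha => by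
      by_cases h : e ∣ a
      · obtain ⟨b, rfl⟩ := h; exact ⟨b, rfl⟩
      · simp [h] at ha)]
  have hfe : ‖f e‖ = 1 := by
    simp only [hf, norm_mul, Complex.norm_conj, norm_sym h₁ c₁, norm_sym h₂ c₂, mul_one]
  have e4 : ∀ a : O, (if e ∣ e * a then MK k₁ k₂ (e * a) else 0) *
      (gr (e * a) (nr (e * a) / A) : ℂ) =
      conj (f e) / ((Real.sqrt (nr k₁) : ℂ) * (Real.sqrt (nr k₂) : ℂ)) *
        (ft (k₁ * k₂) f a * (grp Fr.gwF a (nr (e * a) / A) : ℂ)) := fun a => by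
    rw [if_pos (dvd_mul_right e a), gr_mul he, MK, mul_comm e a]
    have := Gauss_unit hq (per k₁ k₂) hmul (c₁.mul_left c₂).symm hfe a
    change ft (k₁ * k₂) f (a * e) = conj (f e) * ft (k₁ * k₂) f a at this
    rw [this]
    change _ * (grp Fr.gwF a _ : ℂ) = _
    ring
  simp only [e4]
  rw [tsum_mul_left]
  change _ = _ * ∑' h : O, f h * (grp Fr.gwF h _ : ℂ)
  rw [hP]
  have e5 : ((A / nr e : ℝ) : ℂ) * ((nr e / A : ℝ) : ℂ) = 1 := by
    rw [← Complex.ofReal_mul, div_mul_div_cancel₀ ne.ne', div_self hA.ne', Complex.ofReal_one]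
  simp only [hf, map_mul, Complex.conj_conj]
  linear_combination (-(conj (sym k₁ e) * sym k₂ e /
    ((Real.sqrt (nr k₁) : ℂ) * (Real.sqrt (nr k₂) : ℂ)) * ∑' h : O, ft (k₁ * k₂)
      (fun x => sym k₁ x * conj (sym k₂ x)) h * (grp Fr.gwF h (nr (e * h) / A) : ℂ))) * e5

open Classical in
/-- The class function. -/
def ph (κ : WithZero Cl) (G n : O) : ℂ :=
  if G ≠ 0 ∧ cls n ≠ 0 ∧ cls G * cls n = κ then Rq G n else 0

theorem norm_ph_le (κ : WithZero Cl) (G n : O) : ‖ph κ G n‖ ≤ 1 := by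
  unfold ph
  split_ifs with h
  · exact (norm_Rq h.1 fun h0 => h.2.1 (by rw [h0, map_zero])).le
  · simp

theorem ph_congr (κ : WithZero Cl) (G n n' : O) (h : cls n = cls n') :
    ph κ G n = ph κ G n' := by
  unfold ph Rq Rs
  rw [h, Fr.recAx.congr G G n n' rfl h]

theorem mem_cofS {κ : WithZero Cl} {Y : ℕ} {G k : O} (hG : Primary G) :
    k ∈ cofS κ Y G ↔ k ∈ pball (Y / nm G) ∧ IsCoprime k G ∧ cls G * cls k = κ := by
  have h0 : 0 < nm G := Nat.pos_of_ne_zero fun h => hG.ne_zero (nm_eq_zero.1 h)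
  unfold cofS
  simp only [mem_filter]
  rw [mem_pball, mem_pball, Nat.le_div_iff_mul_le h0, nm_mul, map_mul,
    mul_comm (nm k)]
  constructor
  · rintro ⟨⟨a, -⟩, b, c, d⟩; exact ⟨⟨a, c⟩, b, d⟩
  · rintro ⟨⟨a, c⟩, b, d⟩
    exact ⟨⟨a, (Nat.le_mul_of_pos_left _ h0).trans c⟩, b, c, d⟩

theorem cfG_of_mem {κ : WithZero Cl} {Y : ℕ} {G k : O} (hG : Primary G) (hk : k ∈ cofS κ Y G)
    (B : ℝ) (h : O) : cfG (ph κ G) G B h k =
      th k * Rq G k * Wc (nr (G * k) / B) 0 * (sym k h * conj (sym k (eG G))) /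
        (Real.sqrt (nr k) : ℂ) := by
  obtain ⟨h1, h2, h3⟩ := (mem_cofS hG).1 hk
  have hp := (mem_pball.1 h1).1
  have p : PO k := ⟨hp, hp.ne_zero⟩
  rw [cfG, ph, if_pos ⟨hG.ne_zero, Fr0.clsF_ne k hp.ne_zero, h3⟩, sym_mul_right p,
    sym_mul_right p, sym_pow_right p, sym_pow_right p,
    sym_pow_six hp (h2.of_isCoprime_of_dvd_right (rad_dvd G)), conj_sym hp, nr_mul]
  ring

theorem cfG_of_not {κ : WithZero Cl} {Y : ℕ} {G k : O} (hG : Primary G)
    (hk : k ∈ pball (Y / nm G)) (hk' : k ∉ cofS κ Y G) (B : ℝ) (h : O) :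
    cfG (ph κ G) G B h k = 0 := by
  have hp := (mem_pball.1 hk).1
  have p : PO k := ⟨hp, hp.ne_zero⟩
  by_cases hc : IsCoprime k G
  · rw [cfG, ph, if_neg fun h' => hk' ((mem_cofS hG).2 ⟨hk, hc, h'.2.2⟩)]
    simp
  · have : sym k (rad G) = 0 := (sym_eq_zero_iff hp).2 fun h' => hc
      (isCoprime_of_disjoint_pf hp hG.ne_zero (pf_rad G ▸ disjoint_pf h'))
    rw [cfG, sym_mul_right p, sym_pow_right p (rad G), this]
    simp

open Classical in
/-- The contribution of one `G`. -/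
theorem term (κ : WithZero Cl) (Y : ℕ) {A : ℝ} (B : ℝ) (hA : 0 < A) {G : O} (hG : Primary G) :
    (nr (eG G) : ℂ) * ∑ k₁ ∈ cofS κ Y G, ∑ k₂ ∈ cofS κ Y G,
      (th k₁ * Rq G k₁ * Wc (nr (G * k₁) / B) 0) * conj (th k₂ * Rq G k₂ * Wc (nr (G * k₂) / B) 0) *
        ∑' a : O, (if eG G ∣ a then MK k₁ k₂ a else 0) * (gr a (nr a / A) : ℂ) =
      (A : ℂ) * ∑' h : O, ∑ n₁ ∈ pball (Y / nm G), ∑ n₂ ∈ pball (Y / nm G),
        cfG (ph κ G) G B h n₁ * conj (cfG (ph κ G) G B h n₂) *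
          (gr h (A * nr h / (nr (eG G) * nr n₁ * nr n₂)) : ℂ) := by
  have he := primary_eG G
  have ne := nr_pos he.ne_zero
  have hsub : cofS κ Y G ⊆ pball (Y / nm G) := fun k hk => ((mem_cofS hG).1 hk).1
  have hprim : ∀ k ∈ cofS κ Y G, Primary k := fun k hk => (mem_pball.1 (hsub hk)).1
  have hcop : ∀ k ∈ cofS κ Y G, IsCoprime k (eG G) := fun k hk =>
    cop_eG ((mem_cofS hG).1 hk).2.1
  set c : O → O → ℂ := fun k₁ k₂ =>
    (th k₁ * Rq G k₁ * Wc (nr (G * k₁) / B) 0) * conj (th k₂ * Rq G k₂ * Wc (nr (G * k₂) / B) 0) *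
      ((conj (sym k₁ (eG G)) * sym k₂ (eG G)) /
        ((Real.sqrt (nr k₁) : ℂ) * (Real.sqrt (nr k₂) : ℂ))) with hc
  have e1 : ∀ h : O, ∑ n₁ ∈ pball (Y / nm G), ∑ n₂ ∈ pball (Y / nm G),
      cfG (ph κ G) G B h n₁ * conj (cfG (ph κ G) G B h n₂) *
        (gr h (A * nr h / (nr (eG G) * nr n₁ * nr n₂)) : ℂ) =
      ∑ k₁ ∈ cofS κ Y G, ∑ k₂ ∈ cofS κ Y G, c k₁ k₂ * (sym k₁ h * conj (sym k₂ h) *
        (gr h (A * nr h / (nr (eG G) * nr k₁ * nr k₂)) : ℂ)) := fun h => by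
    rw [← sum_subset hsub fun k hk hk' => by simp [cfG_of_not hG hk hk']]
    refine sum_congr rfl fun k₁ h₁ => ?_
    rw [← sum_subset hsub fun k hk hk' => by simp [cfG_of_not hG hk hk']]
    refine sum_congr rfl fun k₂ h₂ => ?_
    rw [cfG_of_mem hG h₁, cfG_of_mem hG h₂]
    simp only [hc, map_mul, map_div₀, Complex.conj_conj, Complex.conj_ofReal]
    ring
  have hs : ∀ k₁ ∈ cofS κ Y G, ∀ k₂ ∈ cofS κ Y G, Summable fun h : O =>
      c k₁ k₂ * (sym k₁ h * conj (sym k₂ h) *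
        (gr h (A * nr h / (nr (eG G) * nr k₁ * nr k₂)) : ℂ)) := fun k₁ h₁ k₂ h₂ => by
    have n₁ := nr_pos (hprim k₁ h₁).ne_zero
    have n₂ := nr_pos (hprim k₂ h₂).ne_zero
    refine ((summable_bdd (X := nr (eG G) * nr k₁ * nr k₂ / A) (by positivity)
      (norm_pair_le k₁ k₂)).mul_left (c k₁ k₂)).congr fun h => ?_
    congr 4
    field_simp
  simp only [e1]
  rw [Summable.tsum_finsetSum fun k₁ h₁ => summable_sum fun k₂ h₂ => hs k₁ h₁ k₂ h₂,
    mul_sum, mul_sum]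
  refine sum_congr rfl fun k₁ h₁ => ?_
  rw [Summable.tsum_finsetSum fun k₂ h₂ => hs k₁ h₁ k₂ h₂, mul_sum, mul_sum]
  refine sum_congr rfl fun k₂ h₂ => ?_
  rw [pair he (hprim k₁ h₁) (hprim k₂ h₂) (hcop k₁ h₁) (hcop k₂ h₂) hA, tsum_mul_left]
  have e5 : (nr (eG G) : ℂ) * ((A / nr (eG G) : ℝ) : ℂ) = A := by
    rw [← Complex.ofReal_mul, mul_div_cancel₀ _ ne.ne']
  simp only [hc]
  rw [← e5]
  ring

end P3

open P3 in
/-- **P3.** -/
theorem psd_51 (hD : DomStmt) : PsdStmt := by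
  classical
  intro κ
  refine ⟨ph κ, norm_ph_le κ, ph_congr κ, fun Y A B hA hB S hS => ?_⟩
  set s : O → O → ℂ := fun G k => th k * Rq G k * Wc (nr (G * k) / B) 0 with hs
  set F : O → O → ℂ := fun G a => ((nr (eG G) * cG G * ‖th G‖ ^ 2 : ℝ) : ℂ) *
    ∑ k₁ ∈ cofS κ Y G, ∑ k₂ ∈ cofS κ Y G, s G k₁ * conj (s G k₂) *
      ((if eG G ∣ a then MK k₁ k₂ a else 0) * (gr a (nr a / A) : ℂ)) with hF
  have hFs : ∀ G, Summable (F G) := fun G =>
    (summable_sum fun k₁ _ => summable_sum fun k₂ _ =>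
      (summable_MK (eG G) k₁ k₂ hA).mul_left _).mul_left _
  have hpt : ∀ a, gr a (nr a / A) * ((if a = 0 then 0 else (1 / 2 : ℝ) ^ (pf a).card) *
      ‖MobY κ Y B a‖ ^ 2) ≤ (∑ G ∈ pball Y, F G a).re := fun a => by
    refine (mul_le_mul_of_nonneg_left (hD κ Y (fun n => Wc (nr n / B) 0) a)
      (gr_nonneg _ _)).trans_eq ?_
    rw [Complex.re_sum, mul_sum]
    refine sum_congr rfl fun G _ => ?_
    simp only [hF, Complex.re_ofReal_mul]
    by_cases h : eG G ∣ a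
    · simp only [if_pos h, ← mul_assoc, ← sum_mul, Complex.re_mul_ofReal, hs]
      ring
    · simp [h]
  have hnn : ∀ a, 0 ≤ (∑ G ∈ pball Y, F G a).re := fun a =>
    le_trans (mul_nonneg (gr_nonneg _ _) (mul_nonneg (by split_ifs <;> positivity)
      (sq_nonneg _))) (hpt a)
  have hsum : Summable fun a => ∑ G ∈ pball Y, F G a := summable_sum fun G _ => hFs G
  calc _ ≤ ∑ a ∈ S, (∑ G ∈ pball Y, F G a).re := by
        refine sum_le_sum fun a ha => le_trans (le_of_eq ?_) (hpt a)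
        rw [gr_primary (hS a ha), if_neg (hS a ha).ne_zero, mul_assoc]
    _ ≤ ∑' a, (∑ G ∈ pball Y, F G a).re :=
        (Complex.hasSum_re hsum.hasSum).summable.sum_le_tsum S fun a _ => hnn a
    _ = (∑ G ∈ pball Y, ∑' a, F G a).re := by
        rw [← Complex.re_tsum hsum, Summable.tsum_finsetSum fun G _ => hFs G]
    _ ≤ _ := by
        rw [Complex.re_sum]
        refine sum_le_sum fun G hG => (Complex.re_le_norm _).trans_eq ?_
        have hG' := (mem_pball.1 hG).1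
        have h1 := term κ Y B hA hG'
        have h2 : ∑' a, F G a = ((cG G * ‖th G‖ ^ 2 : ℝ) : ℂ) * ((nr (eG G) : ℂ) *
            ∑ k₁ ∈ cofS κ Y G, ∑ k₂ ∈ cofS κ Y G, s G k₁ * conj (s G k₂) *
              ∑' a : O, (if eG G ∣ a then MK k₁ k₂ a else 0) * (gr a (nr a / A) : ℂ)) := by
          simp only [hF]
          rw [tsum_mul_left, Summable.tsum_finsetSum fun k₁ _ => summable_sum fun k₂ _ =>
            (summable_MK (eG G) k₁ k₂ hA).mul_left _]
          simp only [fun k₁ => Summable.tsum_finsetSum (s := cofS κ Y G) fun k₂ _ =>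
            (summable_MK (eG G) k₁ k₂ hA).mul_left (s G k₁ * conj (s G k₂)), tsum_mul_left]
          push_cast
          ring
        rw [h2]
        simp only [hs]
        rw [h1, norm_mul, norm_mul, Complex.norm_real, Complex.norm_real,
          Real.norm_of_nonneg (mul_nonneg (cG_nonneg G) (sq_nonneg _)), Real.norm_of_nonneg hA.le]
        ring

end Crest.Agent.T27
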