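import Crest.Agent.T27.Rec1_64

/-!
# Row 27, sextic reciprocity over a number field, part 2: integration of `ℤ/6`-valued functions

A family of commensurable lattices in a module `V` over a ring containing `ζ` and `1/6` carries an
invariant integral on the compactly supported locally constant functions `V → ℤ/6` (all indices are
`≡ 1 (mod 6)`), and an integral over the orbits of `ζ` for invariant functions vanishing near `0`.
-/

set_option autoImplicit false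

noncomputable section

namespace Crest.Agent.T27.Rc

open Finset

/-- a family of lattices -/
structure LatSys (A V : Type*) [CommRing A] [AddCommGroup V] [Module A V] where
  ζ : A
  hζ : ζ ^ 2 - ζ + 1 = 0
  h6 : IsUnit (6 : A)
  Lat : Submodule A V → Prop
  inf : ∀ {L L' : Submodule A V}, Lat L → Lat L' → Lat (L ⊓ L')
  fin : ∀ {L L' : Submodule A V}, Lat L → Lat L' → ∃ U : Finset V, ∀ l ∈ L, ∃ u ∈ U, l - u ∈ L'
  map : ∀ {L : Submodule A V}, Lat L → ∀ g : V ≃ₗ[A] V, Lat (L.map (g : V →ₗ[A] V))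
  chain : ℕ → Submodule A V
  chain_lat : ∀ j, Lat (chain j)
  chain_anti : Antitone chain
  cofinal : ∀ {L : Submodule A V}, Lat L → ∃ j, chain j ≤ L

variable {A V : Type*} [CommRing A] [AddCommGroup V] [Module A V]

/-- periodic functions -/
def Per (L : Submodule A V) (f : V → ZMod 6) : Prop := ∀ x, ∀ l ∈ L, f (x + l) = f x

/-- support in finitely many cosets -/
def FinS (L : Submodule A V) (f : V → ZMod 6) : Prop :=
  ∃ T : Finset V, ∀ x, f x ≠ 0 → ∃ t ∈ T, x - t ∈ L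

/-- the sum over the cosets of `L` -/
def intL (L : Submodule A V) (f : V → ZMod 6) : ZMod 6 := ∑ᶠ q : V ⧸ L, f (Quotient.out q)

theorem Per.out {L : Submodule A V} {f : V → ZMod 6} (h : Per L f) (x : V) :
    f (Quotient.out (Submodule.Quotient.mk x : V ⧸ L)) = f x := by
  have h1 := (Submodule.Quotient.eq L).1 (Submodule.Quotient.mk_out (Submodule.Quotient.mk x : V ⧸ L))
  rw [← h x _ h1, add_sub_cancel]

theorem Per.mono {L L' : Submodule A V} {f : V → ZMod 6} (h : Per L f) (hL : L' ≤ L) : Per L' f :=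
  fun x l hl => h x l (hL hl)

theorem FinS.finite {L : Submodule A V} {f : V → ZMod 6} (h : FinS L f) :
    (Function.support fun q : V ⧸ L => f (Quotient.out q)).Finite := by
  obtain ⟨T, hT⟩ := h
  refine (T.finite_toSet.image (Submodule.Quotient.mk : V → V ⧸ L)).subset fun q hq => ?_
  obtain ⟨t, ht, h1⟩ := hT _ hq
  exact ⟨t, ht, ((Submodule.Quotient.eq L).2 h1).symm.trans (Submodule.Quotient.mk_out q)⟩

theorem mem_map_equiv' {L : Submodule A V} {g : V ≃ₗ[A] V} {x : V} :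
    x ∈ L.map (g : V →ₗ[A] V) ↔ g.symm x ∈ L := Submodule.mem_map_equiv L

namespace LatSys

variable (Γ : LatSys A V)

theorem finS_mono {L L' : Submodule A V} (hL : Γ.Lat L) (hL' : Γ.Lat L') {f : V → ZMod 6}
    (h : FinS L f) : FinS L' f := by
  classical
  obtain ⟨T, hT⟩ := h
  obtain ⟨U, hU⟩ := Γ.fin hL hL'
  refine ⟨(T ×ˢ U).image fun p => p.1 + p.2, fun x hx => ?_⟩
  obtain ⟨t, ht, h1⟩ := hT x hx
  obtain ⟨u, hu, h2⟩ := hU _ h1
  exact ⟨t + u, mem_image.2 ⟨(t, u), mem_product.2 ⟨ht, hu⟩, rfl⟩, by rwa [← sub_sub]⟩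

theorem intL_refine {L L' : Submodule A V} (hL : Γ.Lat L) (hL' : Γ.Lat L') (hle : L' ≤ L)
    {f : V → ZMod 6} (hp : Per L f) (hf : FinS L f) : intL L' f = intL L f := by
  classical
  let p : (V ⧸ L') →ₗ[A] V ⧸ L := Submodule.mapQ _ _ LinearMap.id hle
  have hpm : ∀ x, p (Submodule.Quotient.mk x) = Submodule.Quotient.mk x := fun _ => rfl
  have hfin : Finite (LinearMap.ker p) := by
    obtain ⟨U, hU⟩ := Γ.fin hL hL'
    refine Set.Finite.to_subtype
      ((U.finite_toSet.image (Submodule.Quotient.mk : V → V ⧸ L')).subset fun q hq => ?_)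
    obtain ⟨x, rfl⟩ := Submodule.Quotient.mk_surjective L' q
    obtain ⟨u, hu, h1⟩ := hU x ((Submodule.Quotient.mk_eq_zero L).1 hq)
    exact ⟨u, hu, ((Submodule.Quotient.eq L').2 h1).symm⟩
  cases nonempty_fintype (LinearMap.ker p)
  have h3 : (Fintype.card (LinearMap.ker p) : ZMod 6) = 1 := by
    rw [← Nat.card_eq_fintype_card, card_eq (Q := LinearMap.ker p) Γ.hζ Γ.h6]
    push_cast
    rw [show (6 : ZMod 6) = 0 from rfl, zero_mul, zero_add]
  have hF : ∀ q : V ⧸ L', f (Quotient.out q) = f (Quotient.out (p q)) := fun q => by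
    obtain ⟨x, rfl⟩ := Submodule.Quotient.mk_surjective L' q
    rw [hpm, hp.out, (hp.mono hle).out]
  have h1 := (Γ.finS_mono hL hL' hf).finite
  have h2 := hf.finite
  rw [intL, intL, finsum_eq_sum _ h1, finsum_eq_sum _ h2,
    ← Finset.sum_fiberwise_of_maps_to (g := p) (t := h2.toFinset)
      (fun q hq => by simpa [hF] using hq)]
  refine Finset.sum_congr rfl fun y hy => ?_
  have h4 : (h1.toFinset.filter fun q => p q = y).card = Fintype.card (LinearMap.ker p) := by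
    obtain ⟨x, rfl⟩ := Submodule.Quotient.mk_surjective L y
    symm
    refine Finset.card_bij (fun k _ => Submodule.Quotient.mk x + (k : V ⧸ L')) (fun k _ => ?_)
      (fun k _ k' _ h => Subtype.ext (add_left_cancel h)) fun q hq => ?_
    · have h5 : p (Submodule.Quotient.mk x + (k : V ⧸ L')) = Submodule.Quotient.mk x := by
        rw [map_add, hpm, LinearMap.mem_ker.1 k.2, add_zero]
      refine mem_filter.2 ⟨?_, h5⟩
      simpa [hF, h5] using hy
    · exact ⟨⟨q - Submodule.Quotient.mk x, by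
        rw [LinearMap.mem_ker, map_sub, (mem_filter.1 hq).2, hpm, sub_self]⟩, mem_univ _, by simp⟩
  rw [Finset.sum_congr rfl (g := fun _ => f (Quotient.out y)) fun q hq => by
    rw [hF, (mem_filter.1 hq).2], Finset.sum_const, h4, nsmul_eq_mul, h3, one_mul]

/-- compactly supported locally constant functions -/
def Sch (f : V → ZMod 6) : Prop := ∃ L, Γ.Lat L ∧ Per L f ∧ FinS L f

open Classical in
/-- the invariant integral -/
def int (f : V → ZMod 6) : ZMod 6 := if h : Γ.Sch f then intL h.choose f else 0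

variable {Γ}

theorem int_eq {L : Submodule A V} (hL : Γ.Lat L) {f : V → ZMod 6} (hp : Per L f) (hf : FinS L f) :
    Γ.int f = intL L f := by
  have h : Γ.Sch f := ⟨L, hL, hp, hf⟩
  obtain ⟨h1, h2, h3⟩ := h.choose_spec
  rw [int, dif_pos h, ← Γ.intL_refine h1 (Γ.inf h1 hL) inf_le_left h2 h3,
    Γ.intL_refine hL (Γ.inf h1 hL) inf_le_right hp hf]

theorem Sch.add {f g : V → ZMod 6} (hf : Γ.Sch f) (hg : Γ.Sch g) :
    Γ.Sch (fun x => f x + g x) ∧ Γ.int (fun x => f x + g x) = Γ.int f + Γ.int g := by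
  classical
  obtain ⟨L, hL, hp, hs⟩ := hf
  obtain ⟨L', hL', hp', hs'⟩ := hg
  have h0 := Γ.inf hL hL'
  have h1 : Per (L ⊓ L') f := hp.mono inf_le_left
  have h2 : Per (L ⊓ L') g := hp'.mono inf_le_right
  have h3 := Γ.finS_mono hL h0 hs
  have h4 := Γ.finS_mono hL' h0 hs'
  have h5 : Per (L ⊓ L') fun x => f x + g x := fun x l hl => by
    simp only [h1 x l hl, h2 x l hl]
  have h6 : FinS (L ⊓ L') fun x => f x + g x := by
    obtain ⟨T, hT⟩ := h3
    obtain ⟨U, hU⟩ := h4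
    refine ⟨T ∪ U, fun x hx => ?_⟩
    by_cases h : f x = 0
    · obtain ⟨u, hu, h7⟩ := hU x fun h' => hx (by simp [h, h'])
      exact ⟨u, mem_union_right _ hu, h7⟩
    · obtain ⟨u, hu, h7⟩ := hT x h
      exact ⟨u, mem_union_left _ hu, h7⟩
  refine ⟨⟨_, h0, h5, h6⟩, ?_⟩
  rw [int_eq h0 h5 h6, int_eq h0 h1 h3, int_eq h0 h2 h4]
  exact finsum_add_distrib h3.finite h4.finite

theorem sch_zero : Γ.Sch (fun _ => 0) ∧ Γ.int (fun _ => 0) = 0 := by
  have h1 : Per (Γ.chain 0) fun _ => 0 := fun _ _ _ => rfl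
  have h2 : FinS (Γ.chain 0) fun _ => 0 := ⟨∅, fun _ h => (h rfl).elim⟩
  exact ⟨⟨_, Γ.chain_lat 0, h1, h2⟩, by rw [int_eq (Γ.chain_lat 0) h1 h2, intL, finsum_zero]⟩

theorem sch_sum {α : Type*} (T : Finset α) (F : α → V → ZMod 6) (h : ∀ i, Γ.Sch (F i)) :
    Γ.Sch (fun x => ∑ i ∈ T, F i x) ∧ Γ.int (fun x => ∑ i ∈ T, F i x) = ∑ i ∈ T, Γ.int (F i) := by
  classical
  induction T using Finset.induction_on with
  | empty => simpa using sch_zero
  | insert a T ha ih =>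
    simp only [sum_insert ha]
    exact ⟨((h a).add ih.1).1, by rw [((h a).add ih.1).2, ih.2]⟩

theorem Sch.comp {f : V → ZMod 6} (hf : Γ.Sch f) (g : V ≃ₗ[A] V) :
    Γ.Sch (fun x => f (g x)) ∧ Γ.int (fun x => f (g x)) = Γ.int f := by
  classical
  obtain ⟨L, hL, hp, T, hT⟩ := hf
  have h0 := Γ.map hL g.symm
  have h1 : Per (L.map (g.symm : V →ₗ[A] V)) fun x => f (g x) := fun x l hl => by
    simp only [map_add]
    exact hp _ _ (mem_map_equiv'.1 hl)
  have h2 : FinS (L.map (g.symm : V →ₗ[A] V)) fun x => f (g x) := by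
    refine ⟨T.image g.symm, fun x hx => ?_⟩
    obtain ⟨t, ht, h3⟩ := hT _ hx
    exact ⟨g.symm t, mem_image_of_mem _ ht, mem_map_equiv'.2 (by simpa using h3)⟩
  refine ⟨⟨_, h0, h1, h2⟩, ?_⟩
  rw [int_eq h0 h1 h2, int_eq hL hp ⟨T, hT⟩, intL, intL,
    ← finsum_comp_equiv (Submodule.Quotient.equiv L _ g.symm rfl).toEquiv]
  refine finsum_congr fun q => ?_
  obtain ⟨x, rfl⟩ := Submodule.Quotient.mk_surjective L q
  have h3 : (Submodule.Quotient.equiv L _ g.symm rfl).toEquiv (Submodule.Quotient.mk x) =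
      Submodule.Quotient.mk (g.symm x) := rfl
  rw [h3, h1.out, hp.out, LinearEquiv.apply_symm_apply]

variable (Γ) in
/-- uniformly locally constant on `W` -/
def Adm {β : Type*} (W : Set V) (ψ : V → β) : Prop :=
  ∃ L, Γ.Lat L ∧ ∀ x ∈ W, ∀ l ∈ L, ψ (x + l) = ψ x

theorem Adm.pair {β β' : Type*} {W : Set V} {ψ : V → β} {ψ' : V → β'} (h : Γ.Adm W ψ)
    (h' : Γ.Adm W ψ') : Γ.Adm W fun x => (ψ x, ψ' x) := by
  obtain ⟨L, hL, h1⟩ := h
  obtain ⟨L', hL', h2⟩ := h'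
  exact ⟨_, Γ.inf hL hL', fun x hx l hl => by simp only [h1 x hx l hl.1, h2 x hx l hl.2]⟩

theorem Adm.mono {β : Type*} {W W' : Set V} {ψ : V → β} (h : Γ.Adm W ψ) (hW : W' ⊆ W) :
    Γ.Adm W' ψ := by
  obtain ⟨L, hL, h1⟩ := h
  exact ⟨L, hL, fun x hx => h1 x (hW hx)⟩

theorem Sch.adm {β : Type*} {f : V → ZMod 6} (hf : Γ.Sch f) {ψ : V → β}
    (hψ : Γ.Adm {x | f x ≠ 0} ψ) (F : β → ZMod 6 → ZMod 6) (hF : ∀ b, F b 0 = 0) :
    Γ.Sch fun x => F (ψ x) (f x) := by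
  obtain ⟨L, hL, hp, hs⟩ := hf
  obtain ⟨L', hL', h1⟩ := hψ
  refine ⟨_, Γ.inf hL hL', fun x l hl => ?_, ?_⟩
  · by_cases h : f x = 0
    · simp only [hp x l hl.1, h, hF]
    · simp only [hp x l hl.1, h1 x h l hl.2]
  · obtain ⟨T, hT⟩ := Γ.finS_mono hL (Γ.inf hL hL') hs
    exact ⟨T, fun x hx => hT x fun h => hx (by simp only [h, hF])⟩

open Classical in
/-- functions that come from a finite quotient `L / L'` -/
theorem int_eq_sum {L L' : Submodule A V} (hL : Γ.Lat L) (hL' : Γ.Lat L') (hle : L' ≤ L)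
    {Q : Type*} [Fintype Q] (P : V → Q) (hP : ∀ x ∈ L, ∀ y ∈ L, P x = P y ↔ x - y ∈ L')
    (hs : ∀ q, ∃ x ∈ L, P x = q) (F : Q → ZMod 6) :
    Γ.Sch (fun x => if x ∈ L then F (P x) else 0) ∧
      Γ.int (fun x => if x ∈ L then F (P x) else 0) = ∑ q, F q := by
  have h1 : Per L' fun x => if x ∈ L then F (P x) else 0 := fun x l hl => by
    by_cases h : x ∈ L
    · have h2 : x + l ∈ L := L.add_mem h (hle hl)
      simp only [h, h2, if_true, (hP _ h2 _ h).2 (by simpa using hl)]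
    · have h2 : x + l ∉ L := fun h' => h ((L.add_mem_iff_left (hle hl)).1 h')
      simp only [h, h2, if_false]
  have h2 : FinS L' fun x => if x ∈ L then F (P x) else 0 :=
    Γ.finS_mono hL hL' ⟨{0}, fun x hx => ⟨0, mem_singleton_self _, by
      by_contra h
      exact hx (if_neg (by simpa using h))⟩⟩
  refine ⟨⟨_, hL', h1, h2⟩, ?_⟩
  choose r hr hr' using hs
  rw [int_eq hL' h1 h2, intL, finsum_eq_sum_of_support_subset
    (s := univ.image fun q => (Submodule.Quotient.mk (r q) : V ⧸ L')), Finset.sum_image]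
  · refine Finset.sum_congr rfl fun q _ => ?_
    rw [h1.out]
    simp only [hr q, hr' q, if_true]
  · intro q _ q' _ h
    rw [← hr' q, ← hr' q']
    exact (hP _ (hr q) _ (hr q')).2 ((Submodule.Quotient.eq L').1 h)
  · intro q hq
    obtain ⟨x, rfl⟩ := Submodule.Quotient.mk_surjective L' q
    have h3 : x ∈ L := by
      by_contra h
      exact hq ((h1.out x).trans (if_neg h))
    exact mem_coe.2 (mem_image.2 ⟨P x, mem_univ _,
      (Submodule.Quotient.eq L').2 ((hP _ (hr _) _ h3).1 (hr' _))⟩)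

variable (Γ) in
/-- multiplication by `ζ` -/
def zE : V ≃ₗ[A] V :=
  LinearEquiv.ofLinearMap (Γ.ζ • LinearMap.id) (Γ.ζ ^ 5 • LinearMap.id)
    (by ext x; simp [smul_smul, ← pow_succ', zeta_six Γ.hζ])
    (by ext x; simp [smul_smul, ← pow_succ, zeta_six Γ.hζ])

theorem zeta_mem {L : Submodule A V} {x : V} : Γ.ζ • x ∈ L ↔ x ∈ L :=
  ⟨fun h => by
    have h1 := L.smul_mem (Γ.ζ ^ 5) h
    rwa [smul_smul, ← pow_succ, zeta_six Γ.hζ, one_smul] at h1, L.smul_mem _⟩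

variable (Γ) in
/-- admissible global sections -/
def SecF (ψ : V → ZMod 6) : Prop :=
  ∀ L, Γ.Lat L → Γ.Adm {x | x ∉ L} ψ ∧ ∀ x, x ∉ L → ψ (Γ.ζ • x) = ψ x + 1

variable (Γ) in
open Classical in
/-- a global section -/
def φ (x : V) : ZMod 6 :=
  if h : ∃ j, x ∉ Γ.chain j then sec Γ.ζ (V ⧸ Γ.chain (Nat.find h)) (Submodule.Quotient.mk x) else 0

theorem secF_φ : Γ.SecF Γ.φ := by
  classical
  intro L hL
  obtain ⟨j, hj⟩ := Γ.cofinal hL
  have key : ∀ (x : V) (i : ℕ), x ∉ Γ.chain i → (∀ k < i, x ∈ Γ.chain k) →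
      Γ.φ x = sec Γ.ζ (V ⧸ Γ.chain i) (Submodule.Quotient.mk x) := fun x i h1 h2 => by
    have h : ∃ j, x ∉ Γ.chain j := ⟨i, h1⟩
    have h3 : Nat.find h = i := (Nat.find_eq_iff h).2 ⟨h1, fun k hk => not_not.2 (h2 k hk)⟩
    rw [φ, dif_pos h]
    subst h3
    rfl
  have hex : ∀ x, x ∉ L → ∃ i ≤ j, x ∉ Γ.chain i ∧ ∀ k < i, x ∈ Γ.chain k := fun x hx => by
    have h : ∃ j, x ∉ Γ.chain j := ⟨j, fun h => hx (hj h)⟩
    exact ⟨Nat.find h, Nat.find_min' h fun h => hx (hj h), Nat.find_spec h,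
      fun k hk => not_not.1 (Nat.find_min h hk)⟩
  refine ⟨⟨_, Γ.chain_lat j, fun x hx l hl => ?_⟩, fun x hx => ?_⟩
  · obtain ⟨i, hi, h1, h2⟩ := hex x hx
    have hl' := Γ.chain_anti hi hl
    rw [key x i h1 h2, key (x + l) i (fun h => h1 (((Γ.chain i).add_mem_iff_left hl').1 h))
      fun k hk => (Γ.chain k).add_mem (h2 k hk) (Γ.chain_anti hk.le hl'),
      (Submodule.Quotient.eq _).2 (show x + l - x ∈ Γ.chain i by simpa using hl')]
  · obtain ⟨i, -, h1, h2⟩ := hex x hx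
    rw [key x i h1 h2, key (Γ.ζ • x) i (fun h => h1 (zeta_mem.1 h))
      fun k hk => zeta_mem.2 (h2 k hk), Submodule.Quotient.mk_smul]
    exact isSec_sec Γ.hζ Γ.h6 _ fun h => h1 ((Submodule.Quotient.mk_eq_zero _).1 h)

theorem SecF.comp {ψ : V → ZMod 6} (h : Γ.SecF ψ) (g : V ≃ₗ[A] V) : Γ.SecF fun x => ψ (g x) := by
  intro L hL
  obtain ⟨⟨L', hL', h1⟩, h2⟩ := h _ (Γ.map hL g)
  have h3 : ∀ x, x ∉ L → g x ∉ L.map (g : V →ₗ[A] V) := fun x hx h' =>
    hx (by simpa using mem_map_equiv'.1 h')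
  refine ⟨⟨_, Γ.map hL' g.symm, fun x hx l hl => ?_⟩, fun x hx => ?_⟩
  · show ψ (g (x + l)) = ψ (g x)
    rw [map_add]
    exact h1 _ (h3 x hx) _ (mem_map_equiv'.1 hl)
  · show ψ (g (Γ.ζ • x)) = ψ (g x) + 1
    rw [map_smul]
    exact h2 _ (h3 x hx)

variable (Γ) in
/-- invariant functions vanishing near zero -/
structure Good (f : V → ZMod 6) : Prop where
  sch : Γ.Sch f
  van : ∃ L, Γ.Lat L ∧ ∀ x ∈ L, f x = 0
  inv : ∀ x, f (Γ.ζ • x) = f x

theorem Good.adm {f ψ : V → ZMod 6} (hf : Γ.Good f) (h : Γ.SecF ψ) :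
    Γ.Adm {x | f x ≠ 0} ψ ∧ ∀ x, f x ≠ 0 → ψ (Γ.ζ • x) = ψ x + 1 := by
  obtain ⟨L, hL, h1⟩ := hf.van
  exact ⟨(h L hL).1.mono fun x hx hx' => hx (h1 x hx'),
    fun x hx => (h L hL).2 x fun hx' => hx (h1 x hx')⟩

variable (Γ) in
/-- the integral over the orbits of `ζ` -/
def orb (f : V → ZMod 6) : ZMod 6 := Γ.int fun x => if Γ.φ x = 0 then f x else 0

theorem Good.orb_eq {f s : V → ZMod 6} (hf : Γ.Good f) (hs : Γ.Adm {x | f x ≠ 0} s)
    (hs' : ∀ x, f x ≠ 0 → s (Γ.ζ • x) = s x + 1) :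
    Γ.orb f = Γ.int fun x => if s x = 0 then f x else 0 :=
  indep (fun x => Γ.ζ • x) Γ.Sch Γ.int (fun F h => (sch_sum univ F h).2)
    (fun _ h => (h.comp Γ.zE).2) f Γ.φ s
    (fun i j => hf.sch.adm ((hf.adm secF_φ).1.pair hs)
      (fun b y => if b.1 = i ∧ b.2 = j then y else 0) fun _ => ite_self _)
    hf.inv (hf.adm secF_φ).2 hs'

theorem Good.sch_φ {f : V → ZMod 6} (hf : Γ.Good f) :
    Γ.Sch fun x => if Γ.φ x = 0 then f x else 0 :=
  hf.sch.adm (hf.adm secF_φ).1 (fun b y => if b = 0 then y else 0) fun _ => ite_self _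

theorem Good.add {f g : V → ZMod 6} (hf : Γ.Good f) (hg : Γ.Good g) :
    Γ.Good fun x => f x + g x := by
  obtain ⟨L, hL, h1⟩ := hf.van
  obtain ⟨L', hL', h2⟩ := hg.van
  exact ⟨(hf.sch.add hg.sch).1, ⟨_, Γ.inf hL hL', fun x hx => by rw [h1 x hx.1, h2 x hx.2, add_zero]⟩,
    fun x => by rw [hf.inv, hg.inv]⟩

theorem Good.orb_add {f g : V → ZMod 6} (hf : Γ.Good f) (hg : Γ.Good g) :
    Γ.orb (fun x => f x + g x) = Γ.orb f + Γ.orb g := by
  rw [orb, orb, orb, ← (hf.sch_φ.add hg.sch_φ).2]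
  congr 1
  funext x
  split_ifs <;> simp

theorem Good.comp {f : V → ZMod 6} (hf : Γ.Good f) (g : V ≃ₗ[A] V) : Γ.Good fun x => f (g x) := by
  obtain ⟨L, hL, h1⟩ := hf.van
  exact ⟨(hf.sch.comp g).1, ⟨_, Γ.map hL g.symm, fun x hx => h1 _ (mem_map_equiv'.1 hx)⟩,
    fun x => by rw [map_smul, hf.inv]⟩

theorem Good.orb_comp {f : V → ZMod 6} (hf : Γ.Good f) (g : V ≃ₗ[A] V) :
    Γ.orb (fun x => f (g x)) = Γ.orb f := by
  have h := (hf.comp g).adm (secF_φ.comp g)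
  rw [(hf.comp g).orb_eq h.1 h.2]
  exact (hf.sch_φ.comp g).2

/-- multiplication by a function that is locally constant and invariant on the support -/
theorem Good.mul {f D : V → ZMod 6} (hf : Γ.Good f) (hD : Γ.Adm {x | f x ≠ 0} D)
    (hD' : ∀ x, f x ≠ 0 → D (Γ.ζ • x) = D x) : Γ.Good fun x => D x * f x := by
  obtain ⟨L, hL, h1⟩ := hf.van
  refine ⟨hf.sch.adm hD (fun b y => b * y) fun _ => mul_zero _,
    ⟨L, hL, fun x hx => by rw [h1 x hx, mul_zero]⟩, fun x => ?_⟩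
  by_cases h : f x = 0
  · rw [hf.inv, h, mul_zero, mul_zero]
  · rw [hf.inv, hD' x h]

theorem Good.mul_sub {f s s' : V → ZMod 6} (hf : Γ.Good f)
    (hs : Γ.Adm {x | f x ≠ 0} s ∧ ∀ x, f x ≠ 0 → s (Γ.ζ • x) = s x + 1)
    (hs' : Γ.Adm {x | f x ≠ 0} s' ∧ ∀ x, f x ≠ 0 → s' (Γ.ζ • x) = s' x + 1) :
    Γ.Good fun x => (s x - s' x) * f x := by
  refine hf.mul ?_ fun x hx => by rw [hs.2 x hx, hs'.2 x hx]; ring
  obtain ⟨L, hL, h⟩ := hs.1.pair hs'.1
  exact ⟨L, hL, fun x hx l hl => by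
    have h1 := h x hx l hl
    rw [Prod.mk.injEq] at h1
    show s (x + l) - s' (x + l) = _
    rw [h1.1, h1.2]⟩

theorem Good.neg {f : V → ZMod 6} (hf : Γ.Good f) : Γ.Good fun x => -f x := by
  simpa using hf.mul (D := fun _ => -1) ⟨_, Γ.chain_lat 0, fun _ _ _ _ => rfl⟩ fun _ _ => rfl

theorem orb_zero : Γ.orb (fun _ => 0) = 0 := by
  simpa [orb] using (sch_zero (Γ := Γ)).2

theorem Good.orb_neg {f : V → ZMod 6} (hf : Γ.Good f) : Γ.orb (fun x => -f x) = -Γ.orb f := by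
  have h := hf.neg.orb_add hf
  simp only [neg_add_cancel, orb_zero] at h
  exact eq_neg_of_add_eq_zero_left h.symm

theorem Good.sub {f g : V → ZMod 6} (hf : Γ.Good f) (hg : Γ.Good g) :
    Γ.Good fun x => f x - g x := by
  simpa only [sub_eq_add_neg] using hf.add hg.neg

theorem Good.orb_sub {f g : V → ZMod 6} (hf : Γ.Good f) (hg : Γ.Good g) :
    Γ.orb (fun x => f x - g x) = Γ.orb f - Γ.orb g := by
  simp only [sub_eq_add_neg]
  rw [hf.orb_add hg.neg, hg.orb_neg]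

end LatSys

end Crest.Agent.T27.Rc
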