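import Crest.Agent.T27.Rec2_64

/-!
# Row 27, sextic reciprocity over a number field, part 3: the cocycle and its commutator
-/

set_option autoImplicit false

noncomputable section

namespace Crest.Agent.T27.Rc

open Finset

variable {A V : Type*} [CommRing A] [AddCommGroup V] [Module A V]

open Classical in
/-- indicator function of a submodule -/
def ind (L : Submodule A V) (x : V) : ZMod 6 := if x ∈ L then 1 else 0

theorem ind_map (L : Submodule A V) (g : V ≃ₗ[A] V) (x : V) :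
    ind (L.map (g : V →ₗ[A] V)) x = ind L (g.symm x) := by
  classical
  simp only [ind, mem_map_equiv']

namespace LatSys

variable {Γ : LatSys A V}

theorem adm_ind {L : Submodule A V} (hL : Γ.Lat L) (W : Set V) : Γ.Adm W (ind L) :=
  ⟨L, hL, fun x _ l hl => by classical simp only [ind, L.add_mem_iff_left hl]⟩

theorem ind_zeta (L : Submodule A V) (x : V) : ind L (Γ.ζ • x) = ind L x := by
  classical
  simp only [ind, zeta_mem]

theorem sch_ind {L : Submodule A V} (hL : Γ.Lat L) : Γ.Sch (ind L) :=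
  ⟨L, hL, fun x l hl => by classical simp only [ind, L.add_mem_iff_left hl],
    {0}, fun x hx => ⟨0, mem_singleton_self _, by
      by_contra h
      exact hx (if_neg (by simpa using h))⟩⟩

theorem good_ind_sub {L L' : Submodule A V} (hL : Γ.Lat L) (hL' : Γ.Lat L') :
    Γ.Good fun x => ind L x - ind L' x := by
  have h : Γ.Sch fun x => -ind L' x :=
    (sch_ind hL').adm (ψ := fun _ => ()) ⟨_, hL', fun _ _ _ _ => rfl⟩ (fun _ y => -y)
      fun _ => neg_zero
  refine ⟨by simpa only [sub_eq_add_neg] using ((sch_ind hL).add h).1,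
    ⟨_, Γ.inf hL hL', fun x hx => by
      rw [ind, ind, if_pos (Submodule.mem_inf.1 hx).1, if_pos (Submodule.mem_inf.1 hx).2, sub_self]⟩,
    fun x => by rw [ind_zeta, ind_zeta]⟩

theorem good_m {L : Submodule A V} (hL : Γ.Lat L) (h : V ≃ₗ[A] V) :
    Γ.Good fun x => ind L (h.symm x) - ind L x := by
  simpa only [ind_map] using good_ind_sub (Γ.map hL h) hL

theorem Good.D {m : V → ZMod 6} (hm : Γ.Good m) (g h : V ≃ₗ[A] V) :
    Γ.Good fun x => (Γ.φ (g x) - Γ.φ (h x)) * m x :=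
  hm.mul_sub (hm.adm (secF_φ.comp g)) (hm.adm (secF_φ.comp h))

theorem Good.D1 {m : V → ZMod 6} (hm : Γ.Good m) (g : V ≃ₗ[A] V) :
    Γ.Good fun x => (Γ.φ (g x) - Γ.φ x) * m x := hm.D g 1

variable (Γ) in
/-- the cocycle -/
def tau (L : Submodule A V) (g h : V ≃ₗ[A] V) : ZMod 6 :=
  Γ.orb fun x => (Γ.φ (g x) - Γ.φ x) * (ind L (h.symm x) - ind L x)

theorem tau_one_left (L : Submodule A V) (h : V ≃ₗ[A] V) : Γ.tau L 1 h = 0 := by
  simpa [tau] using orb_zero (Γ := Γ)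

theorem tau_one_right (L : Submodule A V) (g : V ≃ₗ[A] V) : Γ.tau L g 1 = 0 := by
  have h : ∀ x : V, (1 : V ≃ₗ[A] V).symm x = x := fun _ => rfl
  simpa [tau, h] using orb_zero (Γ := Γ)

theorem orb_shift {m : V → ZMod 6} (hm : Γ.Good m) (g h : V ≃ₗ[A] V) :
    Γ.orb (fun x => (Γ.φ (g x) - Γ.φ x) * m (h.symm x)) =
      Γ.orb fun x => (Γ.φ (g (h x)) - Γ.φ (h x)) * m x := by
  rw [← ((hm.comp h.symm).D1 g).orb_comp h]
  simp only [LinearEquiv.symm_apply_apply]

theorem tau_coc {L : Submodule A V} (hL : Γ.Lat L) (g h l : V ≃ₗ[A] V) :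
    Γ.tau L g h + Γ.tau L (g * h) l = Γ.tau L g (h * l) + Γ.tau L h l := by
  have h1 : Γ.tau L (g * h) l =
      Γ.orb (fun x => (Γ.φ (g (h x)) - Γ.φ (h x)) * (ind L (l.symm x) - ind L x)) + Γ.tau L h l := by
    refine Eq.trans ?_ (((good_m hL l).D (g * h) h).orb_add ((good_m hL l).D1 h))
    rw [tau]
    congr 1
    funext x
    ring
  have h2 : Γ.tau L g (h * l) = Γ.orb (fun x => (Γ.φ (g x) - Γ.φ x) *
      (ind L (l.symm (h.symm x)) - ind L (h.symm x))) + Γ.tau L g h := by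
    rw [tau, tau, ← (((good_m hL l).comp h.symm).D1 g).orb_add ((good_m hL h).D1 g)]
    congr 1
    funext x
    show _ * (ind L (l.symm (h.symm x)) - _) = _
    ring
  rw [h1, h2, orb_shift (good_m hL l)]
  ring

theorem tau_sub {L L' : Submodule A V} (hL : Γ.Lat L) (hL' : Γ.Lat L') (g h : V ≃ₗ[A] V) :
    Γ.tau L g h - Γ.tau L' g h = Γ.orb fun x =>
      (Γ.φ (g (h x)) - Γ.φ (h x) - Γ.φ (g x) + Γ.φ x) * (ind L x - ind L' x) := by
  have hd := good_ind_sub hL hL'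
  have h1 := (hd.D (g * h) h).orb_sub (hd.D1 g)
  have h2 := ((hd.comp h.symm).D1 g).orb_sub (hd.D1 g)
  rw [orb_shift hd] at h2
  rw [tau, tau, ← ((good_m hL h).D1 g).orb_sub ((good_m hL' h).D1 g)]
  refine Eq.trans ?_ (h2.trans (h1.symm.trans ?_)) <;> congr 1 <;> funext x
  · ring
  · show (Γ.φ (g (h x)) - _) * _ - _ = _
    ring

variable (Γ) in
/-- the commutator pairing -/
def cm (g h : V ≃ₗ[A] V) : ZMod 6 := Γ.tau (Γ.chain 0) g h - Γ.tau (Γ.chain 0) h g

theorem cm_eq {L : Submodule A V} (hL : Γ.Lat L) {g h : V ≃ₗ[A] V} (hc : ∀ x, g (h x) = h (g x)) :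
    Γ.cm g h = Γ.tau L g h - Γ.tau L h g := by
  have h1 := tau_sub hL (Γ.chain_lat 0) g h
  have h2 := tau_sub hL (Γ.chain_lat 0) h g
  have h3 : (fun x => (Γ.φ (g (h x)) - Γ.φ (h x) - Γ.φ (g x) + Γ.φ x) *
      (ind L x - ind (Γ.chain 0) x)) = fun x => (Γ.φ (h (g x)) - Γ.φ (g x) - Γ.φ (h x) + Γ.φ x) *
      (ind L x - ind (Γ.chain 0) x) := by
    funext x
    rw [hc]
    ring
  rw [h3, ← h2] at h1
  rw [cm]
  linear_combination -h1

theorem cm_anti (g h : V ≃ₗ[A] V) : Γ.cm h g = -Γ.cm g h := by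
  rw [cm, cm, neg_sub]

theorem cm_self (g : V ≃ₗ[A] V) : Γ.cm g g = 0 := sub_self _

theorem cm_one_left (h : V ≃ₗ[A] V) : Γ.cm 1 h = 0 := by
  rw [cm, tau_one_left, tau_one_right, sub_self]

theorem cm_mul_left {g g' h : V ≃ₗ[A] V} (h1 : g * h = h * g) (h2 : g' * h = h * g') :
    Γ.cm (g * g') h = Γ.cm g h + Γ.cm g' h := by
  have e1 := tau_coc (Γ.chain_lat 0) g g' h
  have e2 := tau_coc (Γ.chain_lat 0) g h g'
  have e3 := tau_coc (Γ.chain_lat 0) h g g'
  rw [h2] at e1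
  rw [h1] at e2
  simp only [cm]
  linear_combination e1 - e2 + e3

/-- a description of the finite quotient `L / h L` with the action of `ζ` and `g` -/
structure Quo (Γ : LatSys A V) (L : Submodule A V) (g h : V ≃ₗ[A] V) (Q : Type*) [Zero Q] where
  P : V → Q
  α : Q → Q
  s : Q → ZMod 6
  eq_iff : ∀ x ∈ L, ∀ y ∈ L, P x = P y ↔ h.symm (x - y) ∈ L
  surj : ∀ q, ∃ x ∈ L, P x = q
  zero : P 0 = 0
  act : ∀ x ∈ L, P (g x) = α (P x)
  sec : ∀ x ∈ L, P x ≠ 0 → s (P (Γ.ζ • x)) = s (P x) + 1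

theorem Quo.eq_zero {L : Submodule A V} {g h : V ≃ₗ[A] V} {Q : Type*} [Zero Q]
    (D : Quo Γ L g h Q) {x : V} (hx : x ∈ L) : D.P x = 0 ↔ h.symm x ∈ L := by
  rw [← D.zero, D.eq_iff x hx 0 L.zero_mem, sub_zero]

theorem Quo.adm {L : Submodule A V} (hL : Γ.Lat L) {g h : V ≃ₗ[A] V} (hh : ∀ x ∈ L, h x ∈ L)
    {Q : Type*} [Zero Q] (D : Quo Γ L g h Q) {f : V → ZMod 6}
    (hf : ∀ x, f x ≠ 0 → x ∈ L ∧ h.symm x ∉ L) :
    Γ.Adm {x | f x ≠ 0} (fun x => D.s (D.P x)) ∧
      ∀ x, f x ≠ 0 → D.s (D.P (Γ.ζ • x)) = D.s (D.P x) + 1 := by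
  refine ⟨⟨_, Γ.map hL h, fun x hx l hl => ?_⟩,
    fun x hx => D.sec x (hf x hx).1 fun h' => (hf x hx).2 ((D.eq_zero (hf x hx).1).1 h')⟩
  have h1 := mem_map_equiv'.1 hl
  have h2 : l ∈ L := by simpa using hh _ h1
  show D.s (D.P (x + l)) = D.s (D.P x)
  rw [(D.eq_iff _ (L.add_mem (hf x hx).1 h2) _ (hf x hx).1).2 (by simpa using h1)]

open Classical in
theorem tau_half {L : Submodule A V} (hL : Γ.Lat L) {g h : V ≃ₗ[A] V}
    (hc : ∀ x, g (h x) = h (g x)) (hg : ∀ x ∈ L, g x ∈ L) (hh : ∀ x ∈ L, h x ∈ L)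
    (hi : ∀ x ∈ L, h.symm (g x) ∈ L → h.symm x ∈ L) {Q : Type*} [Zero Q] [Fintype Q]
    (D : Quo Γ L g h Q) :
    Γ.tau L g h = Γ.orb (fun x => (Γ.φ x - D.s (D.P x)) *
        ((ind L x - ind L (g.symm x)) * (ind L x - ind L (h.symm x)))) -
      ∑ q, if D.s q = 0 then (if q = 0 then 0 else D.s (D.α q)) else 0 := by
  have hhs : ∀ x, h.symm x ∈ L → x ∈ L := fun x hx => by simpa using hh _ hx
  have hgs : ∀ x, g.symm x ∈ L → x ∈ L := fun x hx => by simpa using hg _ hx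
  have hcs : ∀ x, h.symm (g x) = g (h.symm x) := fun x => by
    rw [LinearEquiv.symm_apply_eq, ← hc, LinearEquiv.apply_symm_apply]
  have hw : Γ.Good fun x => ind L x - ind L (h.symm x) := by
    simpa only [neg_sub] using (good_m hL h).neg
  have hsupp : ∀ x, ind L x - ind L (h.symm x) ≠ 0 → x ∈ L ∧ h.symm x ∉ L := fun x hx => by
    by_cases h1 : h.symm x ∈ L
    · simp [ind, h1, hhs x h1] at hx
    · by_cases h2 : x ∈ L
      · exact ⟨h2, h1⟩
      · simp [ind, h1, h2] at hx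
  have hψ := D.adm hL hh hsupp
  have hδ := hw.mul_sub (hw.adm secF_φ) hψ
  have hδ' := hδ.mul (adm_ind (Γ.map hL g) _) fun x _ => ind_zeta _ x
  simp only [ind_map] at hδ'
  have hψg : Γ.Adm {x | ind L x - ind L (h.symm x) ≠ 0} (fun x => D.s (D.P (g x))) ∧
      ∀ x, ind L x - ind L (h.symm x) ≠ 0 → D.s (D.P (g (Γ.ζ • x))) = D.s (D.P (g x)) + 1 := by
    refine ⟨⟨_, Γ.map hL h, fun x hx l hl => ?_⟩, fun x hx => ?_⟩
    · have h1 := mem_map_equiv'.1 hl
      have h2 := (hsupp x hx).1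
      show D.s (D.P (g (x + l))) = D.s (D.P (g x))
      rw [(D.eq_iff _ (hg _ (L.add_mem h2 (hhs l h1))) _ (hg _ h2)).2
        (by rw [← map_sub, add_sub_cancel_left, hcs]; exact hg _ h1)]
    · have h2 := hsupp x hx
      rw [map_smul]
      exact D.sec _ (hg _ h2.1) fun h' => h2.2 (hi x h2.1 ((D.eq_zero (hg _ h2.1)).1 h'))
  have hZ := hw.mul_sub hψg hψ
  have hZ' : Γ.orb (fun x => (D.s (D.P (g x)) - D.s (D.P x)) * (ind L x - ind L (h.symm x))) =
      ∑ q, if D.s q = 0 then (if q = 0 then 0 else D.s (D.α q)) else 0 := by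
    have h1 := D.adm hL hh (f := fun x => (D.s (D.P (g x)) - D.s (D.P x)) *
      (ind L x - ind L (h.symm x))) fun x hx => hsupp x (right_ne_zero_of_mul hx)
    rw [hZ.orb_eq h1.1 h1.2, ← (int_eq_sum hL (Γ.map hL h) (fun x hx => hhs x (mem_map_equiv'.1 hx))
      D.P (fun x hx y hy => (D.eq_iff x hx y hy).trans mem_map_equiv'.symm) D.surj _).2]
    congr 1
    funext x
    by_cases h2 : x ∈ L
    · by_cases h3 : h.symm x ∈ L
      · simp [ind, h2, h3, (D.eq_zero h2).2 h3]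
      · have h4 : D.P x ≠ 0 := fun h' => h3 ((D.eq_zero h2).1 h')
        by_cases h5 : D.s (D.P x) = 0 <;> simp [ind, h2, h3, h4, h5, D.act x h2]
    · have h3 : h.symm x ∉ L := fun h' => h2 (hhs x h')
      simp [ind, h2, h3]
  have h1 : Γ.tau L g h = Γ.orb (fun x => ((Γ.φ x - D.s (D.P x)) * (ind L x - ind L (h.symm x)) -
      ind L (g.symm (g x)) * ((Γ.φ (g x) - D.s (D.P (g x))) *
        (ind L (g x) - ind L (h.symm (g x))))) -
      (D.s (D.P (g x)) - D.s (D.P x)) * (ind L x - ind L (h.symm x))) := by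
    rw [tau]
    congr 1
    funext x
    rw [LinearEquiv.symm_apply_apply]
    by_cases h2 : x ∈ L
    · by_cases h3 : h.symm x ∈ L
      · have h4 : h.symm (g x) ∈ L := by rw [hcs]; exact hg _ h3
        simp [ind, h2, h3, h4, hg x h2]
      · have h4 : h.symm (g x) ∉ L := fun h' => h3 (hi x h2 h')
        simp only [ind, h2, h3, h4, hg x h2, if_true, if_false]
        ring
    · have h3 : h.symm x ∉ L := fun h' => h2 (hhs x h')
      simp [ind, h2, h3]
  rw [h1, (hδ.sub (hδ'.comp g)).orb_sub hZ, hZ', hδ.orb_sub (hδ'.comp g), hδ'.orb_comp g,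
    ← hδ.orb_sub hδ']
  congr 2
  funext x
  by_cases h2 : x ∈ L
  · simp only [ind, h2, if_true]
    ring
  · have h3 : h.symm x ∉ L := fun h' => h2 (hhs x h')
    simp [ind, h2, h3]

open Classical in
/-- the commutator of two coprime integral commuting automorphisms -/
theorem cm_formula {L : Submodule A V} (hL : Γ.Lat L) {g h : V ≃ₗ[A] V}
    (hc : ∀ x, g (h x) = h (g x)) (hg : ∀ x ∈ L, g x ∈ L) (hh : ∀ x ∈ L, h x ∈ L)
    (hi : ∀ x ∈ L, h.symm (g x) ∈ L → h.symm x ∈ L)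
    (hi' : ∀ x ∈ L, g.symm (h x) ∈ L → g.symm x ∈ L)
    (hco : ∀ x ∈ L, ∃ a ∈ L, ∃ b ∈ L, x = g a + h b)
    {Q Q' : Type*} [Zero Q] [Fintype Q] [Zero Q'] [Fintype Q']
    (D : Quo Γ L g h Q) (D' : Quo Γ L h g Q') :
    Γ.cm g h = (∑ q, if D'.s q = 0 then (if q = 0 then 0 else D'.s (D'.α q)) else 0) -
      (∑ q, if D.s q = 0 then (if q = 0 then 0 else D.s (D.α q)) else 0) +
      ((univ.filter fun q => q ≠ 0 ∧ D.s q = 0).card : ZMod 6) *
        ∑ q, if q ≠ 0 then D'.s q else 0 := by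
  have hhs : ∀ x, h.symm x ∈ L → x ∈ L := fun x hx => by simpa using hh _ hx
  have hgs : ∀ x, g.symm x ∈ L → x ∈ L := fun x hx => by simpa using hg _ hx
  have hw : Γ.Good fun x => ind L x - ind L (h.symm x) := by
    simpa only [neg_sub] using (good_m hL h).neg
  have hW : Γ.Good fun x => (ind L x - ind L (g.symm x)) * (ind L x - ind L (h.symm x)) := by
    refine hw.mul ⟨_, Γ.inf hL (Γ.map hL g), fun x _ l hl => ?_⟩ fun x _ => ?_
    · simp only [ind, map_add, L.add_mem_iff_left hl.1, L.add_mem_iff_left (mem_map_equiv'.1 hl.2)]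
    · simp only [map_smul, ind_zeta]
  have hsupp : ∀ x, (ind L x - ind L (g.symm x)) * (ind L x - ind L (h.symm x)) ≠ 0 →
      x ∈ L ∧ g.symm x ∉ L ∧ h.symm x ∉ L := fun x hx => by
    by_cases h1 : h.symm x ∈ L
    · simp [ind, h1, hhs x h1] at hx
    · by_cases h3 : g.symm x ∈ L
      · simp [ind, h3, hgs x h3] at hx
      · by_cases h2 : x ∈ L
        · exact ⟨h2, h3, h1⟩
        · simp [ind, h1, h2] at hx
  have hψ := D.adm hL hh fun x hx => ⟨(hsupp x hx).1, (hsupp x hx).2.2⟩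
  have hψ' := D'.adm hL hg fun x hx => ⟨(hsupp x hx).1, (hsupp x hx).2.1⟩
  have h1 := (hW.mul_sub (hW.adm secF_φ) hψ).orb_sub (hW.mul_sub (hW.adm secF_φ) hψ')
  have h2 : Γ.orb (fun x => (D'.s (D'.P x) - D.s (D.P x)) *
      ((ind L x - ind L (g.symm x)) * (ind L x - ind L (h.symm x)))) =
      ((univ.filter fun q => q ≠ 0 ∧ D.s q = 0).card : ZMod 6) *
        ∑ q, if q ≠ 0 then D'.s q else 0 := by
    have h3 := D.adm hL hh (f := fun x => (D'.s (D'.P x) - D.s (D.P x)) *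
      ((ind L x - ind L (g.symm x)) * (ind L x - ind L (h.symm x)))) fun x hx =>
        ⟨(hsupp x (right_ne_zero_of_mul hx)).1, (hsupp x (right_ne_zero_of_mul hx)).2.2⟩
    have h4 := (int_eq_sum hL (Γ.inf (Γ.map hL h) (Γ.map hL g))
      (fun x hx => hhs x (mem_map_equiv'.1 hx.1)) (fun x => (D.P x, D'.P x))
      (fun x hx y hy => by
        rw [Prod.mk.injEq, D.eq_iff x hx y hy, D'.eq_iff x hx y hy, Submodule.mem_inf,
          mem_map_equiv', mem_map_equiv'])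
      (fun q => by
        obtain ⟨x, hx, h5⟩ := D.surj q.1
        obtain ⟨y, hy, h6⟩ := D'.surj q.2
        obtain ⟨a, ha, b, hb, h7⟩ := hco _ (L.sub_mem hx hy)
        have h8 : y + g a ∈ L := L.add_mem hy (hg a ha)
        refine ⟨y + g a, h8, Prod.ext ?_ ?_⟩
        · rw [← h5]
          refine ((D.eq_iff _ hx _ h8).2 ?_).symm
          rw [← sub_sub, h7]
          simpa using hb
        · rw [← h6]
          exact (D'.eq_iff _ h8 _ hy).2 (by simpa using ha))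
      fun q => (if q.1 ≠ 0 ∧ D.s q.1 = 0 then 1 else 0) * if q.2 ≠ 0 then D'.s q.2 else 0).2
    rw [(hW.mul_sub hψ' hψ).orb_eq h3.1 h3.2, Finset.card_filter]
    push_cast
    rw [Finset.sum_mul_sum, ← Fintype.sum_prod_type', ← h4]
    congr 1
    funext x
    by_cases h5 : x ∈ L
    · simp only [ind, h5, if_true, ← D.eq_zero h5, ← D'.eq_zero h5]
      by_cases h6 : D.P x = 0 <;> by_cases h7 : D'.P x = 0 <;> by_cases h8 : D.s (D.P x) = 0 <;>
        simp [h6, h7, h8]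
    · have h6 : h.symm x ∉ L := fun h' => h5 (hhs x h')
      simp [ind, h5, h6]
  rw [cm_eq hL hc, tau_half hL hc hg hh hi D, tau_half hL (fun x => (hc x).symm) hh hg hi' D', ← h2]
  have h3 : (fun x => (Γ.φ x - D'.s (D'.P x)) * ((ind L x - ind L (h.symm x)) *
      (ind L x - ind L (g.symm x)))) = fun x => (Γ.φ x - D'.s (D'.P x)) *
      ((ind L x - ind L (g.symm x)) * (ind L x - ind L (h.symm x))) := by
    funext x
    ring
  have h4 : (fun x => (D'.s (D'.P x) - D.s (D.P x)) *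
      ((ind L x - ind L (g.symm x)) * (ind L x - ind L (h.symm x)))) = fun x =>
      (Γ.φ x - D.s (D.P x)) * ((ind L x - ind L (g.symm x)) * (ind L x - ind L (h.symm x))) -
      (Γ.φ x - D'.s (D'.P x)) * ((ind L x - ind L (g.symm x)) * (ind L x - ind L (h.symm x))) := by
    funext x
    ring
  rw [h3, h4, h1]
  ring

end LatSys

end Crest.Agent.T27.Rc
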