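import Mathlib

/-!
# Row 27, sextic reciprocity over a number field, part 4: central extensions of `GL_n(K)`

Canonical lifts of the matrices `1 + N`, `N² = 0`, to a central extension of exponent `6`, and the
lifts `η` of the matrices `diag (u, u⁻¹)`.
-/

set_option autoImplicit false

noncomputable section

namespace Crest.Agent.T27.Rc

open Matrix

/-- a central extension of `GL_n(K)` with kernel of exponent `6` -/
structure CExt (K ι E : Type*) [Field K] [Fintype ι] [DecidableEq ι] [Group E] where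
  π : E →* Matrix ι ι K
  surj : ∀ g : Matrix ι ι K, IsUnit g → ∃ e, π e = g
  central : ∀ z, π z = 1 → ∀ e, Commute z e
  expo : ∀ z, π z = 1 → z ^ 6 = 1
  six : (6 : K) ≠ 0

variable {K ι E : Type*} [Field K] [Fintype ι] [DecidableEq ι] [Group E]

/-- basis vectors -/
abbrev ev (i : ι) : ι → K := Pi.single i 1

theorem one_add_pow {N : Matrix ι ι K} (hN : N * N = 0) (c : K) (k : ℕ) :
    (1 + c • N) ^ k = 1 + ((k : K) * c) • N := by
  induction k with
  | zero => simp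
  | succ k ih =>
    rw [pow_succ, ih]
    simp only [mul_add, add_mul, one_mul, mul_one, smul_mul_smul_comm, hN, smul_zero, add_zero,
      Nat.cast_succ, add_smul]
    abel

theorem isUnit_one_add {N : Matrix ι ι K} (hN : N * N = 0) (c : K) : IsUnit (1 + c • N) := by
  have h : ∀ a b : K, a + b = 0 → (1 + a • N) * (1 + b • N) = 1 := fun a b hab => by
    simp only [mul_add, add_mul, one_mul, mul_one, smul_mul_smul_comm, hN, smul_zero, add_zero]
    rw [add_assoc, ← add_smul, hab, zero_smul, add_zero]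
  exact ⟨⟨1 + c • N, 1 + (-c) • N, h _ _ (add_neg_cancel c), h _ _ (neg_add_cancel c)⟩, rfl⟩

theorem ext_mulVec {M N : Matrix ι ι K} (h : ∀ x, M *ᵥ x = N *ᵥ x) : M = N := by
  ext a b
  simpa using congrFun (h (Pi.single b 1)) a

namespace CExt

variable (C : CExt K ι E)

theorem π_inv_mul (e : E) : C.π e⁻¹ * C.π e = 1 := by rw [← map_mul, inv_mul_cancel, map_one]

theorem π_mul_inv (e : E) : C.π e * C.π e⁻¹ = 1 := by rw [← map_mul, mul_inv_cancel, map_one]

theorem exists_central {e e' : E} (h : C.π e = C.π e') : ∃ z, C.π z = 1 ∧ e = z * e' :=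
  ⟨e * e'⁻¹, by rw [map_mul, h, π_mul_inv], by simp⟩

theorem pow_eq {e e' : E} (h : C.π e = C.π e') : e ^ 6 = e' ^ 6 := by
  obtain ⟨z, hz, rfl⟩ := C.exists_central h
  rw [(C.central z hz e').mul_pow, C.expo z hz, one_mul]

open Classical in
/-- the canonical lift of `1 + N` -/
def s (N : Matrix ι ι K) : E :=
  (if h : ∃ e, C.π e = 1 + (6 : K)⁻¹ • N then h.choose else 1) ^ 6

theorem s_eq {N : Matrix ι ι K} {e : E} (h : C.π e = 1 + (6 : K)⁻¹ • N) : C.s N = e ^ 6 := by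
  have h1 : ∃ e, C.π e = 1 + (6 : K)⁻¹ • N := ⟨e, h⟩
  rw [s, dif_pos h1]
  exact C.pow_eq (h1.choose_spec.trans h.symm)

theorem π_s {N : Matrix ι ι K} (hN : N * N = 0) : C.π (C.s N) = 1 + N := by
  obtain ⟨e, he⟩ := C.surj _ (isUnit_one_add hN (6 : K)⁻¹)
  rw [C.s_eq he, map_pow, he, one_add_pow hN]
  push_cast
  rw [mul_inv_cancel₀ C.six, one_smul]

theorem s_zero : C.s 0 = 1 := by
  rw [C.s_eq (e := 1) (by simp), one_pow]

theorem s_conj {N : Matrix ι ι K} (hN : N * N = 0) (e : E) :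
    e * C.s N * e⁻¹ = C.s (C.π e * N * C.π e⁻¹) := by
  obtain ⟨f, hf⟩ := C.surj _ (isUnit_one_add hN (6 : K)⁻¹)
  rw [C.s_eq hf, C.s_eq (e := e * f * e⁻¹), conj_pow]
  rw [map_mul, map_mul, hf, mul_add, add_mul, mul_one, π_mul_inv, mul_smul_comm, smul_mul_assoc]

theorem s_add {N N' : Matrix ι ι K} (hN : N * N = 0) (hN' : N' * N' = 0) (h : N * N' = 0)
    (h' : N' * N = 0) : C.s (N + N') = C.s N * C.s N' := by
  obtain ⟨f, hf⟩ := C.surj _ (isUnit_one_add hN' (6 : K)⁻¹)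
  have h1 : ((6 : K)⁻¹ • N) * ((6 : K)⁻¹ • N) = 0 := by rw [smul_mul_smul_comm, hN, smul_zero]
  have h2 := C.π_s h1
  have h3 : Commute (C.s ((6 : K)⁻¹ • N)) f := by
    have h4 := C.s_conj h1 f
    have h5 : C.π f * ((6 : K)⁻¹ • N) = ((6 : K)⁻¹ • N) * C.π f := by
      simp only [hf, mul_add, add_mul, one_mul, mul_one, smul_mul_smul_comm, h, h']
    rw [h5, mul_assoc _ (C.π f), π_mul_inv, mul_one, mul_inv_eq_iff_eq_mul] at h4
    exact h4.symm
  rw [C.s_eq h2, C.s_eq hf, ← h3.mul_pow]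
  refine C.s_eq ?_
  rw [map_mul, h2, hf]
  simp only [mul_add, add_mul, one_mul, mul_one, smul_mul_smul_comm, h, smul_zero, add_zero,
    smul_add]
  abel

/-- the canonical lift of `1 + v wᵀ` -/
def U (v w : ι → K) : E := C.s (vecMulVec v w)

omit [DecidableEq ι] in
theorem vv_zero {v w v' w' : ι → K} (h : w ⬝ᵥ v' = 0) : vecMulVec v w * vecMulVec v' w' = 0 := by
  rw [vecMulVec_mul_vecMulVec, h, zero_smul, vecMulVec_zero]

theorem π_U {v w : ι → K} (h : w ⬝ᵥ v = 0) : C.π (C.U v w) = 1 + vecMulVec v w :=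
  C.π_s (vv_zero h)

theorem U_mulVec {v w : ι → K} (h : w ⬝ᵥ v = 0) (x : ι → K) :
    C.π (C.U v w) *ᵥ x = x + (w ⬝ᵥ x) • v := by
  rw [C.π_U h, add_mulVec, one_mulVec, vecMulVec_mulVec, op_smul_eq_smul]

theorem vecMul_U {v w : ι → K} (h : w ⬝ᵥ v = 0) (x : ι → K) :
    x ᵥ* C.π (C.U v w) = x + (x ⬝ᵥ v) • w := by
  rw [C.π_U h, vecMul_add, vecMul_one, vecMul_vecMulVec]

theorem det_U {v w : ι → K} (h : w ⬝ᵥ v = 0) : (C.π (C.U v w)).det = 1 := by
  rw [C.π_U h, vecMulVec_eq Unit, det_one_add_replicateCol_mul_replicateRow, h, add_zero]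

theorem U_zero_left (w : ι → K) : C.U 0 w = 1 := by rw [U, zero_vecMulVec, s_zero]

theorem U_zero_right (v : ι → K) : C.U v 0 = 1 := by rw [U, vecMulVec_zero, s_zero]

theorem U_smul (t : K) (v w : ι → K) : C.U (t • v) w = C.U v (t • w) := by
  rw [U, U, smul_vecMulVec, vecMulVec_smul]

theorem U_add_left {v v' w : ι → K} (h : w ⬝ᵥ v = 0) (h' : w ⬝ᵥ v' = 0) :
    C.U (v + v') w = C.U v w * C.U v' w := by
  rw [U, add_vecMulVec]
  exact C.s_add (vv_zero h) (vv_zero h') (vv_zero h') (vv_zero h)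

theorem U_add_right {v w w' : ι → K} (h : w ⬝ᵥ v = 0) (h' : w' ⬝ᵥ v = 0) :
    C.U v (w + w') = C.U v w * C.U v w' := by
  rw [U, vecMulVec_add]
  exact C.s_add (vv_zero h) (vv_zero h') (vv_zero h) (vv_zero h')

theorem U_inv {v w : ι → K} (h : w ⬝ᵥ v = 0) : (C.U v w)⁻¹ = C.U v (-w) := by
  rw [inv_eq_iff_mul_eq_one, ← C.U_add_right h (by rw [neg_dotProduct, h, neg_zero]),
    add_neg_cancel, U_zero_right]

theorem U_inv' {v w : ι → K} (h : w ⬝ᵥ v = 0) : (C.U v w)⁻¹ = C.U (-v) w := by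
  rw [C.U_inv h, ← neg_one_smul K w, ← U_smul, neg_one_smul]

theorem U_conj {v w : ι → K} (h : w ⬝ᵥ v = 0) (e : E) :
    e * C.U v w * e⁻¹ = C.U (C.π e *ᵥ v) (w ᵥ* C.π e⁻¹) := by
  rw [U, C.s_conj (vv_zero h), mul_vecMulVec, vecMulVec_mul, U]

theorem π_inv_diag {e : E} {d : ι → K} (h : C.π e = diagonal d) (hd : ∀ i, d i ≠ 0) :
    C.π e⁻¹ = diagonal fun i => (d i)⁻¹ := by
  have h1 : diagonal d * diagonal (fun i => (d i)⁻¹) = 1 := by
    rw [diagonal_mul_diagonal, ← diagonal_one]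
    congr 1
    funext i
    exact mul_inv_cancel₀ (hd i)
  rw [← mul_one (C.π e⁻¹), ← h1, ← mul_assoc, ← h, π_inv_mul, one_mul]

theorem diag_ev (d : ι → K) (i : ι) : diagonal d *ᵥ ev i = d i • ev i := by
  funext l
  by_cases h : l = i <;> simp [mulVec_diagonal, h]

theorem ev_diag (d : ι → K) (i : ι) : ev i ᵥ* diagonal d = d i • ev i := by
  funext l
  by_cases h : l = i <;> simp [vecMul_diagonal, h]

/-- elementary matrices -/
def X (i j : ι) (t : K) : E := C.U (ev i) (t • ev j)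

theorem dot_ev {i j : ι} (h : i ≠ j) (t : K) : (t • ev j) ⬝ᵥ (ev i : ι → K) = 0 := by
  simp [h]

theorem X_add {i j : ι} (h : i ≠ j) (a b : K) : C.X i j (a + b) = C.X i j a * C.X i j b := by
  rw [X, add_smul, C.U_add_right (dot_ev h a) (dot_ev h b), X, X]

theorem X_zero (i j : ι) : C.X i j 0 = 1 := by rw [X, zero_smul, U_zero_right]

theorem X_inv {i j : ι} (h : i ≠ j) (a : K) : (C.X i j a)⁻¹ = C.X i j (-a) := by
  rw [X, C.U_inv (dot_ev h a), X, neg_smul]

theorem X_diag {i j : ι} (h : i ≠ j) (a : K) {e : E} {d : ι → K} (he : C.π e = diagonal d)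
    (hd : ∀ i, d i ≠ 0) : e * C.X i j a * e⁻¹ = C.X i j (d i * (a * (d j)⁻¹)) := by
  rw [X, C.U_conj (dot_ev h a), C.π_inv_diag he hd, he, diag_ev, smul_vecMul, ev_diag, U_smul,
    smul_smul, smul_smul, X, mul_assoc]

/-- the diagonal entries of `diag (u, u⁻¹)` -/
def dg (i j : ι) (u : K) : ι → K := fun l => if l = i then u else if l = j then u⁻¹ else 1

/-- the lift of `diag (u, u⁻¹)`, `u = 1 + a b` -/
def η2 (i j : ι) (a b : K) : E :=
  C.X j i (-(b / (1 + a * b))) * C.X i j a * C.X j i b * C.X i j (-(a / (1 + a * b)))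

theorem π_η2 {i j : ι} (h : i ≠ j) {a b : K} (hu : 1 + a * b ≠ 0) :
    C.π (C.η2 i j a b) = diagonal (dg i j (1 + a * b)) := by
  refine ext_mulVec fun x => ?_
  simp only [η2, X, map_mul, ← mulVec_mulVec, C.U_mulVec (dot_ev h _), C.U_mulVec (dot_ev h.symm _)]
  funext l
  simp only [mulVec_diagonal, dg, Pi.add_apply, Pi.smul_apply, smul_dotProduct,
    single_dotProduct, Pi.single_apply, smul_eq_mul, h, h.symm, if_true, if_false]
  by_cases h1 : l = i
  · subst h1
    simp only [h, if_true, if_false]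
    field_simp
    ring
  · by_cases h2 : l = j
    · subst h2
      simp only [h1, if_true, if_false]
      field_simp
      ring
    · simp [h1, h2]

theorem det_η2 {i j : ι} (h : i ≠ j) (a b : K) : (C.π (C.η2 i j a b)).det = 1 := by
  simp only [η2, X, map_mul, det_mul, C.det_U (dot_ev h _), C.det_U (dot_ev h.symm _), mul_one]

theorem X_mul_X {i j : ι} (h : i ≠ j) (a b : K) : C.X i j a * C.X j i b =
    C.X j i (b / (1 + a * b)) * C.η2 i j a b * C.X i j (a / (1 + a * b)) := by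
  rw [η2, ← C.X_inv h, ← C.X_inv h.symm]
  group

/-- the lift of `diag (u, u⁻¹)` -/
def η (i j : ι) (u : K) : E := C.η2 i j (u - 1) 1

theorem π_η {i j : ι} (h : i ≠ j) {u : K} (hu : u ≠ 0) : C.π (C.η i j u) = diagonal (dg i j u) := by
  have h1 : 1 + (u - 1) * 1 = u := by ring
  rw [η, C.π_η2 h (by rwa [h1]), h1]

theorem η_one {i j : ι} (h : i ≠ j) : C.η i j 1 = 1 := by
  rw [η, η2, ← C.X_inv h.symm]
  simp [X_zero]

omit [Fintype ι] in
theorem dg_ne {i j : ι} {u : K} (hu : u ≠ 0) (l : ι) : dg i j u l ≠ 0 := by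
  rw [dg]
  split_ifs
  exacts [hu, inv_ne_zero hu, one_ne_zero]

theorem η2_eq {i j : ι} (h : i ≠ j) {a b : K}
    (hc : ∀ (e : E) (d : ι → K), C.π e = diagonal d → Commute (C.η2 i j a b) e) :
    C.η2 i j a b = C.η i j (1 + a * b) := by
  by_cases hb : b = 0
  · subst hb
    rw [mul_zero, add_zero, C.η_one h, η2, ← C.X_inv h]
    simp [X_zero]
  · have hd : ∀ l, (fun l => if l = i then b else 1) l ≠ 0 := fun l => by
      show (if l = i then b else 1) ≠ 0
      split_ifs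
      exacts [hb, one_ne_zero]
    obtain ⟨e, he⟩ := C.surj (diagonal fun l => if l = i then b else 1)
      (isUnit_diagonal.2 (Pi.isUnit_iff.2 fun l => (hd l).isUnit))
    have h1 : e * C.η2 i j a b * e⁻¹ = C.η2 i j a b := by
      rw [← (hc e _ he).eq, mul_inv_cancel_right]
    have h2 : ∀ x y : E, e * (x * y) * e⁻¹ = (e * x * e⁻¹) * (e * y * e⁻¹) := fun x y => by group
    rw [← h1, η2, h2, h2, h2, C.X_diag h _ he hd, C.X_diag h _ he hd, C.X_diag h.symm _ he hd,
      C.X_diag h.symm _ he hd, η, η2]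
    simp only [h.symm, if_true, if_false]
    have e1 : 1 + (1 + a * b - 1) * 1 = 1 + a * b := by ring
    have e2 : 1 * (-(b / (1 + a * b)) * b⁻¹) = -(1 / (1 + a * b)) := by field_simp
    have e3 : b * (a * 1⁻¹) = 1 + a * b - 1 := by ring
    have e4 : 1 * (b * b⁻¹) = 1 := by field_simp
    have e5 : b * (-(a / (1 + a * b)) * 1⁻¹) = -((1 + a * b - 1) / (1 + a * b)) := by ring
    rw [e1, e2, e3, e4, e5]

theorem η_mul {i j : ι} (h : i ≠ j) {u v : K} (hu : u ≠ 0) (hv : v ≠ 0)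
    (hc : ∀ (e e' : E) (d : ι → K), C.π e = diagonal (dg i j v) → C.π e' = diagonal d →
      Commute e e') : C.η i j (v * u) = C.η i j v * C.η i j u := by
  have e1 : 1 + (u - 1) * 1 = u := by ring
  have e2 : 1 + (v * u - 1) * 1 = v * u := by ring
  have e3 : 1 + (v - 1) * u * (1 / u) = v := by field_simp; ring
  have h1 := C.X_mul_X h (u - 1) 1
  have h2 := C.X_mul_X h (v * u - 1) 1
  have h3 := C.X_mul_X h ((v - 1) * u) (1 / u)
  rw [C.η2_eq h fun e d he => hc _ _ d (by rw [C.π_η2 h (by rwa [e3]), e3]) he] at h3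
  rw [e1] at h1
  rw [e2] at h2
  rw [e3] at h3
  have h4 := C.X_diag h ((v - 1) * u / v) (C.π_inv_diag (C.π_η h hu) (dg_ne hu))
    fun l => inv_ne_zero (dg_ne hu l)
  simp only [dg, h.symm, if_true, if_false, inv_inv] at h4
  have h5 : C.X i j ((v * u - 1) / (v * u)) =
      C.X i j (u⁻¹ * ((v - 1) * u / v * u⁻¹)) * C.X i j ((u - 1) / u) := by
    rw [← C.X_add h]
    congr 1
    field_simp
    ring
  have h6 : C.X i j (v * u - 1) = C.X i j ((v - 1) * u) * C.X i j (u - 1) := by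
    rw [← C.X_add h]
    congr 1
    ring
  rw [h6, mul_assoc, h1, ← mul_assoc, ← mul_assoc, h3, h5, ← h4,
    show 1 / u / v = 1 / (v * u) by field_simp] at h2
  have h7 : C.η i j (v * u) = (C.X j i (1 / (v * u)))⁻¹ * (C.X j i (1 / (v * u)) *
      C.η2 i j (v * u - 1) 1 * ((C.η i j u)⁻¹ * C.X i j ((v - 1) * u / v) * C.η i j u *
      C.X i j ((u - 1) / u))) * ((C.η i j u)⁻¹ * C.X i j ((v - 1) * u / v) * C.η i j u *
      C.X i j ((u - 1) / u))⁻¹ := by
    rw [η]
    group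
  rw [h7, ← h2, ← η]
  group

end CExt

end Crest.Agent.T27.Rc
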