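import Crest.Agent.T27.Rec4_64

/-!
# Row 27, sextic reciprocity over a number field, part 5: splitting over a congruence subgroup
-/

set_option autoImplicit false
set_option linter.unusedSectionVars false

noncomputable section

namespace Crest.Agent.T27.Rc

open Matrix

/-- a semilocal subring `R` of `K` and an element `q` of its radical with `R[1/q] = K` -/
structure Loc (K : Type*) [Field K] where
  R : Subring K
  q : K
  q_mem : q ∈ R
  unit : ∀ r ∈ R, 1 + q * r ≠ 0 ∧ (1 + q * r)⁻¹ ∈ R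
  arch : ∀ x : K, ∃ N : ℕ, q ^ N * x ∈ R

variable {K ι E : Type*} [Field K] [Fintype ι] [DecidableEq ι] [Group E]

namespace Loc

variable (Λ : Loc K)

/-- the ideal `t R` -/
def I (t x : K) : Prop := ∃ r ∈ Λ.R, x = t * r

variable {Λ} {t x y : K}

theorem I.zero : Λ.I t 0 := ⟨0, Λ.R.zero_mem, (mul_zero t).symm⟩
theorem I.add (hx : Λ.I t x) (hy : Λ.I t y) : Λ.I t (x + y) := by
  obtain ⟨r, hr, rfl⟩ := hx
  obtain ⟨s, hs, rfl⟩ := hy
  exact ⟨r + s, Λ.R.add_mem hr hs, by ring⟩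
theorem I.mul (hx : Λ.I t x) (hy : y ∈ Λ.R) : Λ.I t (x * y) := by
  obtain ⟨r, hr, rfl⟩ := hx
  exact ⟨r * y, Λ.R.mul_mem hr hy, by ring⟩
theorem I.mul' (hx : Λ.I t x) (hy : y ∈ Λ.R) : Λ.I t (y * x) := mul_comm x y ▸ hx.mul hy
theorem I.neg (hx : Λ.I t x) : Λ.I t (-x) := by
  simpa using hx.mul (Λ.R.neg_mem Λ.R.one_mem)
theorem I.mem (hx : Λ.I t x) (ht : t ∈ Λ.R) : x ∈ Λ.R := by
  obtain ⟨r, hr, rfl⟩ := hx
  exact Λ.R.mul_mem ht hr
theorem I.sum {α : Type*} {T : Finset α} {f : α → K} (h : ∀ i ∈ T, Λ.I t (f i)) :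
    Λ.I t (∑ i ∈ T, f i) :=
  Finset.sum_induction f (Λ.I t) (fun _ _ => I.add) I.zero h
theorem I.of_mul {s : K} (hx : Λ.I (t * s) x) (hs : s ∈ Λ.R) : Λ.I t x := by
  obtain ⟨r, hr, rfl⟩ := hx
  exact ⟨s * r, Λ.R.mul_mem hs hr, by ring⟩
theorem I_one : Λ.I 1 x ↔ x ∈ Λ.R :=
  ⟨fun h => h.mem Λ.R.one_mem, fun h => ⟨x, h, (one_mul x).symm⟩⟩

variable (Λ) in
/-- the units `≡ 1 (mod t)` -/
def H (t u : K) : Prop := Λ.I t (u - 1)

theorem H.one : Λ.H t 1 := by simpa [H] using I.zero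
theorem H.mem (h : Λ.H t x) (ht : Λ.I Λ.q t) : x ∈ Λ.R := by
  simpa using Λ.R.add_mem (I.mem h (ht.mem Λ.q_mem)) Λ.R.one_mem
theorem H.unit (h : Λ.H t x) (ht : Λ.I Λ.q t) : x ≠ 0 ∧ x⁻¹ ∈ Λ.R := by
  obtain ⟨r, hr, h1⟩ := h
  obtain ⟨s, hs, rfl⟩ := ht
  rw [show x = 1 + Λ.q * (s * r) by linear_combination h1]
  exact Λ.unit _ (Λ.R.mul_mem hs hr)
theorem H.mul (hx : Λ.H t x) (hy : Λ.H t y) (ht : Λ.I Λ.q t) : Λ.H t (x * y) := by
  have h := (I.mul hx (hy.mem ht)).add hy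
  rwa [show (x - 1) * y + (y - 1) = x * y - 1 by ring] at h
theorem H.inv (hx : Λ.H t x) (ht : Λ.I Λ.q t) : Λ.H t x⁻¹ := by
  have h := (I.mul hx (hx.unit ht).2).neg
  have h1 := (hx.unit ht).1
  rwa [show -((x - 1) * x⁻¹) = x⁻¹ - 1 by field_simp; ring] at h
theorem I_q : Λ.I Λ.q Λ.q := ⟨1, Λ.R.one_mem, (mul_one _).symm⟩
theorem H.dg {i j : ι} (h : Λ.H t x) (ht : Λ.I Λ.q t) (l : ι) : Λ.H t (CExt.dg i j x l) := by
  rw [CExt.dg]
  split_ifs
  exacts [h, h.inv ht, H.one]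

variable (Λ) in
/-- matrices over `R` that differ from `1` only in the block `S × S` -/
def Blk (S : Finset ι) (M : Matrix ι ι K) : Prop :=
  (∀ i j, M i j ∈ Λ.R) ∧ ∀ i j, i ∉ S ∨ j ∉ S → M i j = (1 : Matrix ι ι K) i j

variable (Λ) in
/-- vectors over `t R` supported in `S` -/
def Vec (S : Finset ι) (t : K) (c : ι → K) : Prop := ∀ i, Λ.I t (c i) ∧ (i ∉ S → c i = 0)

variable {S S' : Finset ι} {M N : Matrix ι ι K} {c c' : ι → K}

theorem one_mem (i j : ι) : (1 : Matrix ι ι K) i j ∈ Λ.R := by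
  rw [one_apply]
  split_ifs
  exacts [Λ.R.one_mem, Λ.R.zero_mem]

theorem Blk.one : Λ.Blk S (1 : Matrix ι ι K) := ⟨one_mem, fun _ _ _ => rfl⟩
theorem Blk.mono (h : Λ.Blk S M) (hS : S ⊆ S') : Λ.Blk S' M :=
  ⟨h.1, fun i j hij => h.2 i j (hij.imp (fun h1 h2 => h1 (hS h2)) fun h1 h2 => h1 (hS h2))⟩
theorem Blk.mul (h : Λ.Blk S M) (h' : Λ.Blk S N) : Λ.Blk S (M * N) := by
  refine ⟨fun i j => Λ.R.sum_mem fun l _ => Λ.R.mul_mem (h.1 i l) (h'.1 l j), fun i j hij => ?_⟩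
  rcases hij with hi | hj
  · rw [← h'.2 i j (Or.inl hi), mul_apply, Finset.sum_congr rfl fun l _ => by
      rw [h.2 i l (Or.inl hi)], ← mul_apply, Matrix.one_mul]
  · rw [← h.2 i j (Or.inr hj), mul_apply, Finset.sum_congr rfl fun l _ => by
      rw [h'.2 l j (Or.inr hj)], ← mul_apply, Matrix.mul_one]
theorem Blk.mulVec_ev (h : Λ.Blk S M) {k : ι} (hk : k ∉ S) : M *ᵥ ev k = ev k := by
  funext l
  simp [h.2 l k (Or.inr hk), one_apply, Pi.single_apply]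
theorem Blk.ev_vecMul (h : Λ.Blk S M) {k : ι} (hk : k ∉ S) : ev k ᵥ* M = ev k := by
  funext l
  simp [h.2 k l (Or.inl hk), one_apply, Pi.single_apply, eq_comm]
theorem Blk.diag {d : ι → K} (h : ∀ i, d i ∈ Λ.R) (h' : ∀ i, i ∉ S → d i = 1) :
    Λ.Blk S (diagonal d) := by
  refine ⟨fun i j => ?_, fun i j hij => ?_⟩
  · rw [diagonal_apply]
    split_ifs
    exacts [h i, Λ.R.zero_mem]
  · rw [diagonal_apply, one_apply]
    split_ifs with h1
    · subst h1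
      exact h' i (by simpa using hij)
    · rfl
theorem Blk.rank (h : Λ.Vec S 1 c) (h' : Λ.Vec S 1 c') : Λ.Blk S (1 + vecMulVec c c') := by
  refine ⟨fun i j => Λ.R.add_mem (one_mem i j)
    (Λ.R.mul_mem (I_one.1 (h i).1) (I_one.1 (h' j).1)), fun i j hij => ?_⟩
  rw [Matrix.add_apply, vecMulVec_apply]
  rcases hij with hi | hj
  · rw [(h i).2 hi, zero_mul, add_zero]
  · rw [(h' j).2 hj, mul_zero, add_zero]

theorem Vec.zero : Λ.Vec S t (0 : ι → K) := fun _ => ⟨I.zero, fun _ => rfl⟩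
theorem Vec.add (h : Λ.Vec S t c) (h' : Λ.Vec S t c') : Λ.Vec S t (c + c') := fun i =>
  ⟨(h i).1.add (h' i).1, fun hi => by rw [Pi.add_apply, (h i).2 hi, (h' i).2 hi, add_zero]⟩
theorem Vec.smul (h : Λ.Vec S t c) (hy : y ∈ Λ.R) : Λ.Vec S t (y • c) := fun i =>
  ⟨(h i).1.mul' hy, fun hi => by rw [Pi.smul_apply, (h i).2 hi, smul_zero]⟩
theorem Vec.neg (h : Λ.Vec S t c) : Λ.Vec S t (-c) := by
  simpa using h.smul (Λ.R.neg_mem Λ.R.one_mem)
theorem Vec.mono (h : Λ.Vec S t c) (hS : S ⊆ S') (ht : t ∈ Λ.R) : Λ.Vec S' 1 c := fun i =>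
  ⟨I_one.2 ((h i).1.mem ht), fun hi => (h i).2 fun h1 => hi (hS h1)⟩
theorem Vec.ev {k : ι} (hk : k ∈ S) (hx : Λ.I t x) : Λ.Vec S t (x • ev k) := fun i => by
  by_cases h : i = k
  · subst h
    exact ⟨by simpa using hx, fun h => (h hk).elim⟩
  · exact ⟨by simpa [h] using I.zero, fun _ => by simp [h]⟩
theorem Vec.ev1 {k : ι} (hk : k ∈ S) : Λ.Vec S 1 (Rc.ev k) := by
  simpa using Vec.ev (Λ := Λ) hk (I_one.2 Λ.R.one_mem)
theorem Blk.mulVec (h : Λ.Blk S M) (hc : Λ.Vec S t c) : Λ.Vec S t (M *ᵥ c) := fun i =>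
  ⟨I.sum fun l _ => (hc l).1.mul' (h.1 i l), fun hi => by
    rw [← (hc i).2 hi]
    conv_rhs => rw [← one_mulVec c]
    exact Finset.sum_congr rfl fun l _ => by simp only [h.2 i l (Or.inl hi)]⟩
theorem Blk.vecMul (h : Λ.Blk S M) (hc : Λ.Vec S t c) : Λ.Vec S t (c ᵥ* M) := fun i =>
  ⟨I.sum fun l _ => (hc l).1.mul (h.1 l i), fun hi => by
    rw [← (hc i).2 hi]
    conv_rhs => rw [← vecMul_one c]
    exact Finset.sum_congr rfl fun l _ => by simp only [h.2 l i (Or.inr hi)]⟩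
theorem Vec.diag {d : ι → K} (hc : Λ.Vec S t c) (h : ∀ i, d i ∈ Λ.R) :
    Λ.Vec S t (diagonal d *ᵥ c) := fun i => by
  rw [mulVec_diagonal]
  exact ⟨(hc i).1.mul' (h i), fun hi => by rw [(hc i).2 hi, mul_zero]⟩
theorem Vec.dot (hc : Λ.Vec S t c) {k : ι} (hk : k ∉ S) : c ⬝ᵥ Rc.ev k = 0 := by
  simpa using (hc k).2 hk
theorem Vec.dot' (hc : Λ.Vec S t c) {k : ι} (hk : k ∉ S) : Rc.ev k ⬝ᵥ c = 0 := by
  simpa using (hc k).2 hk

end Loc

namespace CExt

open Loc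

variable (C : CExt K ι E) (Λ : Loc K)

theorem U_mem {H : Subgroup E} {j : ι} {a : K} (T : Finset ι) :
    ∀ c : ι → K, c j = 0 → (∀ i, i ∉ T → c i = 0) → (∀ i, i ≠ j → C.X i j (c i * a) ∈ H) →
      C.U c (a • ev j) ∈ H := by
  induction T using Finset.induction_on with
  | empty =>
    intro c _ h _
    rw [show c = 0 from funext fun i => h i (Finset.notMem_empty i), U_zero_left]
    exact H.one_mem
  | insert k T hk ih =>
    intro c h0 h1 h2
    by_cases hkj : k = j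
    · exact ih c h0 (fun i hi => by
        by_cases h : i = k
        · rw [h, hkj, h0]
        · exact h1 i (by simp [h, hi])) h2
    have h3 : c = Function.update c k 0 + c k • ev k := by
      funext l
      by_cases h : l = k <;> simp [h]
    have h4 : Function.update c k 0 j = 0 := by rw [Function.update_of_ne (Ne.symm hkj), h0]
    rw [h3, C.U_add_left (by simp [h4]) (by simp [Ne.symm hkj]), U_smul, smul_smul]
    refine H.mul_mem (ih _ h4 (fun i hi => ?_) fun i hi => ?_) (h2 k hkj)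
    · by_cases h : i = k
      · simp [h]
      · rw [Function.update_of_ne h]
        exact h1 i (by simp [h, hi])
    · by_cases h : i = k
      · simp [h, X_zero]
      · rw [Function.update_of_ne h]
        exact h2 i hi

/-- the commutator pairing is trivial on the diagonal matrices `≡ 1 (mod q)` -/
def HDiag : Prop :=
  ∀ (e e' : E) (s t : ι → K), C.π e = diagonal s → C.π e' = diagonal t → (∀ i, Λ.H Λ.q (s i)) →
    Commute e e'

/-- the properties of the splitting subgroup -/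
structure Split (S : Finset ι) (H : Subgroup E) (t : K) : Prop where
  ht : Λ.I Λ.q t
  inj : ∀ h ∈ H, C.π h = 1 → h = 1
  blk : ∀ h ∈ H, Λ.Blk S (C.π h)
  mem : ∀ i ∈ S, ∀ j ∈ S, i ≠ j → ∀ x, Λ.I t x → C.X i j x ∈ H
  conj : ∀ e s, C.π e = diagonal s → (∀ i, Λ.H Λ.q (s i)) → ∀ h ∈ H, e * h * e⁻¹ ∈ H

variable {C Λ}

theorem split_step (hd : C.HDiag Λ) {S : Finset ι} {H : Subgroup E} {t : K}
    (hS : C.Split Λ S H t) {k k' : ι} (hk : k ∉ S) (hk' : k' ∈ S) :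
    ∃ H', C.Split Λ (insert k S) H' (t * Λ.q) := by
  have hne : k ≠ k' := fun h => hk (h ▸ hk')
  have htR : t ∈ Λ.R := hS.ht.mem Λ.q_mem
  have hη : ∀ {u}, Λ.H Λ.q u → C.π (C.η k k' u) = diagonal (dg k k' u) := fun hu =>
    C.π_η hne (hu.unit I_q).1
  have hηm : ∀ {u v}, Λ.H Λ.q u → Λ.H Λ.q v → C.η k k' (v * u) = C.η k k' v * C.η k k' u :=
    fun hu hv => C.η_mul hne (hu.unit I_q).1 (hv.unit I_q).1
      fun e e' d he he' => hd e e' _ d he he' (hv.dg I_q)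
  have hηi : ∀ {u}, Λ.H Λ.q u → (C.η k k' u)⁻¹ = C.η k k' u⁻¹ := fun hu => by
    rw [inv_eq_iff_mul_eq_one, ← hηm (hu.inv I_q) hu, mul_inv_cancel₀ (hu.unit I_q).1,
      C.η_one hne]
  let G : Set E := {x | x ∈ H ∨ (∃ c, Λ.Vec S t c ∧ x = C.U c (ev k)) ∨
    (∃ a, Λ.I Λ.q a ∧ x = C.X k k' a) ∨ ∃ u, Λ.H Λ.q u ∧ x = C.η k k' u}
  let NF : E → Prop := fun y => ∃ c u h r, Λ.Vec S t c ∧ Λ.H Λ.q u ∧ h ∈ H ∧ Λ.Vec S 1 r ∧
    y = C.U c (ev k) * (C.η k k' u * (h * C.U (ev k) r))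
  have hcol : ∀ (e : E) (s : ι → K) c, C.π e = diagonal s → (∀ i, Λ.H Λ.q (s i)) → Λ.Vec S t c →
      ∃ c', Λ.Vec S t c' ∧ e * C.U c (ev k) * e⁻¹ = C.U c' (ev k) := fun e s c he hs hc =>
    ⟨(s k)⁻¹ • (diagonal s *ᵥ c), (hc.diag fun i => (hs i).mem I_q).smul ((hs k).unit I_q).2, by
      rw [C.U_conj (hc.dot' hk), C.π_inv_diag he fun i => ((hs i).unit I_q).1, he, ev_diag,
        U_smul]⟩
  have n1 : ∀ x ∈ H, ∀ y, NF y → NF (x * y) := by
    rintro x hx _ ⟨c, u, h, r, hc, hu, hh, hr, rfl⟩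
    have h1 := C.U_conj (hc.dot' hk) x
    rw [(hS.blk _ (H.inv_mem hx)).ev_vecMul hk] at h1
    have h2 := hS.conj _ _ (hη (hu.inv I_q)) ((hu.inv I_q).dg I_q) x hx
    refine ⟨_, u, _, r, (hS.blk x hx).mulVec hc, hu, H.mul_mem h2 hh, hr, ?_⟩
    rw [← h1, ← hηi hu]
    group
  have n2 : ∀ c', Λ.Vec S t c' → ∀ y, NF y → NF (C.U c' (ev k) * y) := by
    rintro c' hc' _ ⟨c, u, h, r, hc, hu, hh, hr, rfl⟩
    exact ⟨c' + c, u, h, r, hc'.add hc, hu, hh, hr, by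
      rw [C.U_add_left (hc'.dot' hk) (hc.dot' hk), mul_assoc]⟩
  have n3 : ∀ v, Λ.H Λ.q v → ∀ y, NF y → NF (C.η k k' v * y) := by
    rintro v hv _ ⟨c, u, h, r, hc, hu, hh, hr, rfl⟩
    obtain ⟨c', hc', h1⟩ := hcol _ _ c (hη hv) (hv.dg I_q) hc
    refine ⟨c', v * u, h, r, hc', hv.mul hu I_q, hh, hr, ?_⟩
    rw [← h1, hηm hu hv]
    group
  have n4 : ∀ a, Λ.I Λ.q a → ∀ y, NF y → NF (C.X k k' a * y) := by
    rintro a ha _ ⟨c, u, h, r, hc, hu, hh, hr, rfl⟩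
    have hw : Λ.H Λ.q (1 + a * c k') := by
      simpa [Loc.H] using ha.mul ((hc k').1.mem htR)
    have hc' : Λ.Vec S t (Function.update c k' 0) := fun i => by
      by_cases h : i = k'
      · subst h
        simpa using I.zero
      · rw [Function.update_of_ne h]
        exact hc i
    have h3 : c = Function.update c k' 0 + c k' • ev k' := by
      funext l
      by_cases h : l = k' <;> simp [h]
    have hb : Λ.Vec S t (c k' • ev k') := Vec.ev hk' (hc k').1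
    have h4 := C.U_conj (hc'.dot' hk) (C.X k k' a)
    rw [C.X_inv hne, X, X, C.U_mulVec (dot_ev hne _), C.vecMul_U (dot_ev hne _)] at h4
    simp only [smul_dotProduct, single_dotProduct, Function.update_self, mul_zero, smul_zero,
      zero_smul, add_zero, Pi.single_eq_same, mul_one, one_smul] at h4
    rw [C.U_add_right (hc'.dot' hk) (by simp)] at h4
    have h5 : C.U (Function.update c k' 0) (-a • ev k') ∈ H :=
      C.U_mem Finset.univ _ (by simp) (by simp) fun i hi => by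
        by_cases h : i ∈ S
        · exact hS.mem i h k' hk' hi _ ((hc' i).1.mul (ha.neg.mem Λ.q_mem))
        · rw [(hc' i).2 h, zero_mul, X_zero]
          exact H.one_mem
    have h6 := C.X_mul_X hne a (c k')
    rw [C.η2_eq hne fun e d he => hd _ _ _ d (C.π_η2 hne (hw.unit I_q).1) he (hw.dg I_q)] at h6
    have hv : a / (1 + a * c k') ∈ Λ.R := by
      rw [div_eq_mul_inv]
      exact Λ.R.mul_mem (ha.mem Λ.q_mem) (hw.unit I_q).2
    have h7 := C.X_diag hne (a / (1 + a * c k')) (hη (hu.inv I_q)) (dg_ne (inv_ne_zero (hu.unit I_q).1))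
    have hv' : Λ.Vec S 1 ((dg k k' u⁻¹ k * (a / (1 + a * c k') * (dg k k' u⁻¹ k')⁻¹)) • ev k') :=
      Vec.ev hk' (I_one.2 (Λ.R.mul_mem (((hu.inv I_q).dg I_q k).mem I_q) (Λ.R.mul_mem
        hv (((hu.inv I_q).dg I_q k').unit I_q).2)))
    have h8 := C.U_conj (hv'.dot hk) h⁻¹
    rw [(hS.blk _ (H.inv_mem hh)).mulVec_ev hk, inv_inv, ← X, ← h7] at h8
    have hr' := (hS.blk h hh).vecMul hv'
    have h9 : NF (C.X k k' (a / (1 + a * c k')) * (C.η k k' u * (h * C.U (ev k) r))) := by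
      refine ⟨0, u, h, _, Vec.zero, hu, hh, hr'.add hr, ?_⟩
      rw [U_zero_left, C.U_add_right (hr'.dot hk) (hr.dot hk), ← h8, ← hηi hu]
      group
    have h10 := n2 _ hc' _ (n1 _ h5 _ (n2 ((c k' / (1 + a * c k')) • ev k')
      (Vec.ev hk' (by rw [div_eq_mul_inv]; exact (hc k').1.mul (hw.unit I_q).2)) _ (n3 _ hw _ h9)))
    convert h10 using 1
    conv_lhs => rw [h3, C.U_add_left (hc'.dot' hk) (hb.dot' hk), U_smul, ← X]
    rw [U_smul, ← X, ← mul_assoc (C.U _ _) (C.U _ _), ← h4, ← mul_assoc (C.X k' k _),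
      ← mul_assoc (_ * C.η _ _ _), ← h6, ← X, ← X, ← C.X_inv hne]
    group
  have hG : ∀ x ∈ G, ∀ y, NF y → NF (x * y) := by
    rintro x (hx | ⟨c, hc, rfl⟩ | ⟨a, ha, rfl⟩ | ⟨u, hu, rfl⟩)
    exacts [n1 x hx, n2 c hc, n4 a ha, n3 u hu]
  have hG' : ∀ x ∈ G, x⁻¹ ∈ G := by
    rintro x (hx | ⟨c, hc, rfl⟩ | ⟨a, ha, rfl⟩ | ⟨u, hu, rfl⟩)
    · exact Or.inl (H.inv_mem hx)
    · exact Or.inr (Or.inl ⟨-c, hc.neg, C.U_inv' (hc.dot' hk)⟩)
    · exact Or.inr (Or.inr (Or.inl ⟨-a, ha.neg, C.X_inv hne a⟩))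
    · exact Or.inr (Or.inr (Or.inr ⟨u⁻¹, hu.inv I_q, hηi hu⟩))
  have hNF : ∀ y ∈ Subgroup.closure G, NF y := fun y hy =>
    Subgroup.closure_induction_left (p := fun y _ => NF y)
      ⟨0, 1, 1, 0, Vec.zero, Loc.H.one, H.one_mem, Vec.zero, by
        simp [U_zero_left, U_zero_right, C.η_one hne]⟩
      (fun x hx y _ h => hG x hx y h) (fun x hx y _ h => hG _ (hG' x hx) y h) hy
  have g1 : ∀ x ∈ H, x ∈ Subgroup.closure G := fun x hx => Subgroup.subset_closure (Or.inl hx)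
  have g2 : ∀ c, Λ.Vec S t c → C.U c (ev k) ∈ Subgroup.closure G := fun c hc =>
    Subgroup.subset_closure (Or.inr (Or.inl ⟨c, hc, rfl⟩))
  have g3 : ∀ a, Λ.I Λ.q a → C.X k k' a ∈ Subgroup.closure G := fun a ha =>
    Subgroup.subset_closure (Or.inr (Or.inr (Or.inl ⟨a, ha, rfl⟩)))
  have g4 : ∀ u, Λ.H Λ.q u → C.η k k' u ∈ Subgroup.closure G := fun u hu =>
    Subgroup.subset_closure (Or.inr (Or.inr (Or.inr ⟨u, hu, rfl⟩)))
  refine ⟨Subgroup.closure G, hS.ht.mul Λ.q_mem, fun y hy h1 => ?_, fun y hy => ?_,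
    fun i hi j hj hij x hx => ?_, fun e s he hs y hy => ?_⟩
  · obtain ⟨c, u, h, r, hc, hu, hh, hr, rfl⟩ := hNF y hy
    have h2 := congrArg (· *ᵥ ev k) h1
    simp only [map_mul, ← mulVec_mulVec, C.U_mulVec (hr.dot hk), C.U_mulVec (hc.dot' hk), hr.dot hk,
      zero_smul, add_zero, (hS.blk h hh).mulVec_ev hk, hη hu, diag_ev, one_mulVec] at h2
    have h3 : u = 1 := by simpa [dg, (hc k).2 hk] using congrFun h2 k
    subst h3
    have h4 : c = 0 := by simpa [dg] using h2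
    subst h4
    rw [U_zero_left, C.η_one hne, one_mul, one_mul] at h1 ⊢
    have h5 := congrArg (ev k ᵥ* ·) h1
    simp only [map_mul, ← vecMul_vecMul, (hS.blk h hh).ev_vecMul hk, C.vecMul_U (hr.dot hk),
      vecMul_one] at h5
    have h6 : r = 0 := by simpa using h5
    subst h6
    rw [U_zero_right, mul_one] at h1 ⊢
    exact hS.inj h hh h1
  · obtain ⟨c, u, h, r, hc, hu, hh, hr, rfl⟩ := hNF y hy
    have h2 := Finset.subset_insert k S
    have h3 := Finset.mem_insert_self k S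
    rw [map_mul, map_mul, map_mul, C.π_U (hc.dot' hk), C.π_U (hr.dot hk), hη hu]
    refine (Blk.rank (hc.mono h2 htR) (Vec.ev1 h3)).mul ((Blk.diag (fun i => (hu.dg I_q i).mem I_q)
      fun i hi => ?_).mul (((hS.blk h hh).mono h2).mul
        (Blk.rank (Vec.ev1 h3) (hr.mono h2 Λ.R.one_mem))))
    rw [dg, if_neg fun h : i = k => hi (h ▸ h3), if_neg fun h : i = k' => hi (h ▸ h2 hk')]
  · have hx' : Λ.I t x := hx.of_mul Λ.q_mem
    rcases Finset.mem_insert.1 hi with rfl | hi'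
    · have hj' : j ∈ S := (Finset.mem_insert.1 hj).resolve_left hij.symm
      obtain ⟨r, hr, rfl⟩ := hx
      by_cases h1 : j = k'
      · subst h1
        exact g3 _ ⟨t * r, Λ.R.mul_mem htR hr, by ring⟩
      have h2 : C.X i k' Λ.q * C.X k' j (t * r) * C.X i k' (-Λ.q) =
          C.X k' j (t * r) * C.X i j (Λ.q * (t * r)) := by
        have h2 := C.U_conj (dot_ev (Ne.symm h1) (t * r)) (C.X i k' Λ.q)
        rw [C.X_inv hne] at h2
        simp only [X] at h2 ⊢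
        rw [h2, C.U_mulVec (dot_ev hne _), C.vecMul_U (dot_ev hne _), dot_ev hij,
          zero_smul, add_zero, C.U_add_left (dot_ev (Ne.symm h1) _) (by simp [hij.symm]), U_smul,
          smul_smul]
        simp
      have h3 := g1 _ (hS.mem k' hk' j hj' (Ne.symm h1) (t * r) ⟨r, hr, rfl⟩)
      rw [show t * Λ.q * r = Λ.q * (t * r) by ring, eq_inv_mul_of_mul_eq h2.symm]
      exact Subgroup.mul_mem _ (Subgroup.inv_mem _ h3) (Subgroup.mul_mem _
        (Subgroup.mul_mem _ (g3 _ I_q) h3) (g3 _ I_q.neg))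
    · rcases Finset.mem_insert.1 hj with rfl | hj
      · rw [X, ← U_smul]
        exact g2 _ (Vec.ev hi' hx')
      · exact g1 _ (hS.mem i hi' j hj hij x hx')
  · refine Subgroup.closure_induction (p := fun y _ => e * y * e⁻¹ ∈ Subgroup.closure G)
      ?_ (by simp) (fun x y _ _ h1 h2 => ?_) (fun x _ h1 => ?_) hy
    · rintro x (hx | ⟨c, hc, rfl⟩ | ⟨a, ha, rfl⟩ | ⟨u, hu, rfl⟩)
      · exact g1 _ (hS.conj e s he hs x hx)
      · obtain ⟨c', hc', h1⟩ := hcol e s c he hs hc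
        rw [h1]
        exact g2 c' hc'
      · rw [C.X_diag hne a he fun i => ((hs i).unit I_q).1]
        exact g3 _ ((ha.mul ((hs k').unit I_q).2).mul' ((hs k).mem I_q))
      · rw [(hd e _ s _ he (hη hu) hs).eq, mul_inv_cancel_right]
        exact g4 u hu
    · rw [show e * (x * y) * e⁻¹ = (e * x * e⁻¹) * (e * y * e⁻¹) by group]
      exact Subgroup.mul_mem _ h1 h2
    · rw [show e * x⁻¹ * e⁻¹ = (e * x * e⁻¹)⁻¹ by group]
      exact Subgroup.inv_mem _ h1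

theorem exists_split (hd : C.HDiag Λ) (S : Finset ι) :
    ∃ H, ∃ n : ℕ, C.Split Λ S H (Λ.q ^ (n + 1)) := by
  have h0 : ∀ S : Finset ι, (∀ i ∈ S, ∀ j ∈ S, i = j) → C.Split Λ S ⊥ (Λ.q ^ (0 + 1)) := fun S hS =>
    ⟨by simpa using I_q, fun h hh _ => Subgroup.mem_bot.1 hh,
      fun h hh => by rw [Subgroup.mem_bot.1 hh, map_one]; exact Blk.one,
      fun i hi j hj hij => (hij (hS i hi j hj)).elim,
      fun e s _ _ h hh => by simp [Subgroup.mem_bot.1 hh]⟩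
  induction S using Finset.induction_on with
  | empty => exact ⟨⊥, 0, h0 _ (by simp)⟩
  | insert k S hk ih =>
    rcases S.eq_empty_or_nonempty with rfl | ⟨k', hk'⟩
    · exact ⟨⊥, 0, h0 _ (by simp)⟩
    · obtain ⟨H, n, hH⟩ := ih
      obtain ⟨H', hH'⟩ := split_step hd hH hk hk'
      exact ⟨H', n + 1, by rwa [pow_succ]⟩

end CExt

end Crest.Agent.T27.Rc
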