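import Crest.Agent.T27.Rec5_64

/-!
# Row 27, sextic reciprocity over a number field, part 6: deep elements have trivial commutators
-/

set_option autoImplicit false
set_option linter.unusedSectionVars false

noncomputable section

namespace Crest.Agent.T27.Rc

open Matrix

variable {K ι E : Type*} [Field K] [Fintype ι] [DecidableEq ι] [Group E]

namespace Loc

variable (Λ : Loc K)

/-- matrices `≡ 1 (mod t)` -/
def Cg (t : K) (M : Matrix ι ι K) : Prop := ∀ i j, Λ.I t (M i j - (1 : Matrix ι ι K) i j)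

variable {Λ} {t : K} {M N : Matrix ι ι K}

theorem Cg.mem (h : Λ.Cg t M) (ht : t ∈ Λ.R) (i j : ι) : M i j ∈ Λ.R := by
  simpa using Λ.R.add_mem ((h i j).mem ht) (one_mem i j)

theorem Cg.mul (h : Λ.Cg t M) (h' : Λ.Cg t N) (ht : t ∈ Λ.R) : Λ.Cg t (M * N) := fun i j => by
  have h1 : M * N - 1 = (M - 1) * N + (N - 1) := by
    rw [sub_mul, Matrix.one_mul]
    abel
  have h2 := congrFun (congrFun h1 i) j
  rw [Matrix.sub_apply] at h2
  rw [h2, Matrix.add_apply, mul_apply]
  exact (I.sum fun l _ => (h i l).mul (h'.mem ht l j)).add (h' i j)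

theorem Cg.diag {d : ι → K} (h : ∀ i, Λ.H t (d i)) : Λ.Cg t (diagonal d) := fun i j => by
  rw [diagonal_apply, one_apply]
  split_ifs
  · exact h i
  · simpa using I.zero

theorem Cg.rank {v w : ι → K} (h : ∀ i j, Λ.I t (v i * w j)) : Λ.Cg t (1 + vecMulVec v w) :=
  fun i j => by simpa [vecMulVec_apply] using h i j

theorem pow_mem (x : K) {n m : ℕ} (h : Λ.q ^ n * x ∈ Λ.R) (hnm : n ≤ m) : Λ.q ^ m * x ∈ Λ.R := by
  obtain ⟨c, rfl⟩ := Nat.exists_eq_add_of_le' hnm
  rw [pow_add, mul_assoc]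
  exact Λ.R.mul_mem (Λ.R.pow_mem Λ.q_mem c) h

end Loc

namespace CExt

open Loc

variable {C : CExt K ι E} {Λ : Loc K}

/-- Gaussian elimination in the congruence subgroup -/
theorem elim {H : Subgroup E} {t : K} (ht : Λ.I Λ.q t)
    (hH : ∀ i j, i ≠ j → ∀ x, Λ.I t x → C.X i j x ∈ H) (S : Finset ι) :
    ∀ g : Matrix ι ι K, Λ.Blk S g → Λ.Cg (t * t) g → g.det = 1 → ∃ h ∈ H, C.π h = g := by
  have htR : t ∈ Λ.R := ht.mem Λ.q_mem
  have htt : Λ.I Λ.q (t * t) := ht.mul htR
  induction S using Finset.induction_on with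
  | empty =>
    intro g hg _ _
    exact ⟨1, H.one_mem, by
      rw [map_one]
      ext i j
      exact (hg.2 i j (Or.inl (Finset.notMem_empty i))).symm⟩
  | insert k S hk ih =>
    intro g hg hc hdet
    rcases S.eq_empty_or_nonempty with rfl | ⟨k', hk'⟩
    · have h1 : g = diagonal (Function.update 1 k (g k k)) := by
        ext i j
        by_cases hi : i = k
        · by_cases hj : j = k
          · simp [hi, hj]
          · rw [hg.2 i j (Or.inr (by simpa using hj))]
            simp [hi, Ne.symm hj]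
        · rw [hg.2 i j (Or.inl (by simpa using hi)), one_apply, diagonal_apply,
            Function.update_of_ne hi, Pi.one_apply]
      rw [h1, det_diagonal, Finset.prod_update_of_mem (Finset.mem_univ k)] at hdet
      simp only [Pi.one_apply, Finset.prod_const_one, mul_one] at hdet
      exact ⟨1, H.one_mem, by rw [h1, hdet, map_one]; simp⟩
    have hne : k ≠ k' := fun h => hk (h ▸ hk')
    have ha : Λ.H (t * t) (g k k) := by simpa [Loc.H] using hc k k
    have ha0 := (ha.unit htt).1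
    have hsub := Finset.subset_insert k S
    have hkk := Finset.mem_insert_self k S
    let c : ι → K := fun i => if i = k then 0 else -(g i k * (g k k)⁻¹)
    let r : ι → K := fun i => if i = k then 0 else -(g k i * (g k k)⁻¹)
    have hcv : Λ.Vec S (t * t) c := fun i => by
      by_cases h : i = k
      · simpa [c, h] using I.zero
      · have h1 := hc i k
        rw [one_apply_ne h, sub_zero] at h1
        refine ⟨by simpa only [c, h, if_false] using (h1.mul (ha.unit htt).2).neg, fun hi => ?_⟩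
        simp [c, hg.2 i k (Or.inl (by simp [h, hi])), h]
    have hrv : Λ.Vec S (t * t) r := fun i => by
      by_cases h : i = k
      · simpa [r, h] using I.zero
      · have h1 := hc k i
        rw [one_apply_ne' h, sub_zero] at h1
        refine ⟨by simpa only [r, h, if_false] using (h1.mul (ha.unit htt).2).neg, fun hi => ?_⟩
        simp [r, hg.2 k i (Or.inr (by simp [h, hi])), h, one_apply_ne' h]
    obtain ⟨x, hx, hx'⟩ := ha.inv htt
    have hu : 1 + t * (t * x) = (g k k)⁻¹ := by linear_combination -hx'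
    have hη := C.π_η2 hne (a := t) (b := t * x) (by rw [hu]; exact inv_ne_zero ha0)
    rw [hu] at hη
    have hty : ∀ y ∈ Λ.R, Λ.I t (t * y) := fun y hy => ⟨y, hy, rfl⟩
    have haR := ha.mem htt
    have m1 : C.η2 k k' t (t * x) ∈ H := by
      rw [η2, hu, div_inv_eq_mul, div_inv_eq_mul]
      exact H.mul_mem (H.mul_mem (H.mul_mem (hH _ _ hne.symm _ ((hty x hx).mul haR).neg)
        (hH _ _ hne _ (by simpa using hty 1 Λ.R.one_mem))) (hH _ _ hne.symm _ (hty x hx)))
        (hH _ _ hne _ (hty _ haR).neg)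
    have m2 : C.U c (ev k) ∈ H := by
      have := C.U_mem (H := H) (j := k) (a := 1) Finset.univ c (by simp [c]) (by simp)
        fun i hi => hH i k hi _ (by simpa using (hcv i).1.of_mul htR)
      rwa [one_smul] at this
    have m3 : C.U (ev k) r ∈ H := by
      have h1 : ∀ T : Finset ι, C.U (ev k) (∑ i ∈ T, r i • ev i) ∈ H := fun T => by
        induction T using Finset.induction_on with
        | empty => simp [U_zero_right]
        | insert j T hj ih =>
          have h2 : ∀ i, (r i • ev i : ι → K) ⬝ᵥ ev k = 0 := fun i => by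
            by_cases h : i = k
            · simp [r, h]
            · exact dot_ev (Ne.symm h) _
          rw [Finset.sum_insert hj, C.U_add_right (h2 j)
            (by rw [sum_dotProduct]; exact Finset.sum_eq_zero fun i _ => h2 i)]
          refine H.mul_mem ?_ ih
          by_cases h : j = k
          · simp [r, h, U_zero_right]
          · exact hH k j (Ne.symm h) _ ((hrv j).1.of_mul htR)
      have h2 : ∑ i, r i • ev i = r := by
        funext l
        simp [Finset.sum_apply, Pi.single_apply]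
      simpa only [h2] using h1 Finset.univ
    have httR : t * t ∈ Λ.R := Λ.R.mul_mem htR htR
    set β := C.π (C.η2 k k' t (t * x)) * (C.π (C.U c (ev k)) * (g * C.π (C.U (ev k) r))) with hβ
    have b1 : Λ.Blk (insert k S) β := by
      rw [hβ, hη, C.π_U (hcv.dot' hk), C.π_U (hrv.dot hk)]
      refine (Blk.diag (fun i => ((ha.inv htt).dg htt i).mem htt) fun i hi => ?_).mul
        ((Blk.rank (hcv.mono hsub httR) (Vec.ev1 hkk)).mul
          (hg.mul (Blk.rank (Vec.ev1 hkk) (hrv.mono hsub httR))))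
      rw [dg, if_neg fun h : i = k => hi (h ▸ hkk), if_neg fun h : i = k' => hi (h ▸ hsub hk')]
    have b2 : β *ᵥ ev k = ev k := by
      simp only [hβ, ← mulVec_mulVec, C.U_mulVec (hrv.dot hk), C.U_mulVec (hcv.dot' hk), hrv.dot hk,
        zero_smul, add_zero, hη]
      funext l
      by_cases h : l = k
      · simp [mulVec_diagonal, dg, h, c, ha0]
      · simp [mulVec_diagonal, h, c]
        exact Or.inr (by field_simp; ring)
    have b3 : ev k ᵥ* β = ev k := by
      simp only [hβ, ← vecMul_vecMul, C.vecMul_U (hrv.dot hk), C.vecMul_U (hcv.dot' hk), hη, ev_diag,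
        smul_dotProduct, hcv.dot' hk, smul_zero, zero_smul, add_zero]
      funext l
      by_cases h : l = k
      · simp [dg, h, r, ha0, smul_vecMul]
      · simp [dg, h, r, ha0, smul_vecMul]
        ring
    have hev : ∀ i, (ev k : ι → K) i ∈ Λ.R := fun i => I_one.1 (Vec.ev1 hkk i).1
    obtain ⟨h, hh, hπ⟩ := ih β ⟨b1.1, fun i j hij => by
        by_cases hi : i = k
        · simpa [hi, one_apply, Pi.single_apply, eq_comm] using congrFun b3 j
        · by_cases hj : j = k
          · simpa [hj, one_apply, Pi.single_apply] using congrFun b2 i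
          · exact b1.2 i j (by simpa [hi, hj] using hij)⟩
      (by
        rw [hβ, hη, C.π_U (hcv.dot' hk), C.π_U (hrv.dot hk)]
        exact (Cg.diag ((ha.inv htt).dg htt)).mul ((Cg.rank fun i j => (hcv i).1.mul (hev j)).mul
          (hc.mul (Cg.rank fun i j => (hrv j).1.mul' (hev i)) httR) httR) httR)
      (by rw [hβ, det_mul, det_mul, det_mul, C.det_η2 hne, C.det_U (hcv.dot' hk),
        C.det_U (hrv.dot hk), hdet]; simp)
    refine ⟨(C.U c (ev k))⁻¹ * ((C.η2 k k' t (t * x))⁻¹ * (h * (C.U (ev k) r)⁻¹)),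
      H.mul_mem (H.inv_mem m2) (H.mul_mem (H.inv_mem m1) (H.mul_mem hh (H.inv_mem m3))), ?_⟩
    simp only [map_mul, hπ, hβ, mul_assoc, C.π_mul_inv, mul_one]
    simp only [← mul_assoc, C.π_inv_mul, one_mul]

/-- an element that is sufficiently close to `1` commutes with the lift of a commuting matrix -/
theorem deep_commute (hd : C.HDiag Λ) (B : E) : ∃ N : ℕ, ∀ e : E, (C.π e).det = 1 →
    Λ.Cg (Λ.q ^ N) (C.π e) → C.π B * C.π e = C.π e * C.π B → Commute B e := by
  obtain ⟨H, n, hH⟩ := exists_split hd Finset.univ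
  set t := Λ.q ^ (n + 1) with ht
  have htR : t ∈ Λ.R := hH.ht.mem Λ.q_mem
  have hX : ∀ i j, i ≠ j → ∀ x, Λ.I t x → C.X i j x ∈ H := fun i j =>
    hH.mem i (Finset.mem_univ i) j (Finset.mem_univ j)
  have hel : ∀ {H : Subgroup E} {t : K}, Λ.I Λ.q t → (∀ i j, i ≠ j → ∀ x, Λ.I t x → C.X i j x ∈ H) →
      ∀ g : Matrix ι ι K, Λ.Cg (t * t) g → g.det = 1 → ∃ h ∈ H, C.π h = g :=
    fun {H t} h1 h2 g h3 h4 => elim h1 h2 Finset.univ g
      ⟨h3.mem ((h1.mul (h1.mem Λ.q_mem)).mem Λ.q_mem), fun i j h => by simp at h⟩ h3 h4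
  choose m hm using fun p : ι × ι × ι × ι =>
    Λ.arch ((6 : K)⁻¹ * C.π B p.1 p.2.1 * C.π B⁻¹ p.2.2.1 p.2.2.2)
  obtain ⟨m₀, hm₀⟩ := Finite.exists_le m
  have ht' : Λ.I Λ.q (t * (t * Λ.q ^ m₀)) :=
    hH.ht.mul (Λ.R.mul_mem htR (Λ.R.pow_mem Λ.q_mem _))
  refine ⟨2 * (2 * (n + 1) + m₀), fun e h1 h2 h3 => ?_⟩
  obtain ⟨h, hh, hπ⟩ := hel (H := H ⊓ H.comap (MulAut.conj B).toMonoidHom) ht'
    (fun i j hij x hx => by
      refine ⟨hX i j hij x (hx.of_mul (Λ.R.mul_mem htR (Λ.R.pow_mem Λ.q_mem _))), ?_⟩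
      show B * C.X i j x * B⁻¹ ∈ H
      have h4 : ((x • ev j) ᵥ* C.π B⁻¹) ⬝ᵥ ((6 : K)⁻¹ • (C.π B *ᵥ ev i)) = 0 := by
        rw [dotProduct_smul, ← dotProduct_mulVec, mulVec_mulVec, π_inv_mul, one_mulVec,
          dot_ev hij, smul_zero]
      obtain ⟨h, hh, hπ⟩ := hel hH.ht hX _ (Cg.rank (v := (6 : K)⁻¹ • (C.π B *ᵥ ev i))
        (w := (x • ev j) ᵥ* C.π B⁻¹) fun a b => by
          obtain ⟨y, hy, rfl⟩ := hx
          refine ⟨_, Λ.R.mul_mem hy (pow_mem _ (hm (a, i, j, b)) (hm₀ _)), ?_⟩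
          simp [smul_vecMul]
          ring) (by rw [← C.π_U h4, C.det_U h4])
      rw [X, C.U_conj (dot_ev hij x), U, C.s_eq (hπ.trans (by rw [smul_vecMulVec]))]
      exact H.pow_mem hh 6) (C.π e) (by
      rwa [show t * (t * Λ.q ^ m₀) * (t * (t * Λ.q ^ m₀)) = Λ.q ^ (2 * (2 * (n + 1) + m₀)) by
        rw [ht]; ring]) h1
  have h4 : B * h * B⁻¹ * h⁻¹ = 1 := hH.inj _ (H.mul_mem hh.2 (H.inv_mem hh.1)) (by
    rw [map_mul, map_mul, map_mul, hπ, h3, mul_assoc (C.π e), π_mul_inv, mul_one, ← hπ, π_mul_inv])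
  obtain ⟨z, hz, rfl⟩ := C.exists_central hπ.symm
  refine (C.central z hz B).symm.mul_right ?_
  rw [mul_inv_eq_one, mul_inv_eq_iff_eq_mul] at h4
  exact h4

end CExt

end Crest.Agent.T27.Rc
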