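import Crest.Agent.T27.Rec3_64
import Crest.Agent.T27.Rec6_64
import Crest.Agent.T27.RecDefs_64

/-!
# Row 27, sextic reciprocity over a number field, part 7: lattices, the extension, the symbol
-/

set_option autoImplicit false
set_option linter.unusedSectionVars false

noncomputable section

namespace Crest.Agent.T27.Rc

open Finset Matrix

section lat
variable {A V : Type*} [CommRing A] [AddCommGroup V] [Module A V]

/-- finitely generated submodules of full rank -/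
def IsLat (L : Submodule A V) : Prop := L.FG ∧ ∀ x : V, ∃ n : ℕ, n ≠ 0 ∧ (n : A) • x ∈ L

theorem IsLat.exists_nat {L L' : Submodule A V} (hL : L.FG) (hL' : IsLat L') :
    ∃ n : ℕ, n ≠ 0 ∧ ∀ x ∈ L, (n : A) • x ∈ L' := by
  induction L, hL using Submodule.fg_induction with
  | singleton x =>
    obtain ⟨n, hn, h⟩ := hL'.2 x
    refine ⟨n, hn, fun y hy => ?_⟩
    obtain ⟨a, rfl⟩ := Submodule.mem_span_singleton.1 hy
    rw [smul_comm]
    exact L'.smul_mem a h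
  | sup N₁ N₂ _ _ h1 h2 =>
    obtain ⟨n, hn, h1⟩ := h1
    obtain ⟨m, hm, h2⟩ := h2
    refine ⟨n * m, mul_ne_zero hn hm, fun y hy => ?_⟩
    obtain ⟨a, ha, b, hb, rfl⟩ := Submodule.mem_sup.1 hy
    rw [smul_add, Nat.cast_mul]
    refine L'.add_mem ?_ ?_
    · rw [mul_comm, mul_smul]
      exact L'.smul_mem _ (h1 a ha)
    · rw [mul_smul]
      exact L'.smul_mem _ (h2 b hb)

theorem IsLat.reps (hfin : ∀ n : ℕ, n ≠ 0 → Finite (A ⧸ Ideal.span {(n : A)}))
    {L L' : Submodule A V} (hL : L.FG) (hL' : IsLat L') :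
    ∃ U : Finset V, ∀ l ∈ L, ∃ u ∈ U, l - u ∈ L' := by
  classical
  induction L, hL using Submodule.fg_induction with
  | singleton x =>
    obtain ⟨n, hn, h⟩ := hL'.2 x
    have := hfin n hn
    cases nonempty_fintype (A ⧸ Ideal.span {(n : A)})
    refine ⟨univ.image fun q : A ⧸ Ideal.span {(n : A)} => Quotient.out q • x, fun y hy => ?_⟩
    obtain ⟨a, rfl⟩ := Submodule.mem_span_singleton.1 hy
    refine ⟨_, mem_image_of_mem _ (mem_univ (Ideal.Quotient.mk _ a)), ?_⟩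
    obtain ⟨c, hc⟩ := Ideal.mem_span_singleton'.1
      (Ideal.Quotient.eq.1 (Ideal.Quotient.mk_out (Ideal.Quotient.mk (Ideal.span {(n : A)}) a)).symm)
    rw [← sub_smul, ← hc, mul_smul]
    exact L'.smul_mem c h
  | sup N₁ N₂ _ _ h1 h2 =>
    obtain ⟨U, h1⟩ := h1
    obtain ⟨W, h2⟩ := h2
    refine ⟨(U ×ˢ W).image fun p => p.1 + p.2, fun y hy => ?_⟩
    obtain ⟨a, ha, b, hb, rfl⟩ := Submodule.mem_sup.1 hy
    obtain ⟨u, hu, h3⟩ := h1 a ha
    obtain ⟨w, hw, h4⟩ := h2 b hb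
    exact ⟨u + w, mem_image.2 ⟨(u, w), mem_product.2 ⟨hu, hw⟩, rfl⟩, by
      rw [add_sub_add_comm]; exact L'.add_mem h3 h4⟩

/-- the family of all lattices -/
def mkLat [IsNoetherianRing A] (ζ : A) (hζ : ζ ^ 2 - ζ + 1 = 0) (h6 : IsUnit (6 : A))
    (hfin : ∀ n : ℕ, n ≠ 0 → Finite (A ⧸ Ideal.span {(n : A)})) (L₀ : Submodule A V)
    (h₀ : IsLat L₀) : LatSys A V where
  ζ := ζ
  hζ := hζ
  h6 := h6
  Lat := IsLat
  inf := fun {L L'} h h' => ⟨h.1.of_le inf_le_left, fun x => by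
    obtain ⟨n, hn, h1⟩ := h.2 x
    obtain ⟨m, hm, h2⟩ := h'.2 x
    refine ⟨n * m, mul_ne_zero hn hm, ?_, ?_⟩
    · rw [Nat.cast_mul, mul_comm, mul_smul]
      exact L.smul_mem _ h1
    · rw [Nat.cast_mul, mul_smul]
      exact L'.smul_mem _ h2⟩
  fin := fun h h' => IsLat.reps hfin h.1 h'
  map := fun {L} h g => ⟨h.1.map _, fun x => by
    obtain ⟨n, hn, h1⟩ := h.2 (g.symm x)
    exact ⟨n, hn, mem_map_equiv'.2 (by rwa [map_smul])⟩⟩
  chain := fun j => L₀.map (LinearMap.lsmul A V (j.factorial : A))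
  chain_lat := fun j => ⟨h₀.1.map _, fun x => by
    obtain ⟨n, hn, h1⟩ := h₀.2 x
    exact ⟨j.factorial * n, mul_ne_zero j.factorial_ne_zero hn, _, h1, by
      rw [LinearMap.lsmul_apply, Nat.cast_mul, mul_smul]⟩⟩
  chain_anti := fun i j hij => by
    rintro _ ⟨x, hx, rfl⟩
    obtain ⟨c, hc⟩ := Nat.factorial_dvd_factorial hij
    exact ⟨(c : A) • x, L₀.smul_mem _ hx, by
      rw [LinearMap.lsmul_apply, LinearMap.lsmul_apply, hc, Nat.cast_mul, mul_smul]⟩
  cofinal := fun {L} h => by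
    obtain ⟨n, hn, h1⟩ := IsLat.exists_nat h₀.1 h
    refine ⟨n, ?_⟩
    rintro _ ⟨x, hx, rfl⟩
    obtain ⟨c, hc⟩ := Nat.dvd_factorial (Nat.pos_of_ne_zero hn) le_rfl
    rw [LinearMap.lsmul_apply, hc, Nat.cast_mul, mul_comm, mul_smul]
    exact L.smul_mem _ (h1 x hx)

/-- `L / h L ≅ S / b`, with `g` acting as `a` -/
structure Coord (Γ : LatSys A V) (L : Submodule A V) (g h : V ≃ₗ[A] V) (S T : Type*) [CommRing S]
    [CommRing T] [Algebra S T] (ζ a b : S) where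
  κ : V →+ T
  inj : Function.Injective (algebraMap S T)
  hζ : ζ ^ 2 - ζ + 1 = 0
  h6 : IsUnit (6 : S)
  fin : Finite (S ⧸ Ideal.span {b})
  cop : IsCoprime a b
  mem : ∀ x ∈ L, ∃ y, algebraMap S T y = κ x
  surj : ∀ y, ∃ x ∈ L, algebraMap S T y = κ x
  iff : ∀ x ∈ L, h.symm x ∈ L ↔ ∃ y, κ x = algebraMap S T (b * y)
  zeta : ∀ x, κ (Γ.ζ • x) = algebraMap S T ζ * κ x
  act : ∀ x, κ (g x) = algebraMap S T a * κ x

variable {Γ : LatSys A V} {L : Submodule A V} {g h : V ≃ₗ[A] V} {S T : Type*} [CommRing S]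
  [CommRing T] [Algebra S T] {ζ a b : S}

/-- the coordinate in `S` -/
def Coord.c (D : Coord Γ L g h S T ζ a b) (x : V) : S := Function.invFun (algebraMap S T) (D.κ x)

theorem Coord.c_spec (D : Coord Γ L g h S T ζ a b) {x : V} (hx : x ∈ L) :
    algebraMap S T (D.c x) = D.κ x := Function.invFun_eq (D.mem x hx)

theorem Coord.iff' (D : Coord Γ L g h S T ζ a b) {x : V} (hx : x ∈ L) :
    h.symm x ∈ L ↔ b ∣ D.c x := by
  rw [D.iff x hx, ← D.c_spec hx]
  exact exists_congr fun y => D.inj.eq_iff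

theorem Coord.c_sub (D : Coord Γ L g h S T ζ a b) {x y : V} (hx : x ∈ L) (hy : y ∈ L) :
    D.c (x - y) = D.c x - D.c y :=
  D.inj (by rw [map_sub, D.c_spec hx, D.c_spec hy, D.c_spec (L.sub_mem hx hy), map_sub])

theorem Coord.c_act (D : Coord Γ L g h S T ζ a b) (hg : ∀ x ∈ L, g x ∈ L) {x : V} (hx : x ∈ L) :
    D.c (g x) = a * D.c x :=
  D.inj (by rw [map_mul, D.c_spec hx, D.c_spec (hg x hx), D.act])

theorem Coord.c_surj (D : Coord Γ L g h S T ζ a b) (y : S) : ∃ x ∈ L, D.c x = y := by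
  obtain ⟨x, hx, h1⟩ := D.surj y
  exact ⟨x, hx, D.inj ((D.c_spec hx).trans h1.symm)⟩

/-- the quotient data -/
def Coord.quo (D : Coord Γ L g h S T ζ a b) (hg : ∀ x ∈ L, g x ∈ L) :
    LatSys.Quo Γ L g h (S ⧸ Ideal.span {b}) where
  P x := Ideal.Quotient.mk _ (D.c x)
  α q := a • q
  s := sec ζ (S ⧸ Ideal.span {b})
  eq_iff x hx y hy := by
    rw [Ideal.Quotient.eq, Ideal.mem_span_singleton, D.iff' (L.sub_mem hx hy), D.c_sub hx hy]
  surj q := by
    obtain ⟨y, rfl⟩ := Ideal.Quotient.mk_surjective q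
    obtain ⟨x, hx, h1⟩ := D.c_surj y
    exact ⟨x, hx, by rw [h1]⟩
  zero := by
    rw [D.inj (show algebraMap S T (D.c 0) = algebraMap S T 0 by
      rw [D.c_spec L.zero_mem, map_zero, map_zero]), map_zero]
  act x hx := by rw [D.c_act hg hx]; rfl
  sec x hx h0 := by
    rw [D.inj (show algebraMap S T (D.c (Γ.ζ • x)) = algebraMap S T (ζ * D.c x) by
      rw [map_mul, D.c_spec hx, D.c_spec (L.smul_mem _ hx), D.zeta])]
    exact isSec_sec D.hζ D.h6 _ h0

theorem cm_zs (hL : Γ.Lat L) (hc : ∀ x, g (h x) = h (g x)) (hg : ∀ x ∈ L, g x ∈ L)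
    (hh : ∀ x ∈ L, h x ∈ L) {S' T' : Type*} [CommRing S'] [CommRing T'] [Algebra S' T']
    {ζ' a' b' : S'} (D : Coord Γ L g h S T ζ a b) (D' : Coord Γ L h g S' T' ζ' a' b') :
    Γ.cm g h = zs ζ' a' b' - zs ζ a b + zs ζ (-1) b * zs ζ' (-1) b' := by
  classical
  have := D.fin
  have := D'.fin
  cases nonempty_fintype (S ⧸ Ideal.span {b})
  cases nonempty_fintype (S' ⧸ Ideal.span {b'})
  rw [LatSys.cm_formula hL hc hg hh
    (fun x hx h1 => (D.iff' hx).2 (D.cop.symm.dvd_of_dvd_mul_left (by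
      rw [← D.c_act hg hx]; exact (D.iff' (hg x hx)).1 h1)))
    (fun x hx h1 => (D'.iff' hx).2 (D'.cop.symm.dvd_of_dvd_mul_left (by
      rw [← D'.c_act hh hx]; exact (D'.iff' (hh x hx)).1 h1)))
    (fun x hx => by
      obtain ⟨u, v, huv⟩ := D.cop
      obtain ⟨y, hy, h1⟩ := D.c_surj (u * D.c x)
      refine ⟨y, hy, h.symm (x - g y), (D.iff' (L.sub_mem hx (hg y hy))).2 ⟨v * D.c x, ?_⟩, by simp⟩
      rw [D.c_sub hx (hg y hy), D.c_act hg hy, h1]
      linear_combination (-D.c x) * huv) (D.quo hg) (D'.quo hh),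
    zs_neg_one D.hζ D.h6, zs_neg_one D'.hζ D'.h6, zs, zs, zm, zm, finsum_eq_sum_of_fintype,
    finsum_eq_sum_of_fintype]
  have e1 := (card_sec (fun q : S ⧸ Ideal.span {b} => ζ • q) (zeta_inj D.hζ) (fun q => q ≠ 0)
    (fun q => (zeta_smul_eq_zero D.hζ).not) _ (isSec_sec D.hζ D.h6)).1
  have e2 := card_sec (fun q : S' ⧸ Ideal.span {b'} => ζ' • q) (zeta_inj D'.hζ) (fun q => q ≠ 0)
    (fun q => (zeta_smul_eq_zero D'.hζ).not) _ (isSec_sec D'.hζ D'.h6)
  rw [Finset.filter_ne', Finset.card_erase_of_mem (mem_univ _), Finset.card_univ] at e1 e2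
  rw [Nat.card_eq_fintype_card, Nat.card_eq_fintype_card, e1, e2.1,
    Nat.mul_div_cancel_left _ (by norm_num), Nat.mul_div_cancel_left _ (by norm_num)]
  have h9 : (3 * 3 : ZMod 6) = 3 := rfl
  have e3 := e2.2
  simp only [Coord.quo]
  rw [mul_mul_mul_comm, h9, mul_left_comm, ← e3]

end lat

section ext
variable {A K V : Type*} [CommRing A] [Field K] [Algebra A K] [AddCommGroup V] [Module A V]
  [Module K V] [IsScalarTower A K V]

/-- the central extension of `GL_K(V)` -/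
structure Ext (K : Type*) [Field K] [Algebra A K] [Module K V] [IsScalarTower A K V]
    (Γ : LatSys A V) where
  g : V ≃ₗ[K] V
  z : ZMod 6

variable {Γ : LatSys A V}

theorem Ext.ext' {e e' : Ext K Γ} (h : e.g = e'.g) (h' : e.z = e'.z) : e = e' := by
  cases e; cases e'; simp only at h h'; rw [h, h']

variable (Γ) in
/-- the cocycle on `GL_K(V)` -/
def sg (g h : V ≃ₗ[K] V) : ZMod 6 :=
  Γ.tau (Γ.chain 0) (g.restrictScalars A) (h.restrictScalars A)

variable (Γ) in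
/-- the commutator pairing on `GL_K(V)` -/
def cmK (g h : V ≃ₗ[K] V) : ZMod 6 := Γ.cm (g.restrictScalars A) (h.restrictScalars A)

instance : Mul (Ext K Γ) := ⟨fun e e' => ⟨e.g * e'.g, e.z + e'.z + sg Γ e.g e'.g⟩⟩
instance : One (Ext K Γ) := ⟨⟨1, 0⟩⟩
instance : Inv (Ext K Γ) := ⟨fun e => ⟨e.g⁻¹, -e.z - sg Γ e.g⁻¹ e.g⟩⟩

theorem Ext.mul_g (e e' : Ext K Γ) : (e * e').g = e.g * e'.g := rfl
theorem Ext.mul_z (e e' : Ext K Γ) : (e * e').z = e.z + e'.z + sg Γ e.g e'.g := rfl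

theorem sg_one_left (h : V ≃ₗ[K] V) : sg Γ 1 h = 0 := LatSys.tau_one_left _ _
theorem sg_one_right (h : V ≃ₗ[K] V) : sg Γ h 1 = 0 := LatSys.tau_one_right _ _
theorem sg_coc (g h l : V ≃ₗ[K] V) : sg Γ g h + sg Γ (g * h) l = sg Γ g (h * l) + sg Γ h l :=
  LatSys.tau_coc (Γ.chain_lat 0) _ _ _

instance : Group (Ext K Γ) :=
  Group.ofLeftAxioms
    (fun a b c => Ext.ext' (mul_assoc _ _ _) (by
      simp only [Ext.mul_z, Ext.mul_g]
      linear_combination sg_coc (Γ := Γ) a.g b.g c.g))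
    (fun a => Ext.ext' (one_mul _) (by
      show 0 + a.z + sg Γ 1 a.g = a.z
      rw [sg_one_left, zero_add, add_zero]))
    (fun a => Ext.ext' (inv_mul_cancel _) (by
      show -a.z - sg Γ a.g⁻¹ a.g + a.z + sg Γ a.g⁻¹ a.g = 0
      ring))

theorem Ext.commute_iff {e e' : Ext K Γ} (h : e.g * e'.g = e'.g * e.g) :
    Commute e e' ↔ cmK Γ e.g e'.g = 0 := by
  constructor
  · intro h1
    have h2 := congrArg Ext.z h1.eq
    rw [Ext.mul_z, Ext.mul_z] at h2
    show sg Γ e.g e'.g - sg Γ e'.g e.g = 0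
    linear_combination h2
  · intro h1
    refine Ext.ext' h ?_
    have h2 : sg Γ e.g e'.g - sg Γ e'.g e.g = 0 := h1
    rw [Ext.mul_z, Ext.mul_z]
    linear_combination h2

theorem cmK_mul_left {g g' h : V ≃ₗ[K] V} (h1 : g * h = h * g) (h2 : g' * h = h * g') :
    cmK Γ (g * g') h = cmK Γ g h + cmK Γ g' h :=
  LatSys.cm_mul_left (g := g.restrictScalars A) (g' := g'.restrictScalars A)
    (congrArg (LinearEquiv.restrictScalars A) h1) (congrArg (LinearEquiv.restrictScalars A) h2)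

theorem cmK_anti (g h : V ≃ₗ[K] V) : cmK Γ h g = -cmK Γ g h := LatSys.cm_anti _ _
theorem cmK_self (g : V ≃ₗ[K] V) : cmK Γ g g = 0 := LatSys.cm_self _
theorem cmK_one_left (g : V ≃ₗ[K] V) : cmK Γ 1 g = 0 := LatSys.cm_one_left _

variable {ι : Type*} [Fintype ι] [DecidableEq ι]

/-- the matrix of an automorphism -/
def mat (b : Module.Basis ι K V) (g : V ≃ₗ[K] V) : Matrix ι ι K :=
  LinearMap.toMatrix b b (g : V →ₗ[K] V)

theorem mat_mul (b : Module.Basis ι K V) (g h : V ≃ₗ[K] V) : mat b (g * h) = mat b g * mat b h :=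
  LinearMap.toMatrix_comp b b b (g : V →ₗ[K] V) (h : V →ₗ[K] V)

theorem mat_one (b : Module.Basis ι K V) : mat b 1 = 1 := LinearMap.toMatrix_id b

theorem mat_inj (b : Module.Basis ι K V) {g h : V ≃ₗ[K] V} (e : mat b g = mat b h) : g = h :=
  LinearEquiv.toLinearMap_injective ((LinearMap.toMatrix b b).injective e)

variable (Γ) in
/-- the extension in matrix form -/
def cext (b : Module.Basis ι K V) (h6 : (6 : K) ≠ 0) : CExt K ι (Ext K Γ) where
  π := ⟨⟨fun e => mat b e.g, mat_one b⟩, fun e e' => mat_mul b e.g e'.g⟩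
  surj g hg := ⟨⟨g.toLinearEquiv b ((isUnit_iff_isUnit_det g).1 hg), 0⟩,
    LinearMap.toMatrix_toLin b b g⟩
  central z hz e := by
    have h : z.g = 1 := mat_inj b (hz.trans (mat_one b).symm)
    exact (Ext.commute_iff (by rw [h, one_mul, mul_one])).2 (by rw [h, cmK_one_left])
  expo z hz := by
    have h : z.g = 1 := mat_inj b (hz.trans (mat_one b).symm)
    have h1 : ∀ k : ℕ, z ^ k = ⟨1, k * z.z⟩ := fun k => by
      induction k with
      | zero => exact Ext.ext' rfl (by show (0 : ZMod 6) = _; simp)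
      | succ k ih =>
        rw [pow_succ, ih]
        refine Ext.ext' (by rw [Ext.mul_g, h, one_mul]) ?_
        rw [Ext.mul_z, sg_one_left]
        push_cast
        ring
    rw [h1]
    exact Ext.ext' rfl (zero_mul _)
  six := h6

theorem deep_cm (b : Module.Basis ι K V) (h6 : (6 : K) ≠ 0) (Λ : Loc K)
    (hd : ∀ (g h : V ≃ₗ[K] V) (s t : ι → K), mat b g = diagonal s → mat b h = diagonal t →
      (∀ i, Λ.H Λ.q (s i)) → cmK Γ g h = 0) (B : V ≃ₗ[K] V) :
    ∃ N : ℕ, ∀ g : V ≃ₗ[K] V, (mat b g).det = 1 → Λ.Cg (Λ.q ^ N) (mat b g) → B * g = g * B →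
      cmK Γ B g = 0 := by
  obtain ⟨N, hN⟩ := CExt.deep_commute (C := cext Γ b h6) (Λ := Λ) (fun e e' s t he he' hs =>
    (Ext.commute_iff (mat_inj b (by
      have h1 : mat b e.g = diagonal s := he
      have h2 : mat b e'.g = diagonal t := he'
      rw [mat_mul, mat_mul, h1, h2]
      exact (commute_diagonal s t).eq))).2 (hd _ _ s t he he' hs)) ⟨B, 0⟩
  exact ⟨N, fun g h1 h2 h3 => (Ext.commute_iff (e := ⟨B, 0⟩) (e' := ⟨g, 0⟩) h3).1
    (hN ⟨g, 0⟩ h1 h2 (by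
      show mat b B * mat b g = mat b g * mat b B
      rw [← mat_mul, ← mat_mul, h3]))⟩

end ext

end Crest.Agent.T27.Rc
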