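import Crest.Agent.T27.RecH_79

/-!
# Row 27: the base law over `ℚ(ω)` for an alternating commutator pairing

`c` is an alternating bimultiplicative function on `kˣ` with
`c a b = zs a b - zs b a + 3 d(a) d(b)` on coprime pairs.  Then `c x y = 0` for all `x` as soon as
`y ≡ 1 (mod* M³)`.  We also define the semi-local ring `RM` of `k` at the primes dividing `M`.
-/

set_option autoImplicit false

noncomputable section

namespace Crest.Agent.T27.H79

open Crest.Agent.R17 Crest.Agent.T27.Rc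

/-- `(#(S / a) - 1) / 6` modulo `6` -/
def dg {S : Type*} [CommRing S] (a : S) : ZMod 6 :=
  (((Nat.card (S ⧸ Ideal.span {a}) - 1) / 6 : ℕ) : ZMod 6)

/-- the semi-local ring at the primes dividing `M` -/
def RM (M : ℕ) {k : Type*} [Field k] (ι : O →+* k) : Subring k where
  carrier := {x | ∃ a b : O, IsCoprime b M ∧ x * ι b = ι a}
  mul_mem' := by
    rintro x y ⟨a, b, hb, h⟩ ⟨a', b', hb', h'⟩
    exact ⟨a * a', b * b', hb.mul_left hb', by rw [map_mul, map_mul, ← h, ← h']; ring⟩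
  one_mem' := ⟨1, 1, isCoprime_one_left, by simp⟩
  add_mem' := by
    rintro x y ⟨a, b, hb, h⟩ ⟨a', b', hb', h'⟩
    exact ⟨a * b' + a' * b, b * b', hb.mul_left hb', by
      rw [map_add, map_mul, map_mul, map_mul, ← h, ← h']; ring⟩
  zero_mem' := ⟨0, 1, isCoprime_one_left, by simp⟩
  neg_mem' := by
    rintro x ⟨a, b, hb, h⟩
    exact ⟨-a, b, hb, by rw [map_neg, ← h]; ring⟩

theorem mem_RM {M : ℕ} {k : Type*} [Field k] {ι : O →+* k} {x : k} :
    x ∈ RM M ι ↔ ∃ a b : O, IsCoprime b M ∧ x * ι b = ι a := Iff.rfl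

theorem map_mem_RM (M : ℕ) {k : Type*} [Field k] (ι : O →+* k) (a : O) : ι a ∈ RM M ι :=
  ⟨a, 1, isCoprime_one_left, by simp⟩

variable {M : ℕ} {S : Type*} [CommRing S] [IsDomain S] {φ : O →+* S}

namespace Loc

omit [IsDomain S] in
theorem ne_of_cop (h : Loc M φ) {b : O} (hb : IsCoprime b M) : b ≠ 0 := by
  rintro rfl
  exact prime_neg_two.not_isUnit ((isCoprime_zero_left.1 (h.cop_two hb)).neg)

omit [IsDomain S] in
theorem map_ne (h : Loc M φ) {b : O} (hb : b ≠ 0) : φ b ≠ 0 :=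
  fun h0 => hb (h.inj (by rw [h0, map_zero]))

theorem three_dg (h : Loc M φ) {a : S} (ha : a ≠ 0) : 3 * dg a = zs (φ (1 + om)) (-1) a := by
  have := h.finite ha
  rw [zs_neg_one (zeta φ) h.h6, dg]

theorem three_dg_one (h : Loc M φ) {b : O} (hb : (M : O) ^ 3 ∣ b - 1) : 3 * dg (φ b) = 0 := by
  rw [h.three_dg (h.map_ne (h.prim_of hb).ne_zero),
    h.recip (by simp) hb (isCoprime_one_left.neg_left), zs_unit _ _ isUnit_one.neg]

section pairing

variable {k : Type*} [Field k] (ψ : S →+* k) (c : k → k → ZMod 6)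

/-- the hypotheses on the pairing -/
structure Pair (ζ : S) : Prop where
  inj : Function.Injective ψ
  left : ∀ x x' y, x ≠ 0 → x' ≠ 0 → y ≠ 0 → c (x * x') y = c x y + c x' y
  right : ∀ x y y', x ≠ 0 → y ≠ 0 → y' ≠ 0 → c x (y * y') = c x y + c x y'
  self : ∀ x, x ≠ 0 → c x x = 0
  cop : ∀ a b : S, a ≠ 0 → b ≠ 0 → IsCoprime a b →
    c (ψ a) (ψ b) = zs ζ a b - zs ζ b a + 3 * dg a * dg b

variable {ψ c}

omit [IsDomain S] in
theorem Pair.ne {ζ : S} (hc : Pair ψ c ζ) {a : S} (ha : a ≠ 0) : ψ a ≠ 0 :=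
  fun h0 => ha (hc.inj (by rw [h0, map_zero]))

omit [IsDomain S] in
theorem Pair.one_right {ζ : S} (hc : Pair ψ c ζ) {x : k} (hx : x ≠ 0) : c x 1 = 0 := by
  have := hc.right x 1 1 hx one_ne_zero one_ne_zero
  rw [mul_one] at this
  linear_combination -this

omit [IsDomain S] in
theorem Pair.pow_right {ζ : S} (hc : Pair ψ c ζ) {x y : k} (hx : x ≠ 0) (hy : y ≠ 0)
    (h : c x y = 0) (e : ℕ) : c x (y ^ e) = 0 := by
  induction e with
  | zero => rw [pow_zero, hc.one_right hx]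
  | succ e ih => rw [pow_succ, hc.right _ _ _ hx (pow_ne_zero _ hy) hy, ih, h, add_zero]

theorem pair_cop (h : Loc M φ) (hc : Pair ψ c (φ (1 + om))) {a : S} {b : O} (ha : a ≠ 0)
    (hb : (M : O) ^ 3 ∣ b - 1) (hab : IsCoprime a (φ b)) : c (ψ a) (ψ (φ b)) = 0 := by
  rw [hc.cop _ _ ha (h.map_ne (h.prim_of hb).ne_zero) hab, h.recip ha hb hab, sub_self, zero_add,
    mul_right_comm, h.three_dg_one hb, zero_mul]

theorem pair_shift (h : Loc M φ) (hc : Pair ψ c (φ (1 + om))) {p : O} (hp : Primary p)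
    (hM : IsCoprime p M) : c (ψ (φ p)) (ψ (φ (p + (M : O) ^ 6))) = 0 := by
  set q := p + (M : O) ^ 6 with hq
  have hqM : IsCoprime q M := by
    rw [hq, pow_succ]; exact hM.add_mul_right_left _
  have h72 : (72 : O) ∣ (M : O) ^ 6 := h.d72.trans (pow_dvd_pow _ (by norm_num))
  have hq' : Primary q := by
    have := dvd_add hp ((show (3 : O) ∣ 72 from ⟨24, by norm_num⟩).trans h72)
    rwa [show p - 1 + (M : O) ^ 6 = q - 1 by rw [hq]; ring] at this
  have hpq : IsCoprime p q := by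
    have := (hM.pow_right (n := 6)).add_mul_left_right 1
    rwa [mul_one, add_comm] at this
  have h4 : (4 : O) ∣ q - p := by
    rw [hq, add_sub_cancel_left]
    exact (show (4 : O) ∣ 72 from ⟨18, by norm_num⟩).trans h72
  have hd : 3 * dg (φ q) = 3 * dg (φ p) := by
    rw [h.three_dg (h.map_ne hq'.ne_zero), h.three_dg (h.map_ne hp.ne_zero),
      show (-1 : S) = φ (-1) by simp]
    apply chi_inj
    rw [h.link hq' hqM isCoprime_one_left.neg_left, h.link hp hM isCoprime_one_left.neg_left,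
      ← Rs_self ⟨hq', h.cop_two hqM⟩, ← Rs_self ⟨hp, h.cop_two hM⟩, Rs_congr h4 h4]
  have six : ∀ {n : O}, Primary n → IsCoprime n M → zs (φ (1 + om)) (φ ((M : O) ^ 6)) (φ n) = 0 := by
    intro n hn hnM
    apply chi_inj
    rw [h.link hn hnM hnM.symm.pow_left, sym_pow_right ⟨hn, h.cop_two hnM⟩, sym_pow_six hn hnM,
      chi_zero]
  have := h.fin hqM hq'.ne_zero
  have e1 : zs (φ (1 + om)) (φ p) (φ q) = 3 * dg (φ p) := by
    rw [zs_congr _ (a' := (-1) * φ ((M : O) ^ 6)) ⟨1, by rw [hq, map_add]; ring⟩,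
      zs_mul_left (zeta φ) h.h6 isCoprime_one_left.neg_left (hqM.symm.pow_left.map φ),
      six hq' hqM, add_zero, ← h.three_dg (h.map_ne hq'.ne_zero), hd]
  have e2 : zs (φ (1 + om)) (φ q) (φ p) = 0 := by
    rw [zs_congr _ (a' := φ ((M : O) ^ 6)) ⟨1, by rw [hq, map_add]; ring⟩, six hp hM]
  rw [hc.cop _ _ (h.map_ne hp.ne_zero) (h.map_ne hq'.ne_zero) (hpq.map φ), e1, e2, mul_right_comm,
    hd]
  generalize dg (φ p) = d
  revert d
  decide

theorem pair_prime (h : Loc M φ) (hc : Pair ψ c (φ (1 + om))) {p b : O} (hp : Prime p)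
    (hp' : Primary p) (hM : IsCoprime p M) (hb : (M : O) ^ 3 ∣ b - 1) :
    c (ψ (φ p)) (ψ (φ b)) = 0 := by
  have hb0 := (h.prim_of hb).ne_zero
  obtain ⟨b', hb', hpb⟩ := (FiniteMultiplicity.of_prime_left hp hb0).exists_eq_pow_mul_and_not_dvd
  generalize multiplicity p b = e at hb'
  have hb'0 : b' ≠ 0 := by rintro rfl; exact hpb (dvd_zero _)
  have n : ∀ {x : O}, x ≠ 0 → ψ (φ x) ≠ 0 := fun hx => hc.ne (h.map_ne hx)
  set q := p + (M : O) ^ 6 with hq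
  have hpq : IsCoprime p q := by
    have := (hM.pow_right (n := 6)).add_mul_left_right 1
    rwa [mul_one, add_comm] at this
  have hq0 : q ≠ 0 := fun h0 => hp.not_isUnit (isCoprime_zero_right.1 (h0 ▸ hpq))
  have h1 : (M : O) ^ 3 ∣ q ^ e * b' - 1 := by
    have h2 : (M : O) ^ 3 ∣ q ^ e - p ^ e :=
      (show (M : O) ^ 3 ∣ q - p from ⟨(M : O) ^ 3, by rw [hq]; ring⟩).trans
        (sub_dvd_pow_sub_pow _ _ _)
    have := dvd_add (h2.mul_right b') hb
    rwa [show (q ^ e - p ^ e) * b' + (b - 1) = q ^ e * b' - 1 by rw [hb']; ring] at this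
  have h2 := h.pair_cop hc (h.map_ne hp.ne_zero) h1
    ((hpq.pow_right.mul_right ((hp.coprime_iff_not_dvd).2 hpb)).map φ)
  rw [map_mul, map_mul, map_pow, map_pow,
    hc.right _ _ _ (n hp.ne_zero) (pow_ne_zero _ (n hq0)) (n hb'0),
    hc.pow_right (n hp.ne_zero) (n hq0) (h.pair_shift hc hp' hM)] at h2
  rw [hb', map_mul, map_mul, map_pow, map_pow,
    hc.right _ _ _ (n hp.ne_zero) (pow_ne_zero _ (n hp.ne_zero)) (n hb'0),
    hc.pow_right (n hp.ne_zero) (n hp.ne_zero) (hc.self _ (n hp.ne_zero)), h2]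

theorem pair_int (h : Loc M φ) (hc : Pair ψ c (φ (1 + om))) {a : S} {b : O} (ha : a ≠ 0)
    (hb : (M : O) ^ 3 ∣ b - 1) : c (ψ a) (ψ (φ b)) = 0 := by
  have hb0 := hc.ne (h.map_ne (h.prim_of hb).ne_zero)
  have hu : ∀ {u : S}, IsUnit u → c (ψ u) (ψ (φ b)) = 0 := fun hu =>
    h.pair_cop hc hu.ne_zero hb (isCoprime_one_left.of_isCoprime_of_dvd_left hu.dvd)
  obtain ⟨d, n, i, j, hd, hn, hM, e⟩ := h.assoc ha
  have h1 : c (ψ (φ n)) (ψ (φ b)) = 0 := by
    clear e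
    refine Primary.induction (P := fun n => IsCoprime n M → c (ψ (φ n)) (ψ (φ b)) = 0) ?_ ?_ hn hM
    · intro _
      rw [map_one]; exact hu isUnit_one
    · intro p n hp hp' hn ih hM
      rw [map_mul, map_mul, hc.left _ _ _ (hc.ne (h.map_ne hp.ne_zero))
        (hc.ne (h.map_ne hn.ne_zero)) hb0, ih hM.of_mul_left_right,
        h.pair_prime hc hp hp' hM.of_mul_left_left hb, add_zero]
  have h2 : c (ψ ((M : S) ^ i * a)) (ψ (φ b)) = c (ψ (φ d * φ n)) (ψ (φ b)) := by rw [e]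
  rwa [map_mul, map_mul, hc.left _ _ _ (hc.ne (h.unit.pow i).ne_zero) (hc.ne ha) hb0,
    hc.left _ _ _ (hc.ne (h.unit_of_dvd hd).ne_zero) (hc.ne (h.map_ne hn.ne_zero)) hb0,
    hu (h.unit.pow i), hu (h.unit_of_dvd hd), h1, zero_add, zero_add] at h2

omit [IsDomain S] in
theorem ne_RM (h : Loc M φ) (hi : Function.Injective ψ) {r : k} (hr : r ∈ RM M (ψ.comp φ)) {e : ℕ}
    (he : e ≠ 0) : 1 + (M : k) ^ e * r ≠ 0 ∧ (1 + (M : k) ^ e * r)⁻¹ ∈ RM M (ψ.comp φ) := by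
  obtain ⟨a, b, hb, hr⟩ := hr
  obtain ⟨e, rfl⟩ := Nat.exists_eq_succ_of_ne_zero he
  have h1 : IsCoprime (b + (M : O) * ((M : O) ^ e * a)) M := hb.add_mul_left_left _
  have h2 : (1 + (M : k) ^ (e + 1) * r) * (ψ.comp φ) b =
      (ψ.comp φ) (b + (M : O) * ((M : O) ^ e * a)) := by
    rw [map_add, map_mul, map_mul, map_pow, map_natCast, ← hr]; ring
  have h3 : (ψ.comp φ) (b + (M : O) * ((M : O) ^ e * a)) ≠ 0 := fun h0 =>
    h.map_ne (h.ne_of_cop h1) (hi (by rw [map_zero]; exact h0))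
  have h4 : 1 + (M : k) ^ (e + 1) * r ≠ 0 := fun h0 => h3 (by rw [← h2, h0, zero_mul])
  exact ⟨h4, b, _, h1, by rw [← h2, inv_mul_cancel_left₀ h4]⟩

omit [IsDomain S] in
theorem gen_RM (h : Loc M φ) (hi : Function.Injective ψ)
    (hfr : ∀ x : k, ∃ a b : S, b ≠ 0 ∧ x * ψ b = ψ a) (x : k) :
    ∃ j : ℕ, (M : k) ^ j * x ∈ RM M (ψ.comp φ) := by
  have : IsDomain S := hi.isDomain _
  obtain ⟨a, b, hb, hx⟩ := hfr x
  obtain ⟨d, n, i, j, ⟨d', hd⟩, -, hM, e⟩ := h.assoc hb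
  obtain ⟨l, y, hy⟩ := h.surj a
  refine ⟨j + l, (M : O) ^ i * d' * y, n, hM, ?_⟩
  have e1 := congrArg ψ e
  have e2 := congrArg ψ hy
  have e3 := congrArg (ψ.comp φ) hd
  simp only [map_mul, map_pow, map_natCast, RingHom.comp_apply] at e1 e2 e3 ⊢
  rw [e2, ← hx, pow_add, e3]
  linear_combination (-(ψ (φ d') * (M : k) ^ l * x)) * e1

omit [IsDomain S] in
/-- the ring hypotheses of `deep_comm_89` for `R = RM`, `p = M³`, `m = 6` -/
theorem data_RM (h : Loc M φ) (hi : Function.Injective ψ)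
    (hfr : ∀ x : k, ∃ a b : S, b ≠ 0 ∧ x * ψ b = ψ a) :
    (M : k) ^ 3 ∈ RM M (ψ.comp φ) ∧ (M : k) ^ 3 / ((6 : ℕ) : k) ∈ RM M (ψ.comp φ) ∧
    (∀ r ∈ RM M (ψ.comp φ), 1 + (M : k) ^ 3 * r ≠ 0 ∧ (1 + (M : k) ^ 3 * r)⁻¹ ∈ RM M (ψ.comp φ)) ∧
    ∀ x : k, ∃ j : ℕ, ((M : k) ^ 3) ^ j * x ∈ RM M (ψ.comp φ) := by
  have hM : (M : k) ∈ RM M (ψ.comp φ) := natCast_mem _ M
  refine ⟨pow_mem hM 3, ?_, fun r hr => h.ne_RM hi hr (by norm_num), fun x => ?_⟩
  · obtain ⟨l, hl⟩ := h.six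
    have h6 : ((6 : ℕ) : k) ≠ 0 := by
      have := (h.h6.map ψ).ne_zero
      rwa [show (6 : S) = ((6 : ℕ) : S) by norm_num, map_natCast] at this
    have e : (M : k) ^ 3 / ((6 : ℕ) : k) = (M : k) ^ 2 * l := by
      rw [div_eq_iff h6, pow_succ, hl]; push_cast; ring
    rw [e]
    exact mul_mem (pow_mem hM 2) (natCast_mem _ l)
  · obtain ⟨j, hj⟩ := h.gen_RM hi hfr x
    refine ⟨j, ?_⟩
    rw [show ((M : k) ^ 3) ^ j * x = (M : k) ^ (2 * j) * ((M : k) ^ j * x) by ring]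
    exact mul_mem (pow_mem hM _) hj

/-- **(H)**: the pairing vanishes as soon as the second argument is `≡ 1 (mod* M³)` -/
theorem pair_eq_zero (h : Loc M φ) (hc : Pair ψ c (φ (1 + om)))
    (hfr : ∀ x : k, ∃ a b : S, b ≠ 0 ∧ x * ψ b = ψ a) {x r : k} (hx : x ≠ 0)
    (hr : r ∈ RM M (ψ.comp φ)) : c x (1 + (M : k) ^ 3 * r) = 0 := by
  have hy := (h.ne_RM hc.inj hr (e := 3) (by norm_num)).1
  have h1 : ∀ {b : O}, (M : O) ^ 3 ∣ b - 1 → c x (ψ (φ b)) = 0 := by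
    intro b hb
    obtain ⟨a, a', ha', e⟩ := hfr x
    have ha : a ≠ 0 := by
      rintro rfl
      exact mul_ne_zero hx (hc.ne ha') (by rw [e, map_zero])
    have := hc.left x (ψ a') _ hx (hc.ne ha') (hc.ne (h.map_ne (h.prim_of hb).ne_zero))
    rwa [e, h.pair_int hc ha hb, h.pair_int hc ha' hb, add_zero, eq_comm] at this
  obtain ⟨a, b, hb, hr⟩ := hr
  obtain ⟨u, v, huv⟩ := hb.pow_right (n := 3)
  have h2 : (M : O) ^ 3 ∣ u * b - 1 := ⟨-v, by linear_combination huv⟩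
  have h3 : (M : O) ^ 3 ∣ u * b + (M : O) ^ 3 * (u * a) - 1 :=
    ⟨u * a - v, by linear_combination huv⟩
  have e : ψ (φ (u * b + (M : O) ^ 3 * (u * a))) = (1 + (M : k) ^ 3 * r) * ψ (φ (u * b)) := by
    simp only [map_mul, map_pow, map_add, map_natCast, RingHom.comp_apply] at hr ⊢
    rw [← hr]; ring
  have h4 := h1 h3
  rwa [e, hc.right _ _ _ hx hy (hc.ne (h.map_ne (h.prim_of h2).ne_zero)), h1 h2, add_zero] at h4

end pairing

end Loc

end Crest.Agent.T27.H79
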