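import Crest.Agent.T27.Rec7_64
import Crest.Agent.T27.RecHc_79

/-!
# Row 27, sextic reciprocity over a number field, part 8: diagonal matrices
-/

set_option autoImplicit false
set_option linter.unusedSectionVars false

noncomputable section

namespace Crest.Agent.T27.Rc

open Matrix Crest.Agent.R17

theorem frac_vanish {S T : Type*} [CommRing S] [Field T] (ψ : S →+* T) (hi : Function.Injective ψ)
    (hfr : ∀ x : T, ∃ a b : S, b ≠ 0 ∧ x * ψ b = ψ a) (c : T → ZMod 6)
    (hc : ∀ x y, x ≠ 0 → y ≠ 0 → c (x * y) = c x + c y) (h0 : ∀ a, a ≠ 0 → c (ψ a) = 0) {x : T}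
    (hx : x ≠ 0) : c x = 0 := by
  obtain ⟨a, b, hb, e⟩ := hfr x
  have hb' : ψ b ≠ 0 := fun h => hb (hi (h.trans (map_zero ψ).symm))
  have ha : a ≠ 0 := by
    rintro rfl
    exact mul_ne_zero hx hb' (e.trans (map_zero ψ))
  have h1 := hc x _ hx hb'
  rwa [e, h0 a ha, h0 b hb, add_zero, eq_comm] at h1

theorem vec_vanish {ι K : Type*} [Fintype ι] [DecidableEq ι] [Field K] (c : (ι → K) → ZMod 6)
    (hc : ∀ s t, (∀ i, s i ≠ 0) → (∀ i, t i ≠ 0) → c (s * t) = c s + c t) {s : ι → K}
    (hs : ∀ i, s i ≠ 0) (h : ∀ i, c (Function.update 1 i (s i)) = 0) : c s = 0 := by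
  have h1 : ∀ T : Finset ι, c (fun i => if i ∈ T then s i else 1) = 0 := fun T => by
    induction T using Finset.induction_on with
    | empty =>
      have h2 := hc 1 1 (fun _ => one_ne_zero) fun _ => one_ne_zero
      rw [mul_one] at h2
      have h3 : c 1 = 0 := by linear_combination -h2
      simp only [Finset.notMem_empty, if_false]
      exact h3
    | insert j T hj ih =>
      have h2 : (fun i => if i ∈ insert j T then s i else 1) =
          Function.update (1 : ι → K) j (s j) * fun i => if i ∈ T then s i else 1 := by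
        funext i
        by_cases hi : i = j
        · simp [hi, hj]
        · simp [hi]
      rw [h2, hc _ _ (fun i => by by_cases hi : i = j <;> simp [hi, hs])
        (fun i => by by_cases hi : i ∈ T <;> simp [hi, hs]), h, ih, add_zero]
  simpa using h1 Finset.univ

theorem Loc.Cg.det {ι K : Type*} [Fintype ι] [DecidableEq ι] [Field K] {Λ : Loc K} {t : K}
    {M : Matrix ι ι K} (h : Λ.Cg t M) (ht : t ∈ Λ.R) : Λ.H t M.det := by
  have h1 : ∀ (σ : Equiv.Perm ι) (T : Finset ι),
      Λ.I t (∏ i ∈ T, M (σ i) i - ∏ i ∈ T, (1 : Matrix ι ι K) (σ i) i) := fun σ T => by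
    induction T using Finset.induction_on with
    | empty => simpa using Loc.I.zero
    | insert j T hj ih =>
      rw [Finset.prod_insert hj, Finset.prod_insert hj]
      have h2 := (ih.mul' (h.mem ht (σ j) j)).add ((h (σ j) j).mul
        (Λ.R.prod_mem (t := T) fun i _ => Loc.one_mem (σ i) i))
      convert h2 using 1
      ring
  rw [Loc.H, ← det_one (n := ι), det_apply', det_apply', ← Finset.sum_sub_distrib]
  refine Loc.I.sum fun σ _ => ?_
  rw [← mul_sub]
  exact (h1 σ _).mul' (intCast_mem _ _)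

theorem Loc.exists_bound {K : Type*} [Field K] (Λ : Loc K) {B : Type*} [AddCommGroup B]
    [Module.Finite ℤ B] (f : B →+ K) : ∃ n : ℕ, ∀ x, Λ.q ^ n * f x ∈ Λ.R := by
  have h : ∀ N : Submodule ℤ B, N.FG → ∃ n : ℕ, ∀ x ∈ N, Λ.q ^ n * f x ∈ Λ.R := fun N hN => by
    induction N, hN using Submodule.fg_induction with
    | singleton x =>
      obtain ⟨n, hn⟩ := Λ.arch (f x)
      refine ⟨n, fun y hy => ?_⟩
      obtain ⟨a, rfl⟩ := Submodule.mem_span_singleton.1 hy
      rw [map_zsmul, zsmul_eq_mul, mul_left_comm]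
      exact Λ.R.mul_mem (intCast_mem _ _) hn
    | sup N₁ N₂ _ _ h1 h2 =>
      obtain ⟨n, h1⟩ := h1
      obtain ⟨m, h2⟩ := h2
      refine ⟨max n m, fun y hy => ?_⟩
      obtain ⟨a, ha, b, hb, rfl⟩ := Submodule.mem_sup.1 hy
      rw [map_add, mul_add]
      exact Λ.R.add_mem (Loc.pow_mem _ (h1 a ha) (le_max_left _ _))
        (Loc.pow_mem _ (h2 b hb) (le_max_right _ _))
  obtain ⟨n, hn⟩ := h ⊤ Module.Finite.fg_top
  exact ⟨n, fun x => hn x trivial⟩

variable {M : ℕ} {A K V : Type*} [CommRing A] [IsDomain A] [Field K] [Algebra A K]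
  [IsFractionRing A K] [AddCommGroup V] [Module A V] [Module K V] [IsScalarTower A K V]
  {φ : O →+* A} {ι : Type*} [Fintype ι] [DecidableEq ι]

theorem hfrK (x : K) : ∃ a b : A, b ≠ 0 ∧ x * algebraMap A K b = algebraMap A K a := by
  obtain ⟨⟨a, b⟩, h⟩ := IsLocalization.surj (nonZeroDivisors A) x
  exact ⟨a, b, nonZeroDivisors.ne_zero b.2, h⟩

variable (K) in
/-- the semilocal ring of `K` at `M` -/
def locM (h : H79.Loc M φ) : Loc K where
  R := H79.RM M ((algebraMap A K).comp φ)
  q := (M : K) ^ 3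
  q_mem := (h.data_RM (IsFractionRing.injective A K) hfrK).1
  unit := (h.data_RM (IsFractionRing.injective A K) hfrK).2.2.1
  arch := (h.data_RM (IsFractionRing.injective A K) hfrK).2.2.2

theorem hdenK (h : H79.Loc M φ) (x : K) : ∃ n : ℕ, n ≠ 0 ∧ ∃ a : A, algebraMap A K a = n * x := by
  obtain ⟨j, a, b, hb, e⟩ := h.gen_RM (IsFractionRing.injective A K) hfrK x
  refine ⟨M ^ j * nm b, mul_ne_zero (pow_ne_zero _ h.ne)
    fun h0 => h.ne_of_cop hb (nm_eq_zero.1 h0), φ (a * cj b), ?_⟩
  have e2 := congrArg ((algebraMap A K).comp φ) (mul_cj b)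
  simp only [map_mul, map_natCast, RingHom.comp_apply] at e e2 ⊢
  push_cast
  rw [← e, ← e2]
  ring

theorem isLat_span (h : H79.Loc M φ) (b : Module.Basis ι K V) :
    IsLat (Submodule.span A (Set.range b)) := by
  refine ⟨Submodule.fg_span (Set.finite_range b), fun x => ?_⟩
  choose n hn a ha using fun i => hdenK h (b.repr x i)
  refine ⟨∏ i, n i, Finset.prod_ne_zero_iff.2 fun i _ => hn i,
    (b.mem_span_iff_repr_mem A _).2 fun i => ?_⟩
  obtain ⟨c, hc⟩ := Finset.dvd_prod_of_mem n (Finset.mem_univ i)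
  refine ⟨c * a i, ?_⟩
  rw [hc, ← algebraMap_smul K, map_smul, map_mul, ha]
  simp
  ring

open Classical in
/-- diagonal automorphisms -/
def dgE (b : Module.Basis ι K V) (s : ι → K) : V ≃ₗ[K] V :=
  if h : ∀ i, s i ≠ 0 then (diagonal s).toLinearEquiv b (by
    rw [det_diagonal]
    exact (Finset.prod_ne_zero_iff.2 fun i _ => h i).isUnit) else 1

theorem mat_dgE (b : Module.Basis ι K V) {s : ι → K} (h : ∀ i, s i ≠ 0) :
    mat b (dgE b s) = diagonal s := by
  rw [dgE, dif_pos h]
  exact LinearMap.toMatrix_toLin b b _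

theorem dgE_mul (b : Module.Basis ι K V) {s t : ι → K} (h : ∀ i, s i ≠ 0) (h' : ∀ i, t i ≠ 0) :
    dgE b (s * t) = dgE b s * dgE b t :=
  mat_inj b (by
    rw [mat_mul, mat_dgE b h, mat_dgE b h', mat_dgE b (s := s * t) fun i => mul_ne_zero (h i) (h' i),
      diagonal_mul_diagonal]
    rfl)

theorem dgE_comm (b : Module.Basis ι K V) {s t : ι → K} (h : ∀ i, s i ≠ 0) (h' : ∀ i, t i ≠ 0) :
    dgE b s * dgE b t = dgE b t * dgE b s := by
  rw [← dgE_mul b h h', ← dgE_mul b h' h, mul_comm]

theorem repr_dgE (b : Module.Basis ι K V) {s : ι → K} (h : ∀ i, s i ≠ 0) (x : V) (i : ι) :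
    b.repr (dgE b s x) i = s i * b.repr x i := by
  have h1 := congrFun (LinearMap.toMatrix_mulVec_repr b b (dgE b s : V →ₗ[K] V) x) i
  rw [show LinearMap.toMatrix b b (dgE b s : V →ₗ[K] V) = diagonal s from mat_dgE b h,
    mulVec_diagonal] at h1
  exact h1.symm

theorem ne_of_diag (b : Module.Basis ι K V) {g : V ≃ₗ[K] V} {s : ι → K}
    (h : mat b g = diagonal s) (i : ι) : s i ≠ 0 := fun h0 => by
  have h1 : (mat b g * mat b g⁻¹).det = 1 := by rw [← mat_mul, mul_inv_cancel, mat_one, det_one]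
  rw [det_mul, h, det_diagonal, Finset.prod_eq_zero (Finset.mem_univ i) h0, zero_mul] at h1
  exact zero_ne_one h1

theorem upd_ne {x : K} (hx : x ≠ 0) (i j : ι) : Function.update (1 : ι → K) i x j ≠ 0 := by
  by_cases h : j = i <;> simp [h, hx]

theorem upd_mul (x y : K) (i : ι) : Function.update (1 : ι → K) i (x * y) =
    Function.update (1 : ι → K) i x * Function.update (1 : ι → K) i y := by
  funext j
  by_cases h : j = i <;> simp [h]

theorem cm_upd (h : H79.Loc M φ) {Γ : LatSys A V} (b : Module.Basis ι K V)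
    (hL : Γ.Lat (Submodule.span A (Set.range b))) (i j : ι) {x y : A} (hx : x ≠ 0) (hy : y ≠ 0)
    (hxy : i = j → IsCoprime x y) :
    cmK Γ (dgE b (Function.update 1 i (algebraMap A K x)))
      (dgE b (Function.update 1 j (algebraMap A K y))) =
      zs Γ.ζ (if i = j then y else 1) x - zs Γ.ζ (if i = j then x else 1) y +
        zs Γ.ζ (-1) y * zs Γ.ζ (-1) x := by
  have hi := IsFractionRing.injective A K
  have hne : ∀ {a : A}, a ≠ 0 → algebraMap A K a ≠ 0 := fun ha h0 =>
    ha (hi (h0.trans (map_zero _).symm))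
  have hmem : ∀ (i : ι) {x : A}, x ≠ 0 → ∀ v ∈ Submodule.span A (Set.range b),
      dgE b (Function.update 1 i (algebraMap A K x)) v ∈ Submodule.span A (Set.range b) :=
    fun i x hx v hv => (b.mem_span_iff_repr_mem A _).2 fun l => by
      obtain ⟨a, ha⟩ := (b.mem_span_iff_repr_mem A _).1 hv l
      rw [repr_dgE b (upd_ne (hne hx) i), ← ha]
      by_cases hl : l = i
      · exact ⟨x * a, by simp [hl]⟩
      · exact ⟨a, by simp [hl]⟩
  have hD : ∀ (i j : ι) {x y : A}, x ≠ 0 → y ≠ 0 → (i = j → IsCoprime x y) →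
      Nonempty (Coord Γ (Submodule.span A (Set.range b))
        ((dgE b (Function.update 1 i (algebraMap A K x))).restrictScalars A)
        ((dgE b (Function.update 1 j (algebraMap A K y))).restrictScalars A) A K Γ.ζ
        (if i = j then x else 1) y) := fun i j x y hx hy hxy =>
    ⟨{ κ := (b.coord j).toAddMonoidHom
       inj := hi
       hζ := Γ.hζ
       h6 := Γ.h6
       fin := h.finite hy
       cop := by
        split_ifs with h1
        exacts [hxy h1, isCoprime_one_left]
       mem := fun v hv => (b.mem_span_iff_repr_mem A _).1 hv j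
       surj := fun a => ⟨a • b j, Submodule.smul_mem _ _ (Submodule.subset_span ⟨j, rfl⟩), by
        rw [← algebraMap_smul K]; simp [-algebraMap_smul]⟩
       iff := fun v hv => by
        have h1 : ∀ l, b.repr v l = Function.update (1 : ι → K) j (algebraMap A K y) l *
            b.repr ((dgE b (Function.update 1 j (algebraMap A K y))).symm v) l := fun l => by
          rw [← repr_dgE b (upd_ne (hne hy) j), LinearEquiv.apply_symm_apply]
        show (dgE b (Function.update 1 j (algebraMap A K y))).symm v ∈ _ ↔ ∃ a, b.repr v j = _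
        rw [b.mem_span_iff_repr_mem A]
        constructor
        · intro h2
          obtain ⟨a, ha⟩ := h2 j
          exact ⟨a, by rw [h1 j, ← ha]; simp⟩
        · rintro ⟨a, ha⟩ l
          by_cases hl : l = j
          · subst hl
            refine ⟨a, mul_left_cancel₀ (hne hy) ?_⟩
            rw [← map_mul, ← ha, h1 l]
            simp
          · have h2 := h1 l
            rw [Function.update_of_ne hl, Pi.one_apply, one_mul] at h2
            rw [← h2]
            exact (b.mem_span_iff_repr_mem A _).1 hv l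
       zeta := fun v => by
        rw [← algebraMap_smul K]; simp [-algebraMap_smul]
       act := fun v => by
        show b.repr (dgE b (Function.update 1 i (algebraMap A K x)) v) j = _ * b.repr v j
        rw [repr_dgE b (upd_ne (hne hx) i)]
        by_cases hl : i = j
        · simp [hl]
        · simp [hl, Ne.symm hl] }⟩
  obtain ⟨D⟩ := hD i j hx hy hxy
  obtain ⟨D'⟩ := hD j i hy hx fun e => (hxy e.symm).symm
  have h1 := cm_zs hL (fun v => LinearEquiv.congr_fun
    (dgE_comm b (upd_ne (hne hx) i) (upd_ne (hne hy) j)) v) (hmem i hx) (hmem j hy) D D'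
  simp only [eq_comm (a := j)] at h1
  exact h1

/-- diagonal matrices `≡ 1` commute with all diagonal matrices in the extension -/
theorem hdiag (h : H79.Loc M φ) {Γ : LatSys A V} (hζ : Γ.ζ = φ (1 + om)) (b : Module.Basis ι K V)
    (hL : Γ.Lat (Submodule.span A (Set.range b))) (g g' : V ≃ₗ[K] V) (s t : ι → K)
    (hg : mat b g = diagonal s) (hg' : mat b g' = diagonal t)
    (hs : ∀ i, (locM K h).H (locM K h).q (s i)) : cmK Γ g g' = 0 := by
  have hi := IsFractionRing.injective A K
  have hs0 := ne_of_diag b hg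
  have ht0 := ne_of_diag b hg'
  obtain rfl : g = dgE b s := mat_inj b (hg.trans (mat_dgE b hs0).symm)
  obtain rfl : g' = dgE b t := mat_inj b (hg'.trans (mat_dgE b ht0).symm)
  have hl : ∀ s s' t : ι → K, (∀ i, s i ≠ 0) → (∀ i, s' i ≠ 0) → (∀ i, t i ≠ 0) →
      cmK Γ (dgE b (s * s')) (dgE b t) = cmK Γ (dgE b s) (dgE b t) + cmK Γ (dgE b s') (dgE b t) :=
    fun s s' t h1 h2 h3 => by
      rw [dgE_mul b h1 h2, cmK_mul_left (dgE_comm b h1 h3) (dgE_comm b h2 h3)]
  have hr : ∀ s t t' : ι → K, (∀ i, s i ≠ 0) → (∀ i, t i ≠ 0) → (∀ i, t' i ≠ 0) →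
      cmK Γ (dgE b s) (dgE b (t * t')) = cmK Γ (dgE b s) (dgE b t) + cmK Γ (dgE b s) (dgE b t') :=
    fun s t t' h1 h2 h3 => by
      rw [cmK_anti, hl _ _ _ h2 h3 h1, cmK_anti (dgE b s), cmK_anti (dgE b s)]
      ring
  let c : ι → ι → K → K → ZMod 6 := fun i j x y =>
    cmK Γ (dgE b (Function.update 1 i x)) (dgE b (Function.update 1 j y))
  have cl : ∀ i j x x' y, x ≠ 0 → x' ≠ 0 → y ≠ 0 → c i j (x * x') y = c i j x y + c i j x' y :=
    fun i j x x' y h1 h2 h3 => by
      simp only [c, upd_mul]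
      exact hl _ _ _ (upd_ne h1 i) (upd_ne h2 i) (upd_ne h3 j)
  have cr : ∀ i j x y y', x ≠ 0 → y ≠ 0 → y' ≠ 0 → c i j x (y * y') = c i j x y + c i j x y' :=
    fun i j x y y' h1 h2 h3 => by
      simp only [c, upd_mul]
      exact hr _ _ _ (upd_ne h1 i) (upd_ne h2 j) (upd_ne h3 j)
  have h9 : (3 * 3 : ZMod 6) = 3 := rfl
  have hsame : ∀ i y, y ≠ 0 → c i i (s i) y = 0 := fun i y hy => by
    obtain ⟨r, hr, e⟩ := hs i
    rw [show s i = 1 + (M : K) ^ 3 * r from by rw [← sub_eq_iff_eq_add', e]; rfl]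
    exact h.pair_eq_zero (c := fun x y => c i i y x)
      ⟨hi, fun x x' y h1 h2 h3 => cr i i y x x' h3 h1 h2, fun x y y' h1 h2 h3 => cl i i y y' x h2 h3 h1,
        fun x _ => cmK_self _, fun a a' ha ha' hc => by
          simp only [c]
          rw [cm_upd h b hL i i ha' ha fun _ => hc.symm, hζ, ← h.three_dg ha, ← h.three_dg ha',
            mul_mul_mul_comm, h9, if_pos rfl, if_pos rfl, mul_assoc]⟩ hfrK hy hr
  refine vec_vanish (fun s => cmK Γ (dgE b s) (dgE b t)) (fun s s' h1 h2 => hl s s' t h1 h2 ht0)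
    hs0 fun i => vec_vanish (fun t => cmK Γ (dgE b (Function.update 1 i (s i))) (dgE b t))
      (fun t t' h1 h2 => hr _ t t' (upd_ne (hs0 i) i) h1 h2) ht0 fun j => ?_
  by_cases hij : i = j
  · subst hij
    exact hsame i _ (ht0 i)
  refine frac_vanish _ hi hfrK (c i j (s i)) (fun y y' h1 h2 => cr i j _ y y' (hs0 i) h1 h2)
    (fun a ha => ?_) (ht0 j)
  have ha' : algebraMap A K a ≠ 0 := fun h0 => ha (hi (h0.trans (map_zero _).symm))
  have h1 := frac_vanish _ hi hfrK
    (fun x => c i j x (algebraMap A K a) - zs Γ.ζ (-1) a * c i i x (-1))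
    (fun x x' h1 h2 => by
      rw [cl i j x x' _ h1 h2 ha', cl i i x x' _ h1 h2 (neg_ne_zero.2 one_ne_zero)]
      ring)
    (fun x hx => by
      simp only [c]
      rw [cm_upd h b hL i j hx ha fun e => (hij e).elim, show (-1 : K) = algebraMap A K (-1) by simp,
        cm_upd h b hL i i hx (neg_ne_zero.2 one_ne_zero) fun _ => isCoprime_one_right.neg_right]
      simp [hij, zs_one_left, zs_unit]) (hs0 i)
  simpa [hsame i (-1) (neg_ne_zero.2 one_ne_zero)] using h1

end Crest.Agent.T27.Rc
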