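import Crest.Agent.T27.Rec8_64
import Crest.Agent.T27.RecAd_55

/-!
# Row 27, sextic reciprocity over a number field, part 9: the theorem
-/

set_option autoImplicit false
set_option linter.unusedSectionVars false

noncomputable section

namespace Crest.Agent.T27.Rc

open Matrix Crest.Agent.R17 NumberField

section mu
variable {K F : Type*} [Field K] [Field F] [Algebra K F]

open Classical in
/-- multiplication by `(u, w)` on `F × K` -/
def muE (u : F) (w : K) : (F × K) ≃ₗ[K] F × K :=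
  if h : u ≠ 0 ∧ w ≠ 0 then
    (DistribMulAction.toLinearEquiv K F (Units.mk0 u h.1)).prodCongr
      (DistribMulAction.toLinearEquiv K K (Units.mk0 w h.2)) else 1

theorem muE_apply {u : F} {w : K} (hu : u ≠ 0) (hw : w ≠ 0) (x : F × K) :
    muE u w x = (u * x.1, w * x.2) := by
  rw [muE, dif_pos ⟨hu, hw⟩]
  rfl

theorem muE_symm {u : F} {w : K} (hu : u ≠ 0) (hw : w ≠ 0) (x : F × K) :
    (muE u w).symm x = (u⁻¹ * x.1, w⁻¹ * x.2) := by
  rw [LinearEquiv.symm_apply_eq, muE_apply hu hw]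
  simp [hu, hw]

theorem muE_mul {u u' : F} {w w' : K} (hu : u ≠ 0) (hw : w ≠ 0) (hu' : u' ≠ 0) (hw' : w' ≠ 0) :
    muE (u * u') (w * w') = muE u w * muE u' w' := by
  ext1 x
  rw [LinearEquiv.mul_apply, muE_apply hu' hw', muE_apply hu hw,
    muE_apply (mul_ne_zero hu hu') (mul_ne_zero hw hw'), mul_assoc, mul_assoc]

theorem muE_comm {u u' : F} {w w' : K} (hu : u ≠ 0) (hw : w ≠ 0) (hu' : u' ≠ 0) (hw' : w' ≠ 0) :
    muE u w * muE u' w' = muE u' w' * muE u w := by
  rw [← muE_mul hu hw hu' hw', ← muE_mul hu' hw' hu hw, mul_comm u, mul_comm w]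

theorem mat_muE_one {ι : Type*} [Fintype ι] [DecidableEq ι] (b : Module.Basis ι K F) {w : K}
    (hw : w ≠ 0) : mat (b.prod (Module.Basis.singleton Unit K)) (muE 1 w) =
      diagonal (Sum.elim (fun _ => 1) fun _ => w) := by
  ext i j
  rw [mat, LinearMap.toMatrix_apply, LinearEquiv.coe_coe, muE_apply one_ne_zero hw]
  rcases i with i | i <;> rcases j with j | j <;>
    simp [diagonal_apply, Finsupp.single_apply, eq_comm]

end mu

theorem cmK_zs {A K V : Type*} [CommRing A] [Field K] [Algebra A K] [AddCommGroup V] [Module A V]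
    [Module K V] [IsScalarTower A K V] {Γ : LatSys A V} {L : Submodule A V} {g h : V ≃ₗ[K] V}
    (hL : Γ.Lat L) (hc : ∀ x, g (h x) = h (g x)) (hg : ∀ x ∈ L, g x ∈ L) (hh : ∀ x ∈ L, h x ∈ L)
    {S T S' T' : Type*} [CommRing S] [CommRing T] [Algebra S T] [CommRing S'] [CommRing T']
    [Algebra S' T'] {ζ a b : S} {ζ' a' b' : S'}
    (D : Coord Γ L (g.restrictScalars A) (h.restrictScalars A) S T ζ a b)
    (D' : Coord Γ L (h.restrictScalars A) (g.restrictScalars A) S' T' ζ' a' b') :
    cmK Γ g h = zs ζ' a' b' - zs ζ a b + zs ζ (-1) b * zs ζ' (-1) b' :=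
  cm_zs hL hc hg hh D D'

theorem newton_int {F : Type*} [Field F] {M : ℕ} (h6 : 6 ∣ M) {t : F} (ht : IsIntegral ℤ t) (i : ℕ) :
    ∃ s l : F, IsIntegral ℤ l ∧ (1 + (M : F) ^ 3 * t) * s ^ 6 = 1 + (M : F) ^ (i + 3) * l := by
  induction i with
  | zero => exact ⟨1, t, ht, by simp⟩
  | succ i ih =>
    obtain ⟨s, l, hl, h⟩ := ih
    obtain ⟨m, hm⟩ := h6
    have hM : (M : F) = 6 * m := by rw [hm]; push_cast; ring
    lift l to integralClosure ℤ F using hl
    set e : integralClosure ℤ F := (M : integralClosure ℤ F) ^ (i + 2) * m * l with he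
    refine ⟨s * (1 - e), _, ((M : integralClosure ℤ F) ^ i * m ^ 2 * l ^ 2 *
      (-21 + 70 * e - 105 * e ^ 2 + 84 * e ^ 3 - 35 * e ^ 4 + 6 * e ^ 5)).2, ?_⟩
    have he' : (e : F) = (M : F) ^ (i + 2) * m * l := by simp [he]
    have h2 : (M : F) ^ (i + 3) * l = 6 * e := by
      rw [he', pow_succ, hM]
      ring
    have h3 : (e : F) ^ 2 = (M : F) ^ (i + 1 + 3) * ((M : F) ^ i * m ^ 2 * l ^ 2) := by
      rw [he']
      ring
    have h4 : ((((M : integralClosure ℤ F) ^ i * m ^ 2 * l ^ 2 *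
      (-21 + 70 * e - 105 * e ^ 2 + 84 * e ^ 3 - 35 * e ^ 4 + 6 * e ^ 5) :
        integralClosure ℤ F)) : F) = (M : F) ^ i * m ^ 2 * l ^ 2 *
      (-21 + 70 * e - 105 * e ^ 2 + 84 * e ^ 3 - 35 * e ^ 4 + 6 * e ^ 5) := by
      push_cast
      rfl
    rw [h4, mul_pow, ← mul_assoc, h, h2, ← mul_assoc ((M : F) ^ (i + 1 + 3)), ← h3]
    ring

theorem rec_aux {M : ℕ} {A K : Type*} [CommRing A] [IsDomain A] [IsNoetherianRing A] [Field K]
    [Algebra A K] [IsFractionRing A K] {φ : O →+* A} (h : H79.Loc M φ)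
    {F : Type} [Field F] [NumberField F] [Algebra K F] [Module.Finite K F] [Algebra A F]
    [IsScalarTower A K F] {S : Type} [CommRing S] [Algebra S F] [Algebra A S] [IsScalarTower A S F]
    (hi : Function.Injective (algebraMap S F))
    (hr : ∀ x : F, x ∈ (algebraMap S F).range ↔ ∃ j : ℕ, IsIntegral ℤ ((M : F) ^ j * x))
    (hfin : ∀ b : S, b ≠ 0 → Finite (S ⧸ Ideal.span {b})) {x y : S} {t : F} (hx : x ≠ 0)
    (ht : IsIntegral ℤ t) (hy : algebraMap S F y = 1 + (M : F) ^ 3 * t) (hxy : IsCoprime x y) :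
    zs (algebraMap A S (φ (1 + om))) x y = zs (algebraMap A S (φ (1 + om))) y x := by
  classical
  have hiK := IsFractionRing.injective A K
  have hM1 : 1 < M := by have := Nat.le_of_dvd (Nat.pos_of_ne_zero h.ne) h.six; omega
  have hneS : ∀ {a : S}, a ≠ 0 → algebraMap S F a ≠ 0 := fun ha h0 =>
    ha (hi (h0.trans (map_zero _).symm))
  have hneA : ∀ {a : A}, a ≠ 0 → algebraMap A K a ≠ 0 := fun ha h0 =>
    ha (hiK (h0.trans (map_zero _).symm))
  have oneS : (1 : S) ≠ 0 := fun h0 => hx (by rw [← mul_one x, h0, mul_zero])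
  have hdenF : ∀ z : F, ∃ n : ℕ, n ≠ 0 ∧ ∃ a : S, algebraMap S F a = n * z := fun z => by
    obtain ⟨n, hn, h1⟩ := ((IsFractionRing.isAlgebraic_iff ℤ ℚ F).2
      (Algebra.IsAlgebraic.isAlgebraic z)).exists_integral_multiple
    refine ⟨n.natAbs, Int.natAbs_ne_zero.2 hn, (hr _).2 ⟨0, ?_⟩⟩
    rw [pow_zero, one_mul, Nat.cast_natAbs]
    rw [zsmul_eq_mul] at h1
    rcases abs_choice n with h2 | h2 <;> rw [h2]
    · exact h1
    · simpa using h1.neg
  have hfrF : ∀ z : F, ∃ a b : S, b ≠ 0 ∧ z * algebraMap S F b = algebraMap S F a := fun z => by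
    obtain ⟨n, hn, a, ha⟩ := hdenF z
    refine ⟨a, n, fun h0 => hn ?_, by rw [ha, map_natCast, mul_comm]⟩
    have h1 := congrArg (algebraMap S F) h0
    rw [map_natCast, map_zero] at h1
    exact_mod_cast h1
  let L : Submodule A (F × K) :=
    (LinearMap.range (IsScalarTower.toAlgHom A S F).toLinearMap).prod
      (LinearMap.range (Algebra.linearMap A K))
  have hmem : ∀ v : F × K, v ∈ L ↔
      (∃ a, algebraMap S F a = v.1) ∧ ∃ a, algebraMap A K a = v.2 := fun v => Iff.rfl
  have hL : IsLat L := by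
    refine ⟨Submodule.FG.prod ?_ (Submodule.fg_range _), fun v => ?_⟩
    · obtain ⟨T, hT⟩ := Module.Finite.fg_top (R := ℤ) (M := 𝓞 F)
      refine (Submodule.fg_span (R := A) (T.finite_toSet.image (algebraMap (𝓞 F) F))).of_le ?_
      rintro _ ⟨a, rfl⟩
      obtain ⟨j, hj⟩ := (hr _).1 ⟨a, rfl⟩
      have h1 : ∀ z : 𝓞 F, algebraMap (𝓞 F) F z ∈
          Submodule.span A (algebraMap (𝓞 F) F '' (T : Set (𝓞 F))) := fun z => by
        have h2 : z ∈ Submodule.span ℤ (T : Set (𝓞 F)) := hT ▸ trivial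
        induction h2 using Submodule.span_induction with
        | mem z hz => exact Submodule.subset_span ⟨z, hz, rfl⟩
        | zero => simp
        | add z w _ _ h3 h4 => rw [map_add]; exact Submodule.add_mem _ h3 h4
        | smul c z _ h3 => rw [map_zsmul]; exact zsmul_mem h3 c
      obtain ⟨u, hu⟩ := (h.unit.pow j).exists_left_inv
      have h2 := Submodule.smul_mem _ u (h1 ⟨_, hj⟩)
      have h3 : algebraMap A F u * (M : F) ^ j = 1 := by simpa using congrArg (algebraMap A F) hu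
      change u • ((M : F) ^ j * algebraMap S F a) ∈ _ at h2
      rwa [Algebra.smul_def, ← mul_assoc, h3, one_mul] at h2
    · obtain ⟨n, hn, a, ha⟩ := hdenF v.1
      obtain ⟨m, hm, a', ha'⟩ := hdenK h v.2
      refine ⟨n * m, mul_ne_zero hn hm, (hmem _).2 ⟨⟨m * a, ?_⟩, ⟨n * a', ?_⟩⟩⟩
      · simp [ha, Algebra.smul_def]
        ring
      · simp [ha', Algebra.smul_def]
        ring
  let Γ : LatSys A (F × K) := mkLat (φ (1 + om)) (H79.Loc.zeta φ) h.h6
    (fun n hn => h.finite (by simpa using h.map_ne (b := n) (by exact_mod_cast hn))) L hL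
  set ζ := algebraMap A S (φ (1 + om)) with hζd
  have hζ : ζ ^ 2 - ζ + 1 = 0 := by
    simpa only [map_add (algebraMap A S), map_sub, map_pow, map_one, map_zero] using
      congrArg (algebraMap A S) (H79.Loc.zeta φ)
  have h6 : IsUnit (6 : S) := by simpa only [map_ofNat] using h.h6.map (algebraMap A S)
  let b := (Module.finBasis K F).prod (Module.Basis.singleton Unit K)
  have hd := hdiag h (Γ := Γ) rfl b (isLat_span h b)
  have hpres : ∀ {a : S} {w : A}, a ≠ 0 → w ≠ 0 → ∀ v ∈ L,
      muE (algebraMap S F a) (algebraMap A K w) v ∈ L := fun {a w} ha hw v hv => by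
    obtain ⟨⟨c, hc⟩, d, hd⟩ := (hmem v).1 hv
    rw [muE_apply (hneS ha) (hneA hw)]
    exact (hmem _).2 ⟨⟨a * c, by rw [map_mul, hc]⟩, w * d, by rw [map_mul, hd]⟩
  have D1 : ∀ {a a' : S} {w : A}, a ≠ 0 → w ≠ 0 → a' ≠ 0 → IsCoprime a a' → Nonempty (Coord Γ L
      ((muE (algebraMap S F a) (algebraMap A K w)).restrictScalars A)
      ((muE (algebraMap S F a') (algebraMap A K 1)).restrictScalars A) S F ζ a a') :=
    fun {a a' w} ha hw ha' hc =>
    ⟨{ κ := AddMonoidHom.fst F K
       inj := hi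
       hζ := hζ
       h6 := h6
       fin := hfin _ ha'
       cop := hc
       mem := fun v hv => ((hmem v).1 hv).1
       surj := fun c => ⟨(algebraMap S F c, 0), (hmem _).2 ⟨⟨c, rfl⟩, 0, map_zero _⟩, rfl⟩
       iff := fun v hv => by
        show (muE (algebraMap S F a') (algebraMap A K 1)).symm v ∈ L ↔ ∃ c, v.1 = _
        rw [muE_symm (hneS ha') (hneA one_ne_zero), hmem]
        simp only [map_one, inv_one, one_mul, ((hmem v).1 hv).2, and_true, map_mul]
        exact exists_congr fun c => by rw [eq_inv_mul_iff_mul_eq₀ (hneS ha'), eq_comm]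
       zeta := fun v => by
        show φ (1 + om) • v.1 = _
        rw [Algebra.smul_def, IsScalarTower.algebraMap_apply A S F]
        rfl
       act := fun v => by
        show (muE (algebraMap S F a) (algebraMap A K w) v).1 = _
        rw [muE_apply (hneS ha) (hneA hw)]
        rfl }⟩
  have D2 : ∀ {a : S} {w w' : A}, a ≠ 0 → w ≠ 0 → w' ≠ 0 → IsCoprime w w' → Nonempty (Coord Γ L
      ((muE (algebraMap S F a) (algebraMap A K w)).restrictScalars A)
      ((muE (algebraMap S F 1) (algebraMap A K w')).restrictScalars A) A K (φ (1 + om)) w w') :=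
    fun {a w w'} ha hw hw' hc =>
    ⟨{ κ := AddMonoidHom.snd F K
       inj := hiK
       hζ := H79.Loc.zeta φ
       h6 := h.h6
       fin := h.finite hw'
       cop := hc
       mem := fun v hv => ((hmem v).1 hv).2
       surj := fun c => ⟨(0, algebraMap A K c), (hmem _).2 ⟨⟨0, map_zero _⟩, c, rfl⟩, rfl⟩
       iff := fun v hv => by
        show (muE (algebraMap S F 1) (algebraMap A K w')).symm v ∈ L ↔ ∃ c, v.2 = _
        rw [muE_symm (hneS oneS) (hneA hw'), hmem]
        simp only [map_one, inv_one, one_mul, ((hmem v).1 hv).1, true_and, map_mul]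
        exact exists_congr fun c => by rw [eq_inv_mul_iff_mul_eq₀ (hneA hw'), eq_comm]
       zeta := fun v => by
        show φ (1 + om) • v.2 = _
        rw [Algebra.smul_def]
        rfl
       act := fun v => by
        show (muE (algebraMap S F a) (algebraMap A K w) v).2 = _
        rw [muE_apply (hneS ha) (hneA hw)]
        rfl }⟩
  have hcz : ∀ {a a' : S} {w w' : A}, a ≠ 0 → w ≠ 0 → a' ≠ 0 → w' ≠ 0 → ∀ v,
      muE (algebraMap S F a) (algebraMap A K w) (muE (algebraMap S F a') (algebraMap A K w') v) =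
      muE (algebraMap S F a') (algebraMap A K w') (muE (algebraMap S F a) (algebraMap A K w) v) :=
    fun ha hw ha' hw' v => LinearEquiv.congr_fun (muE_comm (hneS ha) (hneA hw) (hneS ha') (hneA hw')) v
  have one := one_ne_zero (α := A)
  have E1 : ∀ {a a' : S}, a ≠ 0 → a' ≠ 0 → IsCoprime a a' →
      cmK Γ (muE (algebraMap S F a) (1 : K)) (muE (algebraMap S F a') 1) =
        zs ζ a' a - zs ζ a a' + zs ζ (-1) a' * zs ζ (-1) a := fun {a a'} ha ha' hc => by
    obtain ⟨D⟩ := D1 ha one ha' hc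
    obtain ⟨D'⟩ := D1 ha' one ha hc.symm
    simpa only [map_one] using
      cmK_zs (Γ := Γ) hL (hcz ha one ha' one) (hpres ha one) (hpres ha' one) D D'
  have E2 : ∀ {a : S} {w : A}, a ≠ 0 → w ≠ 0 →
      cmK Γ (muE (algebraMap S F a) (1 : K)) (muE 1 (algebraMap A K w)) =
        zs (φ (1 + om)) (-1) w * zs ζ (-1) a := fun {a w} ha hw => by
    obtain ⟨D⟩ := D2 ha one hw isCoprime_one_left
    obtain ⟨D'⟩ := D1 oneS hw ha isCoprime_one_left
    simpa only [map_one, zs_one_left, sub_self, zero_add] using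
      cmK_zs (Γ := Γ) hL (hcz ha one oneS hw) (hpres ha one) (hpres oneS hw) D D'
  have E3 : ∀ {w : A}, w ≠ 0 → cmK Γ (muE (1 : F) (algebraMap A K w)) (muE 1 (-1)) =
        zs (φ (1 + om)) (-1) w := fun {w} hw => by
    have m1 : (-1 : A) ≠ 0 := neg_ne_zero.2 one
    obtain ⟨D⟩ := D2 oneS hw m1 isCoprime_one_right.neg_right
    obtain ⟨D'⟩ := D2 oneS m1 hw isCoprime_one_left.neg_left
    simpa only [map_one, map_neg, zs_unit _ _ isUnit_one.neg, sub_zero, zero_mul, add_zero] using
      cmK_zs (Γ := Γ) hL (hcz oneS hw oneS m1) (hpres oneS hw) (hpres oneS m1) D D'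
  have hl : ∀ {u u' v : F} {w w' z : K}, u ≠ 0 → w ≠ 0 → u' ≠ 0 → w' ≠ 0 → v ≠ 0 → z ≠ 0 →
      cmK Γ (muE (u * u') (w * w')) (muE v z) =
        cmK Γ (muE u w) (muE v z) + cmK Γ (muE u' w') (muE v z) := fun h1 h2 h3 h4 h5 h6 => by
    rw [muE_mul h1 h2 h3 h4, cmK_mul_left (muE_comm h1 h2 h5 h6) (muE_comm h3 h4 h5 h6)]
  have hrt : ∀ {u u' v : F} {w w' z : K}, u ≠ 0 → w ≠ 0 → u' ≠ 0 → w' ≠ 0 → v ≠ 0 → z ≠ 0 →
      cmK Γ (muE v z) (muE (u * u') (w * w')) =
        cmK Γ (muE v z) (muE u w) + cmK Γ (muE v z) (muE u' w') := 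
    fun {u u' v w w' z} h1 h2 h3 h4 h5 h6 => by
      rw [cmK_anti, hl h1 h2 h3 h4 h5 h6, cmK_anti (muE v z), cmK_anti (muE v z)]
      ring
  have o1 := one_ne_zero (α := F)
  have o2 := one_ne_zero (α := K)
  have E4 : ∀ {v : F} {w : K}, v ≠ 0 → (locM K h).H (locM K h).q w →
      cmK Γ (muE v (1 : K)) (muE 1 w) = 0 := fun {v w} hv hw => by
    have hw0 := (hw.unit Loc.I_q).1
    refine frac_vanish _ hi hfrF (fun v => cmK Γ (muE v (1 : K)) (muE 1 w))
      (fun v v' h1 h2 => by simpa only [mul_one] using hl h1 o2 h2 o2 o1 hw0) (fun a ha => ?_) hv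
    have h1 := frac_vanish _ hiK hfrK (fun w => cmK Γ (muE (algebraMap S F a) (1 : K)) (muE 1 w) -
      cmK Γ (muE (1 : F) w) (muE 1 (-1)) * zs ζ (-1) a)
      (fun w w' h1 h2 => by
        have e1 := hrt o1 h1 o1 h2 (hneS ha) o2
        have e2 := hl o1 h1 o1 h2 o1 (neg_ne_zero.2 o2)
        rw [mul_one] at e1 e2
        rw [e1, e2]
        ring)
      (fun w hw => by rw [E2 ha hw, E3 hw, sub_self]) hw0
    rw [hd _ _ _ _ (mat_muE_one _ hw0) (mat_muE_one _ (neg_ne_zero.2 o2))
      (by rintro (i | i); exacts [Loc.H.one, hw])] at h1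
    simpa using h1
  have h6K : (6 : K) ≠ 0 := by simpa only [map_ofNat] using hneA h.h6.ne_zero
  let f : 𝓞 F →+ Matrix _ _ K := (LinearMap.toMatrix b b).toLinearMap.toAddMonoidHom.comp
    { toFun := fun z => (LinearMap.mulLeft K (z : F)).prodMap 0
      map_zero' := by ext <;> simp
      map_add' := fun z z' => by ext <;> simp [add_mul] }
  choose m hm using fun p : _ × _ => (locM K h).exists_bound
    ((Pi.evalAddMonoidHom _ p.2).comp ((Pi.evalAddMonoidHom _ p.1).comp f))
  obtain ⟨m₀, hm₀⟩ := Finite.exists_le m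
  have E5 : ∀ {v : F}, v ≠ 0 → cmK Γ (muE v (1 : K)) (muE (algebraMap S F y) 1) = 0 := by
    intro v hv
    obtain ⟨N, hN⟩ := deep_cm b h6K (locM K h) hd (muE v 1)
    obtain ⟨s, l, hl', e⟩ := newton_int h.six ht (3 * (N + m₀))
    have hu := Ad.one_add_ne hM1 (j := 3 * (N + m₀) + 3) (by omega) (mem_LocS_of_isIntegral hl')
    set u := 1 + (M : F) ^ (3 * (N + m₀) + 3) * l with hud
    have hq : (locM K h).I (locM K h).q ((locM K h).q ^ (N + 1)) :=
      ⟨_, Subring.pow_mem _ (locM K h).q_mem N, pow_succ' _ _⟩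
    have c1 : (locM K h).Cg ((locM K h).q ^ (N + 1)) (mat b (muE u 1)) := fun i j => by
      have h1 : (muE u (1 : K) : F × K →ₗ[K] F × K) = LinearMap.id + ((M : K) ^ (3 * (N + m₀) + 3)) •
          (LinearMap.mulLeft K l).prodMap 0 := by
        refine LinearMap.ext fun z => ?_
        rw [LinearEquiv.coe_coe, muE_apply hu o2, hud, LinearMap.add_apply, LinearMap.smul_apply]
        ext <;> simp [Algebra.smul_def]
        ring
      refine ⟨_, Loc.pow_mem _ (hm (i, j) ⟨l, hl'⟩) (hm₀ _), ?_⟩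
      rw [mat, h1, map_add, map_smul, LinearMap.toMatrix_id, Matrix.add_apply, add_sub_cancel_left,
        Matrix.smul_apply, smul_eq_mul, ← mul_assoc, ← pow_add]
      congr 1
      show _ = ((M : K) ^ 3) ^ _
      ring
    have c2 := (c1.det (hq.mem (locM K h).q_mem))
    have c3 := c2.inv hq
    have hw0 := (c3.unit hq).1
    have h1 := hN (muE u 1 * muE 1 (mat b (muE u 1)).det⁻¹) (by
        rw [mat_mul, det_mul, mat_muE_one _ hw0, det_diagonal]
        simp [(c2.unit hq).1])
      (fun i j => Loc.I.of_mul (s := (locM K h).q) (by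
        rw [mat_mul, mat_muE_one _ hw0, ← pow_succ]
        exact c1.mul (Loc.Cg.diag (by rintro (i | i); exacts [Loc.H.one, c3]))
          (hq.mem (locM K h).q_mem) i j) (locM K h).q_mem)
      (by rw [← muE_mul hu o2 o1 hw0]; exact muE_comm hv o2 (mul_ne_zero hu o1) (mul_ne_zero o2 hw0))
    rw [← muE_mul hu o2 o1 hw0, hrt hu o2 o1 hw0 hv o2, E4 hv (by
      obtain ⟨r, hr, e⟩ := hq
      exact Loc.I.of_mul (e ▸ c3) hr), add_zero, ← e, ← hy] at h1
    have hy0 : algebraMap S F y ≠ 0 := by rw [hy]; exact left_ne_zero_of_mul (e ▸ hu)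
    have hs0 : s ≠ 0 := fun h0 => hu (by rw [← e, h0]; simp)
    have h2 : ∀ k : ℕ, cmK Γ (muE v (1 : K)) (muE (algebraMap S F y * s ^ k) 1) =
        cmK Γ (muE v (1 : K)) (muE (algebraMap S F y) 1) + k * cmK Γ (muE v (1 : K)) (muE s 1) :=
      fun k => by
        induction k with
        | zero => simp
        | succ k ih =>
          have e1 := hrt (mul_ne_zero hy0 (pow_ne_zero k hs0)) o2 hs0 o2 hv o2
          rw [mul_one] at e1
          rw [pow_succ, ← mul_assoc, e1, ih]
          push_cast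
          ring
    rw [h2 6] at h1
    simpa [show (6 : ZMod 6) = 0 from rfl] using h1
  have hy0 : y ≠ 0 := by
    rintro rfl
    exact Ad.one_add_ne hM1 (j := 3) (by omega) (mem_LocS_of_isIntegral ht) (by rw [← hy, map_zero])
  have h1 := E1 (neg_ne_zero.2 oneS) hy0 isCoprime_one_left.neg_left
  have h2 := E1 hx hy0 hxy
  rw [E5 (hneS (neg_ne_zero.2 oneS)), zs_unit _ _ isUnit_one.neg, zs_unit _ _ isUnit_one.neg] at h1
  rw [E5 (hneS hx)] at h2
  linear_combination h2 + zs ζ (-1) x * h1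

theorem recCop_64 : RecCop 3 := by
  intro F _ _ M h6 h0 S _ _ hi hr ζ hζ x y t hx ht hy hxy
  have hM : (M : F) ≠ 0 := by exact_mod_cast h0
  have hfin : ∀ b : S, b ≠ 0 → Finite (S ⧸ Ideal.span {b}) := by
    intro b hb
    let e : S ≃+* RS F M := RingEquiv.ofBijective
      ((algebraMap S F).codRestrict (RS F M) fun x => mem_RS.2 ((hr _).1 ⟨x, rfl⟩))
      ⟨fun _ _ e => hi (congrArg Subtype.val e), fun x => by
        obtain ⟨a, ha⟩ := (hr x).2 (mem_RS.1 x.2)
        exact ⟨a, Subtype.ext ha⟩⟩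
    have : Finite (RS F M ⧸ Ideal.span {e b}) :=
      finite_quot_LocS (zero_notMem_powers h0) (by simpa using hb)
    exact Finite.of_equiv _
      (Ideal.quotientEquiv (Ideal.span {b}) (Ideal.span {e b}) e
        (by simp [Ideal.map_span])).toEquiv.symm
  have hu : IsUnit (H79.hom hζ (M : O)) := by
    obtain ⟨w, hw⟩ := (hr (M : F)⁻¹).2 ⟨1, by simpa [hM] using isIntegral_one⟩
    refine IsUnit.of_mul_eq_one w (hi ?_)
    rw [map_mul, hw, map_one, map_natCast, map_natCast, mul_inv_cancel₀ hM]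
  have hM0 : (M : O) ≠ 0 := by exact_mod_cast h0
  have hle := powers_le_nonZeroDivisors_of_noZeroDivisors hM0
  let A := Localization.Away (M : O)
  have : IsDomain A := IsLocalization.isDomain_localization hle
  have : IsNoetherianRing A := IsLocalization.isNoetherianRing (Submonoid.powers (M : O)) A
    inferInstance
  have h : H79.Loc M (algebraMap O A) := ⟨h6, h0, IsLocalization.injective A hle,
    by simpa using IsLocalization.Away.algebraMap_isUnit (S := A) (M : O), fun x => by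
      obtain ⟨j, y, e⟩ := IsLocalization.Away.surj (M : O) x
      exact ⟨j, y, by rw [← e, map_natCast, mul_comm]⟩⟩
  let ψ : A →+* S := IsLocalization.Away.lift (M : O) hu
  have hψ : ∀ z : O, ψ (algebraMap O A z) = H79.hom hζ z := IsLocalization.Away.lift_eq _ hu
  have hinj : Function.Injective ((algebraMap S F).comp ψ) := by
    refine (injective_iff_map_eq_zero _).2 fun a ha => ?_
    obtain ⟨j, z, e⟩ := h.surj a
    have h1 : algebraMap S F (H79.hom hζ z) = 0 := by
      rw [← hψ, e, map_mul, map_mul]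
      exact mul_eq_zero_of_right _ ha
    have h2 := congrArg (fun w => algebraMap S F (H79.hom hζ w)) (mul_cj z)
    simp only [map_mul, h1, zero_mul, map_natCast] at h2
    rw [nm_eq_zero.1 (show nm z = 0 by exact_mod_cast h2.symm), map_zero] at e
    exact ((h.unit.pow j).mul_right_eq_zero).1 e.symm
  let K := FractionRing A
  let _ : Algebra A S := ψ.toAlgebra
  let _ : Algebra A F := ((algebraMap S F).comp ψ).toAlgebra
  let _ : Algebra K F := (IsFractionRing.lift hinj : K →+* F).toAlgebra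
  have : IsScalarTower A S F := IsScalarTower.of_algebraMap_eq fun _ => rfl
  have : IsScalarTower A K F := IsScalarTower.of_algebraMap_eq fun a =>
    (IsFractionRing.lift_algebraMap hinj a).symm
  have : CharZero K := RingHom.charZero (algebraMap K F)
  have : IsScalarTower ℚ K F := IsScalarTower.of_algebraMap_eq fun a => by simp
  have : Module.Finite K F := Module.Finite.of_restrictScalars_finite ℚ K F
  have h1 := rec_aux (K := K) h hi hr hfin hx ht hy hxy
  rwa [show algebraMap A S (algebraMap O A (1 + om)) = ζ from (hψ _).trans (H79.hom_zeta hζ)] at h1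

/-- **Sextic reciprocity** over number fields -/
theorem rec_64 : RecStmt := recStmt_of_cop_55 3 recCop_64

end Crest.Agent.T27.Rc
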