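import Mathlib

/-!
# Central extensions of `GL n k` by a group of finite exponent: canonical unipotent lifts

Part A: canonical lifts of square-zero unipotents, Steinberg relations, torus elements,
injectivity of the projection on the unipotent and torus subgroups.
-/

namespace Crest.Agent.T27.RG89

open Matrix

/-- A central extension of `GL n k` whose kernel has exponent dividing `m`. -/
structure Ext (k : Type*) [Field k] (n : ℕ) (E : Type*) [Group E] where
  π : E →* GL (Fin n) k
  surj : Function.Surjective π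
  m : ℕ
  hm : 0 < m
  cen : ∀ z, π z = 1 → ∀ e, z * e = e * z
  expo : ∀ z, π z = 1 → z ^ m = 1

/-- Induction over the closure of a symmetric set. -/
theorem sym_induction {G : Type*} [Group G] {S : Set G} (hS : ∀ x ∈ S, x⁻¹ ∈ S)
    {p : G → Prop} (one : p 1) (mul : ∀ x ∈ S, ∀ y ∈ Subgroup.closure S, p y → p (x * y))
    {g : G} (hg : g ∈ Subgroup.closure S) : p g := by
  induction hg using Subgroup.closure_induction_left with
  | one => exact one
  | mul_left x hx y hy ih => exact mul x hx y hy ih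
  | inv_mul_cancel x hx y hy ih => exact mul _ (hS x hx) y hy ih

variable {k : Type*} [Field k] {n : ℕ} {E : Type*} [Group E] (X : Ext k n E)

namespace Ext

/-- The matrix of an element of the extension. -/
def P (e : E) : Matrix (Fin n) (Fin n) k := (X.π e : Matrix (Fin n) (Fin n) k)

@[simp] theorem P_mul (a b : E) : X.P (a * b) = X.P a * X.P b := by simp [P]
@[simp] theorem P_one : X.P 1 = 1 := by simp [P]
theorem P_pow (a : E) (j : ℕ) : X.P (a ^ j) = X.P a ^ j := by simp [P]
theorem P_inv_mul (a : E) : X.P a⁻¹ * X.P a = 1 := by rw [← P_mul]; simp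
theorem P_mul_inv (a : E) : X.P a * X.P a⁻¹ = 1 := by rw [← P_mul]; simp

theorem π_eq {a b : E} (h : X.P a = X.P b) : X.π a = X.π b := Units.ext h

theorem exists_P {A B : Matrix (Fin n) (Fin n) k} (h : A * B = 1) : ∃ e, X.P e = A := by
  obtain ⟨e, he⟩ := X.surj ⟨A, B, h, mul_eq_one_comm.1 h⟩
  exact ⟨e, by simp [P, he]⟩

theorem cenP {z : E} (h : X.P z = 1) (e : E) : z * e = e * z :=
  X.cen z (X.π_eq (h.trans X.P_one.symm) |>.trans (map_one _)) e

theorem pow_eq_of_P {a b : E} (h : X.P a = X.P b) : a ^ X.m = b ^ X.m := by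
  have h1 : X.π (a * b⁻¹) = 1 := by rw [map_mul, map_inv, X.π_eq h, mul_inv_cancel]
  have hc : Commute (a * b⁻¹) b := X.cen _ h1 b
  have : a = (a * b⁻¹) * b := by group
  rw [this, hc.mul_pow, X.expo _ h1, one_mul]

theorem one_add_mul_one_sub {N : Matrix (Fin n) (Fin n) k} (hN : N * N = 0) (c : k) :
    (1 + c • N) * (1 - c • N) = 1 := by
  simp [mul_sub, add_mul, hN]

theorem one_add_pow {N : Matrix (Fin n) (Fin n) k} (hN : N * N = 0) (c : k) (j : ℕ) :
    (1 + c • N) ^ j = 1 + ((j : k) * c) • N := by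
  induction j with
  | zero => simp
  | succ j ih =>
    rw [pow_succ, ih]
    simp only [mul_add, add_mul, mul_one, one_mul, smul_mul_smul_comm, hN, smul_zero, add_zero,
      Nat.cast_succ, add_smul]
    abel

open Classical in
/-- The canonical lift of `1 + N`, `N ^ 2 = 0`. -/
noncomputable def uh (N : Matrix (Fin n) (Fin n) k) : E :=
  if h : N * N = 0 then
    (Classical.choose (X.exists_P (one_add_mul_one_sub h ((X.m : k)⁻¹)))) ^ X.m
  else 1

theorem uh_eq {N : Matrix (Fin n) (Fin n) k} (hN : N * N = 0) {x : E}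
    (hx : X.P x = 1 + (X.m : k)⁻¹ • N) : X.uh N = x ^ X.m := by
  rw [uh, dif_pos hN]
  apply X.pow_eq_of_P
  rw [Classical.choose_spec (X.exists_P (one_add_mul_one_sub hN ((X.m : k)⁻¹))), hx]

theorem uh_zero : X.uh 0 = 1 := by
  rw [X.uh_eq (x := 1) (by simp) (by simp), one_pow]

variable [CharZero k]

theorem m_ne : (X.m : k) ≠ 0 := Nat.cast_ne_zero.2 X.hm.ne'

theorem P_uh {N : Matrix (Fin n) (Fin n) k} (hN : N * N = 0) : X.P (X.uh N) = 1 + N := by
  obtain ⟨x, hx⟩ := X.exists_P (one_add_mul_one_sub hN ((X.m : k)⁻¹))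
  rw [X.uh_eq hN hx, P_pow, hx, one_add_pow hN, mul_inv_cancel₀ X.m_ne, one_smul]

omit [CharZero k] in
/-- Conjugation invariance of the canonical lifts. -/
theorem uh_conj {N N' : Matrix (Fin n) (Fin n) k} (hN : N * N = 0) (hN' : N' * N' = 0) {e : E}
    (h : X.P e * N = N' * X.P e) : e * X.uh N = X.uh N' * e := by
  obtain ⟨x, hx⟩ := X.exists_P (one_add_mul_one_sub hN ((X.m : k)⁻¹))
  have h1 : X.P (e * x * e⁻¹) = 1 + (X.m : k)⁻¹ • N' := by
    rw [P_mul, P_mul, hx, mul_add, mul_one, mul_smul_comm, h, add_mul, smul_mul_assoc,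
      mul_assoc, P_mul_inv, mul_one]
  rw [X.uh_eq hN hx, X.uh_eq hN' h1, conj_pow]
  group

theorem uh_add {N M : Matrix (Fin n) (Fin n) k} (hN : N * N = 0) (hM : M * M = 0)
    (h1 : N * M = 0) (h2 : M * N = 0) : X.uh (N + M) = X.uh N * X.uh M := by
  set c : k := (X.m : k)⁻¹
  have hN' : (c • N) * (c • N) = 0 := by simp [hN]
  have hM' : (c • M) * (c • M) = 0 := by simp [hM]
  have hc : Commute (X.uh (c • N)) (X.uh (c • M)) := by
    apply X.uh_conj hM' hM'
    rw [X.P_uh hN']
    simp [mul_add, add_mul, h1, h2]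
  rw [X.uh_eq hN (X.P_uh hN'), X.uh_eq hM (X.P_uh hM'), ← hc.mul_pow]
  apply X.uh_eq
  · simp [mul_add, add_mul, hN, hM, h1, h2]
  · rw [P_mul, X.P_uh hN', X.P_uh hM']
    simp only [mul_add, add_mul, mul_one, one_mul, smul_mul_smul_comm, h1, smul_zero, add_zero,
      smul_add]
    abel

theorem uh_neg {N : Matrix (Fin n) (Fin n) k} (hN : N * N = 0) : X.uh (-N) = (X.uh N)⁻¹ := by
  rw [eq_inv_iff_mul_eq_one, ← X.uh_add (by simp [hN]) hN (by simp [hN]) (by simp [hN])]
  simp [uh_zero]

/-- Elementary unipotents. -/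
noncomputable def x (i j : Fin n) (t : k) : E := X.uh (single i j t)

omit [CharZero k] in
theorem sq_single {i j : Fin n} (h : i ≠ j) (s t : k) : single i j s * single i j t = 0 :=
  single_mul_single_of_ne _ _ _ _ h.symm _

omit [CharZero k] in
@[simp] theorem x_zero (i j : Fin n) : X.x i j 0 = 1 := by simp [x, uh_zero]

theorem P_x {i j : Fin n} (h : i ≠ j) (t : k) : X.P (X.x i j t) = 1 + single i j t :=
  X.P_uh (sq_single h t t)

theorem x_add {i j : Fin n} (h : i ≠ j) (s t : k) : X.x i j (s + t) = X.x i j s * X.x i j t := by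
  rw [x, single_add, X.uh_add (sq_single h _ _) (sq_single h _ _) (sq_single h _ _)
    (sq_single h _ _)]
  rfl

theorem x_neg {i j : Fin n} (h : i ≠ j) (t : k) : X.x i j (-t) = (X.x i j t)⁻¹ := by
  rw [eq_inv_iff_mul_eq_one, ← X.x_add h]; simp

/-- Steinberg: commuting elementary unipotents. -/
theorem x_comm {i j a b : Fin n} (h : i ≠ j) (h' : a ≠ b) (h1 : j ≠ a) (h2 : b ≠ i) (s t : k) :
    X.x i j s * X.x a b t = X.x a b t * X.x i j s := by
  apply X.uh_conj (sq_single h' _ _) (sq_single h' _ _)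
  rw [X.P_x h]
  simp [mul_add, add_mul, single_mul_single_of_ne _ _ _ _ h1, single_mul_single_of_ne _ _ _ _ h2]

/-- Steinberg: `x_ij(s) x_jl(t) = x_jl(t) x_il(st) x_ij(s)`. -/
theorem x_conj1 {i j l : Fin n} (h : i ≠ j) (h' : j ≠ l) (h'' : i ≠ l) (s t : k) :
    X.x i j s * X.x j l t = X.x j l t * X.x i l (s * t) * X.x i j s := by
  have e1 : single j l t * single i l (s * t) = (0 : Matrix (Fin n) (Fin n) k) :=
    single_mul_single_of_ne _ _ _ _ h''.symm _
  have e2 : single i l (s * t) * single j l t = (0 : Matrix (Fin n) (Fin n) k) :=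
    single_mul_single_of_ne _ _ _ _ h'.symm _
  have : X.x j l t * X.x i l (s * t) = X.uh (single j l t + single i l (s * t)) :=
    (X.uh_add (sq_single h' _ _) (sq_single h'' _ _) e1 e2).symm
  rw [this]
  apply X.uh_conj (sq_single h' _ _)
  · simp [mul_add, add_mul, e1, e2, sq_single h', sq_single h'']
  · rw [X.P_x h]
    simp [mul_add, add_mul, single_mul_single_same, single_mul_single_of_ne _ _ _ _ h''.symm]

/-- Steinberg: `x_ij(s) x_li(t) = x_li(t) x_lj(-ts) x_ij(s)`. -/
theorem x_conj2 {i j l : Fin n} (h : i ≠ j) (h' : l ≠ i) (h'' : l ≠ j) (s t : k) :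
    X.x i j s * X.x l i t = X.x l i t * X.x l j (-(t * s)) * X.x i j s := by
  rw [mul_assoc, ← X.x_comm h h'' h''.symm h.symm, ← mul_assoc, X.x_neg h'',
    eq_mul_inv_iff_mul_eq, X.x_conj1 h' h h'' t s, mul_assoc,
    X.x_comm h' h'' h'.symm h''.symm, mul_assoc]

omit [CharZero k] in
/-- Conjugation by a lift of a diagonal matrix. -/
theorem diag_conj {d : E} {t : Fin n → k} (hd : X.P d = diagonal t) {i j : Fin n} (h : i ≠ j)
    {c c' : k} (hc : t i * c = c' * t j) : d * X.x i j c = X.x i j c' * d := by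
  apply X.uh_conj (sq_single h _ _) (sq_single h _ _)
  rw [hd]
  ext a b
  simp only [diagonal_mul, mul_diagonal, single, of_apply]
  split_ifs with hab
  · obtain ⟨rfl, rfl⟩ := hab; exact hc
  · simp

omit [CharZero k] in
theorem diag_ne {d : E} {t : Fin n → k} (hd : X.P d = diagonal t) (i : Fin n) : t i ≠ 0 := by
  intro h
  have := congrFun (congrFun (X.P_mul_inv d) i) i
  rw [hd] at this
  simp [h] at this

/-- The torus element attached to a pair `(a, b)`, `u = 1 + a b`. -/
noncomputable def eta (i j : Fin n) (a b : k) : E :=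
  X.x j i (-(b / (1 + a * b))) * X.x i j a * X.x j i b * X.x i j (-(a / (1 + a * b)))

/-- The diagonal matrix with `u` at `i`, `u⁻¹` at `j`. -/
def dg (i j : Fin n) (u : k) : Fin n → k := fun l => if l = i then u else if l = j then u⁻¹ else 1

theorem P_eta {i j : Fin n} (h : i ≠ j) {a b : k} (hu : 1 + a * b ≠ 0) :
    X.P (X.eta i j a b) = diagonal (dg i j (1 + a * b)) := by
  simp only [eta, P_mul, X.P_x h, X.P_x h.symm]
  simp only [mul_add, add_mul, mul_one, one_mul, single_mul_single_same,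
    single_mul_single_of_ne _ _ _ _ h, single_mul_single_of_ne _ _ _ _ h.symm, add_zero]
  have hu' : 1 + b * a ≠ 0 := by rwa [mul_comm]
  ext r s
  simp only [Matrix.add_apply, single, of_apply, diagonal_apply, Matrix.one_apply, dg]
  by_cases h1 : i = r
  · subst h1
    by_cases h3 : i = s
    · subst h3; simp [h.symm]
    · by_cases h4 : j = s
      · subst h4; simp [h, h.symm]; field_simp; ring
      · simp [h.symm, h3, h4]
  · by_cases h2 : j = r
    · subst h2
      by_cases h3 : i = s
      · subst h3; simp [h, h.symm]; field_simp; ring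
      · by_cases h4 : j = s
        · subst h4; simp [h, h.symm]; field_simp; ring
        · simp [h, h3, h4]
    · simp [h1, h2, Ne.symm h1, Ne.symm h2]

theorem x_mul_y {i j : Fin n} (h : i ≠ j) (a b : k) :
    X.x i j a * X.x j i b =
      X.x j i (b / (1 + a * b)) * X.eta i j a b * X.x i j (a / (1 + a * b)) := by
  rw [eta, X.x_neg h, X.x_neg h.symm]; group

end Ext

end Crest.Agent.T27.RG89
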