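import Crest.Agent.T27.RecGrpA_89

/-!
# Central extensions of `GL n k`, part B: the projection is injective on the lifted
unipotent groups and on the lifted deep torus.
-/

namespace Crest.Agent.T27.RG89

open Matrix

variable {k : Type*} [Field k] {n : ℕ} {E : Type*} [Group E] (X : Ext k n E)

/-- `A - 1` is supported on positions `(i, j)` with `rk i > rk j ≥ m`. -/
def Low (rk : Fin n → ℕ) (m : ℕ) (A : Matrix (Fin n) (Fin n) k) : Prop :=
  ∀ i j, (rk i ≤ rk j ∨ rk j < m) → (A - 1) i j = 0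

theorem Low.one (rk : Fin n → ℕ) (m : ℕ) : Low rk m (1 : Matrix (Fin n) (Fin n) k) := by
  intro i j _; simp

theorem Low.mul {rk : Fin n → ℕ} {m : ℕ} {A B : Matrix (Fin n) (Fin n) k} (hA : Low rk m A)
    (hB : Low rk m B) : Low rk m (A * B) := by
  intro i j hij
  have : A * B - 1 = (A - 1) + (B - 1) + (A - 1) * (B - 1) := by noncomm_ring
  rw [this, Matrix.add_apply, Matrix.add_apply, hA i j hij, hB i j hij, Matrix.mul_apply]
  simp only [zero_add]
  apply Finset.sum_eq_zero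
  intro l _
  by_cases h1 : rk l ≤ rk j ∨ rk j < m
  · rw [hB l j h1, mul_zero]
  · rw [hA i l (by omega), zero_mul]

namespace Ext

variable [CharZero k]

/-- Generators of the lifted "lower triangular" group. -/
def lowGen (rk : Fin n → ℕ) (m : ℕ) (A : Set k) : Set E :=
  {e | ∃ i j t, rk j < rk i ∧ m ≤ rk j ∧ t ∈ A ∧ e = X.x i j t}

omit [CharZero k] in
theorem ne_of_rk {rk : Fin n → ℕ} {i j : Fin n} (h : rk j < rk i) : i ≠ j := by
  rintro rfl; exact lt_irrefl _ h

theorem lowGen_symm (rk : Fin n → ℕ) (m : ℕ) {A : Set k} (hA : ∀ t ∈ A, -t ∈ A) :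
    ∀ e ∈ X.lowGen rk m A, e⁻¹ ∈ X.lowGen rk m A := by
  rintro e ⟨i, j, t, h1, h2, h3, rfl⟩
  exact ⟨i, j, -t, h1, h2, hA t h3, (X.x_neg (ne_of_rk h1) t).symm⟩

/-- The lifted "lower triangular" group. -/
def low (rk : Fin n → ℕ) (m : ℕ) (A : Set k) : Subgroup E := Subgroup.closure (X.lowGen rk m A)

omit [CharZero k] in
theorem x_mem_low {rk : Fin n → ℕ} {m : ℕ} {A : Set k} {i j : Fin n} {t : k} (h1 : rk j < rk i)
    (h2 : m ≤ rk j) (h3 : t ∈ A) : X.x i j t ∈ X.low rk m A :=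
  Subgroup.subset_closure ⟨i, j, t, h1, h2, h3, rfl⟩

omit [CharZero k] in
theorem low_mono (rk : Fin n → ℕ) (m : ℕ) {A B : Set k} (h : A ⊆ B) :
    X.low rk m A ≤ X.low rk m B := by
  apply Subgroup.closure_mono
  rintro e ⟨i, j, t, h1, h2, h3, rfl⟩
  exact ⟨i, j, t, h1, h2, h h3, rfl⟩

theorem low_P {rk : Fin n → ℕ} {m : ℕ} {e : E} (he : e ∈ X.low rk m Set.univ) :
    Low rk m (X.P e) := by
  refine sym_induction (p := fun e => Low rk m (X.P e))
    (X.lowGen_symm rk m (by simp)) ?_ ?_ he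
  · simpa using Low.one rk m
  · rintro _ ⟨i, j, t, h1, h2, -, rfl⟩ y _ ih
    rw [P_mul]
    refine Low.mul ?_ ih
    intro a b hab
    rw [X.P_x (ne_of_rk h1), add_sub_cancel_left]
    apply single_apply_of_ne
    rintro ⟨rfl, rfl⟩
    omega

/-- Matrices supported in the column of rank `m`, below the diagonal. -/
def Col (rk : Fin n → ℕ) (m : ℕ) (N : Matrix (Fin n) (Fin n) k) : Prop :=
  ∀ i j, (rk j ≠ m ∨ rk i ≤ m) → N i j = 0

omit [CharZero k] in
theorem Col.mul_eq {rk : Fin n → ℕ} {m : ℕ} {N M : Matrix (Fin n) (Fin n) k} (hN : Col rk m N)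
    (hM : Col rk m M) : N * M = 0 := by
  ext i j
  rw [Matrix.mul_apply]
  apply Finset.sum_eq_zero
  intro l _
  by_cases h : rk l = m
  · rw [hM l j (by omega), mul_zero]
  · rw [hN i l (Or.inl h), zero_mul]

theorem low_decomp {rk : Fin n → ℕ} {m : ℕ} {e : E} (he : e ∈ X.low rk m Set.univ) :
    ∃ N, Col rk m N ∧ ∃ l ∈ X.low rk (m + 1) Set.univ, e = X.uh N * l := by
  refine sym_induction
    (p := fun e => ∃ N, Col rk m N ∧ ∃ l ∈ X.low rk (m + 1) Set.univ, e = X.uh N * l)
    (X.lowGen_symm rk m (by simp)) ?_ ?_ he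
  · exact ⟨0, fun _ _ _ => rfl, 1, one_mem _, by simp [uh_zero]⟩
  · rintro _ ⟨i, j, t, h1, h2, -, rfl⟩ y _ ⟨N, hN, l, hl, rfl⟩
    by_cases hj : rk j = m
    · have hs : Col rk m (single i j t) := by
        intro a b hab
        apply single_apply_of_ne
        rintro ⟨rfl, rfl⟩
        omega
      refine ⟨single i j t + N, ?_, l, hl, ?_⟩
      · intro a b hab
        rw [Matrix.add_apply, hs a b hab, hN a b hab, add_zero]
      · rw [X.uh_add (hs.mul_eq hs) (hN.mul_eq hN) (hs.mul_eq hN) (hN.mul_eq hs), mul_assoc]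
        rfl
    · have hN' : Col rk m (N + single i j t * N) := by
        intro a b hab
        rw [Matrix.add_apply, hN a b hab, zero_add]
        by_cases ha : a = i
        · subst ha
          rw [single_mul_apply_same, hN j b (by omega), mul_zero]
        · exact single_mul_apply_of_ne _ _ _ _ _ ha _
      have hz : ∀ M : Matrix (Fin n) (Fin n) k, Col rk m M → M * single i j t = 0 := by
        intro M hM
        ext a b
        by_cases hb : b = j
        · subst hb
          rw [mul_single_apply_same, hM a i (by omega), zero_mul]; rfl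
        · exact mul_single_apply_of_ne _ _ _ _ _ hb _
      refine ⟨N + single i j t * N, hN', X.x i j t * l,
        mul_mem (X.x_mem_low h1 (by omega) trivial) hl, ?_⟩
      rw [← mul_assoc, ← mul_assoc]
      congr 1
      apply X.uh_conj (hN.mul_eq hN) (hN'.mul_eq hN')
      rw [X.P_x (ne_of_rk h1), mul_add (N + _), hz _ hN']
      simp [add_mul]

theorem low_inj_aux (rk : Fin n → ℕ) (M : ℕ) (hM : ∀ i, rk i ≤ M) (d : ℕ) :
    ∀ m, M ≤ m + d → ∀ e ∈ X.low rk m Set.univ, X.P e = 1 → e = 1 := by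
  induction d with
  | zero =>
    intro m hm e he _
    have : X.lowGen rk m Set.univ = ∅ := by
      ext e
      simp only [Set.mem_empty_iff_false, iff_false]
      rintro ⟨i, j, t, h1, h2, -⟩
      have := hM i
      omega
    rw [low, this, Subgroup.closure_empty] at he
    exact he
  | succ d ih =>
    intro m hm e he h1
    obtain ⟨N, hN, l, hl, rfl⟩ := X.low_decomp he
    have hL := X.low_P hl
    rw [P_mul, X.P_uh (hN.mul_eq hN)] at h1
    have hN0 : N = 0 := by
      ext a b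
      by_cases hb : rk b = m
      · have h2 : (1 + N) * X.P l = 1 + N + (1 + N) * (X.P l - 1) := by noncomm_ring
        have h3 : ((1 + N) * (X.P l - 1)) a b = 0 := by
          rw [Matrix.mul_apply]
          apply Finset.sum_eq_zero
          intro c _
          rw [hL c b (by omega), mul_zero]
        have h4 := congrFun (congrFun (h2.symm.trans h1) a) b
        rw [Matrix.add_apply, h3, Matrix.add_apply] at h4
        simpa using h4
      · exact hN a b (Or.inl hb)
    subst hN0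
    rw [add_zero, one_mul] at h1
    rw [uh_zero, one_mul]
    exact ih (m + 1) (by omega) l hl h1

theorem low_inj (rk : Fin n → ℕ) {e : E} (he : e ∈ X.low rk 0 Set.univ) (h : X.P e = 1) :
    e = 1 :=
  X.low_inj_aux rk (Finset.univ.sup rk) (fun i => Finset.le_sup (Finset.mem_univ i))
    (Finset.univ.sup rk) 0 (by omega) e he h

end Ext

/-- The arithmetic data: a subring `R`, an element `p` with `1 + pR ⊆ Rˣ`, and the hypothesis that
lifts of the deep torus commute with all lifts of the torus. -/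
structure Dat (X : Ext k n E) where
  R : Subring k
  p : k
  hp : p ∈ R
  hloc : ∀ r ∈ R, 1 + p * r ≠ 0 ∧ (1 + p * r)⁻¹ ∈ R
  H : ∀ (e e' : E) (t t' : Fin n → k), X.P e = diagonal t → X.P e' = diagonal t' →
    (∀ i, ∃ r ∈ R, t' i = 1 + p * r) → e * e' = e' * e

variable {X}

namespace Dat

variable (D : Dat X)

/-- `1 + pR`. -/
def U (u : k) : Prop := ∃ r ∈ D.R, u = 1 + D.p * r

theorem U_one : D.U 1 := ⟨0, zero_mem _, by simp⟩

variable {D}

theorem U.ne {u : k} (h : D.U u) : u ≠ 0 := by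
  obtain ⟨r, hr, rfl⟩ := h; exact (D.hloc r hr).1

theorem U.inv_mem {u : k} (h : D.U u) : u⁻¹ ∈ D.R := by
  obtain ⟨r, hr, rfl⟩ := h; exact (D.hloc r hr).2

theorem U.mem {u : k} (h : D.U u) : u ∈ D.R := by
  obtain ⟨r, hr, rfl⟩ := h; exact add_mem (one_mem _) (mul_mem D.hp hr)

theorem U.mul {u v : k} (h : D.U u) (h' : D.U v) : D.U (u * v) := by
  obtain ⟨r, hr, rfl⟩ := h
  obtain ⟨s, hs, rfl⟩ := h'
  exact ⟨r + s + D.p * r * s, add_mem (add_mem hr hs) (mul_mem (mul_mem D.hp hr) hs), by ring⟩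

theorem U.inv {u : k} (h : D.U u) : D.U u⁻¹ := by
  have h1 := h.ne
  have h2 := h.inv_mem
  obtain ⟨r, hr, rfl⟩ := h
  exact ⟨-(r * (1 + D.p * r)⁻¹), neg_mem (mul_mem hr h2), by field_simp; ring⟩

theorem U.dg {u : k} (h : D.U u) (i j l : Fin n) : D.U (Ext.dg i j u l) := by
  unfold Ext.dg
  split_ifs
  · exact h
  · exact h.inv
  · exact D.U_one

variable [CharZero k]

/-- The canonical lift of the coroot element. -/
noncomputable def _root_.Crest.Agent.T27.RG89.Ext.h (X : Ext k n E) (i j : Fin n) (u : k) : E :=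
  X.eta i j 1 (u - 1)

theorem P_h {i j : Fin n} (hij : i ≠ j) {u : k} (hu : u ≠ 0) :
    X.P (X.h i j u) = diagonal (Ext.dg i j u) := by
  have : 1 + 1 * (u - 1) = u := by ring
  rw [Ext.h, X.P_eta hij (by rwa [this]), this]

theorem h_one {i j : Fin n} (hij : i ≠ j) : X.h i j 1 = 1 := by
  simp [Ext.h, Ext.eta, X.x_neg hij]

theorem eta_eq {i j : Fin n} (hij : i ≠ j) {a b : k} (hu : D.U (1 + a * b)) :
    X.eta i j a b = X.h i j (1 + a * b) := by
  by_cases ha : a = 0
  · subst ha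
    simp [h_one hij, Ext.eta, X.x_neg hij.symm]
  have hinv : diagonal (fun l => if l = i then a else 1) *
      diagonal (fun l => if l = i then a⁻¹ else (1 : k)) = (1 : Matrix (Fin n) (Fin n) k) := by
    rw [diagonal_mul_diagonal, ← diagonal_one]
    congr 1
    ext l
    split_ifs <;> simp [ha]
  obtain ⟨d, hd⟩ := X.exists_P hinv
  have h1 : d * X.h i j (1 + a * b) = X.h i j (1 + a * b) * d :=
    D.H _ _ _ _ hd (P_h hij hu.ne) (fun l => hu.dg i j l)
  have c1 : ∀ c : k, d * X.x i j c = X.x i j (a * c) * d := fun c =>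
    X.diag_conj hd hij (by simp [hij.symm])
  have c2 : ∀ c : k, d * X.x j i c = X.x j i (c / a) * d := fun c =>
    X.diag_conj hd hij.symm (by simp [hij.symm, ha])
  have h2 : d * X.h i j (1 + a * b) = X.eta i j a b * d := by
    have hu' := hu.ne
    simp only [Ext.h, Ext.eta, ← mul_assoc]
    rw [c2, mul_assoc _ d, c1, ← mul_assoc, mul_assoc _ d, c2, ← mul_assoc, mul_assoc _ d, c1,
      ← mul_assoc]
    have e0 : 1 + 1 * (1 + a * b - 1) = 1 + a * b := by ring
    rw [e0]
    congr 5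
    · field_simp; ring
    · simp
    · field_simp; ring
    · field_simp
  exact mul_right_cancel (h2.symm.trans h1)

theorem h_mul {i j : Fin n} (hij : i ≠ j) {u v : k} (hu : D.U u) (hv : D.U v) :
    X.h i j (u * v) = X.h i j u * X.h i j v := by
  have hu0 := hu.ne
  have hv0 := hv.ne
  have e1 := X.x_mul_y hij 1 (u - 1)
  have e2 := X.x_mul_y hij (1 / u) (u * (v - 1))
  have e3 := X.x_mul_y hij 1 (u * v - 1)
  have f1 : 1 + 1 * (u - 1) = u := by ring
  have f2 : 1 + 1 / u * (u * (v - 1)) = v := by field_simp; ring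
  have f3 : 1 + 1 * (u * v - 1) = u * v := by ring
  rw [eta_eq (D := D) hij (by rw [f2]; exact hv), f2] at e2
  rw [f1] at e1
  rw [f3] at e3
  have e4 : X.x j i (u * v - 1) = X.x j i (u - 1) * X.x j i (u * (v - 1)) := by
    rw [← X.x_add hij.symm]; congr 1; ring
  have e5 : X.h i j u * X.x j i (u * (v - 1) / v) =
      X.x j i ((v - 1) / (u * v)) * X.h i j u := by
    apply X.diag_conj (P_h hij hu0) hij.symm
    simp only [Ext.dg, if_neg hij.symm, if_true]
    field_simp
  have e6 : X.x j i ((u * v - 1) / (u * v)) =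
      X.x j i ((u - 1) / u) * X.x j i ((v - 1) / (u * v)) := by
    rw [← X.x_add hij.symm]; congr 1; field_simp; ring
  have e7 : 1 / u / v = 1 / (u * v) := by field_simp
  rw [e4, ← mul_assoc, e1, mul_assoc, e2, e7, e6] at e3
  change X.x j i ((u - 1) / u) * X.h i j u * _ = _ * X.h i j (u * v) * _ at e3
  rw [← mul_assoc, ← mul_assoc, mul_assoc _ (X.h i j u), e5] at e3
  have e8 := mul_right_cancel e3
  rw [← mul_assoc, mul_assoc _ (X.h i j u)] at e8
  exact (mul_left_cancel e8).symm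

theorem h_inv {i j : Fin n} (hij : i ≠ j) {u : k} (hu : D.U u) :
    X.h i j u⁻¹ = (X.h i j u)⁻¹ := by
  rw [eq_inv_iff_mul_eq_one, ← h_mul (D := D) hij hu.inv hu, inv_mul_cancel₀ hu.ne, h_one hij]

variable (D)

/-- Generators of the lifted deep torus. -/
def torGen (m : ℕ) : Set E :=
  {e | ∃ (i j : Fin n) (u : k), (j : ℕ) = i + 1 ∧ m ≤ i ∧ D.U u ∧ e = X.h i j u}

/-- The lifted deep torus. -/
def tor (m : ℕ) : Subgroup E := Subgroup.closure (D.torGen m)

omit [CharZero k] in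
theorem ne_of_succ {i j : Fin n} (h : (j : ℕ) = i + 1) : i ≠ j := by
  rintro rfl; omega

theorem torGen_symm (m : ℕ) : ∀ e ∈ D.torGen m, e⁻¹ ∈ D.torGen m := by
  rintro e ⟨i, j, u, h1, h2, h3, rfl⟩
  exact ⟨i, j, u⁻¹, h1, h2, h3.inv, (h_inv (ne_of_succ h1) h3).symm⟩

theorem tor_P {m : ℕ} {e : E} (he : e ∈ D.tor m) :
    ∃ t, X.P e = diagonal t ∧ (∀ l, D.U (t l)) ∧ ∀ l : Fin n, (l : ℕ) < m → t l = 1 := by
  refine sym_induction
    (p := fun e => ∃ t, X.P e = diagonal t ∧ (∀ l, D.U (t l)) ∧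
      ∀ l : Fin n, (l : ℕ) < m → t l = 1) (D.torGen_symm m) ?_ ?_ he
  · exact ⟨fun _ => 1, by simp, fun _ => D.U_one, fun _ _ => rfl⟩
  · rintro _ ⟨i, j, u, h1, h2, h3, rfl⟩ y _ ⟨t, ht, ht1, ht2⟩
    refine ⟨fun l => Ext.dg i j u l * t l, ?_, fun l => (h3.dg i j l).mul (ht1 l), ?_⟩
    · rw [X.P_mul, P_h (ne_of_succ h1) h3.ne, ht, diagonal_mul_diagonal]
    · intro l hl
      have a1 : l ≠ i := by rintro rfl; omega
      have a2 : l ≠ j := by rintro rfl; omega
      simp [Ext.dg, a1, a2, ht2 l hl]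

theorem tor_decomp {m : ℕ} {i j : Fin n} (hi : (i : ℕ) = m) (hj : (j : ℕ) = i + 1) {e : E}
    (he : e ∈ D.tor m) : ∃ u, D.U u ∧ ∃ t ∈ D.tor (m + 1), e = X.h i j u * t := by
  refine sym_induction (p := fun e => ∃ u, D.U u ∧ ∃ t ∈ D.tor (m + 1), e = X.h i j u * t)
    (D.torGen_symm m) ?_ ?_ he
  · exact ⟨1, D.U_one, 1, one_mem _, by simp [h_one (ne_of_succ hj)]⟩
  · rintro _ ⟨i', j', v, h1, h2, h3, rfl⟩ y _ ⟨u, hu, t, ht, rfl⟩
    by_cases hi' : (i' : ℕ) = m
    · have a1 : i' = i := Fin.ext (by omega)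
      have a2 : j' = j := Fin.ext (by omega)
      subst a1 a2
      exact ⟨v * u, h3.mul hu, t, ht, by rw [h_mul (D := D) (ne_of_succ hj) h3 hu, mul_assoc]⟩
    · refine ⟨u, hu, X.h i' j' v * t,
        mul_mem (Subgroup.subset_closure ⟨i', j', v, h1, by omega, h3, rfl⟩) ht, ?_⟩
      rw [← mul_assoc, ← mul_assoc]
      congr 1
      exact D.H _ _ _ _ (P_h (ne_of_succ h1) h3.ne) (P_h (ne_of_succ hj) hu.ne)
        (fun l => hu.dg i j l)

theorem tor_inj_aux (d : ℕ) : ∀ m, n ≤ m + d → ∀ e ∈ D.tor m, X.P e = 1 → e = 1 := by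
  have h0 : ∀ m, n ≤ m + 1 → ∀ e ∈ D.tor m, e = 1 := by
    intro m hm e he
    have : D.torGen m = ∅ := by
      ext e
      simp only [Set.mem_empty_iff_false, iff_false]
      rintro ⟨i, j, t, h1, h2, -⟩
      have := j.2
      omega
    rw [tor, this, Subgroup.closure_empty] at he
    exact he
  induction d with
  | zero => intro m hm e he _; exact h0 m (by omega) e he
  | succ d ih =>
    intro m hm e he h1
    by_cases hn : n ≤ m + 1
    · exact h0 m hn e he
    have hj : ((⟨m + 1, by omega⟩ : Fin n) : ℕ) = (⟨m, by omega⟩ : Fin n) + 1 := rfl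
    obtain ⟨u, hu, t, ht, rfl⟩ := D.tor_decomp (i := ⟨m, by omega⟩) rfl hj he
    obtain ⟨s, hs, -, hs2⟩ := D.tor_P ht
    have h2 := h1
    rw [X.P_mul, P_h (ne_of_succ hj) hu.ne, hs, diagonal_mul_diagonal] at h2
    have h3 := congrFun (congrFun h2 ⟨m, by omega⟩) ⟨m, by omega⟩
    simp only [diagonal_apply_eq, Ext.dg, if_true, one_apply_eq] at h3
    rw [hs2 _ (by simp), mul_one] at h3
    subst h3
    rw [h_one (ne_of_succ hj), one_mul] at h1 ⊢
    exact ih (m + 1) (by omega) t ht h1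

theorem tor_inj {e : E} (he : e ∈ D.tor 0) (h : X.P e = 1) : e = 1 :=
  D.tor_inj_aux n 0 (by simp) e he h

end Dat

end Crest.Agent.T27.RG89
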