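import Crest.Agent.T27.RecGrpB_89

/-!
# Central extensions of `GL n k`, part C: splitting over a congruence subgroup.

Main result `deep_comm_89`: if lifts of the deep torus commute with lifts of the torus, then for
every `b` all lifts of sufficiently deep elements of `SL n` commuting with `π b` commute with `b`.
-/

namespace Crest.Agent.T27.RG89

open Matrix

variable {k : Type*} [Field k] [CharZero k] {n : ℕ} {E : Type*} [Group E] {X : Ext k n E}

namespace Dat

variable (D : Dat X)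

/-- Rank function for the lower triangular group. -/
def rkL : Fin n → ℕ := fun i => i
/-- Rank function for the upper triangular group. -/
def rkU : Fin n → ℕ := fun i => n - i

/-- The big cell `L(R) T(1 + pR) U(k)`. -/
def Cell (e : E) : Prop :=
  ∃ l ∈ X.low rkL 0 (D.R : Set k), ∃ t ∈ D.tor 0, ∃ r ∈ X.low rkU 0 Set.univ, e = l * t * r

theorem cell_inj {e : E} (he : D.Cell e) (h : X.P e = 1) : e = 1 := by
  obtain ⟨l, hl, t, ht, r, hr, rfl⟩ := he
  have hl' := X.low_mono rkL 0 (Set.subset_univ _) hl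
  have hli := X.low_P (inv_mem hl')
  have hrP := X.low_P hr
  obtain ⟨s, hs, -, -⟩ := D.tor_P ht
  have h1 : X.P l⁻¹ = diagonal s * X.P r := by
    have : l⁻¹ * (l * t * r) = t * r := by group
    rw [← hs, ← X.P_mul, ← this, X.P_mul, h, mul_one]
  have hup : ∀ a b : Fin n, (b : ℕ) ≤ a → X.P r a b = (1 : Matrix (Fin n) (Fin n) k) a b := by
    intro a b hab
    have := hrP a b (Or.inl (by simp only [rkU]; omega))
    rwa [Matrix.sub_apply, sub_eq_zero] at this
  have hlo : ∀ a b : Fin n, (a : ℕ) ≤ b → X.P l⁻¹ a b = (1 : Matrix (Fin n) (Fin n) k) a b := by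
    intro a b hab
    have := hli a b (Or.inl hab)
    rwa [Matrix.sub_apply, sub_eq_zero] at this
  have hs1 : ∀ a, s a = 1 := by
    intro a
    have := hlo a a le_rfl
    rw [h1, diagonal_mul, hup a a le_rfl] at this
    simpa using this
  have hs2 : diagonal s = 1 := by rw [← diagonal_one]; congr 1; ext a; exact hs1 a
  rw [hs2, one_mul] at h1
  have hr1 : X.P r = 1 := by
    ext a b
    rcases le_total (a : ℕ) b with hab | hab
    · rw [← h1, hlo a b hab]
    · exact hup a b hab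
  have e1 : r = 1 := X.low_inj rkU hr hr1
  have e2 : t = 1 := D.tor_inj ht (hs.trans hs2)
  have e3 : l⁻¹ = 1 := X.low_inj rkL (inv_mem hl') (h1.trans hr1)
  rw [e1, e2, inv_eq_one.1 e3]; simp

/-- Lower generators other than the negative simple root `(j, i)`. -/
def low' (i j : Fin n) : Subgroup E := Subgroup.closure
  {e | ∃ (a b : Fin n) (t : k), (b : ℕ) < a ∧ ¬(a = j ∧ b = i) ∧ t ∈ D.R ∧ e = X.x a b t}

omit [CharZero k] in
theorem mem_low' {i j a b : Fin n} {t : k} (h1 : (b : ℕ) < a) (h2 : ¬(a = j ∧ b = i))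
    (ht : t ∈ D.R) : X.x a b t ∈ D.low' i j :=
  Subgroup.subset_closure ⟨a, b, t, h1, h2, ht, rfl⟩

omit [CharZero k] in
theorem low'_le (i j : Fin n) : D.low' i j ≤ X.low rkL 0 (D.R : Set k) := by
  apply Subgroup.closure_mono
  rintro e ⟨a, b, t, h1, -, ht, rfl⟩
  exact ⟨a, b, t, h1, Nat.zero_le _, ht, rfl⟩

theorem low'_conj {i j : Fin n} {g : E}
    (hg : ∀ (a b : Fin n) (t : k), (b : ℕ) < a → ¬(a = j ∧ b = i) → t ∈ D.R →
      ∃ l ∈ D.low' i j, g * X.x a b t = l * g) {l : E} (hl : l ∈ D.low' i j) :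
    ∃ l' ∈ D.low' i j, g * l = l' * g := by
  refine sym_induction (p := fun l => ∃ l' ∈ D.low' i j, g * l = l' * g) ?_ ?_ ?_ hl
  · rintro e ⟨a, b, t, h1, h2, ht, rfl⟩
    exact ⟨a, b, -t, h1, h2, neg_mem ht, (X.x_neg (by rintro rfl; omega) t).symm⟩
  · exact ⟨1, one_mem _, by simp⟩
  · rintro _ ⟨a, b, t, h1, h2, ht, rfl⟩ y _ ⟨l', hl', h⟩
    obtain ⟨l'', hl'', h'⟩ := hg a b t h1 h2 ht
    exact ⟨l'' * l', mul_mem hl'' hl', by rw [← mul_assoc, h', mul_assoc, h, mul_assoc]⟩

theorem low'_conj_x {i j : Fin n} (hj : (j : ℕ) = i + 1) {s : k} (hs : s ∈ D.R) {l : E}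
    (hl : l ∈ D.low' i j) : ∃ l' ∈ D.low' i j, X.x i j s * l = l' * X.x i j s := by
  refine D.low'_conj ?_ hl
  intro a b t h1 h2 ht
  have hij := ne_of_succ hj
  have hab : a ≠ b := by rintro rfl; omega
  by_cases ha : a = j
  · subst ha
    have hb : b ≠ i := fun h => h2 ⟨rfl, h⟩
    have hb' : (b : ℕ) ≠ i := fun h => hb (Fin.ext h)
    refine ⟨X.x a b t * X.x i b (s * t), mul_mem (D.mem_low' h1 h2 ht)
      (D.mem_low' (by omega) (fun h => hij h.1) (mul_mem hs ht)), ?_⟩
    exact X.x_conj1 hij hab hb.symm s t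
  · by_cases hb : b = i
    · subst hb
      have ha' : (a : ℕ) ≠ j := fun h => ha (Fin.ext h)
      refine ⟨X.x a b t * X.x a j (-(t * s)), mul_mem (D.mem_low' h1 h2 ht)
        (D.mem_low' (by omega) (fun h => ha h.1) (neg_mem (mul_mem ht hs))), ?_⟩
      exact X.x_conj2 hij hab ha s t
    · exact ⟨_, D.mem_low' h1 h2 ht, X.x_comm hij hab (Ne.symm ha) hb s t⟩

theorem low'_conj_y {i j : Fin n} (hj : (j : ℕ) = i + 1) {s : k} (hs : s ∈ D.R) {l : E}
    (hl : l ∈ D.low' i j) : ∃ l' ∈ D.low' i j, X.x j i s * l = l' * X.x j i s := by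
  refine D.low'_conj ?_ hl
  intro a b t h1 h2 ht
  have hij := ne_of_succ hj
  have hab : a ≠ b := by rintro rfl; omega
  by_cases ha : a = i
  · subst ha
    have hb : j ≠ b := by rintro rfl; omega
    refine ⟨X.x a b t * X.x j b (s * t), mul_mem (D.mem_low' h1 h2 ht)
      (D.mem_low' (by omega) (fun h => hab h.2.symm) (mul_mem hs ht)), ?_⟩
    exact X.x_conj1 hij.symm hab hb s t
  · by_cases hb : b = j
    · subst hb
      refine ⟨X.x a b t * X.x a i (-(t * s)), mul_mem (D.mem_low' h1 h2 ht)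
        (D.mem_low' (by omega) (fun h => hab h.1) (neg_mem (mul_mem ht hs))), ?_⟩
      exact X.x_conj2 hij.symm hab ha s t
    · exact ⟨_, D.mem_low' h1 h2 ht, X.x_comm hij.symm hab (Ne.symm ha) hb s t⟩

theorem low_split {i j : Fin n} (hj : (j : ℕ) = i + 1) {l : E}
    (hl : l ∈ X.low rkL 0 (D.R : Set k)) :
    ∃ l' ∈ D.low' i j, ∃ b ∈ D.R, l = l' * X.x j i b := by
  refine sym_induction (p := fun l => ∃ l' ∈ D.low' i j, ∃ b ∈ D.R, l = l' * X.x j i b)
    (X.lowGen_symm rkL 0 (fun t ht => neg_mem ht)) ?_ ?_ hl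
  · exact ⟨1, one_mem _, 0, zero_mem _, by simp⟩
  · rintro _ ⟨a, b, t, h1, -, ht, rfl⟩ y _ ⟨l', hl', c, hc, rfl⟩
    by_cases hab : a = j ∧ b = i
    · obtain ⟨rfl, rfl⟩ := hab
      obtain ⟨l'', hl'', h⟩ := D.low'_conj_y hj ht hl'
      refine ⟨l'', hl'', t + c, add_mem ht hc, ?_⟩
      rw [← mul_assoc, h, X.x_add (ne_of_succ hj).symm, mul_assoc]
    · exact ⟨X.x a b t * l', mul_mem (D.mem_low' h1 hab ht) hl', c, hc, by rw [mul_assoc]⟩

theorem cell_x {i j : Fin n} (hj : (j : ℕ) = i + 1) {c : k} (hc : c ∈ D.R) {e : E}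
    (he : D.Cell e) : D.Cell (X.x i j (D.p * c) * e) := by
  obtain ⟨l, hl, t, ht, r, hr, rfl⟩ := he
  have hij := ne_of_succ hj
  obtain ⟨l', hl', b, hb, rfl⟩ := D.low_split hj hl
  obtain ⟨l'', hl'', h1⟩ := D.low'_conj_x hj (mul_mem D.hp hc) hl'
  have hu : D.U (1 + D.p * c * b) := ⟨c * b, mul_mem hc hb, by ring⟩
  have h2 := X.x_mul_y hij (D.p * c) b
  rw [eta_eq (D := D) hij hu] at h2
  set u := 1 + D.p * c * b
  obtain ⟨s, hs, hs1, -⟩ := D.tor_P ht
  have h3 : t * X.x i j (D.p * c / u * s j / s i) = X.x i j (D.p * c / u) * t := by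
    apply X.diag_conj hs hij
    have := (hs1 i).ne
    field_simp
  refine ⟨l'' * X.x j i (b / u), mul_mem (D.low'_le i j hl'') (X.x_mem_low ?_ (Nat.zero_le _) ?_),
    X.h i j u * t, mul_mem (Subgroup.subset_closure ⟨i, j, u, hj, Nat.zero_le _, hu, rfl⟩) ht,
    X.x i j (D.p * c / u * s j / s i) * r,
    mul_mem (X.x_mem_low ?_ (Nat.zero_le _) trivial) hr, ?_⟩
  · simp only [rkL]; omega
  · rw [div_eq_mul_inv]; exact mul_mem hb hu.inv_mem
  · have := j.2
    simp only [rkU]; omega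
  · calc X.x i j (D.p * c) * (l' * X.x j i b * t * r)
        = (X.x i j (D.p * c) * l') * X.x j i b * t * r := by group
      _ = l'' * (X.x i j (D.p * c) * X.x j i b) * t * r := by rw [h1]; group
      _ = l'' * X.x j i (b / u) * X.h i j u * (X.x i j (D.p * c / u) * t) * r := by
        rw [h2]; group
      _ = _ := by rw [← h3]; group

/-- The group on which the projection is injective. -/
def gam : Subgroup E := Subgroup.closure
  {e | (∃ (a b : Fin n) (t : k), (b : ℕ) < a ∧ t ∈ D.R ∧ e = X.x a b t) ∨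
    ∃ (a b : Fin n) (t : k), (b : ℕ) = a + 1 ∧ t ∈ D.R ∧ e = X.x a b (D.p * t)}

theorem gam_cell {e : E} (he : e ∈ D.gam) : D.Cell e := by
  refine sym_induction (p := D.Cell) ?_ ?_ ?_ he
  · rintro e (⟨a, b, t, h1, ht, rfl⟩ | ⟨a, b, t, h1, ht, rfl⟩)
    · exact Or.inl ⟨a, b, -t, h1, neg_mem ht, (X.x_neg (by rintro rfl; omega) t).symm⟩
    · exact Or.inr ⟨a, b, -t, h1, neg_mem ht, by
        rw [mul_neg, X.x_neg (ne_of_succ h1)]⟩
  · exact ⟨1, one_mem _, 1, one_mem _, 1, one_mem _, by simp⟩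
  · rintro _ (⟨a, b, t, h1, ht, rfl⟩ | ⟨a, b, t, h1, ht, rfl⟩) y _ ih
    · obtain ⟨l, hl, s, hs, r, hr, rfl⟩ := ih
      exact ⟨X.x a b t * l, mul_mem (X.x_mem_low h1 (Nat.zero_le _) ht) hl, s, hs, r, hr,
        by group⟩
    · exact D.cell_x h1 ht ih

theorem gam_inj {a b : E} (ha : a ∈ D.gam) (hb : b ∈ D.gam) (h : X.P a = X.P b) : a = b := by
  have := D.cell_inj (D.gam_cell (mul_mem (inv_mem ha) hb))
    (by rw [X.P_mul, ← h, X.P_inv_mul])
  exact inv_mul_eq_one.1 this

theorem x_up_mem (d : ℕ) : ∀ (a b : Fin n) (t : k), (b : ℕ) = a + d + 1 → t ∈ D.R →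
    X.x a b (D.p ^ (d + 1) * t) ∈ D.gam := by
  induction d with
  | zero =>
    intro a b t h ht
    rw [zero_add, pow_one]
    exact Subgroup.subset_closure (Or.inr ⟨a, b, t, h, ht, rfl⟩)
  | succ d ih =>
    intro a b t h ht
    have hb := b.2
    let c : Fin n := ⟨a + d + 1, by omega⟩
    have h1 := ih a c t rfl ht
    have h2 : X.x c b (D.p * 1) ∈ D.gam :=
      Subgroup.subset_closure (Or.inr ⟨c, b, 1, by simp only [c]; omega, one_mem _, rfl⟩)
    have hac : a ≠ c := by intro h'; have := congrArg Fin.val h'; simp only [c] at this; omega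
    have hcb : c ≠ b := by intro h'; have := congrArg Fin.val h'; simp only [c] at this; omega
    have hab : a ≠ b := by rintro rfl; omega
    have h3 := X.x_conj1 hac hcb hab (D.p ^ (d + 1) * t) (D.p * 1)
    have h4 : X.x a b (D.p ^ (d + 1 + 1) * t) = (X.x c b (D.p * 1))⁻¹ *
        (X.x a c (D.p ^ (d + 1) * t) * X.x c b (D.p * 1)) * (X.x a c (D.p ^ (d + 1) * t))⁻¹ := by
      rw [h3]
      have : D.p ^ (d + 1) * t * (D.p * 1) = D.p ^ (d + 1 + 1) * t := by ring
      rw [this]; group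
    rw [h4]
    exact mul_mem (mul_mem (inv_mem h2) (mul_mem h1 h2)) (inv_mem h1)

/-- The group generated by the elementary unipotents of depth `q`. -/
def gq (q : ℕ) : Subgroup E := Subgroup.closure
  {e | ∃ (a b : Fin n) (t : k), a ≠ b ∧ t ∈ D.R ∧ e = X.x a b (D.p ^ q * t)}

omit [CharZero k] in
theorem mem_gq {q : ℕ} {a b : Fin n} {t : k} (h : a ≠ b) (ht : t ∈ D.R) :
    X.x a b (D.p ^ q * t) ∈ D.gq q := Subgroup.subset_closure ⟨a, b, t, h, ht, rfl⟩

theorem gq_le {q : ℕ} (hq : n ≤ q) : D.gq q ≤ D.gam := by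
  rw [gq, Subgroup.closure_le]
  rintro _ ⟨a, b, t, h, ht, rfl⟩
  have hab : (a : ℕ) ≠ b := fun h' => h (Fin.ext h')
  rcases lt_or_gt_of_ne hab with h1 | h1
  · have hb := b.2
    obtain ⟨d, hd⟩ : ∃ d, (b : ℕ) = a + d + 1 := ⟨b - a - 1, by omega⟩
    obtain ⟨c, hc⟩ : ∃ c, q = d + 1 + c := ⟨q - (d + 1), by omega⟩
    have := D.x_up_mem d a b (D.p ^ c * t) hd (mul_mem (pow_mem D.hp c) ht)
    rw [← mul_assoc, ← pow_add, ← hc] at this
    exact this
  · exact Subgroup.subset_closure (Or.inl ⟨a, b, _, h1, mul_mem (pow_mem D.hp q) ht, rfl⟩)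

/-- Congruence condition `A ≡ 1 mod p ^ j R`. -/
def Deep (j : ℕ) (A : Matrix (Fin n) (Fin n) k) : Prop :=
  ∀ a b, ∃ r ∈ D.R, A a b = (1 : Matrix (Fin n) (Fin n) k) a b + D.p ^ j * r

omit [CharZero k] in
theorem Deep.mul {j : ℕ} {A B : Matrix (Fin n) (Fin n) k} (hA : D.Deep j A) (hB : D.Deep j B) :
    D.Deep j (A * B) := by
  choose r hr hr' using hA
  choose s hs hs' using hB
  have eA : A = 1 + D.p ^ j • Matrix.of r := by ext a b; simp [hr']
  have eB : B = 1 + D.p ^ j • Matrix.of s := by ext a b; simp [hs']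
  intro a b
  refine ⟨r a b + s a b + D.p ^ j * ∑ c, r a c * s c b,
    add_mem (add_mem (hr a b) (hs a b)) (mul_mem (pow_mem D.hp j)
      (sum_mem fun c _ => mul_mem (hr a c) (hs c b))), ?_⟩
  rw [eA, eB]
  simp only [mul_add, add_mul, mul_one, one_mul, smul_mul_smul_comm, Matrix.add_apply,
    Matrix.smul_apply, of_apply, smul_eq_mul, Matrix.mul_apply (M := Matrix.of r)]
  ring

/-- Clearing one column. -/
theorem clear_col {q : ℕ} (m : Fin n) (c : Fin n → k) (hc : ∀ a, c a ∈ D.R) (s : Finset (Fin n))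
    (hs : m ∉ s) : ∃ g ∈ D.gq q, X.P g = 1 + ∑ a ∈ s, single a m (D.p ^ q * c a) := by
  induction s using Finset.induction_on with
  | empty => exact ⟨1, one_mem _, by simp⟩
  | insert a s ha ih =>
    obtain ⟨g, hg, hP⟩ := ih (fun h => hs (Finset.mem_insert_of_mem h))
    have ham : a ≠ m := by rintro rfl; exact hs (Finset.mem_insert_self _ _)
    refine ⟨X.x a m (D.p ^ q * c a) * g, mul_mem (D.mem_gq ham (hc a)) hg, ?_⟩
    rw [X.P_mul, X.P_x ham, hP, Finset.sum_insert ha]
    have : single a m (D.p ^ q * c a) * ∑ b ∈ s, single b m (D.p ^ q * c b) =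
        (0 : Matrix (Fin n) (Fin n) k) := by
      rw [Finset.mul_sum]
      apply Finset.sum_eq_zero
      intro b hb
      apply single_mul_single_of_ne
      rintro rfl
      exact hs (Finset.mem_insert_of_mem hb)
    rw [add_mul, mul_add, mul_add, this]
    simp only [mul_one, one_mul, add_zero]
    abel

/-- One step of Gaussian elimination: column `m` becomes `u • e_m`. -/
theorem elim_step {q : ℕ} (hq : 1 ≤ q) (m : Fin n) {A : Matrix (Fin n) (Fin n) k}
    (hA : D.Deep (2 * q) A) :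
    ∃ g ∈ D.gq q, D.Deep (2 * q) (X.P g) ∧ (X.P g).det = 1 ∧
      (∀ a, (X.P g * A) a m = if a = m then A m m else 0) ∧
      ∀ b, A m b = 0 → ∀ a, (X.P g * A) a b = A a b := by
  choose r hr hr' using hA
  have hu : D.U (A m m) := ⟨D.p ^ (2 * q - 1) * r m m, mul_mem (pow_mem D.hp _) (hr m m), by
    rw [hr' m m, ← mul_assoc, ← pow_succ', one_apply_eq]; congr 3; omega⟩
  have hc : ∀ a, -(D.p ^ q * r a m * (A m m)⁻¹) ∈ D.R := fun a =>
    neg_mem (mul_mem (mul_mem (pow_mem D.hp q) (hr a m)) hu.inv_mem)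
  obtain ⟨g, hg, hP⟩ := D.clear_col (q := q) m _ hc (Finset.univ.erase m) (by simp)
  have hent : ∀ a b, X.P g a b = (1 : Matrix (Fin n) (Fin n) k) a b +
      if a ≠ m ∧ b = m then D.p ^ (2 * q) * -(r a m * (A m m)⁻¹) else 0 := by
    intro a b
    rw [hP, Matrix.add_apply, Matrix.sum_apply]
    congr 1
    split_ifs with h
    · obtain ⟨h1, rfl⟩ := h
      rw [Finset.sum_eq_single a]
      · rw [single_apply_same]; ring
      · intro c _ hca; exact single_apply_of_row_ne hca _ _ _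
      · intro h; exact absurd (Finset.mem_erase.2 ⟨h1, Finset.mem_univ _⟩) h
    · apply Finset.sum_eq_zero
      intro c hc'
      apply single_apply_of_ne
      rintro ⟨rfl, rfl⟩
      exact h ⟨(Finset.mem_erase.1 hc').1, rfl⟩
  have hmul : ∀ a b, (X.P g * A) a b = A a b +
      if a ≠ m then D.p ^ (2 * q) * -(r a m * (A m m)⁻¹) * A m b else 0 := by
    intro a b
    rw [Matrix.mul_apply]
    simp only [hent, add_mul, Finset.sum_add_distrib]
    rw [← Matrix.mul_apply, one_mul]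
    congr 1
    by_cases h : a ≠ m
    · simp [h]
    · simp [h]
  refine ⟨g, hg, ?_, ?_, ?_, ?_⟩
  · intro a b
    rw [hent]
    split_ifs
    · exact ⟨_, neg_mem (mul_mem (hr a m) hu.inv_mem), rfl⟩
    · exact ⟨0, zero_mem _, by simp⟩
  · have : ∀ g ∈ D.gq q, (X.P g).det = 1 := by
      intro g hg
      refine sym_induction (p := fun g => (X.P g).det = 1) ?_ (by simp) ?_ hg
      · rintro e ⟨a, b, t, h1, ht, rfl⟩
        exact ⟨a, b, -t, h1, neg_mem ht, by rw [mul_neg, X.x_neg h1]⟩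
      · rintro _ ⟨a, b, t, h1, ht, rfl⟩ y _ ih
        rw [X.P_mul, det_mul, ih, mul_one, X.P_x h1]
        exact det_transvection_of_ne a b h1 _
    exact this g hg
  · intro a
    rw [hmul]
    by_cases h : a = m
    · simp [h]
    · have h0 := hu.ne
      rw [if_pos h, if_neg h, hr' a m, one_apply_ne h]
      field_simp
      ring
  · intro b hb a
    rw [hmul, hb]; simp

theorem elim_aux {q : ℕ} (hq : 1 ≤ q) (d : ℕ) : ∀ m, n = m + d →
    ∀ A : Matrix (Fin n) (Fin n) k, A.det = 1 → D.Deep (2 * q) A →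
      (∀ a b : Fin n, (b : ℕ) < m → A a b = (1 : Matrix (Fin n) (Fin n) k) a b) →
      ∃ g ∈ D.gq q, X.P g * A = 1 := by
  induction d with
  | zero =>
    intro m hm A _ _ h
    refine ⟨1, one_mem _, ?_⟩
    rw [X.P_one, one_mul]
    ext a b
    exact h a b (by have := b.2; omega)
  | succ d ih =>
    intro m hm A hdet hA h
    let i : Fin n := ⟨m, by omega⟩
    obtain ⟨g, hg, hgD, hgdet, h1, h2⟩ := D.elim_step hq i hA
    have h3 : ∀ a b : Fin n, (b : ℕ) < m →
        (X.P g * A) a b = (1 : Matrix (Fin n) (Fin n) k) a b := by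
      intro a b hb
      rw [h2 b _ a, h a b hb]
      rw [h i b hb, one_apply_ne]
      intro h'; have := congrArg Fin.val h'; simp only [i] at this; omega
    obtain ⟨r, hr, hr'⟩ := hA i i
    rw [one_apply_eq] at hr'
    by_cases hd : d = 0
    · -- last column
      refine ⟨g, hg, ?_⟩
      have hB : X.P g * A = diagonal (fun a => if a = i then A i i else 1) := by
        ext a b
        by_cases hb : b = i
        · subst hb
          rw [h1, diagonal_apply]
          split_ifs <;> simp_all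
        · have hb' : (b : ℕ) < m := by
            have := b.2
            have : (b : ℕ) ≠ m := fun h' => hb (Fin.ext h')
            omega
          rw [h3 a b hb', diagonal_apply, Matrix.one_apply]
          split_ifs <;> simp_all
      have hdet' : (X.P g * A).det = 1 := by rw [det_mul, hgdet, hdet, one_mul]
      rw [hB, det_diagonal, Finset.prod_ite_eq'] at hdet'
      simp only [Finset.mem_univ, if_true] at hdet'
      rw [hB, hdet', ← diagonal_one]
      congr 1; ext a; simp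
    · let j : Fin n := ⟨m + 1, by omega⟩
      have hij : i ≠ j := ne_of_succ rfl
      have hu : D.U (A i i) := ⟨D.p ^ (2 * q - 1) * r, mul_mem (pow_mem D.hp _) hr, by
        rw [hr', ← mul_assoc, ← pow_succ']; congr 3; omega⟩
      have hu0 := hu.ne
      have hs : -(r * (A i i)⁻¹) ∈ D.R := neg_mem (mul_mem hr hu.inv_mem)
      have e1 : 1 + D.p ^ q * 1 * (D.p ^ q * -(r * (A i i)⁻¹)) = (A i i)⁻¹ := by
        field_simp; rw [hr']; ring
      set η := X.eta i j (D.p ^ q * 1) (D.p ^ q * -(r * (A i i)⁻¹)) with hη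
      have hηP : X.P η = diagonal (Ext.dg i j (A i i)⁻¹) := by
        rw [hη, X.P_eta hij (by rw [e1]; exact inv_ne_zero hu0), e1]
      have hηm : η ∈ D.gq q := by
        rw [hη, Ext.eta, e1]
        have f1 : -(D.p ^ q * -(r * (A i i)⁻¹) / (A i i)⁻¹) = D.p ^ q * r := by field_simp
        have f2 : -(D.p ^ q * 1 / (A i i)⁻¹) = D.p ^ q * -(A i i) := by field_simp
        rw [f1, f2]
        exact mul_mem (mul_mem (mul_mem (D.mem_gq hij.symm hr) (D.mem_gq hij (one_mem _)))
          (D.mem_gq hij.symm hs)) (D.mem_gq hij (neg_mem hu.mem))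
      have hηD : D.Deep (2 * q) (X.P η) := by
        intro a b
        rw [hηP, diagonal_apply, Matrix.one_apply]
        split_ifs
        · unfold Ext.dg
          split_ifs
          · exact ⟨_, hs, e1.symm.trans (by ring)⟩
          · exact ⟨r, hr, by rw [inv_inv, hr']⟩
          · exact ⟨0, zero_mem _, by simp⟩
        · exact ⟨0, zero_mem _, by simp⟩
      have hηdet : (X.P η).det = 1 := by
        rw [hηP, det_diagonal, ← Finset.mul_prod_erase _ _ (Finset.mem_univ i),
          ← Finset.mul_prod_erase _ _ (Finset.mem_erase.2 ⟨hij.symm, Finset.mem_univ j⟩),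
          Finset.prod_eq_one]
        · simp [Ext.dg, hij.symm, hu0]
        · intro a ha
          simp only [Finset.mem_erase] at ha
          simp [Ext.dg, ha.1, ha.2.1]
      obtain ⟨g', hg', h4⟩ := ih (m + 1) (by omega) (X.P η * (X.P g * A))
        (by rw [det_mul, det_mul, hηdet, hgdet, hdet]; simp)
        (hηD.mul D (hgD.mul D hA)) (by
          intro a b hb
          rw [hηP, diagonal_mul]
          by_cases hbi : b = i
          · subst hbi
            rw [h1, Matrix.one_apply]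
            split_ifs with ha
            · subst ha; simp [Ext.dg, hu0]
            · simp
          · have hb' : (b : ℕ) < m := by
              have : (b : ℕ) ≠ m := fun h' => hbi (Fin.ext h')
              omega
            rw [h3 a b hb', Matrix.one_apply]
            split_ifs with ha
            · subst ha
              have : a ≠ j := by intro h'; have := congrArg Fin.val h'; simp only [j] at this; omega
              simp [Ext.dg, hbi, this]
            · simp)
      exact ⟨g' * η * g, mul_mem (mul_mem hg' hηm) hg, by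
        rw [X.P_mul, X.P_mul, mul_assoc, mul_assoc, h4]⟩

/-- Gaussian elimination. -/
theorem elim {q : ℕ} (hq : 1 ≤ q) {a : E} (hdet : (X.P a).det = 1) (hA : D.Deep (2 * q) (X.P a)) :
    ∃ g ∈ D.gq q, X.P g = X.P a := by
  obtain ⟨g, hg, h⟩ := D.elim_aux hq n 0 (by simp) _ hdet hA (by intro a b h; omega)
  refine ⟨g⁻¹, inv_mem hg, ?_⟩
  rw [← mul_one (X.P g⁻¹), ← h, ← mul_assoc, X.P_inv_mul, one_mul]

theorem deep_comm (hpm : D.p / X.m ∈ D.R) (hgen : ∀ x : k, ∃ j, D.p ^ j * x ∈ D.R) (b : E) :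
    ∃ j, ∀ a : E, (X.P a).det = 1 → D.Deep j (X.P a) → X.P a * X.P b = X.P b * X.P a →
      a * b = b * a := by
  -- a common denominator
  obtain ⟨e, he, he'⟩ : ∃ e, (∀ i l, D.p ^ e * X.P b i l ∈ D.R) ∧
      ∀ i l, D.p ^ e * X.P b⁻¹ i l ∈ D.R := by
    choose f hf using hgen
    have hmono : ∀ x e, f x ≤ e → D.p ^ e * x ∈ D.R := by
      intro x e hx
      obtain ⟨c, rfl⟩ := Nat.exists_eq_add_of_le' hx
      rw [pow_add, mul_assoc]
      exact mul_mem (pow_mem D.hp c) (hf x)
    refine ⟨Finset.univ.sup (fun z : Fin n × Fin n => max (f (X.P b z.1 z.2)) (f (X.P b⁻¹ z.1 z.2))),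
      fun i l => hmono _ _ ?_, fun i l => hmono _ _ ?_⟩
    · exact le_trans (le_max_left _ _) (Finset.le_sup (f := fun z : Fin n × Fin n =>
        max (f (X.P b z.1 z.2)) (f (X.P b⁻¹ z.1 z.2))) (Finset.mem_univ (i, l)))
    · exact le_trans (le_max_right _ _) (Finset.le_sup (f := fun z : Fin n × Fin n =>
        max (f (X.P b z.1 z.2)) (f (X.P b⁻¹ z.1 z.2))) (Finset.mem_univ (i, l)))
  set q0 := n + 1
  set q1 := 2 * q0 + 1 + 2 * e
  have hm := X.m_ne
  have hconj : ∀ g ∈ D.gq q1, b * g * b⁻¹ ∈ D.gq q0 := by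
    intro g hg
    refine sym_induction (p := fun g => b * g * b⁻¹ ∈ D.gq q0) ?_ (by simp) ?_ hg
    · rintro e ⟨a, b, t, h1, ht, rfl⟩
      exact ⟨a, b, -t, h1, neg_mem ht, by rw [mul_neg, X.x_neg h1]⟩
    · rintro _ ⟨i, l, t, h1, ht, rfl⟩ y _ ih
      have : b * (X.x i l (D.p ^ q1 * t) * y) * b⁻¹ =
          (b * X.x i l (D.p ^ q1 * t) * b⁻¹) * (b * y * b⁻¹) := by group
      rw [this]
      refine mul_mem ?_ ih
      -- the `m`-th root
      set y0 := X.x i l (D.p ^ q1 * t / X.m)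
      have hy0 : X.x i l (D.p ^ q1 * t) = y0 ^ X.m := by
        apply X.uh_eq (Ext.sq_single h1 _ _)
        rw [X.P_x h1, smul_single, smul_eq_mul]
        congr 2; field_simp
      have hdet : (X.P (b * y0 * b⁻¹)).det = 1 := by
        rw [X.P_mul, X.P_mul, det_mul, det_mul, X.P_x h1]
        have := det_transvection_of_ne i l h1 (D.p ^ q1 * t / X.m)
        rw [transvection] at this
        rw [this, mul_one, ← det_mul, X.P_mul_inv, det_one]
      have hdeep : D.Deep (2 * q0) (X.P (b * y0 * b⁻¹)) := by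
        intro r s
        refine ⟨(D.p ^ e * X.P b r i) * (D.p / X.m * t) * (D.p ^ e * X.P b⁻¹ l s),
          mul_mem (mul_mem (he r i) (mul_mem hpm ht)) (he' l s), ?_⟩
        rw [X.P_mul, X.P_mul, X.P_x h1, mul_add, mul_one, add_mul, X.P_mul_inv, Matrix.add_apply]
        congr 1
        rw [Matrix.mul_apply, Finset.sum_eq_single l]
        · rw [mul_single_apply_same]; simp only [q1]; ring
        · intro c _ hc; rw [mul_single_apply_of_ne _ _ _ _ _ hc, zero_mul]
        · simp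
      obtain ⟨g, hg, hP⟩ := D.elim (q := q0) (by omega) hdet hdeep
      rw [hy0, ← conj_pow, ← X.pow_eq_of_P hP]
      exact pow_mem hg _
  have hle : D.gq q1 ≤ D.gam := D.gq_le (by omega)
  have hle0 : D.gq q0 ≤ D.gam := D.gq_le (by omega)
  refine ⟨2 * q1, fun a hdet hA hc => ?_⟩
  obtain ⟨g, hg, hP⟩ := D.elim (q := q1) (by omega) hdet hA
  have h1 : b * g * b⁻¹ = g := by
    apply D.gam_inj (hle0 (hconj g hg)) (hle hg)
    rw [X.P_mul, X.P_mul, hP, ← hc, mul_assoc, X.P_mul_inv, mul_one]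
  have h2 : X.P (a * g⁻¹) = 1 := by rw [X.P_mul, ← hP, X.P_mul_inv]
  have h3 := X.cenP h2 b
  have h4 : g * b = b * g := by rw [← h1]; rw [h1]; exact (mul_inv_eq_iff_eq_mul.1 h1).symm
  calc a * b = (a * g⁻¹) * (g * b) := by group
    _ = ((a * g⁻¹) * b) * g := by rw [h4]; group
    _ = b * a := by rw [h3]; group

end Dat

end Crest.Agent.T27.RG89

namespace Crest.Agent.T27

/-- Lifts of deep elements of `SL n` commute with lifts of commuting elements. -/
theorem deep_comm_89 {k : Type*} [Field k] [CharZero k] {n : ℕ} {E : Type*} [Group E]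
    (π : E →* GL (Fin n) k) (hsurj : Function.Surjective π) (m : ℕ) (hm : 0 < m)
    (hker : ∀ z, π z = 1 → (∀ e, z * e = e * z) ∧ z ^ m = 1)
    (R : Subring k) (p : k) (hp : p ∈ R) (hpm : p / m ∈ R)
    (hloc : ∀ r ∈ R, 1 + p * r ≠ 0 ∧ (1 + p * r)⁻¹ ∈ R)
    (hgen : ∀ x : k, ∃ j : ℕ, p ^ j * x ∈ R)
    (H : ∀ (e e' : E) (t t' : Fin n → k),
      (π e : Matrix (Fin n) (Fin n) k) = Matrix.diagonal t →
      (π e' : Matrix (Fin n) (Fin n) k) = Matrix.diagonal t' →
      (∀ i, ∃ r ∈ R, t' i = 1 + p * r) → e * e' = e' * e) (b : E) :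
    ∃ j : ℕ, ∀ a : E, (π a : Matrix (Fin n) (Fin n) k).det = 1 →
      (∀ i l, ∃ r ∈ R, (π a : Matrix (Fin n) (Fin n) k) i l =
        (1 : Matrix (Fin n) (Fin n) k) i l + p ^ j * r) →
      π a * π b = π b * π a → a * b = b * a := by
  let X : RG89.Ext k n E :=
    ⟨π, hsurj, m, hm, fun z hz => (hker z hz).1, fun z hz => (hker z hz).2⟩
  let D : RG89.Dat X := ⟨R, p, hp, hloc, H⟩
  obtain ⟨j, hj⟩ := D.deep_comm hpm hgen b
  refine ⟨j, fun a h1 h2 h3 => hj a h1 h2 ?_⟩
  have := congrArg (fun g : GL (Fin n) k => (g : Matrix (Fin n) (Fin n) k)) h3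
  simp only [Units.val_mul] at this
  exact this

end Crest.Agent.T27
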