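import Crest.Agent.T27.VorDefs_59
import Crest.Agent.T27.Gauss_55

/-!
# Row 27 (helper59): local computations for the reflection (port of `PVc/R17/ReflAux.lean`)
-/

set_option autoImplicit false
set_option linter.unusedSectionVars false

noncomputable section

namespace Crest.Agent.T27.Rf

open scoped ComplexConjugate

variable [Fr0]

theorem IsChr.dual {D : O} (hD : Primary D) {ψ : O → ℂ} (h : IsChr D ψ) :
    IsChr D (dualChr D ψ) := by
  refine ⟨fun x y => ?_, fun x y hxy => ?_, fun x hx => ?_, fun x hx => ?_⟩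
  · unfold dualChr
    rw [h.mul, map_mul, cub_mul_right]
    ring
  · unfold dualChr
    rw [h.per x y hxy, cub_congr ((rad_dvd D).trans hxy)]
  · unfold dualChr
    rw [h.zero x hx, map_zero, zero_mul]
  · unfold dualChr
    rw [norm_mul, Complex.norm_conj, h.norm x hx, norm_cub hD hx.symm, one_mul]
theorem IsChr.mul_mul {D E : O} {ψ χ : O → ℂ} (h : IsChr D ψ) (h' : IsChr E χ) :
    IsChr (D * E) fun x => ψ x * χ x := by
  refine ⟨fun x y => ?_, fun x y hxy => ?_, fun x hx => ?_, fun x hx => ?_⟩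
  · rw [h.mul, h'.mul]
    ring
  · rw [h.per x y ((dvd_mul_right D E).trans hxy), h'.per x y ((dvd_mul_left E D).trans hxy)]
  · rw [IsCoprime.mul_right_iff, not_and_or] at hx
    rcases hx with hx | hx
    · rw [h.zero x hx, zero_mul]
    · rw [h'.zero x hx, mul_zero]
  · rw [IsCoprime.mul_right_iff] at hx
    rw [norm_mul, h.norm x hx.1, h'.norm x hx.2, one_mul]
theorem IsChr.ft_mul {D E : O} (hD : D ≠ 0) (hE : E ≠ 0) (hDE : IsCoprime D E) {ψ χ : O → ℂ}
    (h : IsChr D ψ) (h' : IsChr E χ) (k : O) :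
    ft (D * E) (fun x => ψ x * χ x) k = ψ E * χ D * ft D ψ k * ft E χ k :=
  Gauss_crt hD hE hDE h.per h'.per h.mul h'.mul k

/-- The character `∏_{p ∣ r} conj χ_p^{v_p(h)}` modulo `r`. -/
def psiH (h r x : O) : ℂ := ∏ p ∈ pf r, sym p x ^ (5 * vp p h + 6)

theorem isChr_sym_pow {n : O} (hn : PO n) {j : ℕ} (hj : j ≠ 0) : IsChr n fun x => sym n x ^ j :=
  ⟨fun x y => by rw [sym_mul_right hn, mul_pow], Gauss_sym_per n j,
    fun x hx => by rw [(sym_eq_zero_iff hn.1).2 fun h => hx h.symm, zero_pow hj],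
    fun x hx => by rw [norm_pow, norm_sym hn.1 hx.symm, one_pow]⟩

theorem O2_po {r p : O} (hr : PO r) (hp : p ∈ pf r) : PO p :=
  hr.of_dvd (BasicB.of_mem_pf hp).2.1 (BasicB.of_mem_pf hp).2.2

theorem isChr_psiH (h : O) {r : O} (hr : PO r) : IsChr r (psiH h r) := by
  refine ⟨fun x y => ?_, fun x y hxy => ?_, fun x hx => ?_, fun x hx => ?_⟩
  · rw [psiH, psiH, psiH, ← Finset.prod_mul_distrib]
    exact Finset.prod_congr rfl fun p hp => by rw [sym_mul_right (O2_po hr hp), mul_pow]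
  · exact Finset.prod_congr rfl fun p hp =>
      Gauss_sym_per p _ x y ((BasicB.of_mem_pf hp).2.2.trans hxy)
  · have h0 := (sym_eq_zero_iff hr.1).2 fun h' => hx h'.symm
    rw [sym_eq_prod] at h0
    obtain ⟨p, hp, h1⟩ := Finset.prod_eq_zero_iff.1 h0
    exact Finset.prod_eq_zero hp (by rw [eq_zero_of_pow_eq_zero h1, zero_pow (by omega)])
  · rw [psiH, norm_prod]
    exact Finset.prod_eq_one fun p hp => by
      rw [norm_pow, norm_sym (O2_po hr hp).1
        (hx.symm.of_isCoprime_of_dvd_left (BasicB.of_mem_pf hp).2.2), one_pow]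

theorem O2_ft_gs {n : O} {f : O → ℂ} {j : ℕ} (hf : ∀ x, f x = sym n x ^ (j + 6)) (k : O) :
    ft n f k = gs j n k := Finset.sum_congr rfl fun x _ => by rw [hf]

theorem sym_eq_ft {n : O} (hn : PO n) (hs : Squarefree n) (x : O) :
    sym n x * gs 5 n 1 = ft n (fun a => sym n a ^ 5) x := by
  rw [O2_ft_gs (j := 5) fun a => (sym_pow_add_six hn.1 a (by omega)).symm,
    gs_sqfree (by omega) hn hs x, map_pow, conj_sym hn.1, ← pow_mul,
    Gauss_sym_pow hn.1 x one_ne_zero 4, pow_one]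
theorem ft_dual_five {n : O} (hn : PO n) (hs : Squarefree n) (ν : O) :
    ft n (dualChr n fun a => sym n a ^ 5) (-ν) = quad n (-1) * gs 3 n 1 * quad n ν := by
  rw [O2_ft_gs (j := 3) fun a => ?_, gs_sqfree (by omega) hn hs, sym_pow_three hn.1, conj_quad,
    ← neg_one_mul ν, quad_mul_right hn]
  · ring
  · rw [dualChr, map_pow, conj_sym hn.1, ← sym_sq hn.1, ← pow_mul, ← pow_add]
    exact Gauss_sym_pow hn.1 a (j := 3 + 6) (by omega) 3

theorem O2_sum_pdiv {z : O} (hz : Primary z) (hs : Squarefree z) (F : O → ℂ) :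
    ∑ d ∈ pdiv z, F d = ∑ S ∈ (pf z).powerset, F (∏ q ∈ S, q) := by
  have hn := hz.ne_zero
  refine Finset.sum_nbij' pf (fun s => ∏ q ∈ s, q) (fun d hd => ?_) (fun s hs => ?_)
    (fun d hd => ?_) (fun s hs => ?_) fun d hd => ?_
  · refine Finset.mem_powerset.2 fun p hp => ?_
    obtain ⟨h3, h4, h5⟩ := BasicB.of_mem_pf hp
    exact (mem_pf hn).2 ⟨h3, h4, h5.trans ((mem_pdiv hn).1 hd).2⟩
  · have hs' := Finset.mem_powerset.1 hs
    have h2 := squarefree_prod_primes (s := s) fun q hq => BasicB.pf_sub (hs' hq)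
    exact (mem_pdiv hn).2 ⟨h2.2.1, BasicB.prod_dvd_of_subset hn hs'⟩
  · exact ((mem_pdiv hn).1 hd).1.eq_rad (hs.squarefree_of_dvd ((mem_pdiv hn).1 hd).2)
  · exact (squarefree_prod_primes fun q hq => BasicB.pf_sub (Finset.mem_powerset.1 hs hq)).2.2
  · exact congrArg F (((mem_pdiv hn).1 hd).1.eq_rad
      (hs.squarefree_of_dvd ((mem_pdiv hn).1 hd).2)).symm

theorem O2_coprime {S : Finset O} (hS : ∀ p ∈ S, Prime p ∧ PO p) {q : O} (hq : Prime q)
    (hq' : PO q) (h : q ∉ S) : IsCoprime q (∏ p ∈ S, p) :=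
  IsCoprime.prod_right fun p hp => hq.coprime_iff_not_dvd.2 fun hd =>
    h (BasicB.eq_of_dvd hq (hS p hp).1 hq'.1 (hS p hp).2.1 hd ▸ hp)

theorem O2_po_prod {S : Finset O} (hS : ∀ p ∈ S, Prime p ∧ PO p) : PO (∏ p ∈ S, p) :=
  (Primary.prod fun p hp => (hS p hp).2.1).po

/-- Gauss sums of a product of local characters factor up to a unimodular constant. -/
theorem O2_ft_prod (e : O → ℕ) (S : Finset O) : ∃ u : ℂ, (∀ p ∈ S, Prime p ∧ PO p) →
    ‖u‖ = 1 ∧ ∀ k, ft (∏ p ∈ S, p) (fun x => ∏ p ∈ S, sym p x ^ (e p + 6)) k =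
      u * ∏ p ∈ S, gs (e p) p k := by
  classical
  induction S using Finset.induction_on with
  | empty =>
    refine ⟨1, fun _ => ⟨norm_one, fun k => ?_⟩⟩
    simpa [ft] using sum_res_eq_char one_ne_zero k
  | insert q S hq ih =>
    obtain ⟨u, hu⟩ := ih
    refine ⟨sym q (∏ p ∈ S, p) ^ (e q + 6) * (∏ p ∈ S, sym p q ^ (e p + 6)) * u, fun hS => ?_⟩
    have hS' : ∀ p ∈ S, Prime p ∧ PO p := fun p hp => hS p (Finset.mem_insert_of_mem hp)
    obtain ⟨h1, h2⟩ := hS q (Finset.mem_insert_self _ _)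
    obtain ⟨hu1, hu2⟩ := hu hS'
    have hc := O2_coprime hS' h1 h2 hq
    refine ⟨?_, fun k => ?_⟩
    · rw [norm_mul, norm_mul, norm_pow, norm_sym h2.1 hc, hu1, norm_prod,
        Finset.prod_eq_one fun p hp => ?_]
      · simp
      · rw [norm_pow, norm_sym (hS' p hp).2.1
          (hc.symm.of_isCoprime_of_dvd_left (Finset.dvd_prod_of_mem _ hp)), one_pow]
    · simp only [Finset.prod_insert hq]
      have h3 := Gauss_crt (f := fun x => sym q x ^ (e q + 6))
        (g := fun x => ∏ p ∈ S, sym p x ^ (e p + 6)) h1.ne_zero (O2_po_prod hS').1.ne_zero hc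
        (Gauss_sym_per q _)
        (fun x y hxy => Finset.prod_congr rfl fun p hp =>
          Gauss_sym_per p _ x y ((Finset.dvd_prod_of_mem _ hp).trans hxy))
        (fun x y => by rw [sym_mul_right h2, mul_pow])
        (fun x y => by
          rw [← Finset.prod_mul_distrib]
          exact Finset.prod_congr rfl fun p hp => by rw [sym_mul_right (hS' p hp).2, mul_pow]) k
      refine h3.trans ?_
      have h4 : Gauss_G (fun x => ∏ p ∈ S, sym p x ^ (e p + 6)) (∏ p ∈ S, p) k = _ := hu2 k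
      rw [h4, show Gauss_G (fun x => sym q x ^ (e q + 6)) q k = gs (e q) q k from rfl]
      ring

/-- The local expansion at one prime. -/
theorem O2_local (p : O) (v : ℕ) : ∃ c0 c1 : ℂ, Prime p → PO p → v ≠ 0 →
    ‖c0‖ ≤ 1 ∧ ‖c1‖ ≤ (Real.sqrt (nr p))⁻¹ ∧ ∀ x, sym p x ^ v = c1 * gs (5 * v) p x + c0 := by
  classical
  by_cases h6 : 6 ∣ v
  · refine ⟨((1 - (nr p)⁻¹ : ℝ) : ℂ), ((-(nr p)⁻¹ : ℝ) : ℂ), fun hp hp' hv => ?_⟩
    have h1 := one_le_nr hp.ne_zero
    have h2 : (nr p)⁻¹ ≤ 1 := inv_le_one_of_one_le₀ h1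
    have h3 : 0 < (nr p)⁻¹ := by positivity
    refine ⟨?_, ?_, fun x => ?_⟩
    · rw [Complex.norm_real, Real.norm_of_nonneg (by linarith)]; linarith
    · rw [Complex.norm_real, norm_neg, Real.norm_of_nonneg h3.le]
      exact inv_anti₀ (by positivity) (Real.sqrt_le_iff.2 ⟨by linarith, by nlinarith⟩)
    · have h4 : (nm p : ℂ) = ((nr p : ℝ) : ℂ) := by simp [nr]
      have h5 : ((nr p : ℝ) : ℂ) ≠ 0 := by exact_mod_cast (by linarith : nr p ≠ 0)
      rw [gs_prime_zero (h6.mul_left 5) hp hp', h4]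
      generalize nr p = N at h5
      push_cast
      split_ifs with hx
      · rw [(sym_eq_zero_iff hp'.1).2 fun hc => hp.not_isUnit (hc.isUnit_of_dvd' dvd_rfl hx),
          zero_pow hv]
        field_simp
        ring
      · obtain ⟨v, rfl⟩ := h6
        rw [pow_mul, sym_pow_six hp'.1 (hp.coprime_iff_not_dvd.2 hx), one_pow]
        ring
  · refine ⟨0, (gs (5 * v) p 1)⁻¹, fun hp hp' hv => ?_⟩
    have h1 := Gauss_norm_gs (j := 5 * v) (by omega) hp' hp.squarefree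
    have h2 : gs (5 * v) p 1 ≠ 0 := by
      rw [← norm_ne_zero_iff, h1]
      exact (Real.sqrt_pos.2 (nr_pos hp.ne_zero)).ne'
    refine ⟨by simp, by rw [norm_inv, h1], fun x => ?_⟩
    rw [gs_sqfree (by omega) hp' hp.squarefree x, map_pow, conj_sym hp'.1, ← pow_mul,
      show 5 * (5 * v) = v + 6 * (4 * v) by ring, Gauss_sym_pow hp'.1 x hv]
    field_simp
    ring

open Classical in
theorem O2_local_bound {p : O} (hp : Prime p) (hp' : PO p) (v : ℕ) (ν : O) :
    (Real.sqrt (nr p))⁻¹ * ‖gs (v + 2) p (-ν)‖ ≤ if v % 6 = 4 then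
      (Real.sqrt (nr p))⁻¹ + if p ∣ ν then Real.sqrt (nr p) else 0 else 1 := by
  have h0 := nr_pos hp.ne_zero
  have h1 : 0 < Real.sqrt (nr p) := Real.sqrt_pos.2 h0
  by_cases h4 : v % 6 = 4
  · rw [if_pos h4, gs_prime_zero (by omega) hp hp']
    simp only [dvd_neg]
    split_ifs with hx
    · have h2 : ‖(nm p : ℂ) - 1‖ ≤ 1 + nr p := by
        refine (norm_sub_le _ _).trans ?_
        simp [nr, add_comm]
      have h3 : (Real.sqrt (nr p))⁻¹ * nr p = Real.sqrt (nr p) := by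
        rw [inv_mul_eq_iff_eq_mul₀ h1.ne', Real.mul_self_sqrt h0.le]
      calc _ ≤ (Real.sqrt (nr p))⁻¹ * (1 + nr p) := by gcongr
        _ = _ := by rw [mul_add, mul_one, h3]
    · simp
  · rw [if_neg h4, gs_sqfree (by omega) hp' hp.squarefree, norm_mul,
      Gauss_norm_gs (by omega) hp' hp.squarefree, Complex.norm_conj, norm_pow,
      mul_left_comm, inv_mul_cancel₀ h1.ne', mul_one]
    exact pow_le_one₀ (norm_nonneg _) (norm_sym_le _ _)

open Classical in
theorem sym_eq_sum {h : O} (hh : PO h) : ∃ coef : O → ℂ,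
    (∀ x, sym h x = ∑ r ∈ pdiv (rad h), coef r * ft r (psiH h r) x) ∧
    ∀ r ∈ pdiv (rad h), ∀ ν : O, ‖coef r * ft r (dualChr r (psiH h r)) (-ν)‖ ≤
      ∏ p ∈ (pf r).filter (fun p => vp p h % 6 = 4),
        ((Real.sqrt (nr p))⁻¹ + if p ∣ ν then Real.sqrt (nr p) else 0) := by
  choose c0 c1 hc using fun p => O2_local p (vp p h)
  choose u hu using O2_ft_prod fun p => 5 * vp p h
  have hP : ∀ p ∈ pf h, Prime p ∧ PO p := fun p hp => ⟨(BasicB.pf_sub hp).1, O2_po hh hp⟩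
  have hc' := fun p hp => hc p (hP p hp).1 (hP p hp).2 (BasicB.vp_ne_zero hp)
  refine ⟨fun r => (u (pf r))⁻¹ * (∏ p ∈ pf r, c1 p) * ∏ p ∈ pf h \ pf r, c0 p, fun x => ?_,
    fun r hr ν => ?_⟩
  · rw [O2_sum_pdiv (primary_rad h) (squarefree_rad h), pf_rad, sym_eq_prod,
      Finset.prod_congr rfl fun p hp => (hc' p hp).2.2 x, Finset.prod_add]
    refine Finset.sum_congr rfl fun S hS => ?_
    have hS' : ∀ p ∈ S, Prime p ∧ PO p := fun p hp => hP p (Finset.mem_powerset.1 hS hp)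
    have h1 := (squarefree_prod_primes (s := S) fun q hq => ⟨(hS' q hq).1, (hS' q hq).2.1⟩).2.2
    obtain ⟨h2, h3⟩ := hu S hS'
    have h4 : u S ≠ 0 := by rw [← norm_ne_zero_iff, h2]; exact one_ne_zero
    have h5 : psiH h (∏ q ∈ S, q) = fun x => ∏ p ∈ S, sym p x ^ (5 * vp p h + 6) := by
      funext y; rw [psiH, h1]
    simp only [h5, h3, h1, Finset.prod_mul_distrib]
    field_simp
  · obtain ⟨hr1, hr2⟩ := (mem_pdiv (primary_rad h).ne_zero).1 hr
    have hsq := (squarefree_rad h).squarefree_of_dvd hr2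
    have hsub : pf r ⊆ pf h := fun p hp => by
      obtain ⟨h3, h4, h5⟩ := BasicB.of_mem_pf hp
      exact (mem_pf hh.1.ne_zero).2 ⟨h3, h4, h5.trans (hr2.trans (rad_dvd h))⟩
    have hS' : ∀ p ∈ pf r, Prime p ∧ PO p := fun p hp => hP p (hsub hp)
    have hrr : ∏ p ∈ pf r, p = r := hr1.eq_rad hsq
    obtain ⟨w, hw⟩ := O2_ft_prod (fun p => vp p h + 2) (pf r)
    obtain ⟨hw1, hw2⟩ := hw hS'
    have h5 : dualChr r (psiH h r) = fun x => ∏ p ∈ pf r, sym p x ^ (vp p h + 2 + 6) := by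
      funext y
      rw [dualChr, psiH, map_prod, ← sym_sq hr1, sym_eq_prod, ← Finset.prod_pow,
        ← Finset.prod_mul_distrib]
      refine Finset.prod_congr rfl fun p hp => ?_
      have h6 : vp p r = 1 := le_antisymm (BasicB.vp_le_one hsq (hS' p hp).1)
        (Nat.one_le_iff_ne_zero.2 (BasicB.vp_ne_zero hp))
      rw [h6, pow_one, map_pow, conj_sym (hS' p hp).2.1, ← pow_mul, ← pow_add,
        ← Gauss_sym_pow (hS' p hp).2.1 y (j := vp p h + 2 + 6) (by omega) (4 * vp p h + 4)]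
      congr 1
      ring
    rw [hrr] at hw2
    rw [h5, hw2, Finset.prod_filter]
    simp only [norm_mul, norm_inv, (hu _ hS').1, hw1, norm_prod, inv_one, one_mul]
    have h7 : ∏ p ∈ pf h \ pf r, ‖c0 p‖ ≤ 1 :=
      Finset.prod_le_one (fun _ _ => norm_nonneg _) fun p hp => (hc' p (Finset.mem_sdiff.1 hp).1).1
    calc _ ≤ (∏ p ∈ pf r, ‖c1 p‖) * 1 * ∏ p ∈ pf r, ‖gs (vp p h + 2) p (-ν)‖ := by gcongr
      _ = ∏ p ∈ pf r, ‖c1 p‖ * ‖gs (vp p h + 2) p (-ν)‖ := by
        rw [mul_one, Finset.prod_mul_distrib]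
      _ ≤ _ := Finset.prod_le_prod (fun _ _ => by positivity) fun p hp =>
        (mul_le_mul_of_nonneg_right (hc' p (hsub hp)).2.1 (norm_nonneg _)).trans
          (O2_local_bound (hS' p hp).1 (hS' p hp).2 _ ν)

/-! ## part O3: separation of the variables -/

theorem O3_norm_le {D : O} {ψ : O → ℂ} (h : IsChr D ψ) (x : O) : ‖ψ x‖ ≤ 1 := by
  by_cases hx : IsCoprime x D
  · exact (h.norm x hx).le
  · simp [h.zero x hx]

theorem O3_dual_mul {D E : O} (hD : D ≠ 0) (hE : E ≠ 0) (ψ χ : O → ℂ) :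
    dualChr (D * E) (fun x => ψ x * χ x) = fun x => dualChr D ψ x * dualChr E χ x := by
  funext x
  simp only [dualChr, map_mul, cub_mul_left hD hE]
  ring

theorem O3_mul_le {x y : ℂ} (hx : ‖x‖ ≤ 1) (hy : ‖y‖ ≤ 1) : ‖x * y‖ ≤ 1 := by
  rw [norm_mul]
  exact mul_le_one₀ hx (norm_nonneg _) hy

theorem O3_div_le {x y : ℂ} (hx : ‖x‖ ≤ 1) (hy : ‖y‖ = 1) : ‖x / y‖ ≤ 1 := by
  rwa [norm_div, hy, div_one]

end Crest.Agent.T27.Rf
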