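import Crest.Agent.T27.ThA_54

/-!
# Row 27, theta leaf A5, part a: elementary lemmas (lattice sums, the term `E0`, the kernel at `b = 0`)
-/

set_option autoImplicit false
set_option linter.unusedSectionVars false

noncomputable section

namespace Crest.Agent.T27.TH.A5

open scoped ComplexConjugate ENNReal Topology
open MeasureTheory Filter NumberField

/-! ## measure theory -/

theorem enorm_add_sq (u v : ℂ) : ‖u + v‖ₑ ^ 2 ≤ 2 * ‖u‖ₑ ^ 2 + 2 * ‖v‖ₑ ^ 2 := by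
  have h : ‖u + v‖₊ ^ 2 ≤ 2 * ‖u‖₊ ^ 2 + 2 * ‖v‖₊ ^ 2 := by
    rw [← NNReal.coe_le_coe]
    push_cast
    have h1 := norm_add_le u v
    have h2 := norm_nonneg (u + v)
    nlinarith [sq_nonneg (‖u‖ - ‖v‖)]
  simp only [enorm_eq_nnnorm]
  exact_mod_cast h

theorem enorm_sq_le (x y z : ℂ) : ‖x - z‖ₑ ^ 2 ≤ 2 * ‖x - y‖ₑ ^ 2 + 2 * ‖y - z‖ₑ ^ 2 := by
  have := enorm_add_sq (x - y) (y - z)
  rwa [sub_add_sub_cancel] at this

theorem lint_tri {α : Type*} [MeasurableSpace α] (μ : Measure α)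
    {f g : α → ℂ} (h : α → ℂ) (hf : Measurable f) (hg : Measurable g) :
    ∫⁻ x, ‖f x - h x‖ₑ ^ 2 ∂μ ≤
      2 * ∫⁻ x, ‖f x - g x‖ₑ ^ 2 ∂μ + 2 * ∫⁻ x, ‖g x - h x‖ₑ ^ 2 ∂μ := by
  have hm : Measurable fun x => ‖f x - g x‖ₑ ^ 2 := (hf.sub hg).enorm.pow_const 2
  rw [← lintegral_const_mul' _ _ (by simp), ← lintegral_const_mul' _ _ (by simp),
    ← lintegral_add_left (hm.const_mul 2)]
  exact lintegral_mono fun x => enorm_sq_le _ _ _

theorem tendsto_two_mul {α : Type*} {l : Filter α} {f : α → ℝ≥0∞} (h : Tendsto f l (𝓝 0)) :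
    Tendsto (fun x => 2 * f x) l (𝓝 0) := by
  simpa using ENNReal.Tendsto.const_mul (a := 2) h (Or.inr (by simp))

/-- Splitting off a bounded term. -/
theorem lintegral_add_le {α : Type*} [MeasurableSpace α] {μ : Measure α} {u v w : α → ℂ}
    {S : Set α} (hS : MeasurableSet S) {c : ℂ} {e : ℝ}
    (h : ∀ y ∈ S, u y = v y + c * w y) (hv : ∀ y ∈ S, ‖v y‖ ≤ e) :
    ∫⁻ y in S, ‖u y‖ₑ ^ 2 ∂μ ≤
      2 * μ S * ENNReal.ofReal e ^ 2 + 2 * ‖c‖ₑ ^ 2 * ∫⁻ y in S, ‖w y‖ₑ ^ 2 ∂μ := by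
  calc ∫⁻ y in S, ‖u y‖ₑ ^ 2 ∂μ
      ≤ ∫⁻ y in S, (2 * ENNReal.ofReal e ^ 2 + 2 * ‖c‖ₑ ^ 2 * ‖w y‖ₑ ^ 2) ∂μ := by
        refine setLIntegral_mono' hS fun y hy => ?_
        rw [h y hy]
        refine (enorm_add_sq _ _).trans ?_
        rw [enorm_mul, mul_pow, ← mul_assoc]
        gcongr
        rw [← ofReal_norm]
        exact ENNReal.ofReal_le_ofReal (hv y hy)
    _ = _ := by
        rw [lintegral_add_left measurable_const, setLIntegral_const,
          lintegral_const_mul' _ _ (by finiteness)]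
        ring

theorem tendsto_comb {α : Type*} {l : Filter α} {e : α → ℝ} {u : α → ℝ≥0∞} {c d : ℝ≥0∞}
    (hc : c ≠ ⊤) (hd : d ≠ ⊤) (he : Tendsto e l (𝓝 0)) (hu : Tendsto u l (𝓝 0)) :
    Tendsto (fun x => c * ENNReal.ofReal (e x) ^ 2 + d * u x) l (𝓝 0) := by
  have h1 : Tendsto (fun x => ENNReal.ofReal (e x) ^ 2) l (𝓝 0) := by
    simpa using ENNReal.Tendsto.pow (n := 2) (ENNReal.tendsto_ofReal he)
  simpa using (ENNReal.Tendsto.const_mul h1 (Or.inr hc)).add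
    (ENNReal.Tendsto.const_mul hu (Or.inr hd))

/-- Local `L²` limits which are continuous are unique. -/
theorem eq_of_local {X : Type*} [PseudoMetricSpace X] [ProperSpace X] [MeasurableSpace X]
    [OpensMeasurableSpace X] {μ : Measure X} [μ.IsOpenPosMeasure]
    {Φ : ℝ → X → ℂ} {G G' : X → ℂ} (hF : ∀ s, Measurable (Φ s))
    (hG : Continuous G) (hG' : Continuous G')
    (h : ∀ K : Set X, IsCompact K →
      Tendsto (fun s => ∫⁻ w in K, ‖Φ s w - G w‖ₑ ^ 2 ∂μ) atTop (𝓝 0))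
    (h' : ∀ K : Set X, IsCompact K →
      Tendsto (fun s => ∫⁻ w in K, ‖Φ s w - G' w‖ₑ ^ 2 ∂μ) atTop (𝓝 0)) (w : X) :
    G w = G' w := by
  have hK : IsCompact (Metric.closedBall w 1) := isCompact_closedBall w 1
  have h0 : ∫⁻ x in Metric.closedBall w 1, ‖G x - G' x‖ₑ ^ 2 ∂μ = 0 := by
    have ht := (tendsto_two_mul (h _ hK)).add (tendsto_two_mul (h' _ hK))
    rw [add_zero] at ht
    refine le_antisymm (ge_of_tendsto ht (Eventually.of_forall fun s => ?_)) zero_le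
    have := lint_tri (μ.restrict (Metric.closedBall w 1)) G' hG.measurable (hF s)
    refine this.trans (le_of_eq ?_)
    congr 2
    refine lintegral_congr fun x => ?_
    rw [← enorm_neg, neg_sub]
  have hm : Measurable fun x => ‖G x - G' x‖ₑ ^ 2 :=
    (hG.measurable.sub hG'.measurable).enorm.pow_const 2
  rw [lintegral_eq_zero_iff hm] at h0
  have h1 : G =ᵐ[μ.restrict (Metric.ball w 1)] G' := by
    refine ae_restrict_of_ae_restrict_of_subset Metric.ball_subset_closedBall ?_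
    filter_upwards [h0] with x hx
    have : ‖G x - G' x‖ₑ = 0 := by simpa using hx
    exact sub_eq_zero.1 (enorm_eq_zero.1 this)
  exact Measure.eqOn_open_of_ae_eq h1 Metric.isOpen_ball hG.continuousOn hG'.continuousOn
    (Metric.mem_ball_self one_pos)

/-- The weighted `L²` norm as a Bochner integral. -/
theorem lint_eq_norm {α : Type*} [MeasurableSpace α] {μ : Measure α} {ϖ : α → ℝ} {f : α → ℂ}
    (h0 : ∀ w, 0 ≤ ϖ w) (hf : Integrable (fun w => (ϖ w : ℂ) * (f w * conj (f w))) μ) :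
    ∫⁻ w, ENNReal.ofReal (ϖ w) * ‖f w‖ₑ ^ 2 ∂μ =
      ENNReal.ofReal ‖∫ w, (ϖ w : ℂ) * (f w * conj (f w)) ∂μ‖ := by
  have e : ∀ w, (ϖ w : ℂ) * (f w * conj (f w)) = ((ϖ w * ‖f w‖ ^ 2 : ℝ) : ℂ) := by
    intro w
    rw [Complex.mul_conj, Complex.normSq_eq_norm_sq]
    push_cast
    ring
  simp only [e] at hf ⊢
  have hn : ∀ w, 0 ≤ ϖ w * ‖f w‖ ^ 2 := fun w => mul_nonneg (h0 w) (by positivity)
  have hf' : Integrable (fun w => ϖ w * ‖f w‖ ^ 2) μ := by
    refine hf.norm.congr (Eventually.of_forall fun w => ?_)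
    simp only
    rw [Complex.norm_real, Real.norm_of_nonneg (hn w)]
  rw [integral_complex_ofReal, Complex.norm_real, Real.norm_of_nonneg (integral_nonneg hn),
    ofReal_integral_eq_lintegral_ofReal hf' (Eventually.of_forall hn)]
  refine lintegral_congr fun w => ?_
  rw [ENNReal.ofReal_mul (h0 w), ENNReal.ofReal_pow (norm_nonneg _), ofReal_norm]

/-! ## one-dimensional estimates -/

theorem exp_neg_exp_le (t : ℝ) :
    Real.exp (-Real.exp t) ≤ 2 * min (Real.exp (-0 * t)) (Real.exp (-2 * t)) := by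
  have h0 := Real.exp_pos t
  rw [mul_min_of_nonneg _ _ (by norm_num : (0 : ℝ) ≤ 2)]
  refine le_min ?_ ?_
  · have : Real.exp (-Real.exp t) ≤ 1 := Real.exp_le_one_iff.2 (by linarith)
    simp only [neg_zero, zero_mul, Real.exp_zero]
    linarith
  · have h1 : Real.exp t ^ 2 / 2 ≤ Real.exp (Real.exp t) := by
      have := Real.pow_div_factorial_le_exp (Real.exp t) h0.le 2
      simpa using this
    have h2 : Real.exp (-2 * t) * Real.exp t ^ 2 = 1 := by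
      rw [← Real.exp_nat_mul, ← Real.exp_add]; simp
    have h3 := Real.exp_pos (-2 * t)
    rw [Real.exp_neg, inv_le_iff_one_le_mul₀ (Real.exp_pos _)]
    nlinarith

theorem integrable_exp_neg_abs : Integrable fun u : ℝ => Real.exp (-|u|) := by
  have h1 : IntegrableOn (fun u : ℝ => Real.exp (-|u|)) (Set.Iic 0) :=
    (integrableOn_exp_Iic 0).congr_fun (fun u hu => by
      have hu : u ≤ 0 := hu
      simp only [abs_of_nonpos hu, neg_neg]) measurableSet_Iic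
  have h2 : IntegrableOn (fun u : ℝ => Real.exp (-|u|)) (Set.Ioi 0) :=
    (integrableOn_exp_neg_Ioi 0).congr_fun (fun u hu => by
      have hu : 0 < u := hu
      simp only [abs_of_pos hu]) measurableSet_Ioi
  have := h1.union h2
  rwa [Set.Iic_union_Ioi, integrableOn_univ] at this

theorem integrable_gam {a : ℝ} (h1 : 1 ≤ a) (h2 : a ≤ 2) :
    Integrable fun u : ℝ => Real.exp (a * u - Real.exp u) := by
  refine Integrable.mono' (integrable_exp_neg_abs.const_mul 6) (by fun_prop)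
    (Eventually.of_forall fun u => ?_)
  rw [Real.norm_of_nonneg (Real.exp_pos _).le]
  have h0 := Real.exp_pos u
  rcases le_total u 0 with hu | hu
  · have : Real.exp (a * u - Real.exp u) ≤ Real.exp (-|u|) := by
      rw [abs_of_nonpos hu, neg_neg]
      exact Real.exp_le_exp.2 (by nlinarith)
    linarith [Real.exp_pos (-|u|)]
  · rw [abs_of_nonneg hu]
    have h3 : Real.exp u ^ 3 / 6 ≤ Real.exp (Real.exp u) := by
      have := Real.pow_div_factorial_le_exp (Real.exp u) h0.le 3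
      norm_num [Nat.factorial] at this
      linarith
    have h4 : Real.exp (a * u - Real.exp u) ≤ Real.exp (2 * u - Real.exp u) :=
      Real.exp_le_exp.2 (by nlinarith)
    refine h4.trans ?_
    rw [Real.exp_sub, div_le_iff₀ (Real.exp_pos _)]
    have h5 : Real.exp (-u) * Real.exp u ^ 3 = Real.exp (2 * u) := by
      rw [← Real.exp_nat_mul, ← Real.exp_add]; congr 1; push_cast; ring
    have h6 := Real.exp_pos (-u)
    nlinarith

/-- The profile `exp (a ∑ u - ∑ e^u)`. -/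
def gam {ι : Type} [Fintype ι] (a : ℝ) (u : ι → ℝ) : ℝ := Real.exp (a * ∑ j, u j - ∑ j, Real.exp (u j))

theorem gam_pos {ι : Type} [Fintype ι] (a : ℝ) (u : ι → ℝ) : 0 < gam a u := Real.exp_pos _

theorem integrable_gamV {ι : Type} [Fintype ι] {a : ℝ} (h1 : 1 ≤ a) (h2 : a ≤ 2) :
    Integrable (gam a : (ι → ℝ) → ℝ) := by
  have := Integrable.fintype_prod (μ := fun _ : ι => (volume : Measure ℝ))
    (f := fun _ u => Real.exp (a * u - Real.exp u)) fun _ => integrable_gam h1 h2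
  refine this.congr (Eventually.of_forall fun u => ?_)
  simp only [gam]
  rw [← Real.exp_sum, Finset.sum_sub_distrib, Finset.mul_sum]

/-! ## the number field -/

instance countableF {F : Type} [Field F] [NumberField F] : Countable F :=
  Finsupp.Countable.of_moduleFinite (R := ℚ) (M := F)

variable {F : Type} [Field F] [NumberField F] [Emb F]

theorem em_ne {x : F} (hx : x ≠ 0) (j : Pl F) : em x j ≠ 0 := (map_ne_zero _).2 hx

theorem exp_lg {x : F} (hx : x ≠ 0) (j : Pl F) : Real.exp (lg x j) = ‖em x j‖ ^ 2 :=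
  Real.exp_log (pow_pos (norm_pos_iff.2 (em_ne hx j)) 2)

theorem exp_sum_lg {x : F} (hx : x ≠ 0) : Real.exp (∑ j, lg x j) = nF x := by
  rw [Real.exp_sum, nF]
  exact Finset.prod_congr rfl fun j _ => exp_lg hx j

theorem nF_pos {x : F} (hx : x ≠ 0) : 0 < nF x := by
  rw [← exp_sum_lg hx]; exact Real.exp_pos _

theorem nF_mul (x y : F) : nF (x * y) = nF x * nF y := by
  simp only [nF, em, map_mul, norm_mul, mul_pow, Finset.prod_mul_distrib]

theorem norm_eV (z : Pl F → ℂ) : ‖eV z‖ = 1 := by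
  have : 4 * (Real.pi : ℂ) * Complex.I * ((∑ j, (z j).re : ℝ) : ℂ) =
      ((4 * Real.pi * ∑ j, (z j).re : ℝ) : ℂ) * Complex.I := by push_cast; ring
  rw [eV, this, Complex.norm_exp_ofReal_mul_I]

theorem continuous_eV : Continuous (eV : (Pl F → ℂ) → ℂ) := by
  unfold eV
  fun_prop

theorem summable_mul_eV {a : F → ℂ} (ha : Summable fun r => ‖a r‖) (z : F → Pl F → ℂ) :
    Summable fun r => a r * eV (z r) :=
  Summable.of_norm (by simpa only [norm_mul, norm_eV, mul_one] using ha)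

theorem sum_ray (v : Pl F → ℝ) (s : ℝ) :
    ∑ j, ray v s j = ∑ j, v j - (Fintype.card (Pl F) : ℝ) * s := by
  simp [ray, Finset.sum_sub_distrib]

theorem tendsto_sum_ray (v : Pl F → ℝ) : Tendsto (fun s => ∑ j, ray v s j) atTop atBot := by
  simp only [sum_ray]
  have h : (0 : ℝ) < Fintype.card (Pl F) := by exact_mod_cast Fintype.card_pos
  simp only [sub_eq_add_neg]
  exact tendsto_atBot_add_const_left _ _
    (tendsto_neg_atTop_atBot.comp (tendsto_id.const_mul_atTop h))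

theorem tendsto_exp_ray (v : Pl F → ℝ) :
    Tendsto (fun s => Real.exp ((∑ j, ray v s j) / 3)) atTop (𝓝 0) :=
  Real.tendsto_exp_atBot.comp ((tendsto_sum_ray v).atBot_div_const (by norm_num))

theorem eventually_ray (v : Pl F → ℝ) : ∀ᶠ s in atTop, ∑ j, ray v s j ≤ 0 :=
  (tendsto_sum_ray v).eventually (eventually_le_atBot 0)

theorem measurableSet_box (a : Pl F → ℝ) (L : ℝ) : MeasurableSet (box a L) :=
  MeasurableSet.univ_pi fun _ => measurableSet_Icc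

theorem volume_box (a : Pl F → ℝ) (L : ℝ) :
    volume (box a L) = ENNReal.ofReal L ^ Fintype.card (Pl F) := by
  rw [box, volume_pi_pi]
  simp

theorem volume_box_ne_top (a : Pl F → ℝ) (L : ℝ) : volume (box a L) ≠ ⊤ := by
  rw [volume_box]; finiteness

theorem hasExp_mono {N N' : ℕ} (h : N ∣ N') {f : HH F → ℂ} {A : F → (Pl F → ℝ) → ℂ}
    (hf : HasExp N f A) : HasExp N' f A := by
  obtain ⟨k, rfl⟩ := h
  refine ⟨hf.1, fun r l hr => ?_, hf.2.2⟩
  have h1 : IsIntegral ℤ ((k : ℕ) : F) := isIntegral_natCast k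
  have := h1.mul (hf.2.1 r l hr)
  rwa [Nat.cast_mul, mul_comm (N : F), mul_assoc]

theorem hasExp_sub {N : ℕ} {f g : HH F → ℂ} {A B : F → (Pl F → ℝ) → ℂ}
    (hf : HasExp N f A) (hg : HasExp N g B) :
    HasExp N (fun w => f w - g w) (fun r l => A r l - B r l) := by
  refine ⟨fun r => (hf.1 r).sub (hg.1 r), fun r l hr => ?_, fun l => ?_⟩
  · by_cases h : A r l = 0
    · refine hg.2.1 r l fun h' => hr ?_
      simp only [h, h', sub_self]
    · exact hf.2.1 r l h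
  · obtain ⟨h1, h2⟩ := hf.2.2 l
    obtain ⟨h3, h4⟩ := hg.2.2 l
    refine ⟨(h1.add h3).of_nonneg_of_le (fun _ => norm_nonneg _) fun r => norm_sub_le _ _,
      fun z => ?_⟩
    simp only
    rw [h2, h4, ← (summable_mul_eV h1 _).tsum_sub (summable_mul_eV h3 _)]
    simp only [sub_mul]

/-- The basic lattice sum, as a `tsum`. -/
theorem lsum_tsum (hL : LatStmt F) {M : ℕ} (hM : M ≠ 0) : ∃ C : ℝ, 0 ≤ C ∧
    ∀ (v : Pl F → ℝ) (f : F → ℂ) (B : ℝ), 0 ≤ B →
      (∀ x, f x ≠ 0 → x ≠ 0 ∧ IsIntegral ℤ ((M : F) * x) ∧ ‖f x‖ ≤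
        B * ∏ j, min (Real.exp (-0 * (v j + lg x j))) (Real.exp (-2 * (v j + lg x j)))) →
      (Summable fun x => ‖f x‖) ∧ ∑' x, ‖f x‖ ≤ B * (C * Real.exp (-∑ j, v j)) := by
  classical
  obtain ⟨C, hC⟩ := hL.lsum M hM 0 2 (by norm_num) (by norm_num)
  have hC0 : 0 ≤ C := by
    have := hC 0 ∅ (by simp)
    simpa using this
  refine ⟨C, hC0, fun v f B hB hf => ?_⟩
  have key : ∀ S : Finset F, ∑ x ∈ S, ‖f x‖ ≤ B * (C * Real.exp (-∑ j, v j)) := by
    intro S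
    rw [← Finset.sum_filter_of_ne (p := fun x => f x ≠ 0) (fun x _ hx => by simpa using hx)]
    refine le_trans (Finset.sum_le_sum fun x hx => (hf x (Finset.mem_filter.1 hx).2).2.2) ?_
    rw [← Finset.mul_sum]
    refine mul_le_mul_of_nonneg_left (hC v _ fun x hx => ?_) hB
    have := hf x (Finset.mem_filter.1 hx).2
    exact ⟨this.1, this.2.1⟩
  exact ⟨summable_of_sum_le (fun _ => norm_nonneg _) key,
    Real.tsum_le_of_sum_le (fun _ => norm_nonneg _) key⟩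

theorem norm_E0_le (hL : LatStmt F) {ξ : F × F → ℂ} (hξ : Adm ξ) : ∃ C : ℝ, 0 ≤ C ∧
    ∀ v l : Pl F → ℝ, ‖E0 ξ v l‖ ≤ C * Real.exp ((∑ j, v j) / 3 + ∑ j, l j) := by
  obtain ⟨B, hB⟩ := hξ.bdd
  obtain ⟨M, hM, hs⟩ := hξ.supp
  obtain ⟨C, hC0, hC⟩ := lsum_tsum hL hM
  have hB0 : 0 ≤ B := (norm_nonneg _).trans (hB 0)
  refine ⟨B * 2 ^ Fintype.card (Pl F) * C, by positivity, fun v l => ?_⟩
  obtain ⟨h1, h2⟩ := hC (fun j => v j - l j)
    (fun d => ξ (0, d) * (Real.exp (-∑ j, Real.exp (v j - l j) * ‖em d j‖ ^ 2) : ℂ))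
    (B * 2 ^ Fintype.card (Pl F)) (by positivity) fun d hd => by
      obtain ⟨-, h2, a, b, -, -, hab⟩ := hs (0, d) (left_ne_zero_of_mul hd)
      have hd0 : d ≠ 0 := by
        rintro rfl
        simp only [mul_zero, add_zero] at hab
        exact hM (by exact_mod_cast hab.symm)
      refine ⟨hd0, h2, ?_⟩
      rw [norm_mul, Complex.norm_real, Real.norm_of_nonneg (Real.exp_pos _).le, mul_assoc]
      refine mul_le_mul (hB _) ?_ (Real.exp_pos _).le hB0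
      rw [← Finset.sum_neg_distrib, Real.exp_sum, ← Finset.card_univ, ← Finset.prod_const,
        ← Finset.prod_mul_distrib]
      refine Finset.prod_le_prod (fun _ _ => (Real.exp_pos _).le) fun j _ => ?_
      rw [← exp_lg hd0, ← Real.exp_add]
      exact exp_neg_exp_le _
  rw [E0, norm_mul, Complex.norm_real, Real.norm_of_nonneg (Real.exp_pos _).le]
  refine (mul_le_mul_of_nonneg_left ((norm_tsum_le_tsum_norm h1).trans h2)
    (Real.exp_pos _).le).trans (le_of_eq ?_)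
  have e : Real.exp ((∑ j, v j) / 3 + ∑ j, l j) =
      Real.exp (4 / 3 * ∑ j, v j) * Real.exp (-∑ j, (v j - l j)) := by
    rw [← Real.exp_add, Finset.sum_sub_distrib]
    congr 1
    ring
  rw [e]
  ring

theorem bb_zero : bb (0 : F) = fun _ => 0 := by
  funext j
  simp [bb, em]

theorem bb_nonneg (r : F) (j : Pl F) : 0 ≤ bb r j := by
  unfold bb
  positivity

theorem Sk_Fk_zero (g : F → ℂ) (l v : Pl F → ℝ) :
    Sk g (Fk l (bb (0 : F))) v = (Real.exp (2 / 3 * ∑ j, l j) : ℂ) * Sk g k0 (v + l) := by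
  have h : ∀ x : Pl F → ℝ, Fk l (bb (0 : F)) x = Real.exp (∑ j, l j) * k0 (x + l) := by
    intro x
    rw [bb_zero, Fk, k0, Finset.prod_mul_distrib, ← Real.exp_sum, ← Real.exp_sum,
      ← Finset.sum_neg_distrib]
    congr 2
    refine Finset.sum_congr rfl fun j _ => ?_
    rw [Pi.add_apply, Real.exp_add]
    ring
  simp only [Sk, h]
  have e : ∀ c : F, g c * ((Real.exp (∑ j, l j) * k0 (v + lg c + l) : ℝ) : ℂ) =
      (Real.exp (∑ j, l j) : ℂ) * (g c * (k0 (v + l + lg c) : ℂ)) := by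
    intro c
    rw [add_right_comm]
    push_cast
    ring
  simp only [e]
  rw [tsum_mul_left, ← mul_assoc, ← mul_assoc, ← Complex.ofReal_mul, ← Complex.ofReal_mul,
    ← Real.exp_add, ← Real.exp_add]
  congr 3
  simp only [Pi.add_apply, Finset.sum_add_distrib]
  ring

/-! ## the constant term against the seed -/

/-- The integral of the constant term of `thY η v'` against the seed of `thY ξ v`. -/
def J (κ : ℝ) (η : F × F → ℂ) (v' v : Pl F → ℝ) : ℂ :=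
  ∫ l : Pl F → ℝ, Acoef κ η v' 0 l *
    (Real.exp (4 / 3 * ∑ j, v j - ∑ j, Real.exp (v j - l j) - 2 * ∑ j, l j) : ℂ)

/-- The integrand of `J` after the substitution `u = v - l`. -/
def Jin (κ : ℝ) (η : F × F → ℂ) (v' v u : Pl F → ℝ) : ℂ :=
  Acoef κ η v' 0 (v - u) *
    (Real.exp (4 / 3 * ∑ j, v j - ∑ j, Real.exp (u j) - 2 * ∑ j, (v j - u j)) : ℂ)

theorem J_eq (κ : ℝ) (η : F × F → ℂ) (v' v : Pl F → ℝ) : J κ η v' v = ∫ u, Jin κ η v' v u := by
  rw [J, ← integral_sub_left_eq_self _ volume v]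
  refine integral_congr_ae (Eventually.of_forall fun u => ?_)
  simp only [Jin, Pi.sub_apply, sub_sub_cancel]

theorem Jin_eq (κ : ℝ) (η : F × F → ℂ) (v' v u : Pl F → ℝ) : Jin κ η v' v u =
    E0 η v' (v - u) *
      (Real.exp (4 / 3 * ∑ j, v j - ∑ j, Real.exp (u j) - 2 * ∑ j, (v j - u j)) : ℂ) +
    (κ : ℂ) * (Sk (mf η 0) k0 (v' + (v - u)) * (gam (4 / 3) u : ℂ)) := by
  have e : Real.exp (2 / 3 * ∑ j, (v - u) j) *
      Real.exp (4 / 3 * ∑ j, v j - ∑ j, Real.exp (u j) - 2 * ∑ j, (v j - u j)) =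
      gam (4 / 3) u := by
    rw [gam, ← Real.exp_add]
    congr 1
    simp only [Pi.sub_apply, Finset.sum_sub_distrib]
    ring
  rw [Jin, Acoef, if_pos rfl, Sk_Fk_zero, ← e]
  push_cast
  ring

theorem Jin_E0_le {η : F × F → ℂ} {C : ℝ}
    (hC : ∀ v l : Pl F → ℝ, ‖E0 η v l‖ ≤ C * Real.exp ((∑ j, v j) / 3 + ∑ j, l j))
    (v' v u : Pl F → ℝ) :
    ‖E0 η v' (v - u) *
      (Real.exp (4 / 3 * ∑ j, v j - ∑ j, Real.exp (u j) - 2 * ∑ j, (v j - u j)) : ℂ)‖ ≤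
      C * (Real.exp ((∑ j, v' j) / 3) * Real.exp ((∑ j, v j) / 3)) * gam 1 u := by
  rw [norm_mul, Complex.norm_real, Real.norm_of_nonneg (Real.exp_pos _).le]
  refine (mul_le_mul_of_nonneg_right (hC _ _) (Real.exp_pos _).le).trans (le_of_eq ?_)
  rw [gam, mul_assoc, mul_assoc, ← Real.exp_add, ← Real.exp_add, ← Real.exp_add]
  congr 2
  simp only [Pi.sub_apply, Finset.sum_sub_distrib]
  ring

theorem Jin_le {κ : ℝ} (hκ : 0 < κ) {η : F × F → ℂ} {C C' : ℝ} (hC0 : 0 ≤ C)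
    (hC : ∀ v l : Pl F → ℝ, ‖E0 η v l‖ ≤ C * Real.exp ((∑ j, v j) / 3 + ∑ j, l j))
    (hC' : ∀ v, ‖Sk (mf η 0) k0 v‖ ≤ C') {v' v : Pl F → ℝ} (hv' : ∑ j, v' j ≤ 0)
    (hv : ∑ j, v j ≤ 0) (u : Pl F → ℝ) :
    ‖Jin κ η v' v u‖ ≤ C * gam 1 u + κ * (C' * gam (4 / 3) u) := by
  rw [Jin_eq]
  refine (norm_add_le _ _).trans (add_le_add ((Jin_E0_le hC v' v u).trans ?_) ?_)
  · refine mul_le_mul_of_nonneg_right (mul_le_of_le_one_right hC0 ?_) (gam_pos _ _).le
    rw [← Real.exp_add, Real.exp_le_one_iff]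
    linarith
  · rw [norm_mul, norm_mul, Complex.norm_real, Complex.norm_real, Real.norm_of_nonneg hκ.le,
      Real.norm_of_nonneg (gam_pos _ _).le]
    exact mul_le_mul_of_nonneg_left (mul_le_mul_of_nonneg_right (hC' _) (gam_pos _ _).le) hκ.le

theorem integrable_dom (κ C C' : ℝ) :
    Integrable fun u : Pl F → ℝ => C * gam 1 u + κ * (C' * gam (4 / 3) u) :=
  ((integrable_gamV le_rfl (by norm_num)).const_mul C).add
    (((integrable_gamV (by norm_num) (by norm_num)).const_mul C').const_mul κ)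

theorem J_bound (hL : LatStmt F) {κ : ℝ} (hκ : 0 < κ) {η : F × F → ℂ} (hη : Adm η) {t : ℂ}
    (ht : WDk (mf η 0) k0 t) : ∃ D : ℝ, ∀ v' v : Pl F → ℝ, ∑ j, v' j ≤ 0 → ∑ j, v j ≤ 0 →
      ‖J κ η v' v‖ ≤ D := by
  obtain ⟨C, hC0, hC⟩ := norm_E0_le hL hη
  obtain ⟨C', hC'⟩ := ht.1
  refine ⟨∫ u : Pl F → ℝ, (C * gam 1 u + κ * (C' * gam (4 / 3) u)), fun v' v hv' hv => ?_⟩
  rw [J_eq]
  exact norm_integral_le_of_norm_le (integrable_dom κ C C')
    (Eventually.of_forall fun u => Jin_le hκ hC0 hC hC' hv' hv u)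

theorem J_tendsto (hL : LatStmt F) {κ : ℝ} (hκ : 0 < κ) {η : F × F → ℂ} (hη : Adm η) {t : ℂ}
    (ht : WDk (mf η 0) k0 t) (hm : ∀ v, Measurable (Acoef κ η v 0)) (w' w : Pl F → ℝ) :
    Tendsto (fun p : ℝ × ℝ => J κ η (ray w' p.1) (ray w p.2)) (atTop ×ˢ atTop)
      (𝓝 (t * ((κ : ℂ) * (Mo (k0 : (Pl F → ℝ) → ℝ) : ℂ) *
        ∫ u : Pl F → ℝ, (gam (4 / 3) u : ℂ)))) := by
  obtain ⟨C, hC0, hC⟩ := norm_E0_le hL hη
  obtain ⟨C', hC'⟩ := ht.1
  simp only [J_eq]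
  rw [← integral_const_mul, ← integral_const_mul]
  refine tendsto_integral_filter_of_dominated_convergence
    (fun u => C * gam 1 u + κ * (C' * gam (4 / 3) u)) (Eventually.of_forall fun p => ?_) ?_
    (integrable_dom κ C C') (Eventually.of_forall fun u => ?_)
  · refine Measurable.aestronglyMeasurable ?_
    unfold Jin
    refine Measurable.mul ((hm _).comp (measurable_const.sub measurable_id))
      (Complex.measurable_ofReal.comp ?_)
    fun_prop
  · filter_upwards [prod_mem_prod (eventually_ray w') (eventually_ray w)] with p hp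
    exact Eventually.of_forall fun u => Jin_le hκ hC0 hC hC' hp.1 hp.2 u
  · simp only [Jin_eq]
    rw [← zero_add (t * _)]
    refine Tendsto.add ?_ ?_
    · refine squeeze_zero_norm (fun p => Jin_E0_le hC _ _ u) ?_
      have := ((((tendsto_exp_ray w').comp tendsto_fst).mul
        ((tendsto_exp_ray w).comp (tendsto_snd (f := atTop)))).const_mul C).mul_const (gam 1 u)
      simpa using this
    · have e : ∀ p : ℝ × ℝ, ray w' p.1 + (ray w p.2 - u) = ray (w' + (w - u)) (p.1 + p.2) := by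
        intro p
        funext j
        simp only [ray, Pi.add_apply, Pi.sub_apply]
        ring
      simp only [e]
      have h1 : Tendsto (fun p : ℝ × ℝ => p.1 + p.2) (atTop ×ˢ atTop) atTop :=
        tendsto_fst.atTop_add_atTop tendsto_snd
      have h2 := (((ht.2 (w' + (w - u))).comp h1).mul_const (gam (4 / 3) u : ℂ)).const_mul (κ : ℂ)
      rw [show t * ((κ : ℂ) * (Mo (k0 : (Pl F → ℝ) → ℝ) : ℂ) * (gam (4 / 3) u : ℂ)) =
        κ * (t * (Mo (k0 : (Pl F → ℝ) → ℝ) : ℂ) * (gam (4 / 3) u : ℂ)) by ring]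
      exact h2

/-! ## the norm formula -/

/-- The leaves used in the construction of the theta function. -/
structure Hyp (F : Type) [Field F] [NumberField F] [Emb F] (κ : ℝ) : Prop where
  L : LatStmt F
  R : RowStmt F
  D : DensStmt F
  G : GeomStmt F
  U : UnfoldStmt F
  B : BoxStmt F
  pos : 0 < κ
  four : ∀ ξ : F × F → ℂ, Adm ξ → ∃ N : ℕ, N ≠ 0 ∧
    ∀ v : Pl F → ℝ, HasExp N (thY ξ v) (Acoef κ ξ v)

variable {κ : ℝ} {ξ : F × F → ℂ}

theorem det_ne (γ : SL F) : (γ : Mat F).det ≠ 0 := by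
  rw [γ.det_coe]; exact one_ne_zero

theorem Hyp.adm_tr (H : Hyp F κ) (hξ : Adm ξ) (γ : SL F) : Adm (tr ξ (γ : Mat F)) :=
  H.R.adm_tr ξ _ hξ (det_ne γ)

theorem Hyp.good_tr (H : Hyp F κ) (hξ : Good ξ) (γ : SL F) : Good (tr ξ (γ : Mat F)) := by
  refine ⟨H.adm_tr hξ.1 γ, fun γ' => ?_⟩
  rw [← tr_mul, ← Matrix.SpecialLinearGroup.coe_mul]
  exact hξ.2 _

theorem Hyp.thY_inv (H : Hyp F κ) (ξ : F × F → ℂ) (γ : SL F) (v : Pl F → ℝ) (w : HH F) :
    thY ξ v (γ⁻¹ • w) = thY (tr ξ (γ : Mat F)) v w := by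
  rw [← H.G.aut ξ γ, smul_inv_smul]

theorem Hyp.thY_del (H : Hyp F κ) {δ : SL F} (hδ : δ ∈ Del ξ) (v : Pl F → ℝ) (w : HH F) :
    thY ξ v (δ • w) = thY ξ v w := by
  have h : tr ξ (δ : Mat F) = ξ := hδ.1
  rw [← H.G.aut ξ δ v w, h]

theorem Hyp.meas_thY (H : Hyp F κ) (hξ : Adm ξ) (v : Pl F → ℝ) : Measurable (thY ξ v) :=
  (H.G.thY_cont ξ v hξ).measurable

theorem Hyp.meas_A (H : Hyp F κ) (hξ : Adm ξ) (v : Pl F → ℝ) (r : F) :
    Measurable (Acoef κ ξ v r) := by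
  obtain ⟨N, -, h⟩ := H.four ξ hξ
  exact (h v).1 r

theorem Hyp.bddL (H : Hyp F κ) (hξ : Adm ξ) (r : F) : BddL (mf ξ r) := by
  obtain ⟨M, B, hM, h⟩ := H.R.bddL ξ hξ
  exact ⟨M, B, hM, (h r).1, fun c hc => ⟨((h r).2 c hc).1, ((h r).2 c hc).2.1⟩⟩

theorem Hyp.tau_eq (H : Hyp F κ) (hξ : Adm ξ) {r : F} {t : ℂ} (ht : WD (mf ξ r) t) :
    tau ξ r = t :=
  H.D.unique _ _ _ (H.bddL hξ r) (Classical.epsilon_spec ⟨t, ht⟩) ht

/-- The inner product of two incomplete Eisenstein series. -/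
def Pin (ξ : F × F → ℂ) (v' v : Pl F → ℝ) : ℂ :=
  ∫ w, (wOf (Del ξ) w : ℂ) * (thY ξ v' w * conj (thY ξ v w)) ∂μHH F

theorem Hyp.pairing (H : Hyp F κ) (hξ : Adm ξ) : ∃ (I : Finset (SL F)) (a : SL F → ℂ),
    ∀ v' v : Pl F → ℝ,
      Integrable (fun w => (wOf (Del ξ) w : ℂ) * (thY ξ v' w * conj (thY ξ v w))) (μHH F) ∧
      Pin ξ v' v = ∑ γ ∈ I, a γ * J κ (tr ξ (γ : Mat F)) v' v := by
  obtain ⟨I, a, h⟩ := H.U ξ hξ
  choose N hN0 hN using fun γ : SL F => H.four _ (H.adm_tr hξ γ)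
  refine ⟨I, a, fun v' v => ?_⟩
  choose C hC using fun γ : SL F => H.G.thY_le _ v' (H.adm_tr hξ γ)
  obtain ⟨h1, -, h3⟩ := h (thY ξ v') (∏ γ ∈ I, N γ) (fun γ => Acoef κ (tr ξ (γ : Mat F)) v')
    (∑ γ ∈ I, |C γ|) (Finset.prod_ne_zero_iff.2 fun γ _ => hN0 γ) (H.meas_thY hξ v')
    (fun δ hδ w => H.thY_del hδ v' w)
    (fun γ hγ => by
      simp only [H.thY_inv]
      exact hasExp_mono (Finset.dvd_prod_of_mem N hγ) (hN γ v'))
    (fun γ hγ w => by
      rw [H.thY_inv]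
      refine (hC γ w).trans (mul_le_mul_of_nonneg_right ((le_abs_self _).trans
        (Finset.single_le_sum (f := fun γ => |C γ|) (fun _ _ => abs_nonneg _) hγ)) ?_)
      exact Finset.prod_nonneg fun _ _ => by positivity) v
  exact ⟨h1, h3⟩

theorem Hyp.wOf_nonneg (H : Hyp F κ) (ξ : F × F → ℂ) (w : HH F) : 0 ≤ wOf (Del ξ) w :=
  (H.G.wt (Del ξ) inf_le_right).nonneg w

theorem Hyp.N2_eq (H : Hyp F κ) (hξ : Adm ξ) (v : Pl F → ℝ) :
    N2 (Del ξ) (thY ξ v) = ENNReal.ofReal ‖Pin ξ v v‖ := by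
  obtain ⟨I, a, h⟩ := H.pairing hξ
  exact lint_eq_norm (H.wOf_nonneg ξ) (h v v).1

theorem Hyp.N2_sub_eq (H : Hyp F κ) (hξ : Adm ξ) (v v' : Pl F → ℝ) :
    N2 (Del ξ) (fun w => thY ξ v w - thY ξ v' w) =
      ENNReal.ofReal ‖(Pin ξ v v - Pin ξ v v') - (Pin ξ v' v - Pin ξ v' v')‖ := by
  obtain ⟨I, a, h⟩ := H.pairing hξ
  have i1 := (h v v).1
  have i2 := (h v v').1
  have i3 := (h v' v).1
  have i4 := (h v' v').1
  have e : ∀ w, (wOf (Del ξ) w : ℂ) * ((thY ξ v w - thY ξ v' w) * conj (thY ξ v w - thY ξ v' w)) =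
      ((wOf (Del ξ) w : ℂ) * (thY ξ v w * conj (thY ξ v w)) -
        (wOf (Del ξ) w : ℂ) * (thY ξ v w * conj (thY ξ v' w))) -
      ((wOf (Del ξ) w : ℂ) * (thY ξ v' w * conj (thY ξ v w)) -
        (wOf (Del ξ) w : ℂ) * (thY ξ v' w * conj (thY ξ v' w))) := by
    intro w
    simp only [map_sub]
    ring
  have i5 : Integrable (fun w => (wOf (Del ξ) w : ℂ) *
      ((thY ξ v w - thY ξ v' w) * conj (thY ξ v w - thY ξ v' w))) (μHH F) := by
    simp only [e]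
    exact (i1.sub i2).sub (i3.sub i4)
  rw [N2, lint_eq_norm (H.wOf_nonneg ξ) i5]
  simp only [e]
  have j := integral_sub (i1.sub i2) (i3.sub i4)
  simp only [Pi.sub_apply] at j
  rw [j, integral_sub i1 i2, integral_sub i3 i4]
  rfl

theorem Hyp.N2_bound (H : Hyp F κ) (hξ : Good ξ) : ∃ D : ℝ, ∀ v : Pl F → ℝ, ∑ j, v j ≤ 0 →
    N2 (Del ξ) (thY ξ v) ≤ ENNReal.ofReal D := by
  obtain ⟨I, a, h⟩ := H.pairing hξ.1
  choose t ht using hξ.2
  choose D hD using fun γ : SL F => J_bound H.L H.pos (H.adm_tr hξ.1 γ) (ht γ)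
  refine ⟨∑ γ ∈ I, ‖a γ‖ * D γ, fun v hv => ?_⟩
  rw [H.N2_eq hξ.1, (h v v).2]
  refine ENNReal.ofReal_le_ofReal ((norm_sum_le _ _).trans (Finset.sum_le_sum fun γ _ => ?_))
  rw [norm_mul]
  exact mul_le_mul_of_nonneg_left (hD γ v v hv hv) (norm_nonneg _)

theorem Hyp.Pin_tendsto (H : Hyp F κ) (hξ : Good ξ) : ∃ L : ℂ,
    ((∀ γ : SL F, tau (tr ξ (γ : Mat F)) 0 = 0) → L = 0) ∧ ∀ w' w : Pl F → ℝ,
      Tendsto (fun p : ℝ × ℝ => Pin ξ (ray w' p.1) (ray w p.2)) (atTop ×ˢ atTop) (𝓝 L) := by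
  obtain ⟨I, a, h⟩ := H.pairing hξ.1
  choose t ht using hξ.2
  refine ⟨∑ γ ∈ I, a γ * (t γ * ((κ : ℂ) * (Mo (k0 : (Pl F → ℝ) → ℝ) : ℂ) *
    ∫ u : Pl F → ℝ, (gam (4 / 3) u : ℂ))), fun h0 => ?_, fun w' w => ?_⟩
  · refine Finset.sum_eq_zero fun γ _ => ?_
    rw [← H.tau_eq (H.adm_tr hξ.1 γ) ⟨k0, H.D.kc0, ht γ⟩, h0, zero_mul, mul_zero]
  · simp only [fun v' v => (h v' v).2]
    exact tendsto_finsetSum _ fun γ _ => (J_tendsto H.L H.pos (H.adm_tr hξ.1 γ) (ht γ)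
      (fun v => H.meas_A (H.adm_tr hξ.1 γ) v 0) w' w).const_mul _

theorem Hyp.N2_cauchy (H : Hyp F κ) (hξ : Good ξ) (w w' : Pl F → ℝ) :
    Tendsto (fun p : ℝ × ℝ => N2 (Del ξ) fun x => thY ξ (ray w p.1) x - thY ξ (ray w' p.2) x)
      (atTop ×ˢ atTop) (𝓝 0) := by
  obtain ⟨L, -, h⟩ := H.Pin_tendsto hξ
  simp only [H.N2_sub_eq hξ.1]
  have a1 := (h w w).comp ((tendsto_fst (f := atTop) (g := (atTop : Filter ℝ))).prodMk tendsto_fst)
  have a2 := h w w'
  have a3 := (h w' w).comp ((tendsto_snd (f := (atTop : Filter ℝ)) (g := atTop)).prodMk tendsto_fst)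
  have a4 := (h w' w').comp ((tendsto_snd (f := (atTop : Filter ℝ)) (g := atTop)).prodMk tendsto_snd)
  have := ENNReal.tendsto_ofReal ((a1.sub a2).sub (a3.sub a4)).norm
  simpa using this

theorem Hyp.N2_zero (H : Hyp F κ) (hξ : Good ξ) (h0 : ∀ γ : SL F, tau (tr ξ (γ : Mat F)) 0 = 0)
    (w : Pl F → ℝ) : Tendsto (fun s : ℝ => N2 (Del ξ) (thY ξ (ray w s))) atTop (𝓝 0) := by
  obtain ⟨L, hL, h⟩ := H.Pin_tendsto hξ
  simp only [H.N2_eq hξ.1]
  have a1 := (h w w).comp ((tendsto_id (x := (atTop : Filter ℝ))).prodMk tendsto_id)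
  have := ENNReal.tendsto_ofReal a1.norm
  simpa [hL h0] using this

end Crest.Agent.T27.TH.A5
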