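import Crest.Agent.T27.ThAll0_54
import Crest.Agent.T27.ThG2_80
import Crest.Agent.T27.ThC_50
import Crest.Agent.T27.ThOp_83

/-!
# Row 27, theta function: all statements, unconditionally
-/

set_option autoImplicit false

namespace Crest.Agent.T27.TH

variable (F : Type) [Field F] [NumberField F] [Emb F]

theorem allA_54 : AllA F := allA_of_geom F (geomStmt_80 F)

theorem allB_54 [Ar F] : AllB F :=
  allB_of F (allA_54 F) (opStmt_83 F (allA_54 F).row)
    fun hO hI hC => hecke_50 F hO hI hC (allA_54 F).tau (allA_54 F).theta

end Crest.Agent.T27.TH
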