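import Crest.Agent.T27.ThAr_83

/-!
# Row 27, theta module B1: the virtual operators preserve test functions; `ξ_f (u g)`
-/

set_option autoImplicit false

noncomputable section

namespace Crest.Agent.T27.B83

open scoped BigOperators ComplexConjugate

/-! ## the character `e3` -/

@[simp] theorem e3_zero : e3 0 = 1 := AddChar.map_zero_eq_one _

theorem e3_add (k l : ZMod 3) : e3 (k + l) = e3 k * e3 l := AddChar.map_add_eq_mul _ _ _

@[simp] theorem norm_e3 (k : ZMod 3) : ‖e3 k‖ = 1 := by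
  rw [e3, ZMod.stdAddChar_apply, Circle.norm_coe]

theorem e3_ne_zero (k : ZMod 3) : e3 k ≠ 0 := by
  rw [← norm_ne_zero_iff, norm_e3]; exact one_ne_zero

theorem e3_neg_mul (k : ZMod 3) : e3 (-k) * e3 k = 1 := by
  rw [← e3_add, neg_add_cancel, e3_zero]

theorem e3_neg (k : ZMod 3) : e3 (-k) = conj (e3 k) := by
  apply mul_right_cancel₀ (e3_ne_zero k)
  rw [e3_neg_mul, Complex.conj_mul', norm_e3]; norm_num

theorem e3_injective : Function.Injective e3 := ZMod.injective_stdAddChar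

theorem e3_cube (k : ZMod 3) : e3 k ^ 3 = 1 := by
  rw [pow_succ, pow_two, ← e3_add, ← e3_add,
    show k + k + k = 0 by linear_combination k * three_eq, e3_zero]

theorem mul_e3_e3 (z : ℂ) {k l m : ZMod 3} (h : k + l = m) : z * e3 k * e3 l = z * e3 m := by
  rw [mul_assoc, ← e3_add, h]

namespace Ar

variable {F : Type*} [Field F] {A : Ar F}

/-! ## lattices and principal units -/

theorem Np_ne (A : Ar F) (j : ℕ) : A.N ^ j ≠ 0 := pow_ne_zero _ A.N_ne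

theorem Np_L (A : Ar F) (j : ℕ) : A.N ^ j ∈ A.L := A.L.pow_mem A.N_L j

theorem mem_lat' {m x : F} (hm : m ≠ 0) : x ∈ A.lat m ↔ ∃ y ∈ A.L, x = m * y := by
  rw [mem_lat]
  constructor
  · intro h; exact ⟨_, h, by field_simp⟩
  · rintro ⟨y, hy, rfl⟩; rwa [inv_mul_cancel_left₀ hm]

theorem mem_latN {j : ℕ} {x : F} : x ∈ A.lat (A.N ^ j) ↔ ∃ y ∈ A.L, x = A.N ^ j * y :=
  mem_lat' (A.Np_ne j)

theorem lat_mul_L {m x y : F} (hx : x ∈ A.lat m) (hy : y ∈ A.L) : x * y ∈ A.lat m := by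
  rw [mem_lat, ← mul_assoc]; exact A.L.mul_mem hx hy

theorem lat_L_mul {m x y : F} (hy : y ∈ A.L) (hx : x ∈ A.lat m) : y * x ∈ A.lat m := by
  rw [mul_comm]; exact lat_mul_L hx hy

theorem latN_mono {j k : ℕ} (h : j ≤ k) {x : F} (hx : x ∈ A.lat (A.N ^ k)) :
    x ∈ A.lat (A.N ^ j) := by
  obtain ⟨i, rfl⟩ := Nat.exists_eq_add_of_le h
  obtain ⟨y, hy, rfl⟩ := mem_latN.1 hx
  exact mem_latN.2 ⟨A.N ^ i * y, A.L.mul_mem (A.Np_L i) hy, by ring⟩

theorem latN_L {j : ℕ} {x : F} (hx : x ∈ A.lat (A.N ^ j)) : x ∈ A.L := by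
  obtain ⟨y, hy, rfl⟩ := mem_latN.1 hx
  exact A.L.mul_mem (A.Np_L j) hy

theorem Np_mem_lat (A : Ar F) (j : ℕ) : A.N ^ j ∈ A.lat (A.N ^ j) :=
  mem_latN.2 ⟨1, A.L.one_mem, (mul_one _).symm⟩

/-- deep times bounded -/
theorem latN_mul_bd {j k : ℕ} {x y : F} (hx : x ∈ A.lat (A.N ^ (j + k)))
    (hy : A.N ^ k * y ∈ A.L) : x * y ∈ A.lat (A.N ^ j) := by
  obtain ⟨z, hz, rfl⟩ := mem_latN.1 hx
  exact mem_latN.2 ⟨z * (A.N ^ k * y), A.L.mul_mem hz hy, by ring⟩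

theorem bd_mul_latN {j k : ℕ} {x y : F} (hy : A.N ^ k * y ∈ A.L)
    (hx : x ∈ A.lat (A.N ^ (j + k))) : y * x ∈ A.lat (A.N ^ j) := by
  rw [mul_comm]; exact latN_mul_bd hx hy

theorem bd_mono {j k : ℕ} (h : j ≤ k) {x : F} (hx : A.N ^ j * x ∈ A.L) : A.N ^ k * x ∈ A.L := by
  obtain ⟨i, rfl⟩ := Nat.exists_eq_add_of_le h
  rw [pow_add, mul_comm (A.N ^ j), mul_assoc]
  exact A.L.mul_mem (A.Np_L i) hx

theorem bd_mul {j k : ℕ} {x y : F} (hx : A.N ^ j * x ∈ A.L) (hy : A.N ^ k * y ∈ A.L) :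
    A.N ^ (j + k) * (x * y) ∈ A.L := by
  have := A.L.mul_mem hx hy
  convert this using 1; ring

theorem bd_mul_L {j : ℕ} {x y : F} (hx : A.N ^ j * x ∈ A.L) (hy : y ∈ A.L) :
    A.N ^ j * (x * y) ∈ A.L := by
  rw [← mul_assoc]; exact A.L.mul_mem hx hy

theorem bd_add {j : ℕ} {x y : F} (hx : A.N ^ j * x ∈ A.L) (hy : A.N ^ j * y ∈ A.L) :
    A.N ^ j * (x + y) ∈ A.L := by
  rw [mul_add]; exact A.L.add_mem hx hy

theorem bd_sub {j : ℕ} {x y : F} (hx : A.N ^ j * x ∈ A.L) (hy : A.N ^ j * y ∈ A.L) :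
    A.N ^ j * (x - y) ∈ A.L := by
  rw [mul_sub]; exact A.L.sub_mem hx hy

theorem bd_of_L (j : ℕ) {x : F} (hx : x ∈ A.L) : A.N ^ j * x ∈ A.L := A.L.mul_mem (A.Np_L j) hx

/-- A common bound for `x` and `x⁻¹`. -/
theorem exists_bd2 (A : Ar F) (x y : F) : ∃ m : ℕ, A.N ^ m * x ∈ A.L ∧ A.N ^ m * y ∈ A.L := by
  obtain ⟨m, hm⟩ := A.bdd x
  obtain ⟨n, hn⟩ := A.bdd y
  exact ⟨max m n, bd_mono (le_max_left _ _) hm, bd_mono (le_max_right _ _) hn⟩

theorem P.mono {j k : ℕ} (h : j ≤ k) {x : F} (hx : A.P k x) : A.P j x := latN_mono h hx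

theorem P_one (A : Ar F) (j : ℕ) : A.P j 1 := by
  rw [P, sub_self]; exact zero_mem _

theorem P.mem {j : ℕ} {x : F} (hx : A.P j x) : x ∈ A.L := by
  have := A.L.add_mem (latN_L hx) A.L.one_mem
  rwa [sub_add_cancel] at this

theorem P.exists_eq {j : ℕ} (hj : 1 ≤ j) {x : F} (hx : A.P j x) : ∃ y ∈ A.L, x = 1 + A.N * y := by
  obtain ⟨y, hy, e⟩ := mem_latN.1 (hx.mono hj)
  exact ⟨y, hy, by rw [pow_one] at e; linear_combination e⟩

theorem P.ne_zero {j : ℕ} (hj : 1 ≤ j) {x : F} (hx : A.P j x) : x ≠ 0 := by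
  obtain ⟨y, hy, rfl⟩ := hx.exists_eq hj
  exact A.P_ne y hy

theorem P.inv_mem {j : ℕ} (hj : 1 ≤ j) {x : F} (hx : A.P j x) : x⁻¹ ∈ A.L := by
  obtain ⟨y, hy, rfl⟩ := hx.exists_eq hj
  exact A.P_inv y hy

theorem P.mul {j : ℕ} {x y : F} (hx : A.P j x) (hy : A.P j y) : A.P j (x * y) := by
  have : x * y - 1 = (x - 1) * y + (y - 1) := by ring
  rw [P, this]
  exact add_mem (lat_mul_L hx hy.mem) hy

theorem P.pow {j : ℕ} {x : F} (hx : A.P j x) (n : ℕ) : A.P j (x ^ n) := by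
  induction n with
  | zero => rw [pow_zero]; exact A.P_one j
  | succ n ih => rw [pow_succ]; exact ih.mul hx

theorem P.inv {j : ℕ} (hj : 1 ≤ j) {x : F} (hx : A.P j x) : A.P j x⁻¹ := by
  have h0 := hx.ne_zero hj
  have : x⁻¹ - 1 = -((x - 1) * x⁻¹) := by field_simp; ring
  rw [P, this]
  exact neg_mem (lat_mul_L hx (hx.inv_mem hj))

theorem P.c_left {j : ℕ} (hj : 1 ≤ j) {x : F} (hx : A.P j x) (y : F) : A.B.c x y = 0 := by
  obtain ⟨z, hz, rfl⟩ := hx.exists_eq hj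
  exact A.c_P z hz y

theorem P.c_right {j : ℕ} (hj : 1 ≤ j) {x : F} (hx : A.P j x) (y : F) : A.B.c y x = 0 := by
  rw [A.B.swap, hx.c_left hj, neg_zero]

theorem P.c_mul_left {j : ℕ} (hj : 1 ≤ j) {t : F} (ht : A.P j t) (x y : F) :
    A.B.c (t * x) y = A.B.c x y := by
  rcases eq_or_ne x 0 with rfl | hx
  · rw [mul_zero]
  rw [A.B.mul_left _ (ht.ne_zero hj) hx, ht.c_left hj, zero_add]

theorem P.c_mul_right {j : ℕ} (hj : 1 ≤ j) {t : F} (ht : A.P j t) (x y : F) :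
    A.B.c x (t * y) = A.B.c x y := by
  rw [A.B.swap, ht.c_mul_left hj, ← A.B.swap]

theorem P_one_sub {j : ℕ} {z : F} (hz : z ∈ A.lat (A.N ^ j)) : A.P j (1 - z) := by
  rw [P, sub_sub_cancel_left]; exact neg_mem hz

theorem P_one_add {j : ℕ} {z : F} (hz : z ∈ A.lat (A.N ^ j)) : A.P j (1 + z) := by
  rw [P, add_sub_cancel_left]; exact hz

/-! ## the support condition -/

variable (A) in
/-- The support condition of test functions of level `j`. -/
def Sup (j : ℕ) (c d : F) : Prop :=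
  A.N ^ j * c ∈ A.L ∧ A.N ^ j * d ∈ A.L ∧ ∃ p ∈ A.L, ∃ q ∈ A.L, c * p + d * q = A.N ^ j

theorem Sup.mono {j k : ℕ} (h : j ≤ k) {c d : F} (hs : A.Sup j c d) : A.Sup k c d := by
  obtain ⟨h1, h2, p, hp, q, hq, e⟩ := hs
  refine ⟨bd_mono h h1, bd_mono h h2, ?_⟩
  obtain ⟨i, rfl⟩ := Nat.exists_eq_add_of_le h
  exact ⟨_, bd_of_L i hp, _, bd_of_L i hq, by rw [pow_add, ← e]; ring⟩

theorem Sup.symm {j : ℕ} {c d : F} (hs : A.Sup j c d) : A.Sup j d c := by
  obtain ⟨h1, h2, p, hp, q, hq, e⟩ := hs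
  exact ⟨h2, h1, q, hq, p, hp, by rw [← e]; ring⟩

theorem Sup.neg_right {j : ℕ} {c d : F} (hs : A.Sup j c d) : A.Sup j c (-d) := by
  obtain ⟨h1, h2, p, hp, q, hq, e⟩ := hs
  exact ⟨h1, by rw [mul_neg]; exact neg_mem h2, p, hp, -q, neg_mem hq, by rw [← e]; ring⟩

theorem Sup.ne_zero {j : ℕ} {d : F} (hs : A.Sup j 0 d) : d ≠ 0 := by
  rintro rfl
  obtain ⟨-, -, p, -, q, -, e⟩ := hs
  exact A.Np_ne j (by rw [← e]; ring)

/-- A row close to a row of the support. -/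
theorem Sup.close {j k : ℕ} (hk : 1 ≤ k) {c d c' : F} (hs : A.Sup j c d)
    (hc : c' - c ∈ A.lat (A.N ^ (j + k))) :
    ∃ t y, A.P k t ∧ y ∈ A.lat (A.N ^ k) ∧ c' = t * (c + d * y) := by
  obtain ⟨-, -, p, hp, q, hq, e⟩ := hs
  obtain ⟨w, hw, ew⟩ := mem_latN.1 hc
  have ht : A.P k (1 + A.N ^ k * (p * w)) := P_one_add (mem_latN.2 ⟨_, A.L.mul_mem hp hw, rfl⟩)
  have h0 := ht.ne_zero hk
  refine ⟨_, A.N ^ k * (q * w * (1 + A.N ^ k * (p * w))⁻¹), ht,
    mem_latN.2 ⟨_, A.L.mul_mem (A.L.mul_mem hq hw) (ht.inv_mem hk), rfl⟩, ?_⟩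
  rw [pow_add, ← e] at ew
  have h1 := mul_inv_cancel₀ h0
  linear_combination ew - d * A.N ^ k * q * w * h1

theorem Test.sup {j : ℕ} {f : F → F → ℂ} (hf : A.Test j f) {c d : F} (h : f c d ≠ 0) :
    A.Sup j c d := hf.supp c d h

theorem Test.mono {j k : ℕ} (h : j ≤ k) {f : F → F → ℂ} (hf : A.Test j f) : A.Test k f :=
  ⟨hf.bdd, fun _ _ h0 => (hf.sup h0).mono h,
    fun c d c' d' h1 h2 => hf.loc c d c' d' (latN_mono h h1) (latN_mono h h2)⟩

theorem Test.zero_zero {j : ℕ} {f : F → F → ℂ} (hf : A.Test j f) : f 0 0 = 0 := by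
  by_contra h
  exact (hf.sup h).ne_zero rfl

/-- Periodicity in the second variable. -/
theorem Test.per {j : ℕ} {f : F → F → ℂ} (hf : A.Test j f) (c : F) {d d' : F}
    (h : d' - d ∈ A.lat (A.N ^ j)) : f c d' = f c d := by
  rw [hf.loc c d c d' (by rw [sub_self]; exact zero_mem _) h, sub_self, e3_zero, mul_one]

theorem test_zero (A : Ar F) (j : ℕ) : A.Test j fun _ _ => 0 :=
  ⟨⟨0, fun _ _ => by simp⟩, fun _ _ h => absurd rfl h, fun _ _ _ _ _ _ => by simp⟩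

theorem Test.smul {j : ℕ} {f : F → F → ℂ} (hf : A.Test j f) (a : ℂ) :
    A.Test j fun c d => a * f c d := by
  obtain ⟨C, hC⟩ := hf.bdd
  refine ⟨⟨‖a‖ * C, fun c d => ?_⟩, fun c d h => hf.sup (right_ne_zero_of_mul h), ?_⟩
  · rw [norm_mul]; exact mul_le_mul_of_nonneg_left (hC c d) (norm_nonneg _)
  · intro c d c' d' h1 h2
    rw [hf.loc c d c' d' h1 h2, mul_assoc]

theorem Test.add {j : ℕ} {f g : F → F → ℂ} (hf : A.Test j f) (hg : A.Test j g) :
    A.Test j fun c d => f c d + g c d := by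
  obtain ⟨C, hC⟩ := hf.bdd
  obtain ⟨D, hD⟩ := hg.bdd
  refine ⟨⟨C + D, fun c d => (norm_add_le _ _).trans (add_le_add (hC c d) (hD c d))⟩, ?_, ?_⟩
  · intro c d h
    by_cases h0 : f c d = 0
    · rw [h0, zero_add] at h; exact hg.sup h
    · exact hf.sup h0
  · intro c d c' d' h1 h2
    rw [hf.loc c d c' d' h1 h2, hg.loc c d c' d' h1 h2, add_mul]

theorem IsTest.smul {f : F → F → ℂ} (hf : A.IsTest f) (a : ℂ) : A.IsTest fun c d => a * f c d :=
  hf.imp fun _ h => h.smul a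

theorem IsTest.add {f g : F → F → ℂ} (hf : A.IsTest f) (hg : A.IsTest g) :
    A.IsTest fun c d => f c d + g c d := by
  obtain ⟨j, hj⟩ := hf
  obtain ⟨k, hk⟩ := hg
  exact ⟨max j k, (hj.mono (le_max_left _ _)).add (hk.mono (le_max_right _ _))⟩

theorem isTest_sum {ι : Type*} (s : Finset ι) {f : ι → F → F → ℂ} (hf : ∀ i ∈ s, A.IsTest (f i)) :
    A.IsTest fun c d => ∑ i ∈ s, f i c d := by
  classical
  induction s using Finset.induction_on with
  | empty => exact ⟨0, by simpa using A.test_zero 0⟩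
  | insert i s hi ih =>
    simp only [Finset.sum_insert hi]
    exact (hf i (Finset.mem_insert_self _ _)).add
      (ih fun k hk => hf k (Finset.mem_insert_of_mem hk))

/-- The basic test function `1[c ∈ N^j L, d ∈ P_j]`. -/
theorem test_basic {j : ℕ} (hj : 1 ≤ j) [DecidablePred fun u : F × F =>
    u.1 ∈ A.lat (A.N ^ j) ∧ A.P j u.2] :
    A.Test j fun c d => if (fun u : F × F => u.1 ∈ A.lat (A.N ^ j) ∧ A.P j u.2) (c, d)
      then 1 else 0 := by
  refine ⟨⟨1, fun c d => ?_⟩, fun c d h => ?_, fun c d c' d' h1 h2 => ?_⟩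
  · split_ifs <;> simp
  · have h' : c ∈ A.lat (A.N ^ j) ∧ A.P j d := by
      by_contra h0; exact h (if_neg h0)
    refine ⟨bd_of_L j (latN_L h'.1), bd_of_L j h'.2.mem, 0, zero_mem _, A.N ^ j * d⁻¹,
      bd_of_L j (h'.2.inv_mem hj), ?_⟩
    have := h'.2.ne_zero hj
    field_simp; ring
  · by_cases h' : c ∈ A.lat (A.N ^ j) ∧ A.P j d
    · have h'' : c' ∈ A.lat (A.N ^ j) ∧ A.P j d' :=
        ⟨by simpa using add_mem h1 h'.1, by
          have := add_mem h2 h'.2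
          rwa [sub_add_sub_cancel] at this⟩
      rw [if_pos h', if_pos h'', h'.2.c_left hj, h'.2.c_left hj, sub_self, e3_zero, one_mul]
    · have h'' : ¬ (c' ∈ A.lat (A.N ^ j) ∧ A.P j d') := fun h'' => h'
        ⟨by simpa using sub_mem h''.1 h1, by
          have := sub_mem h''.2 h2
          rwa [sub_sub_sub_cancel_left] at this⟩
      rw [if_neg h', if_neg h'', zero_mul]

/-! ## the elementary operators -/

theorem phase_N {c d x y t : F} (ht : A.P 1 t) (hxy : A.P 1 (1 - x * y)) :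
    A.B.c (d + c * x) c - A.B.c (d + c * x) (t * (c + d * y)) =
      A.B.c d c - A.B.c d (t * (c + d * y)) := by
  rw [ht.c_mul_right le_rfl, ht.c_mul_right le_rfl]
  rcases eq_or_ne d 0 with rfl | hd
  · simp
  rcases eq_or_ne c 0 with rfl | hc
  · simp
  have hs : c / d ≠ 0 := div_ne_zero hc hd
  have e1 : d + c * x = (1 + x * (c / d)) * d := by field_simp
  have e2 : c + d * y = (1 + y / (c / d)) * c := by field_simp
  have key := A.B.one_add_one_add hs (hxy.ne_zero le_rfl) (hxy.c_left le_rfl)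
  rcases eq_or_ne (1 + x * (c / d)) 0 with hA | hA
  · have e3 : 1 + y / (c / d) = 1 - x * y := by
      field_simp at hA ⊢; linear_combination y * hA
    rw [e1, e2, hA, e3, hxy.c_mul_right le_rfl, hxy.c_mul_right le_rfl]; simp
  rcases eq_or_ne (1 + y / (c / d)) 0 with hB | hB
  · have e3 : 1 + x * (c / d) = 1 - x * y := by
      field_simp at hB ⊢; linear_combination x * hB
    rw [e1, e2, hB, e3, hxy.c_mul_left le_rfl]; simp
  rw [e1, e2, A.B.mul_left _ hA hd, A.B.mul_left _ hA hd, A.B.mul_right _ hB hc, key]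
  ring

theorem phase_W {c d x y t t' : F} (ht : A.P 1 t) (ht' : A.P 1 t') (hxy : A.P 1 (1 - x * y)) :
    A.B.c c d - A.B.c c (t' * (d + c * x)) + A.B.c (t * (c + d * y)) (t' * (d + c * x)) =
      A.B.c (t * (c + d * y)) d := by
  rw [ht'.c_mul_right le_rfl, ht'.c_mul_right le_rfl]
  have h := phase_N (c := c) (d := d) ht hxy
  have s1 := A.B.swap c d
  have s2 := A.B.swap c (d + c * x)
  have s3 := A.B.swap (t * (c + d * y)) (d + c * x)
  have s4 := A.B.swap (t * (c + d * y)) d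
  linear_combination h + s1 - s2 + s3 - s4

theorem Test.opN {j m : ℕ} {f : F → F → ℂ} (hf : A.Test j f) {x : F} (hx : A.N ^ m * x ∈ A.L) :
    A.Test (j + m + (m + 1)) (opN x f) := by
  have hsup : ∀ c d, f c (d + c * x) ≠ 0 → A.Sup (j + m) c d := by
    intro c d h
    obtain ⟨h1, h2, p, hp, q, hq, e⟩ := hf.sup h
    refine ⟨bd_mono (by omega) h1, ?_, A.N ^ m * p + A.N ^ m * x * q,
      add_mem (bd_of_L m hp) (A.L.mul_mem hx hq), A.N ^ m * q, bd_of_L m hq, ?_⟩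
    · have := bd_sub (bd_mono (Nat.le_add_right j m) h2) (bd_mul h1 hx)
      rwa [add_sub_cancel_right] at this
    · rw [pow_add, ← e]; ring
  refine ⟨hf.bdd.imp fun C hC c d => hC _ _, fun c d h => (hsup c d h).mono (by omega), ?_⟩
  intro c d c' d' h1 h2
  have h3 : d' + c' * x - (d + c * x) ∈ A.lat (A.N ^ j) := by
    have : d' + c' * x - (d + c * x) = (d' - d) + (c' - c) * x := by ring
    rw [this]
    exact add_mem (latN_mono (by omega) h2) (latN_mul_bd (latN_mono (by omega) h1) hx)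
  unfold Ar.opN
  rw [hf.loc c (d + c * x) c' (d' + c' * x) (latN_mono (by omega) h1) h3]
  by_cases h0 : f c (d + c * x) = 0
  · rw [h0, zero_mul, zero_mul]
  obtain ⟨t, y, ht, hy, rfl⟩ := (hsup c d h0).close (by omega) h1
  rw [phase_N (ht.mono (by omega)) (P_one_sub (bd_mul_latN hx (by rwa [add_comm 1 m])))]

theorem Test.opD {j m : ℕ} {f : F → F → ℂ} (hf : A.Test j f) {s : F} (hs0 : s ≠ 0)
    (hs : A.N ^ m * s ∈ A.L) (hs' : A.N ^ m * s⁻¹ ∈ A.L) : A.Test (j + m + 1) (A.opD s f) := by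
  have hsup : ∀ c d, f c (s * d) ≠ 0 → A.Sup (j + m) c d := by
    intro c d h
    obtain ⟨h1, h2, p, hp, q, hq, e⟩ := hf.sup h
    refine ⟨bd_mono (by omega) h1, ?_, A.N ^ m * p, bd_of_L m hp, A.N ^ m * s * q,
      A.L.mul_mem hs hq, ?_⟩
    · have := bd_mul h2 hs'
      rwa [mul_comm s, mul_inv_cancel_right₀ hs0] at this
    · rw [pow_add, ← e]; ring
  refine ⟨hf.bdd.imp fun C hC c d => ?_,
    fun c d h => (hsup c d (left_ne_zero_of_mul h)).mono (by omega), ?_⟩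
  · rw [Ar.opD, norm_mul, norm_e3, mul_one]; exact hC _ _
  intro c d c' d' h1 h2
  have h3 : s * d' - s * d ∈ A.lat (A.N ^ j) := by
    rw [← mul_sub]; exact bd_mul_latN hs (latN_mono (by omega) h2)
  unfold Ar.opD
  rw [hf.loc c (s * d) c' (s * d') (latN_mono (by omega) h1) h3]
  by_cases h0 : f c (s * d) = 0
  · rw [h0, zero_mul, zero_mul, zero_mul, zero_mul]
  rw [mul_e3_e3 _ rfl, mul_e3_e3 _ rfl]
  congr 2
  rcases eq_or_ne d 0 with rfl | hd
  · obtain ⟨t, y, ht, -, rfl⟩ := (hsup c 0 h0).close le_rfl h1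
    simp [ht.c_mul_right le_rfl]
  · rw [A.B.mul_left _ hs0 hd, A.B.mul_left _ hs0 hd]; ring

theorem Test.opA {j m : ℕ} {f : F → F → ℂ} (hf : A.Test j f) {t : F} (ht0 : t ≠ 0)
    (ht : A.N ^ m * t ∈ A.L) (ht' : A.N ^ m * t⁻¹ ∈ A.L) : A.Test (j + m + 1) (A.opA t f) := by
  have hsup : ∀ c d, f (t * c) d ≠ 0 → A.Sup (j + m) c d := by
    intro c d h
    obtain ⟨h1, h2, p, hp, q, hq, e⟩ := hf.sup h
    refine ⟨?_, bd_mono (by omega) h2, A.N ^ m * t * p, A.L.mul_mem ht hp, A.N ^ m * q,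
      bd_of_L m hq, ?_⟩
    · have := bd_mul h1 ht'
      rwa [mul_comm t, mul_inv_cancel_right₀ ht0] at this
    · rw [pow_add, ← e]; ring
  refine ⟨hf.bdd.imp fun C hC c d => ?_,
    fun c d h => (hsup c d (left_ne_zero_of_mul h)).mono (by omega), ?_⟩
  · rw [Ar.opA, norm_mul, norm_e3, mul_one]; exact hC _ _
  intro c d c' d' h1 h2
  have h3 : t * c' - t * c ∈ A.lat (A.N ^ j) := by
    rw [← mul_sub]; exact bd_mul_latN ht (latN_mono (by omega) h1)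
  have h4 := hf.loc (t * c) d (t * c') d' h3 (latN_mono (by omega) h2)
  unfold Ar.opA
  by_cases h0 : f (t * c') d' = 0
  · have h5 : f (t * c) d = 0 := by
      rw [h0] at h4; exact (mul_eq_zero.1 h4.symm).resolve_right (e3_ne_zero _)
    rw [h0, h5, zero_mul, zero_mul, zero_mul]
  rw [h4, mul_e3_e3 _ rfl, mul_e3_e3 _ rfl]
  congr 2
  rcases eq_or_ne c' 0 with rfl | hc
  · obtain ⟨t', y, ht', -, rfl⟩ := (hsup 0 d' h0).symm.close (c' := d) le_rfl
      (by rw [← neg_sub]; exact neg_mem h2)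
    simp [ht'.c_mul_left le_rfl]; ring
  · rw [A.B.mul_right _ ht0 hc, A.B.mul_right _ ht0 hc]; ring

theorem Test.opW {j : ℕ} {f : F → F → ℂ} (hf : A.Test j f) : A.Test (j + 1) (A.opW f) := by
  have hsup : ∀ c d, f d (-c) ≠ 0 → A.Sup j c d := fun c d h => by
    simpa using (hf.sup h).neg_right.symm
  refine ⟨hf.bdd.imp fun C hC c d => ?_,
    fun c d h => (hsup c d (left_ne_zero_of_mul h)).mono (by omega), ?_⟩
  · rw [Ar.opW, norm_mul, norm_e3, mul_one]; exact hC _ _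
  intro c d c' d' h1 h2
  have h3 : -c' - -c ∈ A.lat (A.N ^ j) := by
    rw [← neg_sub', ]; exact neg_mem (latN_mono (by omega) h1)
  unfold Ar.opW
  rw [hf.loc d (-c) d' (-c') (latN_mono (by omega) h2) h3]
  by_cases h0 : f d (-c) = 0
  · rw [h0, zero_mul, zero_mul, zero_mul, zero_mul]
  rw [mul_e3_e3 _ rfl, mul_e3_e3 _ rfl]
  congr 2
  obtain ⟨t, y, ht, hy, rfl⟩ := (hsup c d h0).close le_rfl h1
  obtain ⟨t', x, ht', hx, rfl⟩ := (hsup c d h0).symm.close le_rfl h2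
  rw [A.B.neg_left, A.B.neg_left, phase_W ht ht' (P_one_sub (lat_mul_L hx (latN_L hy))),
    A.B.swap d c, A.B.swap d]
  ring

theorem IsTest.opN {f : F → F → ℂ} (hf : A.IsTest f) (x : F) : A.IsTest (opN x f) := by
  obtain ⟨j, hj⟩ := hf
  obtain ⟨m, hm⟩ := A.bdd x
  exact ⟨_, hj.opN hm⟩

theorem IsTest.opD {f : F → F → ℂ} (hf : A.IsTest f) {s : F} (hs : s ≠ 0) :
    A.IsTest (A.opD s f) := by
  obtain ⟨j, hj⟩ := hf
  obtain ⟨m, h1, h2⟩ := A.exists_bd2 s s⁻¹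
  exact ⟨_, hj.opD hs h1 h2⟩

theorem IsTest.opA {f : F → F → ℂ} (hf : A.IsTest f) {t : F} (ht : t ≠ 0) :
    A.IsTest (A.opA t f) := by
  obtain ⟨j, hj⟩ := hf
  obtain ⟨m, h1, h2⟩ := A.exists_bd2 t t⁻¹
  exact ⟨_, hj.opA ht h1 h2⟩

theorem IsTest.opW {f : F → F → ℂ} (hf : A.IsTest f) : A.IsTest (A.opW f) :=
  let ⟨_, hj⟩ := hf; ⟨_, hj.opW⟩

theorem IsTest.br {f : F → F → ℂ} (hf : A.IsTest f) {t : F} (ht : t ≠ 0) : A.IsTest (A.br t f) :=
  (hf.opD ht).opA (pow_ne_zero _ ht)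

theorem sc_eq {m : F} (hm : m ≠ 0) (n : F) (f : F → F → ℂ) :
    sc m n f = A.opA (m ^ 3) (A.opD (n ^ 3) f) := by
  funext c d
  simp [sc, Ar.opA, Ar.opD, A.B.cube_mul_right _ _ hm]

theorem IsTest.sc {f : F → F → ℂ} (hf : A.IsTest f) {m n : F} (hm : m ≠ 0) (hn : n ≠ 0) :
    A.IsTest (sc m n f) := by
  rw [sc_eq (A := A) hm]
  exact (hf.opD (pow_ne_zero _ hn)).opA (pow_ne_zero _ hm)

end Ar

end Crest.Agent.T27.B83
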