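import Mathlib

/-!
# Row 27, theta module B1 (part 1): alternating Steinberg bicharacters and the MASTER identity

Everything here is abstract.  `Bi F` is an alternating Steinberg bicharacter on a field `F` with
values in `ZMod 3` (written additively, `c 0 y = c x 0 = 0`).  `Sy B R` is a cubic residue symbol
on a principal ideal domain `R ⊆ F` whose reciprocity defect is `B.c`.
-/

set_option autoImplicit false

noncomputable section

namespace Crest.Agent.T27.B83

theorem three_eq : (3 : ZMod 3) = 0 := by decide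

theorem eq_zero_of_two {x : ZMod 3} (h : x + x = 0) : x = 0 := by
  revert x; decide

/-- Alternating Steinberg bicharacter with values in `ZMod 3`. -/
structure Bi (F : Type*) [Field F] where
  c : F → F → ZMod 3
  zero_left : ∀ y, c 0 y = 0
  zero_right : ∀ x, c x 0 = 0
  mul_left : ∀ {x x' : F} (y : F), x ≠ 0 → x' ≠ 0 → c (x * x') y = c x y + c x' y
  mul_right : ∀ (x : F) {y y' : F}, y ≠ 0 → y' ≠ 0 → c x (y * y') = c x y + c x y'
  self : ∀ x, c x x = 0
  stein : ∀ x, c x (1 - x) = 0

namespace Bi

variable {F : Type*} [Field F] (B : Bi F)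

attribute [simp] zero_left zero_right self

@[simp] theorem one_left (y : F) : B.c 1 y = 0 := by
  have h := B.mul_left y (one_ne_zero (α := F)) one_ne_zero
  rw [mul_one] at h
  linear_combination -h

@[simp] theorem one_right (x : F) : B.c x 1 = 0 := by
  have h := B.mul_right x (one_ne_zero (α := F)) one_ne_zero
  rw [mul_one] at h
  linear_combination -h

theorem swap (x y : F) : B.c x y = - B.c y x := by
  rcases eq_or_ne x 0 with rfl | hx
  · simp
  rcases eq_or_ne y 0 with rfl | hy
  · simp
  have h := B.self (x * y)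
  rw [B.mul_left _ hx hy, B.mul_right _ hx hy, B.mul_right _ hx hy, B.self, B.self] at h
  linear_combination h

@[simp] theorem neg_one_left (y : F) : B.c (-1) y = 0 := by
  have h1 : (-1 : F) ≠ 0 := neg_ne_zero.2 one_ne_zero
  have h := B.mul_left y h1 h1
  rw [neg_mul_neg, mul_one, one_left] at h
  exact eq_zero_of_two h.symm

@[simp] theorem neg_left (x y : F) : B.c (-x) y = B.c x y := by
  rcases eq_or_ne x 0 with rfl | hx
  · simp
  rw [← neg_one_mul, B.mul_left y (neg_ne_zero.2 one_ne_zero) hx, neg_one_left, zero_add]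

@[simp] theorem neg_right (x y : F) : B.c x (-y) = B.c x y := by
  rw [B.swap, neg_left, ← B.swap]

@[simp] theorem inv_left (x y : F) : B.c x⁻¹ y = - B.c x y := by
  rcases eq_or_ne x 0 with rfl | hx
  · simp
  have h := B.mul_left y hx (inv_ne_zero hx)
  rw [mul_inv_cancel₀ hx, one_left] at h
  linear_combination -h

@[simp] theorem inv_right (x y : F) : B.c x y⁻¹ = - B.c x y := by
  rw [B.swap, inv_left, B.swap y x]; ring

theorem div_left {x x' : F} (y : F) (hx : x ≠ 0) (hx' : x' ≠ 0) :
    B.c (x / x') y = B.c x y - B.c x' y := by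
  rw [div_eq_mul_inv, B.mul_left y hx (inv_ne_zero hx'), inv_left, sub_eq_add_neg]

theorem div_right (x : F) {y y' : F} (hy : y ≠ 0) (hy' : y' ≠ 0) :
    B.c x (y / y') = B.c x y - B.c x y' := by
  rw [div_eq_mul_inv, B.mul_right x hy (inv_ne_zero hy'), inv_right, sub_eq_add_neg]

theorem pow_left (x y : F) (n : ℕ) : B.c (x ^ n) y = n * B.c x y := by
  rcases eq_or_ne x 0 with rfl | hx
  · rcases n with _ | n <;> simp
  induction n with
  | zero => simp
  | succ n ih => rw [pow_succ, B.mul_left y (pow_ne_zero _ hx) hx, ih]; push_cast; ring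

theorem pow_right (x y : F) (n : ℕ) : B.c x (y ^ n) = n * B.c x y := by
  rw [B.swap, pow_left, B.swap y x]; ring

@[simp] theorem cube_left (x y : F) : B.c (x ^ 3) y = 0 := by
  rw [pow_left, Nat.cast_ofNat, three_eq, zero_mul]

@[simp] theorem cube_right (x y : F) : B.c x (y ^ 3) = 0 := by
  rw [pow_right, Nat.cast_ofNat, three_eq, zero_mul]

theorem sq_left (x y : F) : B.c (x ^ 2) y = - B.c x y := by
  rw [pow_left]; push_cast; linear_combination (B.c x y) * three_eq

theorem sq_right (x y : F) : B.c x (y ^ 2) = - B.c x y := by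
  rw [pow_right]; push_cast; linear_combination (B.c x y) * three_eq

theorem mul_cube_left (x : F) {m : F} (y : F) (hm : m ≠ 0) : B.c (x * m ^ 3) y = B.c x y := by
  rcases eq_or_ne x 0 with rfl | hx
  · simp
  rw [B.mul_left y hx (pow_ne_zero _ hm), cube_left, add_zero]

theorem mul_cube_right (x y : F) {m : F} (hm : m ≠ 0) : B.c x (y * m ^ 3) = B.c x y := by
  rw [B.swap, B.mul_cube_left _ _ hm, ← B.swap]

theorem cube_mul_left {m : F} (x y : F) (hm : m ≠ 0) : B.c (m ^ 3 * x) y = B.c x y := by
  rw [mul_comm, B.mul_cube_left _ _ hm]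

theorem cube_mul_right (x y : F) {m : F} (hm : m ≠ 0) : B.c x (m ^ 3 * y) = B.c x y := by
  rw [mul_comm, B.mul_cube_right _ _ hm]

/-- The additive form of the Steinberg relation. -/
theorem add_form {x y s : F} (hx : x ≠ 0) (hy : y ≠ 0) (hs : s ≠ 0) (h : x + y = s) :
    B.c x y = B.c x s + B.c s y := by
  have h1 := B.stein (x / s)
  have h2 : 1 - x / s = y / s := by rw [← h] at hs ⊢; field_simp; ring
  rw [h2, B.div_left _ hx hs, B.div_right _ hy hs, B.div_right _ hy hs, B.self] at h1
  linear_combination h1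

theorem one_add (x : F) : B.c (1 + x) x = 0 := by
  have h := B.stein (-x)
  rw [neg_left, sub_neg_eq_add] at h
  rw [B.swap, h, neg_zero]

/-- If `1 - x y` lies in the kernel of `c`, then `1 + x s` and `1 + y / s` commute. -/
theorem one_add_one_add {x y s : F} (hs : s ≠ 0) (h0 : 1 - x * y ≠ 0)
    (h : ∀ z, B.c (1 - x * y) z = 0) : B.c (1 + x * s) (1 + y / s) = 0 := by
  rcases eq_or_ne x 0 with rfl | hx
  · simp
  rcases eq_or_ne (1 + x * s) 0 with hA | hA
  · rw [hA, zero_left]
  rcases eq_or_ne (1 + y / s) 0 with hB | hB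
  · rw [hB, zero_right]
  have hxs : x * s ≠ 0 := mul_ne_zero hx hs
  have e : (1 + x * s) + -(x * s * (1 + y / s)) = 1 - x * y := by field_simp; ring
  have h1 := B.add_form hA (neg_ne_zero.2 (mul_ne_zero hxs hB)) h0 e
  rw [h, B.swap _ (1 - x * y), h, neg_right, B.mul_right _ hxs hB, B.one_add] at h1
  linear_combination h1

end Bi

open Classical in
/-- Kubota's `X`: the first non-zero entry of a row. -/
def X {F : Type*} [Zero F] (c d : F) : F := if c = 0 then d else c

theorem X_zero {F : Type*} [Zero F] (d : F) : X 0 d = d := if_pos rfl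

theorem X_ne {F : Type*} [Zero F] {c : F} (hc : c ≠ 0) (d : F) : X c d = c := if_neg hc

/-- A cubic residue symbol `s x y = (x / y)` on `R` with reciprocity defect `B.c`. -/
structure Sy {F : Type*} [Field F] (B : Bi F) (R : Type*) [CommRing R] [Algebra R F] where
  s : R → R → ZMod 3
  congr : ∀ {x x' y : R}, y ∣ x - x' → s x y = s x' y
  mul_left : ∀ {x x' y : R}, IsCoprime x y → IsCoprime x' y → s (x * x') y = s x y + s x' y
  mul_right : ∀ {x y y' : R}, IsCoprime x y → IsCoprime x y' → y ≠ 0 → y' ≠ 0 →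
    s x (y * y') = s x y + s x y'
  unit : ∀ (x : R) {y : R}, IsUnit y → s x y = 0
  zero : ∀ x : R, s x 0 = 0
  recip : ∀ {x y : R}, IsCoprime x y → x ≠ 0 → y ≠ 0 →
    B.c (algebraMap R F x) (algebraMap R F y) = s x y - s y x

/-- Stable range one modulo a non-zero element. -/
theorem exists_add_mul_isCoprime {R : Type*} [CommRing R] [IsDomain R] [IsPrincipalIdealRing R]
    {a b c : R} (h : IsCoprime a b) (hc : c ≠ 0) : ∃ t, IsCoprime (a + b * t) c := by
  classical
  refine ⟨((UniqueFactorizationMonoid.factors c).filter (fun q => ¬ q ∣ a)).prod, ?_⟩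
  refine isCoprime_of_prime_dvd (fun h0 => hc h0.2) fun z hz hz1 hz2 => ?_
  by_cases hza : z ∣ a
  · rcases hz.dvd_or_dvd ((dvd_add_right hza).1 hz1) with hb | ht
    · exact hz.not_isUnit (h.isUnit_of_dvd' hza hb)
    · obtain ⟨q, hq, hzq⟩ := hz.exists_mem_multiset_dvd ht
      obtain ⟨hq1, hq2⟩ := Multiset.mem_filter.1 hq
      exact hq2 ((hz.associated_of_dvd (UniqueFactorizationMonoid.prime_of_factor q hq1)
        hzq).symm.dvd.trans hza)
  · obtain ⟨q, hq, hzq⟩ := UniqueFactorizationMonoid.exists_mem_factors_of_dvd hc hz.irreducible hz2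
    have h1 : q ∣ ((UniqueFactorizationMonoid.factors c).filter (fun q => ¬ q ∣ a)).prod :=
      Multiset.dvd_prod (Multiset.mem_filter.2 ⟨hq, fun hqa => hza (hzq.dvd.trans hqa)⟩)
    exact hza ((dvd_add_left ((hzq.dvd.trans h1).mul_left b)).1 hz1)

namespace Sy

variable {F : Type*} [Field F] {B : Bi F} {R : Type*} [CommRing R] [Algebra R F] (S : Sy B R)

theorem one_left (y : R) : S.s 1 y = 0 := by
  have h := S.mul_left (x := 1) (x' := 1) (y := y) isCoprime_one_left isCoprime_one_left
  rw [mul_one] at h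
  linear_combination -h

theorem neg_one_left (y : R) : S.s (-1) y = 0 := by
  have h1 : IsCoprime (-1 : R) y := isCoprime_one_left.neg_left
  have h := S.mul_left h1 h1
  rw [neg_mul_neg, mul_one, one_left] at h
  exact eq_zero_of_two h.symm

theorem neg_left {x y : R} (h : IsCoprime x y) : S.s (-x) y = S.s x y := by
  rw [← neg_one_mul, S.mul_left isCoprime_one_left.neg_left h, neg_one_left, zero_add]

variable [IsDomain R]

theorem unit_mul_right {x u y : R} (hu : IsUnit u) (h : IsCoprime x y) :
    S.s x (u * y) = S.s x y := by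
  rcases eq_or_ne y 0 with rfl | hy
  · rw [mul_zero]
  have h1 : IsCoprime x u := by
    obtain ⟨v, hv⟩ := hu.exists_right_inv
    exact ⟨0, v, by linear_combination hv⟩
  rw [S.mul_right h1 h hu.ne_zero hy, S.unit _ hu, zero_add]

theorem neg_right {x y : R} (h : IsCoprime x y) : S.s x (-y) = S.s x y := by
  rw [← neg_one_mul, S.unit_mul_right isUnit_one.neg h]

/-- `(u / y) = c(u, y)` for a unit `u`. -/
theorem unit_left {u : R} (hu : IsUnit u) (y : R) :
    S.s u y = B.c (algebraMap R F u) (algebraMap R F y) := by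
  rcases eq_or_ne y 0 with rfl | hy
  · simp [S.zero]
  have h1 : IsCoprime u y := by
    obtain ⟨v, hv⟩ := hu.exists_right_inv
    exact ⟨v, 0, by linear_combination hv⟩
  rw [S.recip h1 hu.ne_zero hy, S.unit _ hu, sub_zero]

omit [IsDomain R] in
theorem inv_left {a d c : R} (h : c ∣ a * d - 1) : S.s a c = - S.s d c := by
  obtain ⟨b, hb⟩ := h
  have h1 : IsCoprime a c := ⟨d, -b, by linear_combination hb⟩
  have h2 : IsCoprime d c := ⟨a, -b, by linear_combination hb⟩
  have h3 := S.mul_left h1 h2
  rw [S.congr (x' := 1) ⟨b, hb⟩, one_left] at h3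
  linear_combination -h3

variable [FaithfulSMul R F]

omit [IsDomain R] in
theorem map_ne {x : R} (hx : x ≠ 0) : algebraMap R F x ≠ 0 :=
  (map_ne_zero_iff _ (FaithfulSMul.algebraMap_injective R F)).2 hx

omit [IsDomain R] in
/-- MASTER, generic case with `a` prime to `c'`. -/
theorem master_aux {a b c1 d1 c d c' d' : R} (hdet : a * d1 - b * c1 = 1) (hcd : IsCoprime c d)
    (hc' : c' = c * a + d * c1) (hd' : d' = c * b + d * d1) (h0 : c ≠ 0) (h1 : c1 ≠ 0)
    (h2 : c' ≠ 0) (ha : a ≠ 0) (hd : d ≠ 0) (hac : IsCoprime a c') :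
    S.s d' c' = S.s d c + S.s d1 c1 -
      B.c (algebraMap R F c' / algebraMap R F c) (algebraMap R F c' / algebraMap R F c1) := by
  have hcd' : IsCoprime d' c' := by
    obtain ⟨p, q, hpq⟩ := hcd
    exact ⟨q * a - p * c1, p * d1 - q * b, by
      rw [hc', hd']; linear_combination hpq + (p * c + q * d) * hdet⟩
  have e0 : a * d' - d = c' * b := by rw [hc', hd']; linear_combination d * hdet
  have hdc' : IsCoprime d c' := by
    obtain ⟨p, q, hpq⟩ := hac.mul_left hcd'
    exact ⟨p, q + p * b, by linear_combination hpq - p * e0⟩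
  have had : IsCoprime a d := by
    obtain ⟨p, q, hpq⟩ := hac
    exact ⟨p + q * c, q * c1, by rw [hc'] at hpq; linear_combination hpq⟩
  have hac1 : IsCoprime a c1 := ⟨d1, -b, by linear_combination hdet⟩
  have e1 : S.s a c' + S.s d' c' = S.s d c' := by
    rw [← S.mul_left hac hcd']; exact S.congr ⟨b, e0⟩
  have e2 : S.s c' d = S.s c d + S.s a d := by
    rw [← S.mul_left hcd had]; exact S.congr ⟨c1, by rw [hc']; ring⟩
  have e3 : S.s c' a = S.s d a + S.s c1 a := by
    rw [← S.mul_left had.symm hac1.symm]; exact S.congr ⟨c, by rw [hc']; ring⟩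
  have e4 : S.s a c1 = - S.s d1 c1 := S.inv_left ⟨b, by linear_combination hdet⟩
  have r1 := S.recip hdc' hd h2
  have r2 := S.recip hcd h0 hd
  have r3 := S.recip hac ha h2
  have r4 := S.recip hac1 ha h1
  have r5 := S.recip had ha hd
  have n0 := map_ne (F := F) h0
  have n1 := map_ne (F := F) h1
  have n2 := map_ne (F := F) h2
  have na := map_ne (F := F) ha
  have nd := map_ne (F := F) hd
  have st := B.add_form (mul_ne_zero n0 na) (mul_ne_zero nd n1) n2
    (by rw [hc']; simp only [map_add, map_mul])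
  rw [B.mul_left _ n0 na, B.mul_left _ n0 na, B.mul_right _ nd n1, B.mul_right _ nd n1,
    B.mul_right _ nd n1] at st
  rw [B.div_left _ n2 n0, B.div_right _ n2 n1, B.div_right _ n2 n1, B.self]
  have s1 := B.swap (algebraMap R F c') (algebraMap R F d)
  linear_combination e1 - r1 + e2 - r2 + r3 - e3 - r4 - e4 - r5 + st + s1

variable [IsPrincipalIdealRing R]

/-- MASTER when `c c₁ c' ≠ 0`. -/
theorem master_ne [Infinite R] {a b c1 d1 c d c' d' : R} (hdet : a * d1 - b * c1 = 1)
    (hcd : IsCoprime c d) (hc' : c' = c * a + d * c1) (hd' : d' = c * b + d * d1) (h0 : c ≠ 0)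
    (h1 : c1 ≠ 0) (h2 : c' ≠ 0) :
    S.s d' c' = S.s d c + S.s d1 c1 -
      B.c (algebraMap R F c' / algebraMap R F c) (algebraMap R F c' / algebraMap R F c1) := by
  have hac1 : IsCoprime a c1 := ⟨d1, -b, by linear_combination hdet⟩
  obtain ⟨t, ht⟩ := exists_add_mul_isCoprime hac1 h2
  have f1 : Set.Finite {k : R | a + c1 * (t + c' * k) = 0} := by
    refine Set.Subsingleton.finite fun k hk k' hk' => ?_
    have : c1 * c' * (k - k') = 0 := by
      simp only [Set.mem_ofPred_eq] at hk hk'; linear_combination hk - hk'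
    exact sub_eq_zero.1 ((mul_eq_zero.1 this).resolve_left (mul_ne_zero h1 h2))
  have f2 : Set.Finite {k : R | d - c * (t + c' * k) = 0} := by
    refine Set.Subsingleton.finite fun k hk k' hk' => ?_
    have : c * c' * (k - k') = 0 := by
      simp only [Set.mem_ofPred_eq] at hk hk'; linear_combination hk' - hk
    exact sub_eq_zero.1 ((mul_eq_zero.1 this).resolve_left (mul_ne_zero h0 h2))
  obtain ⟨k, hk⟩ := (f1.union f2).exists_notMem
  simp only [Set.mem_union, Set.mem_ofPred_eq, not_or] at hk
  set x := t + c' * k with hx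
  have hco : IsCoprime (a + c1 * x) c' := by
    obtain ⟨p, q, hpq⟩ := ht
    exact ⟨p, q - p * c1 * k, by rw [hx]; linear_combination hpq⟩
  have hcd2 : IsCoprime c (d - c * x) := by
    obtain ⟨p, q, hpq⟩ := hcd
    exact ⟨p + q * x, q, by linear_combination hpq⟩
  have key := S.master_aux (a := a + c1 * x) (b := b + d1 * x) (c1 := c1) (d1 := d1) (c := c)
    (d := d - c * x) (c' := c') (d' := d') (by linear_combination hdet) hcd2
    (by rw [hc']; ring) (by rw [hd']; ring) h0 h1 h2 hk.1 hk.2 hco
  rw [key, S.congr (x := d - c * x) (x' := d) ⟨-x, by ring⟩]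

/-- MASTER: for a coprime row `u = (c, d)` and `g = (a b; c₁ d₁) ∈ SL₂(R)`, `u g = (c', d')`:
`(d'/c') = (d/c) (d₁/c₁) conj c(X(ug)/X(u), X(ug)/X(g))`. -/
theorem master [Infinite R] {a b c1 d1 c d c' d' : R} (hdet : a * d1 - b * c1 = 1)
    (hcd : IsCoprime c d) (hc' : c' = c * a + d * c1) (hd' : d' = c * b + d * d1) :
    S.s d' c' = S.s d c + S.s d1 c1 -
      B.c (algebraMap R F (X c' d') / algebraMap R F (X c d))
        (algebraMap R F (X c' d') / algebraMap R F (X c1 d1)) := by
  rcases eq_or_ne c1 0 with rfl | h1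
  · have hua : IsUnit a := IsUnit.of_mul_eq_one d1 (by linear_combination hdet)
    have hud : IsUnit d1 := IsUnit.of_mul_eq_one a (by linear_combination hdet)
    have na := map_ne (F := F) hua.ne_zero
    have nd1 := map_ne (F := F) hud.ne_zero
    have ead : algebraMap R F d1 = (algebraMap R F a)⁻¹ := by
      refine eq_inv_of_mul_eq_one_right ?_
      rw [← map_mul, show a * d1 = 1 by linear_combination hdet, map_one]
    rcases eq_or_ne c 0 with rfl | h0
    · have hu : IsUnit d := isCoprime_zero_left.1 hcd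
      have nd := map_ne (F := F) hu.ne_zero
      have e1 : c' = 0 := by rw [hc']; ring
      have e2 : d' = d * d1 := by rw [hd']; ring
      rw [e1, e2, X_zero, X_zero, X_zero, S.zero, S.zero, S.zero, map_mul,
        mul_div_cancel_left₀ _ nd, mul_div_cancel_right₀ _ nd1, ← S.unit_left hud, S.unit _ hu]
      ring
    · have n0 := map_ne (F := F) h0
      have e1 : c' = a * c := by rw [hc']; ring
      have hdc : IsCoprime d' c := by
        obtain ⟨p, q, hpq⟩ := hcd
        exact ⟨q * a, p - q * a * b, by rw [hd']; linear_combination hpq + q * d * hdet⟩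
      have hd1 : IsCoprime d1 c := ⟨a, 0, by linear_combination hdet⟩
      have e2 : S.s d' c = S.s d c + S.s d1 c := by
        rw [← S.mul_left hcd.symm hd1]; exact S.congr ⟨b, by rw [hd']; ring⟩
      rw [e1, S.unit_mul_right hua hdc, e2, X_ne (mul_ne_zero hua.ne_zero h0), X_ne h0, X_zero,
        S.zero, S.unit_left hud, map_mul, mul_div_cancel_right₀ _ n0, ead,
        B.div_right _ (mul_ne_zero na n0) (inv_ne_zero na), B.mul_right _ na n0]
      simp [sub_eq_add_neg]
  have n1 := map_ne (F := F) h1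
  rcases eq_or_ne c 0 with rfl | h0
  · have hu : IsUnit d := isCoprime_zero_left.1 hcd
    have nd := map_ne (F := F) hu.ne_zero
    have e1 : c' = d * c1 := by rw [hc']; ring
    have e2 : d' = d * d1 := by rw [hd']; ring
    have hd1 : IsCoprime d1 c1 := ⟨a, -b, by linear_combination hdet⟩
    have hdc : IsCoprime d c1 := by
      obtain ⟨v, hv⟩ := hu.exists_right_inv
      exact ⟨v, 0, by linear_combination hv⟩
    rw [e1, e2, S.unit_mul_right hu (hdc.mul_left hd1), S.mul_left hdc hd1,
      X_ne (mul_ne_zero hu.ne_zero h1), X_zero, X_ne h1, S.zero, map_mul,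
      mul_div_cancel_left₀ _ nd, mul_div_cancel_right₀ _ n1, S.unit_left hu, B.swap]
    ring
  have n0 := map_ne (F := F) h0
  rcases eq_or_ne c' 0 with h2 | h2
  · have ec : c = - d' * c1 := by
      rw [hd']; rw [hc'] at h2; linear_combination d1 * h2 - c * hdet
    have ed : d = d' * a := by
      rw [hd']; rw [hc'] at h2; linear_combination (-b) * h2 - d * hdet
    have hu : IsUnit d' := hcd.isUnit_of_dvd' ⟨-c1, by rw [ec]; ring⟩ ⟨a, ed⟩
    have nd := map_ne (F := F) hu.ne_zero
    have hac1 : IsCoprime a c1 := ⟨d1, -b, by linear_combination hdet⟩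
    have hdc : IsCoprime d' c1 := by
      obtain ⟨v, hv⟩ := hu.exists_right_inv
      exact ⟨v, 0, by linear_combination hv⟩
    have e4 : S.s a c1 = - S.s d1 c1 := S.inv_left ⟨b, by linear_combination hdet⟩
    have e5 : S.s d c = S.s d' c1 + S.s a c1 := by
      rw [ec, ed, S.unit_mul_right hu.neg (hdc.mul_left hac1), S.mul_left hdc hac1]
    have e6 : algebraMap R F d' / algebraMap R F c = - (algebraMap R F c1)⁻¹ := by
      rw [ec, map_mul, map_neg]; field_simp
    rw [h2, X_zero, X_ne h0, X_ne h1, S.zero, e5, e4, e6, S.unit_left hu, B.neg_left, B.inv_left,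
      B.div_right _ nd n1, B.self, B.swap (algebraMap R F c1)]
    ring
  · rw [X_ne h0, X_ne h1, X_ne h2]
    exact S.master_ne hdet hcd hc' hd' h0 h1 h2

end Sy

end Crest.Agent.T27.B83
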