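import Crest.Agent.T27.ThB_54

/-!
# Row 27, theta module C1 (part 1): symbols, residue field sums, constant terms
-/

set_option autoImplicit false

noncomputable section

namespace Crest.Agent.T27.TH.C50

open scoped ComplexConjugate
open NumberField

variable {F : Type} [Field F] [NumberField F] [Emb F]

/-! ## the norm -/

theorem nF_mul (x y : F) : nF (x * y) = nF x * nF y := by
  simp only [nF, em, map_mul, norm_mul, mul_pow, Finset.prod_mul_distrib]

theorem nF_pos {x : F} (h : x ≠ 0) : 0 < nF x :=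
  Finset.prod_pos fun _ _ => pow_pos (norm_pos_iff.2 ((map_ne_zero _).2 h)) 2

theorem nF_one : nF (1 : F) = 1 := by simp [nF, em]

theorem nF_pow (x : F) (n : ℕ) : nF (x ^ n) = nF x ^ n := by
  induction n with
  | zero => rw [pow_zero, pow_zero, nF_one]
  | succ n ih => rw [pow_succ, nF_mul, ih, pow_succ]

theorem nF_inv {x : F} (h : x ≠ 0) : nF x⁻¹ = (nF x)⁻¹ := by
  have := nF_mul x x⁻¹
  rw [mul_inv_cancel₀ h, nF_one] at this
  exact eq_inv_of_mul_eq_one_right this.symm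

/-- `N(x)^{1/3}`. -/
def cr (x : F) : ℝ := nF x ^ (1 / 3 : ℝ)

theorem cr_pos {x : F} (h : x ≠ 0) : 0 < cr x := Real.rpow_pos_of_pos (nF_pos h) _

theorem cr_cube {x : F} (h : x ≠ 0) : cr x ^ 3 = nF x := by
  rw [cr, ← Real.rpow_natCast, ← Real.rpow_mul (nF_pos h).le]; norm_num

theorem cr_mul {x y : F} (hx : x ≠ 0) (hy : y ≠ 0) : cr (x * y) = cr x * cr y := by
  rw [cr, nF_mul, Real.mul_rpow (nF_pos hx).le (nF_pos hy).le]; rfl

theorem cr_one : cr (1 : F) = 1 := by rw [cr, nF_one, Real.one_rpow]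

theorem cr_pow {x : F} (h : x ≠ 0) (n : ℕ) : cr (x ^ n) = cr x ^ n := by
  induction n with
  | zero => rw [pow_zero, pow_zero, cr_one]
  | succ n ih => rw [pow_succ, cr_mul (pow_ne_zero _ h) h, ih, pow_succ]

theorem cr_inv {x : F} (h : x ≠ 0) : cr x⁻¹ = (cr x)⁻¹ := by
  have := cr_mul h (inv_ne_zero h)
  rw [mul_inv_cancel₀ h, cr_one] at this
  exact eq_inv_of_mul_eq_one_right this.symm

theorem rpow_two_thirds {x : F} (h : x ≠ 0) : nF x ^ (2 / 3 : ℝ) = cr x ^ 2 := by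
  rw [cr, ← Real.rpow_natCast, ← Real.rpow_mul (nF_pos h).le]; norm_num

/-! ## linear combinations of good row functions -/

theorem good_sum (hT : TauStmt F) {ι : Type} (s : Finset ι) (ξ : ι → F × F → ℂ)
    (h : ∀ i ∈ s, Good (ξ i)) :
    Good (∑ i ∈ s, ξ i) ∧ ∀ r, tau (∑ i ∈ s, ξ i) r = ∑ i ∈ s, tau (ξ i) r := by
  classical
  induction s using Finset.induction_on with
  | empty => exact ⟨by simpa using hT.good_zero, fun r => by simpa using hT.tau_zero r⟩
  | insert a s ha ih =>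
    obtain ⟨h1, h2⟩ := ih fun i hi => h i (Finset.mem_insert_of_mem hi)
    have h3 := h a (Finset.mem_insert_self _ _)
    rw [Finset.sum_insert ha]
    refine ⟨hT.good_add _ _ h3 h1, fun r => ?_⟩
    rw [hT.tau_add _ _ h3 h1, h2, Finset.sum_insert ha]

/-- The vanishing criterion for a linear combination of translates. -/
theorem vanish_comb (hT : TauStmt F) (hTh : ThetaStmt F) {ι : Type} [Fintype ι] (c : ι → ℂ)
    (ξ : ι → F × F → ℂ) (g : ι → Mat F) (hξ : ∀ i, Good (ξ i)) (hg : ∀ i, (g i).det ≠ 0)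
    (h : ∀ γ : SL F, ∑ i, c i * tau (tr (ξ i) ((γ : Mat F) * g i)) 0 = 0) (r : F) :
    ∑ i, c i * tau (tr (ξ i) (g i)) r = 0 := by
  have key : ∀ γ : Mat F, γ.det ≠ 0 → Good (∑ i, fun u => c i * tr (ξ i) (γ * g i) u) ∧
      ∀ r, tau (∑ i, fun u => c i * tr (ξ i) (γ * g i) u) r =
        ∑ i, c i * tau (tr (ξ i) (γ * g i)) r := fun γ hγ => by
    have hd : ∀ i, (γ * g i).det ≠ 0 := fun i => by
      rw [Matrix.det_mul]; exact mul_ne_zero hγ (hg i)
    obtain ⟨h1, h2⟩ := good_sum hT Finset.univ (fun i => fun u => c i * tr (ξ i) (γ * g i) u)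
      fun i _ => hT.good_smul _ _ (hT.good_tr _ _ (hξ i) (hd i))
    refine ⟨h1, fun r => ?_⟩
    rw [h2]
    exact Finset.sum_congr rfl fun i _ => hT.tau_smul _ _ (hT.good_tr _ _ (hξ i) (hd i)) r
  obtain ⟨h1, h2⟩ := key 1 (by simp)
  have h3 := hTh.vanish _ h1 (fun γ => by
    have e : tr (∑ i, fun u => c i * tr (ξ i) (1 * g i) u) (γ : Mat F) =
        ∑ i, fun u => c i * tr (ξ i) ((γ : Mat F) * g i) u := by
      funext u
      simp only [tr, Finset.sum_apply, Matrix.one_mul, rmul_mul]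
    rw [e, (key γ (by rw [γ.det_coe]; exact one_ne_zero)).2, h]) r
  rw [h2] at h3
  simpa only [Matrix.one_mul] using h3

variable [Ar F]

/-! ## symbols -/

theorem conj_of_cube {z : ℂ} (h : z ^ 3 = 1) : conj z = z ^ 2 := by
  have hn : ‖z‖ = 1 := by
    have h1 : ‖z‖ ^ 3 = 1 := by rw [← norm_pow, h, norm_one]
    exact (pow_eq_one_iff_of_nonneg (norm_nonneg z) three_ne_zero).1 h1
  have h2 : z * conj z = 1 := by rw [Complex.mul_conj, Complex.normSq_eq_norm_sq, hn]; simp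
  linear_combination (-conj z) * h + z ^ 2 * h2

/-- The symbol on `R`. -/
def sr (x y : RR F) : ℂ := Ar.sy (x : F) (y : F)

theorem sr_mul_left (x x' : RR F) {y : RR F} (hy : y ≠ 0) : sr (x * x') y = sr x y * sr x' y :=
  Ar.sy_mul_left _ x.2 _ x'.2 _ y.2 (fun h => hy (Subtype.ext h))

theorem sr_mul_right (x : RR F) {y y' : RR F} (hy : y ≠ 0) (hy' : y' ≠ 0) :
    sr x (y * y') = sr x y * sr x y' :=
  Ar.sy_mul_right _ x.2 _ y.2 _ y'.2 (fun h => hy (Subtype.ext h)) (fun h => hy' (Subtype.ext h))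

theorem sr_congr {x x' y : RR F} (hy : y ≠ 0) (h : y ∣ x - x') : sr x y = sr x' y := by
  obtain ⟨t, ht⟩ := h
  have e : x = x' + y * t := by linear_combination ht
  rw [e]
  exact Ar.sy_congr _ x'.2 _ y.2 _ t.2 (fun h => hy (Subtype.ext h))

theorem sr_cube {x y : RR F} (hy : y ≠ 0) (h : IsCoprime x y) : sr x y ^ 3 = 1 := Ar.sy_cube x y hy h

theorem sr_zero {x y : RR F} (hy : y ≠ 0) (h : ¬ IsCoprime x y) : sr x y = 0 := Ar.sy_zero x y hy h

theorem conj_sr (x : RR F) {y : RR F} (hy : y ≠ 0) : conj (sr x y) = sr x y ^ 2 := by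
  by_cases h : IsCoprime x y
  · exact conj_of_cube (sr_cube hy h)
  · rw [sr_zero hy h]; simp

theorem sr_one_left {y : RR F} (hy : y ≠ 0) : sr 1 y = 1 := by
  have h1 := sr_mul_left 1 1 hy
  have h2 := sr_cube hy (isCoprime_one_left (x := y))
  rw [mul_one] at h1
  linear_combination (sr 1 y + 1) * h1 + h2

theorem sr_one_right (x : RR F) : sr x 1 = 1 :=
  Ar.sy_unit _ x.2 _ (1 : RR F).2 (by simp) (by simp)

theorem sr_pow_left (x : RR F) {y : RR F} (hy : y ≠ 0) (n : ℕ) : sr (x ^ n) y = sr x y ^ n := by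
  induction n with
  | zero => rw [pow_zero, pow_zero, sr_one_left hy]
  | succ n ih => rw [pow_succ, sr_mul_left _ _ hy, ih, pow_succ]

theorem sr_pow_right (x : RR F) {y : RR F} (hy : y ≠ 0) (n : ℕ) : sr x (y ^ n) = sr x y ^ n := by
  induction n with
  | zero => rw [pow_zero, pow_zero, sr_one_right]
  | succ n ih => rw [pow_succ, sr_mul_right _ (pow_ne_zero _ hy) hy, ih, pow_succ]

theorem sr_neg_one {y : RR F} (hy : y ≠ 0) : sr (-1) y = 1 := by
  have h1 := sr_pow_left (-1) hy 3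
  have h2 := sr_cube hy (isCoprime_one_left (x := y)).neg_left
  rw [show (-1 : RR F) ^ 3 = -1 by ring, h2] at h1
  exact h1

theorem cc_self {x : F} (hx : x ≠ 0) : Ar.cc x x = 1 := by
  have h1 := Ar.cc_swap x x hx hx
  have h2 := Ar.cc_cube x x hx hx
  linear_combination (-Ar.cc x x) * h1 + h2

theorem cc_div_self {x y : F} (hx : x ≠ 0) (hy : y ≠ 0) : Ar.cc (x / y) y = Ar.cc x y := by
  have h := Ar.cc_mul_left (x / y) y y (div_ne_zero hx hy) hy hy
  rw [div_mul_cancel₀ _ hy, cc_self hy, mul_one] at h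
  exact h.symm

theorem conj_cc {x y : RR F} (hx : x ≠ 0) (hy : y ≠ 0) (h : IsCoprime x y) :
    conj (Ar.cc (x : F) (y : F)) = sr x y ^ 2 * sr y x := by
  rw [Ar.cc_eq x y hx hy h, map_mul, Complex.conj_conj]
  exact congrArg (· * sr y x) (conj_sr x hy)

theorem cop_iff {x y : RR F} : Cop (x : F) (y : F) ↔ IsCoprime x y := by
  constructor
  · rintro ⟨-, -, a, ha, b, hb, h⟩
    exact ⟨⟨a, ha⟩, ⟨b, hb⟩, Subtype.ext h⟩
  · rintro ⟨a, b, h⟩
    exact ⟨x.2, y.2, a, a.2, b, b.2, congrArg Subtype.val h⟩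

theorem N_ne : (Ar.N F : F) ≠ 0 := by
  have := Ar.two_le (F := F)
  exact Nat.cast_ne_zero.2 (by omega)

theorem exists_den (x : F) : ∃ b : RR F, b ≠ 0 ∧ (b : F) * x ∈ (Ar.R : Subring F) := by
  obtain ⟨k, hk⟩ := Ar.pow_mem_L x
  obtain ⟨m, hm, h⟩ := (Ar.mem_L _).1 hk
  have hm0 : m ≠ 0 := by
    rintro rfl
    have := Ar.two_le (F := F)
    rw [Nat.coprime_zero_left] at hm
    omega
  refine ⟨(m : RR F), Nat.cast_ne_zero.2 hm0, (Ar.mem_R _).2 ⟨k, ?_⟩⟩
  have e : (Ar.N F : F) ^ k * (((m : RR F) : F) * x) = (m : F) * ((Ar.N F : F) ^ k * x) := by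
    rw [SubringClass.coe_natCast]; ring
  rw [e]; exact h

/-- Every non-zero vector is a multiple of a primitive one. -/
theorem exists_prim (α : F) {β : F} (hβ : β ≠ 0) :
    ∃ (ρ : F) (a b : RR F), ρ ≠ 0 ∧ b ≠ 0 ∧ IsCoprime a b ∧ α = ρ * a ∧ β = ρ * b := by
  obtain ⟨c, hc, h1⟩ := exists_den α
  obtain ⟨d, hd, h2⟩ := exists_den β
  have hc' : (c : F) ≠ 0 := fun h => hc (Subtype.ext h)
  have hd' : (d : F) ≠ 0 := fun h => hd (Subtype.ext h)
  let x : RR F := d * ⟨_, h1⟩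
  let y : RR F := c * ⟨_, h2⟩
  have hy : y ≠ 0 := mul_ne_zero hc fun h => mul_ne_zero hd' hβ (congrArg Subtype.val h)
  obtain ⟨g, hg⟩ : ∃ g, Ideal.span {x, y} = Ideal.span {g} :=
    (IsPrincipalIdealRing.principal (Ideal.span {x, y})).principal
  have hx' : g ∣ x := Ideal.mem_span_singleton.1
    (show x ∈ Ideal.span {g} from hg ▸ Ideal.subset_span (by simp))
  have hy' : g ∣ y := Ideal.mem_span_singleton.1
    (show y ∈ Ideal.span {g} from hg ▸ Ideal.subset_span (by simp))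
  obtain ⟨a, ha⟩ := hx'
  obtain ⟨b, hb⟩ := hy'
  have hg0 : g ≠ 0 := by rintro rfl; exact hy (by rw [hb, zero_mul])
  have hb0 : b ≠ 0 := by rintro rfl; exact hy (by rw [hb, mul_zero])
  obtain ⟨u, v, huv⟩ := Ideal.mem_span_pair.1
    (show g ∈ Ideal.span {x, y} from hg ▸ Ideal.mem_span_singleton_self g)
  have hg' : (g : F) ≠ 0 := fun h => hg0 (Subtype.ext h)
  have ha' : (d : F) * (c * α) = g * a := congrArg Subtype.val ha
  have hb' : (c : F) * (d * β) = g * b := congrArg Subtype.val hb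
  refine ⟨g / (c * d), a, b, div_ne_zero hg' (mul_ne_zero hc' hd'), hb0,
    ⟨u, v, mul_left_cancel₀ hg0 ?_⟩, ?_, ?_⟩
  · rw [ha, hb] at huv; linear_combination huv
  · field_simp; linear_combination ha'
  · field_simp; linear_combination hb'

/-! ## constant terms -/

/-- The constant term at the column `(α, β)`. -/
def CT (f : F × F → ℂ) (α β : F) : ℂ := tau (tr (xiF f) (gam α β)) 0

omit [NumberField F] [Emb F] [Ar F] in
theorem det_gam (α : F) {β : F} (hβ : β ≠ 0) : (gam α β).det = 1 := by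
  rw [gam, Matrix.det_fin_two_of]; field_simp; ring

/-- The content of `CuspStmt` for a fixed constant. -/
def CuspK (κ : ℝ) : Prop := ∀ f : F × F → ℂ, Test f → Good (xiF f) ∧ tau (xiF f) 0 = κ * LamF f ∧
    (∀ (g : Mat F) (ρ α β : F), g.det ≠ 0 → ρ ≠ 0 → β ≠ 0 → Cop α β →
      g 1 0 = -(ρ * β) → g 1 1 = ρ * α →
      tau (tr (xiF f) g) 0 =
        ((nF ρ ^ (2 / 3 : ℝ) * nF g.det ^ (1 / 3 : ℝ) : ℝ) : ℂ) * (κ * Ar.sy α β * CF f α β)) ∧
    (∀ m : F, m ≠ 0 → ∀ r, tau (xiF (opS m f)) r = ((absS m ^ 4)⁻¹ : ℝ) * tau (xiF f) r) ∧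
    ∀ r, tau (xiF f) r ≠ 0 → r ∈ (Ar.R : Subring F)

variable {κ : ℝ}

theorem CT_eq (hC : CuspK (F := F) κ) {f : F × F → ℂ} (hf : Test f) {ρ α β : F} (hρ : ρ ≠ 0)
    {a b : RR F} (hb : b ≠ 0) (h : IsCoprime a b) (h1 : α = ρ * a) (h2 : β = ρ * b) :
    CT f α β = (cr ρ : ℂ) ^ 2 * (κ * sr a b * CF f a b) := by
  have hb' : (b : F) ≠ 0 := fun h => hb (Subtype.ext h)
  have hβ : β ≠ 0 := h2 ▸ mul_ne_zero hρ hb'
  rw [CT, (hC f hf).2.2.1 (gam α β) ρ a b (by rw [det_gam α hβ]; exact one_ne_zero) hρ hb'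
    (cop_iff.2 h) (by simp [gam, h2]) (by simp [gam, h1]), det_gam α hβ, nF_one, Real.one_rpow,
    mul_one, rpow_two_thirds hρ]
  push_cast
  rfl

theorem tau_tr_eq (hC : CuspK (F := F) κ) {f : F × F → ℂ} (hf : Test f) {g : Mat F}
    (hg : g.det ≠ 0) {ρ α β : F} (hρ : ρ ≠ 0) (hβ : β ≠ 0) (h0 : g 1 0 = -(ρ * β))
    (h1 : g 1 1 = ρ * α) :
    tau (tr (xiF f) g) 0 = (cr ρ : ℂ) ^ 2 * (cr g.det : ℂ) * CT f α β := by
  obtain ⟨ρ', a, b, hρ', hb, h, e1, e2⟩ := exists_prim α hβ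
  have hb' : (b : F) ≠ 0 := fun h => hb (Subtype.ext h)
  rw [CT_eq hC hf hρ' hb h e1 e2, (hC f hf).2.2.1 g (ρ * ρ') a b hg (mul_ne_zero hρ hρ') hb'
    (cop_iff.2 h) (by rw [h0, e2]; ring) (by rw [h1, e1]; ring),
    rpow_two_thirds (mul_ne_zero hρ hρ'), cr_mul hρ hρ',
    show nF g.det ^ (1 / 3 : ℝ) = cr g.det from rfl, sr]
  push_cast
  ring

/-! ## sums over the residue field -/

section Res

variable {p : RR F}

/-- The residue ring. -/
abbrev Kp (p : RR F) : Type := RR F ⧸ Ideal.span {p}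

/-- The residue class. -/
def rd (p : RR F) : RR F →+* Kp p := Ideal.Quotient.mk _

theorem mk_eq_zero {x : RR F} : rd p x = 0 ↔ p ∣ x := by
  rw [rd, Ideal.Quotient.eq_zero_iff_mem, Ideal.mem_span_singleton]

theorem mk_eq_iff {x y : RR F} : rd p x = rd p y ↔ p ∣ x - y := by
  rw [← sub_eq_zero, ← map_sub, mk_eq_zero]

theorem mk_out (x : Kp p) : rd p x.out = x := Ideal.Quotient.mk_out x

/-- The character of the residue field. -/
def chi (p : RR F) (x : Kp p) : ℂ := sr x.out p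

theorem chi_mk (hp : p ≠ 0) (x : RR F) : chi p (rd p x) = sr x p :=
  sr_congr hp (mk_eq_iff.1 (mk_out _))

theorem chi_mul (hp : p ≠ 0) (x y : Kp p) : chi p (x * y) = chi p x * chi p y := by
  conv_lhs => rw [← mk_out x, ← mk_out y, ← map_mul, chi_mk hp, sr_mul_left _ _ hp]
  rfl

theorem chi_zero (hp : Prime p) : chi p 0 = 0 := by
  rw [← map_zero (rd p), chi_mk hp.ne_zero]
  exact sr_zero hp.ne_zero fun h => hp.not_isUnit (isCoprime_zero_left.1 h)

theorem chi_cube (hp : Prime p) {x : Kp p} (hx : x ≠ 0) : chi p x ^ 3 = 1 :=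
  sr_cube hp.ne_zero ((hp.coprime_iff_not_dvd.2 fun h => hx (by
    rw [← mk_out x]; exact mk_eq_zero.2 h)).symm)

theorem chi_neg (hp : p ≠ 0) (x : Kp p) : chi p (-x) = chi p x := by
  rw [← neg_one_mul, chi_mul hp, ← map_one (rd p), ← map_neg, chi_mk hp, sr_neg_one hp, one_mul]

theorem isField (hp : Prime p) : IsField (Kp p) := by
  have := PrincipalIdealRing.isMaximal_of_irreducible hp.irreducible
  exact (Ideal.Quotient.maximal_ideal_iff_isField_quotient _).1 this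

variable [Fintype (Kp p)]

theorem sum_affine (hp : Prime p) (φ : Kp p → ℂ) {u : Kp p} (hu : u ≠ 0) (v : Kp p) :
    ∑ x, φ (v + x * u) = ∑ x, φ x := by
  let _ := (isField hp).toField
  exact Fintype.sum_bijective (fun x => v + x * u)
    ((Equiv.addLeft v).bijective.comp (Equiv.mulRight₀ u hu).bijective) _ _ fun _ => rfl

theorem sum_chi_pow (hp : Prime p) {n : ℕ} (hn : n = 1 ∨ n = 2) : ∑ x, chi p x ^ n = 0 := by
  obtain ⟨x₀, h1, h2⟩ := Ar.sy_nontriv p hp
  have h3 : sr x₀ p ^ 3 = 1 := sr_cube hp.ne_zero h1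
  have h4 : sr x₀ p ^ n ≠ 1 := by
    rcases hn with rfl | rfl
    · rwa [pow_one]
    · intro h; exact h2 (by change sr x₀ p = 1; linear_combination (-sr x₀ p) * h + h3)
  have hu : rd p x₀ ≠ 0 := fun h => hp.coprime_iff_not_dvd.1 h1.symm (mk_eq_zero.1 h)
  have h5 := sum_affine hp (fun x => chi p x ^ n) hu 0
  simp only [zero_add, chi_mul hp.ne_zero, chi_mk hp.ne_zero, mul_pow] at h5
  rw [← Finset.sum_mul] at h5
  exact (mul_eq_zero.1 (by linear_combination h5 :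
    (∑ x, chi p x ^ n) * (sr x₀ p ^ n - 1) = 0)).resolve_right (sub_ne_zero.2 h4)

theorem sum_chi (hp : Prime p) : ∑ x, chi p x = 0 := by
  simpa using sum_chi_pow hp (Or.inl rfl)

theorem sum_chi_sq (hp : Prime p) : ∑ x, chi p x ^ 2 = 0 := sum_chi_pow hp (Or.inr rfl)

theorem sum_chi_aff (hp : Prime p) {u : Kp p} (hu : u ≠ 0) (v : Kp p) :
    ∑ x, chi p (v + x * u) = 0 := by rw [sum_affine hp (chi p) hu, sum_chi hp]

theorem sum_chi_cube (hp : Prime p) : ∑ x, chi p x ^ 3 = (Fintype.card (Kp p) : ℂ) - 1 := by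
  classical
  have e : ∀ x, chi p x ^ 3 = 1 - if x = 0 then 1 else 0 := fun x => by
    split_ifs with h
    · rw [h, chi_zero hp]; simp
    · rw [chi_cube hp h, sub_zero]
  simp only [e, Finset.sum_sub_distrib]
  simp

open Classical in
theorem sum_delta (hp : Prime p) {u : Kp p} (hu : u ≠ 0) (v : Kp p) (c : ℂ) :
    ∑ x, (if v + x * u = 0 then c else 0) = c := by
  rw [sum_affine hp (fun x => if x = 0 then c else 0) hu]
  simp

open Classical in
theorem sum_delta_sq (hp : Prime p) {u : Kp p} (hu : u ≠ 0) (v : Kp p) (c : ℂ) :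
    ∑ x, chi p x ^ 2 * (if v + x * u = 0 then c else 0) = chi p v ^ 2 * chi p u * c := by
  rw [← sum_delta hp hu v (chi p v ^ 2 * chi p u * c)]
  refine Finset.sum_congr rfl fun x _ => ?_
  split_ifs with h
  · have e : v = -(x * u) := by linear_combination h
    rw [e, chi_neg hp.ne_zero, chi_mul hp.ne_zero]
    linear_combination (-chi p x ^ 2 * c) * chi_cube hp hu
  · rw [mul_zero]

theorem sum_jac (hp : Prime p) {v : Kp p} (hv : v ≠ 0) (u : Kp p) :
    ∑ x, chi p x ^ 2 * chi p (v + x * u) = -chi p u := by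
  classical
  let _ := (isField hp).toField
  have h1 : ∑ x : Kp p, chi p (u + x⁻¹ * v) = 0 := by
    rw [← sum_chi_aff hp hv u]
    exact Fintype.sum_bijective (fun x => x⁻¹) inv_involutive.bijective _ _ fun _ => rfl
  have e : ∀ x : Kp p, chi p x ^ 2 * chi p (v + x * u) =
      chi p (u + x⁻¹ * v) - if x = 0 then chi p u else 0 := fun x => by
    split_ifs with h
    · rw [h, chi_zero hp]; simp
    · have : v + x * u = x * (u + x⁻¹ * v) := by field_simp; ring
      rw [this, chi_mul hp.ne_zero]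
      linear_combination chi p (u + x⁻¹ * v) * chi_cube hp h
  simp only [e, Finset.sum_sub_distrib, h1]
  simp

theorem card_eq (hp : p ≠ 0) : (Fintype.card (Kp p) : ℝ) = Ar.nm (p : F) := by
  rw [Ar.nm_eq p hp, Nat.card_eq_fintype_card]

end Res

end Crest.Agent.T27.TH.C50
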