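import Crest.Agent.T27.ThC1_50

/-!
# Row 27, theta module C1 (part 2): the constant terms of the Hecke identity
-/

set_option autoImplicit false

noncomputable section

namespace Crest.Agent.T27.TH.C50

open scoped ComplexConjugate
open NumberField

variable {F : Type} [Field F] [NumberField F] [Emb F] [Ar F]

/-- The data of the computation: a prime, a level, deep representatives of the residue classes. -/
structure Dat (κ : ℝ) (f : F × F → ℂ) (p : RR F) (j : ℕ) (a : Kp p → RR F) : Prop where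
  hO : OpStmt F
  hI : IntStmt F
  hC : CuspK (F := F) κ
  hp : Prime p
  hf : TestFn j f
  hT : TestFn j (opT (p : F) f)
  mk_a : ∀ x, rd p (a x) = x
  deep : ∀ x, Deep j ((a x : F) / p)

theorem coe_ne {x : RR F} (h : x ≠ 0) : (x : F) ≠ 0 := fun h' => h (Subtype.ext h')

theorem absS_pos {x : F} (h : x ≠ 0) : 0 < absS x := div_pos (Ar.nm_pos x h) (nF_pos h)

theorem nm_eq_absS {x : F} (h : x ≠ 0) : Ar.nm x = absS x * cr x ^ 3 := by
  rw [cr_cube h, absS, div_mul_cancel₀ _ (nF_pos h).ne']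

namespace Dat

variable {κ : ℝ} {f : F × F → ℂ} {p : RR F} {j : ℕ} {a : Kp p → RR F} (D : Dat κ f p j a)
include D

theorem p0 : p ≠ 0 := D.hp.ne_zero
theorem P0 : (p : F) ≠ 0 := coe_ne D.p0
theorem tf : Test f := ⟨j, D.hf⟩
theorem tT : Test (opT (p : F) f) := ⟨j, D.hT⟩
theorem tC : Test (opC (p : F) f) := D.hO.test_opC f p D.P0 D.tf
theorem s0 : (absS (p : F) : ℂ) ≠ 0 := Complex.ofReal_ne_zero.2 (absS_pos D.P0).ne'

theorem chi_a (x : Kp p) : sr (a x) p = chi p x := by rw [← chi_mk D.p0, D.mk_a]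

theorem mk_aff (x : Kp p) (u v : RR F) : rd p (v + a x * u) = rd p v + x * rd p u := by
  rw [map_add, map_mul, D.mk_a]

theorem cop {x : RR F} (h : ¬ p ∣ x) : IsCoprime x p := (D.hp.coprime_iff_not_dvd.2 h).symm

omit D in
theorem mk_ne {x : RR F} (h : ¬ p ∣ x) : rd p x ≠ 0 := fun h' => h (mk_eq_zero.1 h')

theorem shift_f (x : Kp p) {A A' B : F} (hB : B ≠ 0) (h : A' = A + (a x : F) / p * B) :
    CF f A' B = CF f A B := by rw [h, D.hI.P0 f j A B _ D.hf hB (D.deep x)]

theorem shift_T (x : Kp p) {A A' B : F} (hB : B ≠ 0) (h : A' = A + (a x : F) / p * B) :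
    CF (opT (p : F) f) A' B = CF (opT (p : F) f) A B := by
  rw [h, D.hI.P0 _ j A B _ D.hT hB (D.deep x)]

theorem P1 {A B A' B' : F} (hB : B ≠ 0) (h1 : A' = (p : F) ^ 3 * A) (h2 : B' = (p : F) ^ 3 * B) :
    CF f A B = (absS (p : F) : ℂ) ^ 2 * CF f A' B' := by
  rw [h1, h2, D.hI.P1 f p A B D.tf D.P0 hB]
  push_cast
  field_simp [D.s0]

theorem P2 {A A' B : F} (hB : B ≠ 0) (h1 : A' = (p : F) ^ 3 * A) :
    CF (opC (p : F) f) A' B = ((absS (p : F) : ℂ) ^ 3)⁻¹ * CF f A B := by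
  rw [h1, D.hI.P2 f p A B D.tf D.P0 hB]
  push_cast
  rfl

theorem P3 {A A' B B' : F} (hB : B ≠ 0) (h1 : A' = (p : F) ^ 2 * A) (h2 : B' = (p : F) * B) :
    CF (opT (p : F) f) A' B' =
      ((absS (p : F) : ℂ) ^ 3)⁻¹ * conj (Ar.cc B (p : F)) * CF f A B := by
  rw [h1, h2, D.hI.P3 f p A B D.tf D.P0 hB]
  push_cast
  rfl

theorem cr2 : (cr ((p : F) ^ 2) : ℂ) = (cr (p : F) : ℂ) ^ 2 := by rw [cr_pow D.P0]; push_cast; rfl
theorem cr3 : (cr ((p : F) ^ 3) : ℂ) = (cr (p : F) : ℂ) ^ 3 := by rw [cr_pow D.P0]; push_cast; rfl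
theorem cr4 : (cr ((p : F) ^ 4) : ℂ) = (cr (p : F) : ℂ) ^ 4 := by rw [cr_pow D.P0]; push_cast; rfl

omit D [Ar F] in
theorem cr1 : (cr (1 : F) : ℂ) = 1 := by rw [cr_one]; rfl

variable [Fintype (Kp p)]

theorem card : (Fintype.card (Kp p) : ℂ) = (absS (p : F) : ℂ) * (cr (p : F) : ℂ) ^ 3 := by
  have := card_eq D.p0
  rw [nm_eq_absS D.P0] at this
  exact_mod_cast congrArg (fun x : ℝ => (x : ℂ)) this

omit D in
/-- The identity between the constant terms at the column `(α, β)`. -/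
def HK (f : F × F → ℂ) (p : RR F) [Fintype (Kp p)] (a : Kp p → RR F) (α β : F) : Prop :=
  (cr (p : F) : ℂ) ^ 3 * ∑ x, CT f ((p : F) ^ 3 * α + a x * (p : F) ^ 2 * β) ((p : F) ^ 3 * β) =
    ((absS (p : F) : ℂ) * (cr (p : F) : ℂ) ^ 3) ^ 2 * (CT (opC (p : F) f) ((p : F) ^ 3 * α) β +
      ∑ x, chi p x ^ 2 * CT (opT (p : F) f) ((p : F) ^ 2 * α + a x * β) (p * β))

theorem HK0 {α b : RR F} (h : IsCoprime α b) (hb : ¬ p ∣ b) : HK f p a α b := by
  classical
  have b0 : b ≠ 0 := by rintro rfl; exact hb (dvd_zero _)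
  have B0 := coe_ne b0
  have P0 := D.P0
  have s0 := D.s0
  have hpb : IsCoprime p b := (D.cop hb).symm
  have hu := sr_cube b0 hpb
  have hv := sr_cube D.p0 (D.cop hb)
  have e1 : ∀ x, CT f ((p : F) ^ 3 * α + a x * (p : F) ^ 2 * b) ((p : F) ^ 3 * b) =
      chi p x * ((cr (p : F) : ℂ) ^ 4 * κ * sr b p * sr p b * sr α b * CF f (p * α) (p * b)) +
        if x = 0 then (cr (p : F) : ℂ) ^ 6 * κ * sr α b * CF f α b else 0 := fun x => by
    split_ifs with hx
    · obtain ⟨a', ha'⟩ : p ∣ a x := mk_eq_zero.1 (by rw [D.mk_a, hx])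
      have ha : (a x : F) = p * a' := congrArg Subtype.val ha'
      rw [CT_eq D.hC D.tf (pow_ne_zero 3 P0) b0 (h.add_mul_right_left a')
        (by push_cast; rw [ha]; ring) rfl, sr_congr (x' := α) b0 (by simp),
        D.shift_f x (A := α) B0 (by push_cast; rw [ha]; field_simp), D.cr3, hx, chi_zero D.hp]
      ring
    · have hn : ¬ p ∣ p * α + a x * b := fun h' => by
        have := mk_eq_zero.2 h'
        rw [D.mk_aff, mk_eq_zero.2 (dvd_mul_right p α), zero_add] at this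
        exact (D.hp.dvd_or_dvd (mk_eq_zero.1 (by rw [map_mul, D.mk_a]; exact this) :
          p ∣ a x * b)).elim (fun h => hx (by rw [← D.mk_a x]; exact mk_eq_zero.2 h)) hb
      rw [CT_eq D.hC D.tf (pow_ne_zero 2 P0) (mul_ne_zero D.p0 b0)
        ((D.cop hn).mul_right ((hpb.mul_left h).add_mul_right_left (a x)))
        (by push_cast; ring) (by push_cast; ring), sr_mul_right _ D.p0 b0,
        sr_congr (x' := a x * b) D.p0 (by simp), sr_congr (x := p * α + a x * b) (x' := p * α) b0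
          (by simp), sr_mul_left _ _ D.p0, sr_mul_left _ _ b0, D.chi_a, D.cr2,
        D.shift_f x (A := p * α) (coe_ne (mul_ne_zero D.p0 b0)) (by push_cast; field_simp)]
      push_cast
      ring
  have e2 : CT (opC (p : F) f) ((p : F) ^ 3 * α) b =
      κ * sr α b * ((absS (p : F) : ℂ) ^ 3)⁻¹ * CF f α b := by
    rw [CT_eq D.hC D.tC one_ne_zero b0 (hpb.pow_left.mul_left h : IsCoprime (p ^ 3 * α) b)
      (by push_cast; ring) (one_mul _).symm, sr_mul_left _ _ b0, sr_pow_left _ b0, hu,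
      D.P2 (A := α) B0 (by push_cast; ring), cr1]
    ring
  have e3 : ∀ x, chi p x ^ 2 * CT (opT (p : F) f) ((p : F) ^ 2 * α + a x * b) (p * b) =
      chi p x ^ 3 * (κ * sr α b * ((absS (p : F) : ℂ) ^ 3)⁻¹ * CF f α b) := fun x => by
    by_cases hx : x = 0
    · rw [hx, chi_zero D.hp]; ring
    · have hn : ¬ p ∣ p ^ 2 * α + a x * b := fun h' => by
        have := mk_eq_zero.2 h'
        rw [D.mk_aff, mk_eq_zero.2 ((dvd_pow_self p two_ne_zero).mul_right α), zero_add] at this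
        exact (D.hp.dvd_or_dvd (mk_eq_zero.1 (by rw [map_mul, D.mk_a]; exact this) :
          p ∣ a x * b)).elim (fun h => hx (by rw [← D.mk_a x]; exact mk_eq_zero.2 h)) hb
      rw [CT_eq D.hC D.tT one_ne_zero (mul_ne_zero D.p0 b0)
        ((D.cop hn).mul_right ((hpb.pow_left.mul_left h).add_mul_right_left (a x)))
        (by push_cast; ring) (by push_cast; ring), sr_mul_right _ D.p0 b0,
        sr_congr (x' := a x * b) D.p0 (by simp [sq, mul_assoc]),
        sr_congr (x := p ^ 2 * α + a x * b) (x' := p ^ 2 * α) b0 (by simp), sr_mul_left _ _ D.p0,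
        sr_mul_left _ _ b0, sr_pow_left _ b0, D.chi_a, cr1,
        D.shift_T x (A := (p : F) ^ 2 * α) (coe_ne (mul_ne_zero D.p0 b0))
          (by push_cast; field_simp),
        D.P3 (A := α) (B := b) B0 rfl (by push_cast; rfl), conj_cc b0 D.p0 (D.cop hb)]
      linear_combination (chi p x ^ 3 * κ * sr α b * ((absS (p : F) : ℂ) ^ 3)⁻¹ * CF f α b) *
        (sr p b ^ 3 * hv + hu)
  unfold HK
  simp only [e1, e2, e3, Finset.sum_add_distrib, ← Finset.sum_mul, sum_chi D.hp, sum_chi_cube D.hp,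
    D.card, Finset.sum_ite_eq', Finset.mem_univ, if_true]
  field_simp
  ring

theorem HK1 {α b : RR F} (h : IsCoprime α b) (hb : ¬ p ∣ b) :
    HK f p a α ((p : F) * b) := by
  classical
  have b0 : b ≠ 0 := by rintro rfl; exact hb (dvd_zero _)
  have B0 := coe_ne b0
  have P0 := D.P0
  have s0 := D.s0
  have hpb : IsCoprime p b := (D.cop hb).symm
  have hu := sr_cube b0 hpb
  have hv := sr_cube D.p0 (D.cop hb)
  have e1 : ∀ x, CT f ((p : F) ^ 3 * α + a x * (p : F) ^ 2 * (p * b)) ((p : F) ^ 3 * (p * b)) =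
      chi p (rd p α + x * rd p b) * ((cr (p : F) : ℂ) ^ 6 * κ * sr α b * CF f α (p * b)) +
        if rd p α + x * rd p b = 0 then
          (cr (p : F) : ℂ) ^ 8 * κ * sr α b * sr p b ^ 2 * CF f (α / p) b else 0 := fun x => by
    split_ifs with hx
    · obtain ⟨a', ha'⟩ : p ∣ α + a x * b := mk_eq_zero.1 (by rw [D.mk_aff, hx])
      have ha : (α : F) + a x * b = p * a' := congrArg Subtype.val ha'
      have hc : IsCoprime a' b :=
        (show IsCoprime (p * a') b from ha' ▸ h.add_mul_right_left (a x)).of_mul_left_right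
      have hs : sr p b * sr a' b = sr α b := by
        rw [← sr_mul_left _ _ b0, ← ha']; exact sr_congr b0 (by simp)
      rw [CT_eq D.hC D.tf (pow_ne_zero 4 P0) b0 hc
        (by linear_combination (p : F) ^ 3 * ha) (by ring),
        D.shift_f x (A := α / p) B0 (by field_simp; linear_combination -ha), D.cr4, hx,
        chi_zero D.hp, ← hs]
      linear_combination (-(cr (p : F) : ℂ) ^ 8 * κ * sr a' b * CF f (α / p) b) * hu
    · have hn : ¬ p ∣ α + a x * b := fun h' => hx (by rw [← D.mk_aff]; exact mk_eq_zero.2 h')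
      rw [CT_eq D.hC D.tf (pow_ne_zero 3 P0) (mul_ne_zero D.p0 b0)
        ((D.cop hn).mul_right (h.add_mul_right_left (a x)))
        (by push_cast; ring) (by push_cast; ring), sr_mul_right _ D.p0 b0,
        sr_congr (x := α + a x * b) (x' := α) b0 (by simp), ← chi_mk D.p0, D.mk_aff, D.cr3,
        D.shift_f x (A := α) (coe_ne (mul_ne_zero D.p0 b0)) (by push_cast; field_simp)]
      push_cast
      ring
  have e2 : CT (opC (p : F) f) ((p : F) ^ 3 * α) (p * b) = (cr (p : F) : ℂ) ^ 2 *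
      κ * sr α b * sr p b ^ 2 * ((absS (p : F) : ℂ) ^ 3)⁻¹ * CF f (α / p) b := by
    rw [CT_eq D.hC D.tC P0 b0 (hpb.pow_left.mul_left h : IsCoprime (p ^ 2 * α) b)
      (by push_cast; ring) rfl, sr_mul_left _ _ b0, sr_pow_left _ b0,
      D.P2 (A := α / p) B0 (by push_cast; field_simp)]
    ring
  have e3 : ∀ x, chi p x ^ 2 * CT (opT (p : F) f) ((p : F) ^ 2 * α + a x * (p * b)) (p * (p * b)) =
      chi p x ^ 3 * ((cr (p : F) : ℂ) ^ 2 *
        κ * sr α b * sr p b ^ 2 * ((absS (p : F) : ℂ) ^ 3)⁻¹ * CF f (α / p) b) := fun x => by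
    by_cases hx : x = 0
    · rw [hx, chi_zero D.hp]; ring
    · have hn : ¬ p ∣ p * α + a x * b := fun h' => by
        have := mk_eq_zero.2 h'
        rw [D.mk_aff, mk_eq_zero.2 (dvd_mul_right p α), zero_add] at this
        exact (D.hp.dvd_or_dvd (mk_eq_zero.1 (by rw [map_mul, D.mk_a]; exact this) :
          p ∣ a x * b)).elim (fun h => hx (by rw [← D.mk_a x]; exact mk_eq_zero.2 h)) hb
      rw [CT_eq D.hC D.tT P0 (mul_ne_zero D.p0 b0)
        ((D.cop hn).mul_right ((hpb.mul_left h).add_mul_right_left (a x)))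
        (by push_cast; ring) (by push_cast; ring), sr_mul_right _ D.p0 b0,
        sr_congr (x' := a x * b) D.p0 (by simp),
        sr_congr (x := p * α + a x * b) (x' := p * α) b0 (by simp), sr_mul_left _ _ D.p0,
        sr_mul_left _ _ b0, D.chi_a,
        D.shift_T x (A := (p : F) * α) (coe_ne (mul_ne_zero D.p0 b0))
          (by push_cast; field_simp),
        D.P3 (A := α / p) (B := b) B0 (by field_simp) (by push_cast; rfl),
        conj_cc b0 D.p0 (D.cop hb)]
      linear_combination (chi p x ^ 3 * (cr (p : F) : ℂ) ^ 2 * κ * sr α b * sr p b ^ 2 *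
        ((absS (p : F) : ℂ) ^ 3)⁻¹ * CF f (α / p) b) * hv
  unfold HK
  simp only [e1, e2, e3, Finset.sum_add_distrib, ← Finset.sum_mul, sum_chi_aff D.hp (mk_ne hb),
    sum_chi_cube D.hp, D.card, sum_delta D.hp (mk_ne hb)]
  field_simp
  ring

theorem HK2 {α b : RR F} (h : IsCoprime α b) (hb : ¬ p ∣ b) (hα : ¬ p ∣ α) :
    HK f p a α ((p : F) ^ 2 * b) := by
  classical
  have b0 : b ≠ 0 := by rintro rfl; exact hb (dvd_zero _)
  have B0 := coe_ne b0
  have P0 := D.P0
  have s0 := D.s0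
  have hpb : IsCoprime p b := (D.cop hb).symm
  have hu := sr_cube b0 hpb
  have hv := sr_cube D.p0 (D.cop hb)
  have e1 : ∀ x, CT f ((p : F) ^ 3 * α + a x * (p : F) ^ 2 * ((p : F) ^ 2 * b))
      ((p : F) ^ 3 * ((p : F) ^ 2 * b)) =
      (cr (p : F) : ℂ) ^ 6 * κ * sr α p ^ 2 * sr α b * CF f α ((p : F) ^ 2 * b) := fun x => by
    have hn : ¬ p ∣ α + a x * p * b := fun h' =>
      hα ((dvd_add_left (((dvd_mul_left p (a x))).mul_right b)).1 h')
    rw [CT_eq D.hC D.tf (pow_ne_zero 3 P0) (mul_ne_zero (pow_ne_zero 2 D.p0) b0)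
      ((D.cop hn).pow_right.mul_right (h.add_mul_right_left (a x * p)))
      (by push_cast; ring) (by push_cast; ring), sr_mul_right _ (pow_ne_zero 2 D.p0) b0,
      sr_pow_right _ D.p0, sr_congr (x := α + a x * p * b) (x' := α) b0 (by simp),
      sr_congr (x := α + a x * p * b) (x' := α) D.p0
        (by simpa using (dvd_mul_left p (a x)).mul_right b), D.cr3,
      D.shift_f x (A := α) (coe_ne (mul_ne_zero (pow_ne_zero 2 D.p0) b0))
        (by push_cast; field_simp)]
    push_cast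
    ring
  have e2 : CT (opC (p : F) f) ((p : F) ^ 3 * α) ((p : F) ^ 2 * b) = (cr (p : F) : ℂ) ^ 4 *
      κ * sr α b * sr p b * ((absS (p : F) : ℂ) ^ 3)⁻¹ * CF f (α / (p : F) ^ 2) b := by
    rw [CT_eq D.hC D.tC (pow_ne_zero 2 P0) b0 (hpb.mul_left h)
      (by push_cast; ring) rfl, sr_mul_left _ _ b0, D.cr2,
      D.P2 (A := α / (p : F) ^ 2) B0 (by push_cast; field_simp)]
    ring
  have e3 : ∀ x, chi p x ^ 2 * CT (opT (p : F) f) ((p : F) ^ 2 * α + a x * ((p : F) ^ 2 * b))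
      (p * ((p : F) ^ 2 * b)) =
      chi p x ^ 2 * chi p (rd p α + x * rd p b) * ((cr (p : F) : ℂ) ^ 4 *
        κ * sr α b * sr b p ^ 2 * sr p b * ((absS (p : F) : ℂ) ^ 3)⁻¹ *
          CF f (α / (p : F) ^ 2) b) + chi p x ^ 2 *
        if rd p α + x * rd p b = 0 then (cr (p : F) : ℂ) ^ 6 * κ * sr α b * sr b p ^ 2 *
          (absS (p : F) : ℂ)⁻¹ * CF f α ((p : F) ^ 2 * b) else 0 := fun x => by
    split_ifs with hx
    · obtain ⟨a', ha'⟩ : p ∣ α + a x * b := mk_eq_zero.1 (by rw [D.mk_aff, hx])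
      have ha : (α : F) + a x * b = p * a' := congrArg Subtype.val ha'
      have hc : IsCoprime a' b :=
        (show IsCoprime (p * a') b from ha' ▸ h.add_mul_right_left (a x)).of_mul_left_right
      have hs : sr p b * sr a' b = sr α b := by
        rw [← sr_mul_left _ _ b0, ← ha']; exact sr_congr b0 (by simp)
      rw [CT_eq D.hC D.tT (pow_ne_zero 3 P0) b0 hc
        (by linear_combination (p : F) ^ 2 * ha) (by ring),
        D.shift_T x (A := α / p) B0 (by field_simp; linear_combination -ha), D.cr3, hx,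
        chi_zero D.hp, ← hs,
        D.P3 (A := α / (p : F) ^ 3) (B := b / p) (div_ne_zero B0 P0) (by field_simp) (by field_simp),
        cc_div_self B0 P0, conj_cc b0 D.p0 (D.cop hb),
        D.P1 (A' := α) (B' := (p : F) ^ 2 * b) (div_ne_zero B0 P0) (by field_simp) (by field_simp)]
      field_simp
      ring
    · have hn : ¬ p ∣ α + a x * b := fun h' => hx (by rw [← D.mk_aff]; exact mk_eq_zero.2 h')
      rw [CT_eq D.hC D.tT (pow_ne_zero 2 P0) (mul_ne_zero D.p0 b0)
        ((D.cop hn).mul_right (h.add_mul_right_left (a x)))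
        (by push_cast; ring) (by push_cast; ring), sr_mul_right _ D.p0 b0,
        sr_congr (x := α + a x * b) (x' := α) b0 (by simp), ← chi_mk D.p0, D.mk_aff, D.cr2,
        D.shift_T x (A := α) (coe_ne (mul_ne_zero D.p0 b0)) (by push_cast; field_simp),
        D.P3 (A := α / (p : F) ^ 2) (B := b) B0 (by field_simp) (by push_cast; rfl),
        conj_cc b0 D.p0 (D.cop hb)]
      ring
  unfold HK
  simp only [e1, e2, e3, Finset.sum_add_distrib, ← Finset.sum_mul, sum_jac D.hp (mk_ne hα),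
    sum_delta_sq D.hp (mk_ne hb), Finset.sum_const, Finset.card_univ, nsmul_eq_mul, D.card,
    chi_mk D.p0]
  field_simp
  linear_combination ((cr (p : F) : ℂ) ^ 10 * κ * sr α b * (sr p b * CF f (α / (p : F) ^ 2) b -
    (cr (p : F) : ℂ) ^ 2 * sr α p ^ 2 * (absS (p : F) : ℂ) ^ 2 * CF f α ((p : F) ^ 2 * b))) * hv

theorem HK3 {α b : RR F} (h : IsCoprime α b) (b0 : b ≠ 0) (hα : ¬ p ∣ α) :
    HK f p a α ((p : F) ^ 3 * b) := by
  classical
  have B0 := coe_ne b0
  have P0 := D.P0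
  have s0 := D.s0
  have hz := sr_cube D.p0 (D.cop hα)
  have e1 : ∀ x, CT f ((p : F) ^ 3 * α + a x * (p : F) ^ 2 * ((p : F) ^ 3 * b))
      ((p : F) ^ 3 * ((p : F) ^ 3 * b)) =
      (cr (p : F) : ℂ) ^ 6 * κ * sr α b * CF f α ((p : F) ^ 3 * b) := fun x => by
    have hd : p ∣ a x * p ^ 2 * b := ((dvd_pow_self p two_ne_zero).mul_left (a x)).mul_right b
    have hn : ¬ p ∣ α + a x * p ^ 2 * b := fun h' => hα ((dvd_add_left hd).1 h')
    rw [CT_eq D.hC D.tf (pow_ne_zero 3 P0) (mul_ne_zero (pow_ne_zero 3 D.p0) b0)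
      ((D.cop hn).pow_right.mul_right (h.add_mul_right_left (a x * p ^ 2)))
      (by push_cast; ring) (by push_cast; ring), sr_mul_right _ (pow_ne_zero 3 D.p0) b0,
      sr_pow_right _ D.p0, sr_congr (x := α + a x * p ^ 2 * b) (x' := α) b0 (by simp),
      sr_congr (x := α + a x * p ^ 2 * b) (x' := α) D.p0 (by simpa using hd), D.cr3, hz,
      D.shift_f x (A := α) (coe_ne (mul_ne_zero (pow_ne_zero 3 D.p0) b0))
        (by push_cast; field_simp)]
    push_cast
    ring
  have e2 : CT (opC (p : F) f) ((p : F) ^ 3 * α) ((p : F) ^ 3 * b) = (cr (p : F) : ℂ) ^ 6 *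
      κ * sr α b * (absS (p : F) : ℂ)⁻¹ * CF f α ((p : F) ^ 3 * b) := by
    rw [CT_eq D.hC D.tC (pow_ne_zero 3 P0) b0 h rfl rfl, D.cr3,
      D.P2 (A := α / (p : F) ^ 3) B0 (by field_simp),
      D.P1 (A' := α) (B' := (p : F) ^ 3 * b) B0 (by field_simp) rfl]
    field_simp
  have e3 : ∀ x, CT (opT (p : F) f) ((p : F) ^ 2 * α + a x * ((p : F) ^ 3 * b))
      (p * ((p : F) ^ 3 * b)) = (cr (p : F) : ℂ) ^ 4 * κ * sr α p ^ 2 * sr α b *
        CF (opT (p : F) f) α ((p : F) ^ 2 * b) := fun x => by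
    have hn : ¬ p ∣ α + a x * p * b := fun h' =>
      hα ((dvd_add_left (((dvd_mul_left p (a x))).mul_right b)).1 h')
    rw [CT_eq D.hC D.tT (pow_ne_zero 2 P0) (mul_ne_zero (pow_ne_zero 2 D.p0) b0)
      ((D.cop hn).pow_right.mul_right (h.add_mul_right_left (a x * p)))
      (by push_cast; ring) (by push_cast; ring), sr_mul_right _ (pow_ne_zero 2 D.p0) b0,
      sr_pow_right _ D.p0, sr_congr (x := α + a x * p * b) (x' := α) b0 (by simp),
      sr_congr (x := α + a x * p * b) (x' := α) D.p0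
        (by simpa using (dvd_mul_left p (a x)).mul_right b), D.cr2,
      D.shift_T x (A := α) (coe_ne (mul_ne_zero (pow_ne_zero 2 D.p0) b0))
        (by push_cast; field_simp)]
    push_cast
    ring
  unfold HK
  simp only [e1, e2, e3, ← Finset.sum_mul, sum_chi_sq D.hp, Finset.sum_const, Finset.card_univ,
    nsmul_eq_mul, D.card]
  field_simp
  ring

theorem HK_all {α β : RR F} (h : IsCoprime α β) (hβ : β ≠ 0) : HK f p a α β := by
  by_cases h1 : p ∣ β
  swap
  · exact D.HK0 h h1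
  obtain ⟨b1, rfl⟩ := h1
  have hα : ¬ p ∣ α := D.hp.coprime_iff_not_dvd.1 h.of_mul_right_left.symm
  by_cases h2 : p ∣ b1
  swap
  · exact D.HK1 h.of_mul_right_right h2
  obtain ⟨b2, rfl⟩ := h2
  by_cases h3 : p ∣ b2
  swap
  · have := D.HK2 h.of_mul_right_right.of_mul_right_right h3 hα
    rwa [show (p : F) ^ 2 * b2 = ((p * (p * b2) : RR F) : F) by push_cast; ring] at this
  obtain ⟨b3, rfl⟩ := h3
  have := D.HK3 h.of_mul_right_right.of_mul_right_right.of_mul_right_right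
    (by rintro rfl; exact hβ (by simp)) hα
  rwa [show (p : F) ^ 3 * b3 = ((p * (p * (p * b3)) : RR F) : F) by push_cast; ring] at this

end Dat

end Crest.Agent.T27.TH.C50
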