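import Crest.Agent.T27.ThB_54
import Crest.Agent.T27.Mean_82

/-!
# Row 27, theta function, leaf B2 (part 1): the calculus of `S`-adic integrals
-/

set_option autoImplicit false

noncomputable section

namespace Crest.Agent.T27.TH

open scoped ComplexConjugate
open NumberField

namespace I54

variable {F : Type} [Field F] [NumberField F] [Emb F] [Ar F]

local notation "𝐍" => ((Ar.N F : ℕ) : F)
local notation "𝐑" => (Ar.R : Subring F)
local notation "𝐋" => (Ar.L : Subring F)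

theorem N_ne_nat : Ar.N F ≠ 0 := by have := Ar.two_le (F := F); omega

theorem N_ne : 𝐍 ≠ 0 := by exact_mod_cast N_ne_nat (F := F)

theorem R_of_int {x : F} (h : IsIntegral ℤ x) : x ∈ 𝐑 := (Ar.mem_R x).2 ⟨0, by simpa using h⟩

theorem L_of_int {x : F} (h : IsIntegral ℤ x) : x ∈ 𝐋 :=
  (Ar.mem_L x).2 ⟨1, Nat.coprime_one_left _, by simpa using h⟩

theorem Npow_L (j : ℕ) : 𝐍 ^ j ∈ 𝐋 := Subring.pow_mem _ (natCast_mem _ _) _

theorem Npow_R (j : ℕ) : 𝐍 ^ j ∈ 𝐑 := Subring.pow_mem _ (natCast_mem _ _) _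

theorem Ninv_R : 𝐍⁻¹ ∈ 𝐑 :=
  (Ar.mem_R _).2 ⟨1, by rw [pow_one, mul_inv_cancel₀ N_ne]; exact isIntegral_one⟩

theorem L_of_cube {z : F} (h : z ^ 3 ∈ 𝐋) : z ∈ 𝐋 := by
  obtain ⟨m, hm, hi⟩ := (Ar.mem_L _).1 h
  refine (Ar.mem_L _).2 ⟨m, hm, IsIntegral.of_pow (n := 3) (by norm_num) ?_⟩
  have : ((m : F) * z) ^ 3 = (m : F) ^ 2 * ((m : F) * z ^ 3) := by ring
  rw [this]
  exact ((M82.int_nat m).pow 2).mul hi

/-- boundedness is monotone in the level -/
theorem bd_mono {j J : ℕ} {x : F} (h : 𝐍 ^ j * x ∈ 𝐋) (hj : j ≤ J) : 𝐍 ^ J * x ∈ 𝐋 := by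
  obtain ⟨k, rfl⟩ := Nat.exists_eq_add_of_le hj
  have : 𝐍 ^ (j + k) * x = 𝐍 ^ k * (𝐍 ^ j * x) := by ring
  rw [this]
  exact Subring.mul_mem _ (Npow_L k) h

theorem deep_zero (j : ℕ) : Deep j (0 : F) := ⟨0, Subring.zero_mem _, by simp⟩

theorem deep_add {j : ℕ} {x y : F} (hx : Deep j x) (hy : Deep j y) : Deep j (x + y) := by
  obtain ⟨a, ha, rfl⟩ := hx
  obtain ⟨b, hb, rfl⟩ := hy
  exact ⟨a + b, Subring.add_mem _ ha hb, by ring⟩

theorem deep_neg {j : ℕ} {x : F} (hx : Deep j x) : Deep j (-x) := by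
  obtain ⟨a, ha, rfl⟩ := hx
  exact ⟨-a, Subring.neg_mem _ ha, by ring⟩

theorem deep_mul {j : ℕ} {x y : F} (hx : Deep j x) (hy : y ∈ 𝐋) : Deep j (x * y) := by
  obtain ⟨a, ha, rfl⟩ := hx
  exact ⟨a * y, Subring.mul_mem _ ha hy, by ring⟩

theorem deep_mono {j J : ℕ} {x : F} (hx : Deep J x) (hj : j ≤ J) : Deep j x := by
  obtain ⟨k, rfl⟩ := Nat.exists_eq_add_of_le hj
  obtain ⟨a, ha, rfl⟩ := hx
  exact ⟨𝐍 ^ k * a, Subring.mul_mem _ (Npow_L k) ha, by ring⟩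

theorem deep_L {j : ℕ} {x : F} (hx : Deep j x) : x ∈ 𝐋 := by
  obtain ⟨a, ha, rfl⟩ := hx
  exact Subring.mul_mem _ (Npow_L j) ha

/-- a deep element times a bounded element -/
theorem deep_mul_bd {j k : ℕ} {x y : F} (hx : Deep (j + k) x) (hy : 𝐍 ^ k * y ∈ 𝐋) :
    Deep j (x * y) := by
  obtain ⟨a, ha, rfl⟩ := hx
  exact ⟨a * (𝐍 ^ k * y), Subring.mul_mem _ ha hy, by ring⟩

theorem sb_mono {j J : ℕ} {φ : F → ℂ} (h : SB j φ) (hj : j ≤ J) : SB J φ :=
  ⟨fun x y hy => h.1 x y (deep_mono hy hj), fun x hx => bd_mono (h.2 x hx) hj⟩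

theorem sb_shift {j : ℕ} {φ : F → ℂ} (h : SB j φ) (b : F) : ∃ J, SB J fun x => φ (x + b) := by
  obtain ⟨k, hk⟩ := Ar.pow_mem_L b
  refine ⟨j + k, fun x y hy => ?_, fun x hx => ?_⟩
  · show φ (x + y + b) = φ (x + b)
    rw [add_right_comm]
    exact h.1 _ _ (deep_mono hy (by omega))
  · have h1 := bd_mono (h.2 _ hx) (show j ≤ j + k by omega)
    have h2 := bd_mono hk (show k ≤ j + k by omega)
    have := Subring.sub_mem _ h1 h2
    convert this using 1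
    ring

theorem sb_scale_aux {j k : ℕ} {φ : F → ℂ} (h : SB j φ) {m : F} (hm : m ≠ 0)
    (h1 : 𝐍 ^ k * m ∈ 𝐋) (h2 : 𝐍 ^ k * m⁻¹ ∈ 𝐋) : SB (j + k) fun x => φ (m * x) := by
  refine ⟨fun x y hy => ?_, fun x hx => ?_⟩
  · show φ (m * (x + y)) = φ (m * x)
    rw [mul_add, mul_comm m y]
    exact h.1 _ _ (deep_mul_bd hy h1)
  · have := Subring.mul_mem _ (h.2 _ hx) h2
    convert this using 1
    field_simp
    ring

theorem exists_bd2 (m : F) : ∃ k : ℕ, 𝐍 ^ k * m ∈ 𝐋 ∧ 𝐍 ^ k * m⁻¹ ∈ 𝐋 := by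
  obtain ⟨k, hk⟩ := Ar.pow_mem_L m
  obtain ⟨k', hk'⟩ := Ar.pow_mem_L m⁻¹
  exact ⟨k + k', bd_mono hk (by omega), bd_mono hk' (by omega)⟩

theorem sb_scale {j : ℕ} {φ : F → ℂ} (h : SB j φ) {m : F} (hm : m ≠ 0) :
    ∃ J, SB J fun x => φ (m * x) := by
  obtain ⟨k, h1, h2⟩ := exists_bd2 m
  exact ⟨j + k, sb_scale_aux h hm h1 h2⟩

theorem sb_add {j : ℕ} {φ ψ : F → ℂ} (h : SB j φ) (h' : SB j ψ) : SB j fun x => φ x + ψ x := by
  refine ⟨fun x y hy => by simp only [h.1 x y hy, h'.1 x y hy], fun x hx => ?_⟩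
  by_cases h0 : φ x = 0
  · exact h'.2 x (by simpa [h0] using hx)
  · exact h.2 x h0

theorem indR_mem {φ : F → ℂ} {x : F} (h : x ∈ 𝐑) : indR φ x = φ x :=
  Set.indicator_of_mem (by exact h) φ

theorem indR_not {φ : F → ℂ} {x : F} (h : x ∉ 𝐑) : indR φ x = 0 :=
  Set.indicator_of_notMem (by exact h) φ

/-- The residue class `b + m R`. -/
def cl (m b : F) : Set F := {x | (x - b) / m ∈ 𝐑}

theorem cl_R {m b x : F} (hm0 : m ≠ 0) (hm : m ∈ 𝐑) (hb : b ∈ 𝐑) (hx : x ∈ cl m b) : x ∈ 𝐑 := by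
  have := Subring.add_mem _ (Subring.mul_mem _ hm hx) hb
  convert this using 1
  field_simp
  ring

theorem per_cl {j : ℕ} {φ : F → ℂ} (h : SB j φ) {m b : F} (hm0 : m ≠ 0) (hm : m ∈ 𝐑)
    (hb : b ∈ 𝐑) : Per ((cl m b).indicator φ) := by
  obtain ⟨D, hD, hDi⟩ := M82.exists_den m⁻¹
  refine ⟨Ar.N F ^ j * D, mul_ne_zero (pow_ne_zero _ N_ne_nat) hD, ?_, ?_⟩
  · rintro x _ ⟨y, hy, rfl⟩
    have e1 : φ (x + ((Ar.N F ^ j * D : ℕ) : F) * y) = φ x :=
      h.1 _ _ ⟨D * y, L_of_int ((M82.int_nat D).mul hy), by push_cast; ring⟩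
    have e2 : ((Ar.N F ^ j * D : ℕ) : F) * y / m ∈ 𝐑 := by
      have := Subring.mul_mem _ (Npow_R j) (R_of_int (hDi.mul hy))
      convert this using 1
      push_cast
      field_simp
    have e3 : x + ((Ar.N F ^ j * D : ℕ) : F) * y ∈ cl m b ↔ x ∈ cl m b := by
      simp only [cl, Set.mem_ofPred_eq]
      have : (x + ((Ar.N F ^ j * D : ℕ) : F) * y - b) / m =
          (x - b) / m + ((Ar.N F ^ j * D : ℕ) : F) * y / m := by ring
      rw [this]
      exact add_mem_cancel_right e2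
    by_cases hx : x ∈ cl m b
    · rw [Set.indicator_of_mem hx, Set.indicator_of_mem (e3.2 hx), e1]
    · rw [Set.indicator_of_notMem hx, Set.indicator_of_notMem (fun h => hx (e3.1 h))]
  · intro x hx
    have hx1 : x ∈ cl m b := Set.mem_of_indicator_ne_zero hx
    rw [Set.indicator_of_mem hx1] at hx
    have := (M82.int_nat D).mul
      (Ar.int_of _ (Subring.mul_mem _ (Npow_R j) (cl_R hm0 hm hb hx1)) (h.2 x hx))
    have e : ((Ar.N F ^ j * D : ℕ) : F) * x = (D : F) * (𝐍 ^ j * x) := by push_cast; ring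
    rw [e]
    exact this

theorem cl_one : cl (1 : F) 0 = (𝐑 : Set F) := by ext x; simp [cl]

theorem per {j : ℕ} {φ : F → ℂ} (h : SB j φ) : Per (indR φ) := by
  have := per_cl h one_ne_zero (Subring.one_mem _) (Subring.zero_mem _)
  rwa [cl_one] at this

omit [Emb F] [Ar F] in
theorem mean_zero : mean (fun _ : F => (0 : ℂ)) = 0 := by
  unfold mean
  split_ifs <;> simp [meanN]

theorem intS_zero : intS (fun _ : F => (0 : ℂ)) = 0 := by
  have : indR (fun _ : F => (0 : ℂ)) = fun _ => 0 := by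
    funext x; by_cases hx : x ∈ 𝐑
    · rw [indR_mem hx]
    · rw [indR_not hx]
  rw [intS, this, mean_zero]

variable (hM : MeanStmt F)
include hM

theorem intS_add {j : ℕ} {φ ψ : F → ℂ} (h : SB j φ) (h' : SB j ψ) :
    intS (fun x => φ x + ψ x) = intS φ + intS ψ := by
  have : indR (fun x => φ x + ψ x) = indR φ + indR ψ := by
    funext x; by_cases hx : x ∈ 𝐑
    · simp only [Pi.add_apply, indR_mem hx]
    · simp only [Pi.add_apply, indR_not hx, add_zero]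
  rw [intS, this, (hM.add _ _ (per h) (per h')).2]
  rfl

theorem intS_smul {j : ℕ} {φ : F → ℂ} (h : SB j φ) (a : ℂ) :
    intS (fun x => a * φ x) = a * intS φ := by
  have : indR (fun x => a * φ x) = fun x => a * indR φ x := by
    funext x; by_cases hx : x ∈ 𝐑
    · simp only [indR_mem hx]
    · simp only [indR_not hx, mul_zero]
  rw [intS, this, (hM.smul _ _ (per h)).2]
  rfl

theorem shift {j : ℕ} {φ : F → ℂ} (h : SB j φ) (b : F) : intS (fun x => φ (x + b)) = intS φ := by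
  obtain ⟨r, hr, l, hl, rfl⟩ := Ar.approx b (𝐍 ^ j) (pow_ne_zero _ N_ne)
  have : indR (fun x => φ (x + (r + 𝐍 ^ j * l))) = fun x => indR φ (x + r) := by
    funext x; by_cases hx : x ∈ 𝐑
    · rw [indR_mem hx, indR_mem (Subring.add_mem _ hx hr), ← add_assoc]
      exact h.1 _ _ ⟨l, hl, rfl⟩
    · rw [indR_not hx, indR_not (fun h => hx ((add_mem_cancel_right hr).1 h))]
  rw [intS, this, (hM.shift _ _ (per h)).2]
  rfl

theorem mean_cl_eq {j : ℕ} {φ : F → ℂ} (h : SB j φ) {m b : F} (hm0 : m ≠ 0) (hm : m ∈ 𝐑)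
    (hb : b ∈ 𝐑) : mean ((cl m b).indicator φ) = mean ((cl m 0).indicator φ) := by
  obtain ⟨r, hr, l, hl, e⟩ := Ar.approx (b / m) (𝐍 ^ j / m) (div_ne_zero (pow_ne_zero _ N_ne) hm0)
  rw [← (hM.shift _ (𝐍 ^ j * l) (per_cl h hm0 hm hb)).2]
  congr 1
  funext x
  have e1 : φ (x + 𝐍 ^ j * l) = φ x := h.1 _ _ ⟨l, hl, rfl⟩
  have e3 : x + 𝐍 ^ j * l ∈ cl m b ↔ x ∈ cl m 0 := by
    simp only [cl, Set.mem_ofPred_eq]
    have : (x + 𝐍 ^ j * l - b) / m = (x - 0) / m + -r := by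
      rw [sub_div, e]; ring
    rw [this]
    exact add_mem_cancel_right (Subring.neg_mem _ hr)
  by_cases hx : x ∈ cl m 0
  · rw [Set.indicator_of_mem hx, Set.indicator_of_mem (e3.2 hx), e1]
  · rw [Set.indicator_of_notMem hx, Set.indicator_of_notMem (fun h => hx (e3.1 h))]

theorem mean_sum {ι : Type} (s : Finset ι) (φ : ι → F → ℂ) (h : ∀ i ∈ s, Per (φ i)) :
    Per (∑ i ∈ s, φ i) ∧ mean (∑ i ∈ s, φ i) = ∑ i ∈ s, mean (φ i) := by
  classical
  induction s using Finset.induction_on with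
  | empty =>
    simp only [Finset.sum_empty]
    exact ⟨⟨1, one_ne_zero, fun _ _ _ => rfl, fun _ h => absurd rfl h⟩, mean_zero⟩
  | insert i s hi ih =>
    have h1 := ih fun k hk => h k (Finset.mem_insert_of_mem hk)
    have h2 := hM.add _ _ (h i (Finset.mem_insert_self _ _)) h1.1
    rw [Finset.sum_insert hi, Finset.sum_insert hi]
    exact ⟨h2.1, by rw [h2.2, h1.2]⟩

theorem coset {j : ℕ} {φ : F → ℂ} (h : SB j φ) {m b : F} (hm0 : m ≠ 0) (hm : m ∈ 𝐑)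
    (hb : b ∈ 𝐑) : mean ((cl m b).indicator φ) = ((Ar.nm m)⁻¹ : ℝ) * intS φ := by
  classical
  let m' : RR F := ⟨m, hm⟩
  have hm' : m' ≠ 0 := fun h => hm0 (congrArg Subtype.val h)
  have := Ar.fin_quot m' hm'
  have := Fintype.ofFinite (RR F ⧸ Ideal.span {m'})
  have key : ∀ (x : RR F) (q : RR F ⧸ Ideal.span {m'}),
      (x : F) ∈ cl m ((q.out : RR F) : F) ↔ q = Ideal.Quotient.mk _ x := by
    intro x q
    rw [eq_comm, ← Ideal.Quotient.mk_out q, Ideal.Quotient.eq, Ideal.mem_span_singleton,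
      Ideal.Quotient.mk_out]
    constructor
    · intro hx
      refine ⟨⟨_, hx⟩, Subtype.ext ?_⟩
      show (x : F) - ((q.out : RR F) : F) = m * (((x : F) - ((q.out : RR F) : F)) / m)
      field_simp
    · rintro ⟨t, ht⟩
      have : (x : F) - ((q.out : RR F) : F) = m * (t : F) := congrArg Subtype.val ht
      show ((x : F) - ((q.out : RR F) : F)) / m ∈ 𝐑
      rw [this, mul_div_cancel_left₀ _ hm0]
      exact t.2
  have hsum : indR φ = ∑ q : RR F ⧸ Ideal.span {m'}, (cl m ((q.out : RR F) : F)).indicator φ := by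
    funext x
    rw [Finset.sum_apply]
    by_cases hx : x ∈ 𝐑
    · rw [indR_mem hx, Finset.sum_eq_single (Ideal.Quotient.mk _ ⟨x, hx⟩)]
      · exact (Set.indicator_of_mem ((key ⟨x, hx⟩ _).2 rfl) φ).symm
      · intro q _ hq
        exact Set.indicator_of_notMem (fun h => hq ((key ⟨x, hx⟩ q).1 h)) φ
      · intro h; exact absurd (Finset.mem_univ _) h
    · rw [indR_not hx]
      exact (Finset.sum_eq_zero fun q _ =>
        Set.indicator_of_notMem (fun h => hx (cl_R hm0 hm (q.out : RR F).2 h)) φ).symm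
  have h1 := (mean_sum hM Finset.univ
    (fun q : RR F ⧸ Ideal.span {m'} => (cl m ((q.out : RR F) : F)).indicator φ)
    (fun q _ => per_cl h hm0 hm (q.out : RR F).2)).2
  rw [← hsum, Finset.sum_congr rfl fun q _ => mean_cl_eq hM h hm0 hm (q.out : RR F).2,
    Finset.sum_const, nsmul_eq_mul, Finset.card_univ, ← Nat.card_eq_fintype_card] at h1
  have h2 : Ar.nm m = (Nat.card (RR F ⧸ Ideal.span {m'}) : ℝ) := Ar.nm_eq m' hm'
  have h3 : (Ar.nm m : ℂ) ≠ 0 := by exact_mod_cast (Ar.nm_pos m hm0).ne'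
  rw [mean_cl_eq hM h hm0 hm hb, intS, h1]
  have h4 : ((Nat.card (RR F ⧸ Ideal.span {m'}) : ℕ) : ℂ) = (Ar.nm m : ℂ) := by
    rw [h2]; simp
  rw [h4]
  push_cast
  field_simp

omit hM in
theorem absS_pos {m : F} (hm : m ≠ 0) : 0 < absS m :=
  div_pos (Ar.nm_pos m hm) (lt_of_le_of_ne (M82.nF_nonneg m) (M82.nF_ne hm).symm)

omit hM in
theorem absS_mul (x y : F) : absS (x * y) = absS x * absS y := by
  simp only [absS, Ar.nm_mul, M82.nF_mul]; ring

omit hM in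
theorem absS_one : absS (1 : F) = 1 := by
  have h := absS_mul (1 : F) 1
  have h1 := (absS_pos (one_ne_zero (α := F))).ne'
  rw [mul_one] at h
  exact (mul_left_cancel₀ h1 (by rw [mul_one]; exact h)).symm

omit hM in
theorem absS_inv {m : F} (hm : m ≠ 0) : absS m⁻¹ = (absS m)⁻¹ :=
  eq_inv_of_mul_eq_one_left (by rw [← absS_mul, inv_mul_cancel₀ hm, absS_one])

omit hM in
theorem absS_pow (m : F) (n : ℕ) : absS (m ^ n) = absS m ^ n := by
  induction n with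
  | zero => simpa using absS_one
  | succ n ih => rw [pow_succ, absS_mul, ih, pow_succ]

theorem scale_R {j : ℕ} {φ : F → ℂ} (h : SB j φ) {m : F} (hm0 : m ≠ 0) (hm : m ∈ 𝐑) :
    intS (fun x => φ (m * x)) = ((absS m)⁻¹ : ℝ) * intS φ := by
  have : indR (fun x => φ (m * x)) = fun x => (cl m 0).indicator φ (m * x) := by
    funext x
    have e : m * x ∈ cl m 0 ↔ x ∈ 𝐑 := by
      simp only [cl, Set.mem_ofPred_eq, sub_zero, mul_div_cancel_left₀ _ hm0]
    by_cases hx : x ∈ 𝐑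
    · rw [indR_mem hx, Set.indicator_of_mem (e.2 hx)]
    · rw [indR_not hx, Set.indicator_of_notMem (fun h => hx (e.1 h))]
  rw [intS, this, (hM.scale _ _ (per_cl h hm0 hm (Subring.zero_mem _)) hm0).2,
    coset hM h hm0 hm (Subring.zero_mem _), absS]
  push_cast
  rw [inv_div]
  ring

theorem scale {j : ℕ} {φ : F → ℂ} (h : SB j φ) {m : F} (hm0 : m ≠ 0) :
    intS (fun x => φ (m * x)) = ((absS m)⁻¹ : ℝ) * intS φ := by
  obtain ⟨D, hD, hDi⟩ := M82.exists_den m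
  have hD0 : (D : F) ≠ 0 := by exact_mod_cast hD
  obtain ⟨J, hJ⟩ := sb_scale h (inv_ne_zero hD0)
  have h1 := scale_R hM hJ hD0 (natCast_mem _ _)
  have h2 := scale_R hM hJ (mul_ne_zero hD0 hm0) (R_of_int hDi)
  simp only [inv_mul_cancel_left₀ hD0, mul_assoc] at h1 h2
  have h3 : (absS (D : F) : ℂ) ≠ 0 := by exact_mod_cast (absS_pos hD0).ne'
  have h4 : intS φ = intS fun x => φ x := rfl
  rw [h2, h4, h1, absS_mul]
  push_cast
  rw [mul_inv]
  ring

/-- positivity -/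
theorem intS_pos {j : ℕ} {A : Set F} (h : SB j (A.indicator fun _ => (1 : ℂ))) {x₀ : F}
    (h0 : x₀ ∈ A) (hR : x₀ ∈ 𝐑) : ∃ r : ℝ, 0 < r ∧ intS (A.indicator fun _ => (1 : ℂ)) = r := by
  classical
  obtain ⟨M, hP⟩ := per h
  obtain ⟨S, -, -, hS1, hS2⟩ := hM.reps M hP.1
  have e := hM.sum _ M S hP hS1 fun x hx => hS2 x (hP.2.2 x hx)
  have v0 : indR (A.indicator fun _ => (1 : ℂ)) x₀ = 1 := by
    rw [indR_mem hR, Set.indicator_of_mem h0]
  obtain ⟨y, hy, hxy⟩ := hS2 x₀ (hP.2.2 x₀ (by rw [v0]; exact one_ne_zero))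
  have v1 : indR (A.indicator fun _ => (1 : ℂ)) y = 1 := by
    rw [← hP.2.1 y _ hxy, add_sub_cancel, v0]
  have hval : ∀ x, indR (A.indicator fun _ => (1 : ℂ)) x =
      ((if x ∈ 𝐑 ∧ x ∈ A then (1 : ℝ) else 0 : ℝ) : ℂ) := by
    intro x
    by_cases hx : x ∈ 𝐑
    · by_cases hA : x ∈ A
      · rw [indR_mem hx, Set.indicator_of_mem hA, if_pos ⟨hx, hA⟩]; simp
      · rw [indR_mem hx, Set.indicator_of_notMem hA, if_neg fun h => hA h.2]; simp
    · rw [indR_not hx, if_neg fun h => hx h.1]; simp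
  refine ⟨((M : ℝ) ^ Module.finrank ℚ F)⁻¹ * ∑ x ∈ S, if x ∈ 𝐑 ∧ x ∈ A then (1 : ℝ) else 0, ?_, ?_⟩
  · have hM0 : (0 : ℝ) < M := by exact_mod_cast Nat.pos_of_ne_zero hP.1
    refine mul_pos (by positivity) (Finset.sum_pos' (fun x _ => by positivity) ⟨y, hy, ?_⟩)
    rw [hval y] at v1
    have : (if y ∈ 𝐑 ∧ y ∈ A then (1 : ℝ) else 0) = 1 := by exact_mod_cast v1
    rw [this]; exact one_pos
  · rw [intS, e]
    simp only [hval]
    push_cast
    rfl

/-! ## double integrals -/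

omit hM in
theorem sb_intS {J : ℕ} {Φ : F → F → ℂ} (h2 : ∀ d, SB J fun x => Φ x d) :
    SB J fun x => intS (Φ x) := by
  refine ⟨fun x y hy => ?_, fun x hx => ?_⟩
  · have : Φ (x + y) = Φ x := funext fun d => (h2 d).1 x y hy
    simp only [this]
  · by_contra hc
    have : Φ x = fun _ => 0 := funext fun d => by
      by_contra h0
      exact hc ((h2 d).2 x h0)
    exact hx (by simp only [this, intS_zero])

theorem I2_add {J : ℕ} {Φ Ψ : F → F → ℂ} (h1 : ∀ x, SB J (Φ x)) (h2 : ∀ d, SB J fun x => Φ x d)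
    (g1 : ∀ x, SB J (Ψ x)) (g2 : ∀ d, SB J fun x => Ψ x d) :
    intS (fun x => intS fun d => Φ x d + Ψ x d) =
      intS (fun x => intS (Φ x)) + intS fun x => intS (Ψ x) := by
  rw [← intS_add hM (sb_intS h2) (sb_intS g2)]
  congr 1
  funext x
  exact intS_add hM (h1 x) (g1 x)

theorem I2_smul {J : ℕ} {Φ : F → F → ℂ} (h1 : ∀ x, SB J (Φ x)) (h2 : ∀ d, SB J fun x => Φ x d)
    (a : ℂ) : intS (fun x => intS fun d => a * Φ x d) = a * intS fun x => intS (Φ x) := by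
  rw [← intS_smul hM (sb_intS h2)]
  congr 1
  funext x
  exact intS_smul hM (h1 x) a

theorem I2_scale {J : ℕ} {Φ : F → F → ℂ} (h1 : ∀ x, SB J (Φ x)) (h2 : ∀ d, SB J fun x => Φ x d)
    {a b : F} (ha : a ≠ 0) (hb : b ≠ 0) :
    intS (fun x => intS fun d => Φ (a * x) (b * d)) =
      (((absS a)⁻¹ * (absS b)⁻¹ : ℝ) : ℂ) * intS fun x => intS (Φ x) := by
  have e1 : (fun x => intS fun d => Φ (a * x) (b * d)) =
      fun x => (((absS b)⁻¹ : ℝ) : ℂ) * intS (Φ (a * x)) := funext fun x => scale hM (h1 _) hb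
  obtain ⟨J', hJ'⟩ := sb_scale (sb_intS h2) ha
  rw [e1, intS_smul hM hJ', scale hM (sb_intS h2) ha]
  push_cast
  ring

end I54

end Crest.Agent.T27.TH
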