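import Crest.Agent.T27.ThG1_80

/-!
# Row 27, theta module L: lattice point counts uniform in the shape (`LatStmt`)
-/

set_option autoImplicit false

noncomputable section

namespace Crest.Agent.T27.TH.G

open scoped ComplexConjugate ENNReal NumberField
open MeasureTheory NumberField

/-- The cell of a point of the disc of radius `√T` cut in `K` pieces in both directions. -/
def cell (K : ℕ) (T : ℝ) (u : ℂ) : ℤ × ℤ := (⌊K * (u.re / √T)⌋, ⌊K * (u.im / √T)⌋)

theorem floor_mem_Icc (K : ℕ) {x : ℝ} (hx : |x| ≤ 1) :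
    ⌊K * x⌋ ∈ Finset.Icc (-(K : ℤ)) K := by
  obtain ⟨h1, h2⟩ := abs_le.1 hx
  have hK : (0 : ℝ) ≤ K := Nat.cast_nonneg K
  rw [Finset.mem_Icc, Int.le_floor]
  constructor
  · push_cast
    nlinarith
  · have h4 := Int.floor_le (K * x)
    have : (⌊K * x⌋ : ℝ) ≤ (K : ℤ) := by push_cast; nlinarith
    exact_mod_cast this

theorem cell_mem (K : ℕ) {T : ℝ} {u : ℂ} (hu : ‖u‖ ^ 2 ≤ T) :
    cell K T u ∈ Finset.Icc (-(K : ℤ)) K ×ˢ Finset.Icc (-(K : ℤ)) K := by
  have h : ‖u‖ ≤ √T := Real.le_sqrt_of_sq_le hu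
  have key : ∀ t : ℝ, |t| ≤ ‖u‖ → |t / √T| ≤ 1 := fun t ht => by
    rw [abs_div, abs_of_nonneg (Real.sqrt_nonneg T)]
    exact div_le_one_of_le₀ (ht.trans h) (Real.sqrt_nonneg T)
  exact Finset.mem_product.2 ⟨floor_mem_Icc K (key _ (Complex.abs_re_le_norm u)),
    floor_mem_Icc K (key _ (Complex.abs_im_le_norm u))⟩

theorem cell_close {K : ℕ} {T : ℝ} {u u' : ℂ} (hu : ‖u‖ ^ 2 ≤ T) (hu' : ‖u'‖ ^ 2 ≤ T)
    (h : cell K T u = cell K T u') : (K : ℝ) ^ 2 * ‖u - u'‖ ^ 2 ≤ 2 * T := by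
  have hT : 0 ≤ T := (sq_nonneg _).trans hu
  rcases hT.eq_or_lt with rfl | hT
  · have h1 : u = 0 := by simpa using hu
    have h2 : u' = 0 := by simpa using hu'
    simp [h1, h2]
  have hs := Real.sqrt_pos.2 hT
  obtain ⟨e1, e2⟩ := Prod.mk.inj h
  have key : ∀ s t : ℝ, ⌊K * (s / √T)⌋ = ⌊K * (t / √T)⌋ → (K : ℝ) ^ 2 * (s - t) ^ 2 ≤ T := by
    intro s t e
    have a1 := Int.abs_sub_lt_one_of_floor_eq_floor e
    rw [← mul_sub, ← sub_div, ← mul_div_assoc, abs_div, abs_of_pos hs, div_lt_one hs] at a1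
    rw [← mul_pow, ← sq_abs, ← Real.sq_sqrt hT.le]
    exact pow_le_pow_left₀ (abs_nonneg _) a1.le 2
  have a1 := key _ _ e1
  have a2 := key _ _ e2
  rw [Complex.sq_norm, Complex.normSq_apply, Complex.sub_re, Complex.sub_im]
  nlinarith

variable {F : Type} [Field F] [NumberField F] [Emb F]

theorem card_pos : 0 < Fintype.card (Pl F) := by
  have := two_mul_card (F := F)
  have := Module.finrank_pos (R := ℚ) (M := F)
  omega

/-- Lattice points in an arbitrary box. -/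
theorem count {M : ℕ} (hM : M ≠ 0) : ∃ C : ℝ, 0 < C ∧
    ∀ (z : Pl F → ℂ) (T : Pl F → ℝ) (S : Finset F), (∀ j, 0 ≤ T j) →
      (∀ x ∈ S, Den M x ∧ ∀ j, ‖em x j - z j‖ ^ 2 ≤ T j) → (S.card : ℝ) ≤ C * (1 + ∏ j, T j) := by
  classical
  set r := Fintype.card (Pl F) with hr
  set n := Module.finrank ℚ F with hn
  have hrn : 2 * r = n := two_mul_card
  have hn0 : n ≠ 0 := by have := card_pos (F := F); omega
  set D : ℝ := (M : ℝ) ^ n * 2 ^ r with hD
  have hD0 : 0 < D := by have : (0 : ℝ) < M := by exact_mod_cast Nat.pos_of_ne_zero hM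
                         positivity
  refine ⟨2 ^ n * (3 ^ n + 2 ^ n * D), by positivity, fun z T S hT hS => ?_⟩
  set P := ∏ j, T j with hP
  have hP0 : 0 ≤ P := Finset.prod_nonneg fun j _ => hT j
  set t : ℝ := (D * P) ^ ((n : ℝ)⁻¹) with ht
  have ht0 : 0 ≤ t := Real.rpow_nonneg (by positivity) _
  have htn : t ^ n = D * P := Real.rpow_inv_natCast_pow (by positivity) hn0
  set K : ℕ := ⌊t⌋₊ + 1 with hK
  have hKt : t < K := by rw [hK]; push_cast; exact Nat.lt_floor_add_one t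
  have hKt' : (K : ℝ) ≤ t + 1 := by rw [hK]; push_cast; linarith [Nat.floor_le ht0]
  have hinj : Set.InjOn (fun (x : F) (j : Pl F) => cell K (T j) (em x j - z j)) S := by
    intro x hx y hy e
    by_contra hne
    have h1 := one_le_mul_nF hM (sub_ne_zero.2 hne) (Den.sub (hS x hx).1 (hS y hy).1)
    have h2 : ∀ j, (K : ℝ) ^ 2 * ‖em (x - y) j‖ ^ 2 ≤ 2 * T j := fun j => by
      have := cell_close ((hS x hx).2 j) ((hS y hy).2 j) (congrFun e j)
      rwa [sub_sub_sub_cancel_right, ← Pi.sub_apply, ← em_sub] at this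
    have h3 := Finset.prod_le_prod (s := Finset.univ) (fun j _ => by positivity) fun j _ => h2 j
    rw [Finset.prod_mul_distrib, Finset.prod_mul_distrib, Finset.prod_const, Finset.prod_const,
      Finset.card_univ, ← hr, ← pow_mul, hrn, ← hP] at h3
    have h4 : t ^ n < (K : ℝ) ^ n := pow_lt_pow_left₀ hKt ht0 hn0
    have h5 : (K : ℝ) ^ n ≤ (K : ℝ) ^ n * ((M : ℝ) ^ n * nF (x - y)) :=
      le_mul_of_one_le_right (by positivity) h1
    have h6 : (K : ℝ) ^ n * ((M : ℝ) ^ n * nF (x - y)) ≤ (M : ℝ) ^ n * (2 ^ r * P) := by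
      rw [mul_left_comm]
      exact mul_le_mul_of_nonneg_left h3 (by positivity)
    rw [htn, hD] at h4
    nlinarith
  have hc := Finset.card_le_card_of_injOn (t := Fintype.piFinset fun _ : Pl F =>
      Finset.Icc (-(K : ℤ)) K ×ˢ Finset.Icc (-(K : ℤ)) K) _
    (fun x hx => Finset.mem_coe.2 (Fintype.mem_piFinset.2 fun j => cell_mem K ((hS x hx).2 j))) hinj
  rw [Fintype.card_piFinset, Finset.prod_const, Finset.card_univ, ← hr, Finset.card_product,
    ← sq, ← pow_mul, hrn, Int.card_Icc] at hc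
  have h7 : ((K : ℤ) + 1 - -(K : ℤ)).toNat = 2 * K + 1 := by omega
  rw [h7] at hc
  have h8 : (S.card : ℝ) ≤ (2 * K + 1) ^ n := by exact_mod_cast hc
  have h9 : (2 * K + 1 : ℝ) ^ n ≤ (2 * t + 3) ^ n :=
    pow_le_pow_left₀ (by positivity) (by linarith) n
  have h10 := add_pow_le (a := 2 * t) (b := 3) (by positivity) (by norm_num) n
  have h11 : (2 : ℝ) ^ (n - 1) ≤ 2 ^ n := pow_le_pow_right₀ (by norm_num) (Nat.sub_le _ _)
  rw [mul_pow, htn] at h10
  calc (S.card : ℝ) ≤ 2 ^ (n - 1) * (2 ^ n * (D * P) + 3 ^ n) := h8.trans (h9.trans h10)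
    _ ≤ 2 ^ n * (2 ^ n * (D * P) + 3 ^ n) := by gcongr
    _ ≤ _ := by
      rw [mul_assoc (2 ^ n)]
      gcongr
      have : 0 ≤ 3 ^ n * P + 2 ^ n * D := by positivity
      nlinarith

/-- Non-zero lattice points in a box centred at `0`. -/
theorem count0 {M : ℕ} (hM : M ≠ 0) : ∃ C : ℝ, 0 < C ∧
    ∀ (T : Pl F → ℝ) (S : Finset F), (∀ j, 0 ≤ T j) →
      (∀ x ∈ S, x ≠ 0 ∧ Den M x ∧ ∀ j, ‖em x j‖ ^ 2 ≤ T j) → (S.card : ℝ) ≤ C * ∏ j, T j := by
  obtain ⟨C, hC, h⟩ := count (F := F) hM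
  refine ⟨C * ((M : ℝ) ^ Module.finrank ℚ F + 1), by positivity, fun T S hT hS => ?_⟩
  have hP0 : 0 ≤ ∏ j, T j := Finset.prod_nonneg fun j _ => hT j
  rcases S.eq_empty_or_nonempty with rfl | ⟨x, hx⟩
  · simp only [Finset.card_empty, Nat.cast_zero]
    positivity
  have h1 := one_le_mul_nF hM (hS x hx).1 (hS x hx).2.1
  have h2 : nF x ≤ ∏ j, T j :=
    Finset.prod_le_prod (fun j _ => sq_nonneg _) fun j _ => (hS x hx).2.2 j
  have h3 := h1.trans (mul_le_mul_of_nonneg_left h2 (by positivity))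
  refine (h 0 T S hT fun y hy => ⟨(hS y hy).2.1, fun j => by simpa using (hS y hy).2.2 j⟩).trans ?_
  rw [mul_assoc]
  gcongr
  linarith

theorem summable_min {a b : ℝ} (ha : 0 < a) (hb : 0 < b) :
    Summable fun k : ℤ => min (Real.exp (a * k)) (Real.exp (-b * k)) := by
  have h0 : ∀ k : ℤ, 0 ≤ min (Real.exp (a * k)) (Real.exp (-b * k)) := fun k =>
    le_min (Real.exp_pos _).le (Real.exp_pos _).le
  have g : ∀ c : ℝ, 0 < c → Summable fun n : ℕ => Real.exp (-c * n) := fun c hc => by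
    have := summable_geometric_of_lt_one (Real.exp_pos (-c)).le (Real.exp_lt_one_iff.2 (by linarith))
    refine this.congr fun n => ?_
    rw [← Real.exp_nat_mul, mul_comm]
  refine Summable.of_nat_of_neg ?_ ?_
  · exact (g b hb).of_nonneg_of_le (fun n => h0 n) fun n => by simp
  · refine (g a ha).of_nonneg_of_le (fun n => h0 _) fun n => ?_
    refine (min_le_left _ _).trans (le_of_eq ?_)
    push_cast
    ring_nf

/-- A sum over lattice points of a product of functions of `log |x_j|²` dominated on unit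
intervals. -/
theorem sum_prod_le {M : ℕ} (hM : M ≠ 0) : ∃ C : ℝ, 0 < C ∧ ∀ (φ : Pl F → ℝ → ℝ)
    (ψ : Pl F → ℤ → ℝ) (v : Pl F → ℝ) (S : Finset F), (∀ j t, 0 ≤ φ j t) →
    (∀ j t, φ j t * Real.exp (⌈t⌉ : ℤ) ≤ ψ j ⌈t⌉) → (∀ j k, 0 ≤ ψ j k) → (∀ j, Summable (ψ j)) →
    (∀ x ∈ S, x ≠ 0 ∧ Den M x) →
      ∑ x ∈ S, ∏ j, φ j (v j + lg x j) ≤ C * (∏ j, ∑' k, ψ j k) * Real.exp (-∑ j, v j) := by
  classical
  obtain ⟨C, hC, h⟩ := count0 (F := F) hM
  refine ⟨C, hC, fun φ ψ v S h0 h1 h2 h3 hS => ?_⟩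
  let κ : F → Pl F → ℤ := fun x j => ⌈v j + lg x j⌉
  let K : Finset ℤ := Finset.univ.biUnion fun j => S.image fun x => κ x j
  have hK : ∀ x ∈ S, κ x ∈ Fintype.piFinset fun _ : Pl F => K := fun x hx =>
    Fintype.mem_piFinset.2 fun j => Finset.mem_biUnion.2
      ⟨j, Finset.mem_univ _, Finset.mem_image_of_mem _ hx⟩
  rw [← Finset.sum_fiberwise_of_maps_to hK]
  have e : ∀ k ∈ Fintype.piFinset fun _ : Pl F => K,
      ∑ x ∈ S with κ x = k, ∏ j, φ j (v j + lg x j) ≤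
        C * Real.exp (-∑ j, v j) * ∏ j, ψ j (k j) := by
    intro k _
    have a1 : ∀ x ∈ S.filter fun x => κ x = k, ∏ j, φ j (v j + lg x j) ≤
        ∏ j, ψ j (k j) * Real.exp (-(k j : ℝ)) := fun x hx => by
      refine Finset.prod_le_prod (fun j _ => h0 _ _) fun j _ => ?_
      have := h1 j (v j + lg x j)
      rw [show ⌈v j + lg x j⌉ = k j from congrFun (Finset.mem_filter.1 hx).2 j] at this
      rw [Real.exp_neg, ← div_eq_mul_inv, le_div_iff₀ (Real.exp_pos _)]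
      exact this
    have a2 := h (fun j => Real.exp (k j - v j)) (S.filter fun x => κ x = k)
      (fun j => (Real.exp_pos _).le) fun x hx => by
        obtain ⟨hx, e⟩ := Finset.mem_filter.1 hx
        refine ⟨(hS x hx).1, (hS x hx).2, fun j => ?_⟩
        rw [← exp_lg (hS x hx).1, Real.exp_le_exp, ← congrFun e j]
        linarith [Int.le_ceil (v j + lg x j)]
    refine (Finset.sum_le_card_nsmul _ _ _ a1).trans ?_
    rw [nsmul_eq_mul]
    refine (mul_le_mul_of_nonneg_right a2 (Finset.prod_nonneg fun j _ =>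
      mul_nonneg (h2 _ _) (Real.exp_pos _).le)).trans (le_of_eq ?_)
    rw [mul_assoc, mul_assoc, ← Finset.prod_mul_distrib, ← Finset.sum_neg_distrib, Real.exp_sum,
      ← Finset.prod_mul_distrib]
    congr 1
    refine Finset.prod_congr rfl fun j _ => ?_
    rw [mul_left_comm, ← Real.exp_add, mul_comm]
    congr 2
    ring
  refine (Finset.sum_le_sum e).trans ?_
  rw [← Finset.mul_sum, ← Finset.prod_univ_sum, mul_right_comm]
  gcongr with j
  · exact fun j _ => Finset.sum_nonneg fun k _ => h2 _ _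
  · exact (h3 j).sum_le_tsum _ fun k _ => h2 _ _

/-- The basic lattice sum, uniformly in the shape. -/
theorem lsum {M : ℕ} (hM : M ≠ 0) {a b : ℝ} (ha : a < 1) (hb : 1 < b) : ∃ C : ℝ, 0 ≤ C ∧
    ∀ (v : Pl F → ℝ) (S : Finset F), (∀ x ∈ S, x ≠ 0 ∧ Den M x) →
      ∑ x ∈ S, ∏ j, min (Real.exp (-a * (v j + lg x j))) (Real.exp (-b * (v j + lg x j))) ≤
        C * Real.exp (-∑ j, v j) := by
  obtain ⟨C, hC, h⟩ := sum_prod_le (F := F) hM
  let ψ : ℤ → ℝ := fun k => Real.exp (|a| + |b|) *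
    min (Real.exp ((1 - a) * k)) (Real.exp (-(b - 1) * k))
  have hψ : ∀ k, 0 ≤ ψ k := fun k =>
    mul_nonneg (Real.exp_pos _).le (le_min (Real.exp_pos _).le (Real.exp_pos _).le)
  refine ⟨C * ∏ _j : Pl F, ∑' k, ψ k,
    mul_nonneg hC.le (Finset.prod_nonneg fun _ _ => tsum_nonneg hψ), fun v S hS => ?_⟩
  refine h (fun _ t => min (Real.exp (-a * t)) (Real.exp (-b * t))) (fun _ => ψ) v S
    (fun _ _ => le_min (Real.exp_pos _).le (Real.exp_pos _).le) (fun _ t => ?_) (fun _ => hψ)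
    (fun _ => (summable_min (by linarith) (by linarith)).mul_left _) hS
  have h1 := Int.le_ceil t
  have h2 := Int.ceil_lt_add_one t
  have key : ∀ c : ℝ, |c| ≤ |a| + |b| → Real.exp (-c * t) * Real.exp (⌈t⌉ : ℤ) ≤
      Real.exp (|a| + |b|) * Real.exp ((1 - c) * (⌈t⌉ : ℤ)) := fun c hc => by
    rw [← Real.exp_add, ← Real.exp_add, Real.exp_le_exp]
    have : c * (⌈t⌉ - t) ≤ |c| * 1 :=
      mul_le_mul (le_abs_self c) (by linarith) (by linarith) (abs_nonneg c)
    linarith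
  simp only [ψ]
  rw [mul_min_of_nonneg _ _ (Real.exp_pos _).le]
  refine le_min ?_ ?_
  · exact (mul_le_mul_of_nonneg_right (min_le_left _ _) (Real.exp_pos _).le).trans
      (key a (by linarith [abs_nonneg b]))
  · refine (mul_le_mul_of_nonneg_right (min_le_right _ _) (Real.exp_pos _).le).trans ?_
    rw [neg_sub]
    exact key b (by linarith [abs_nonneg a])

end Crest.Agent.T27.TH.G

namespace Crest.Agent.T27.TH

/-- **Leaf L**. -/
theorem latStmt_80 (F : Type) [Field F] [NumberField F] [Emb F] : LatStmt F where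
  nF_eq := G.nF_eq
  eF_eq := G.eF_eq
  one_le _ := G.one_le_nF
  count _ hM := (G.count hM).imp fun _ h => h.2
  count0 _ hM := (G.count0 hM).imp fun _ h => h.2
  lsum _ hM _ _ ha hb := (G.lsum hM ha hb).imp fun _ h => h.2

end Crest.Agent.T27.TH
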