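import Crest.Agent.T27.ThA_54

/-!
# Unfolding, part A: weights for translation lattices on `ℂ^r` and mean values of Fourier series
-/

set_option autoImplicit false

noncomputable section

namespace Crest.Agent.T27.TH.U89

open scoped ComplexConjugate ENNReal Topology
open MeasureTheory Filter NumberField

variable {F : Type} [Field F] [NumberField F] [Emb F]

/-- The Minkowski embedding as a ring homomorphism. -/
def emR : F →+* (Pl F → ℂ) := RingHom.pi fun j => Emb.σ j

theorem emR_apply (x : F) : emR x = em x := rfl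

theorem em_add (x y : F) : em (x + y) = em x + em y := map_add emR x y
theorem em_mul (x y : F) : em (x * y) = em x * em y := map_mul emR x y
theorem em_zero : em (0 : F) = 0 := map_zero emR
theorem em_one : em (1 : F) = 1 := map_one emR

theorem em_ne {x : F} (hx : x ≠ 0) (j : Pl F) : em x j ≠ 0 := (map_ne_zero (Emb.σ j)).2 hx

theorem em_injective : Function.Injective (em : F → Pl F → ℂ) := by
  intro x y h
  obtain ⟨j⟩ : Nonempty (Pl F) := inferInstance
  exact (Emb.σ j : F →+* ℂ).injective (congrFun h j)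

theorem li_em : LinearIndependent ℝ fun i => em (integralBasis F i) := by
  rw [Fintype.linearIndependent_iff]
  intro g hg
  have h := Fintype.linearIndependent_iff.1 (canonicalEmbedding.latticeBasis F).linearIndependent
    (fun i => (g i : ℂ)) (by
      funext φ
      simp only [Finset.sum_apply, Pi.smul_apply, canonicalEmbedding.latticeBasis_apply,
        canonicalEmbedding.apply_at, smul_eq_mul, Pi.zero_apply]
      have h1 := congrFun hg (InfinitePlace.mk φ)
      simp only [Finset.sum_apply, Pi.smul_apply, Complex.real_smul, em, Pi.zero_apply] at h1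
      rcases InfinitePlace.mk_eq_iff.1 (Emb.mk_σ (InfinitePlace.mk φ)) with h2 | h2
      · rw [h2] at h1; exact h1
      · have h3 := congrArg conj h1
        rw [map_sum, map_zero] at h3
        rw [← h2]
        simpa using h3)
  intro i
  exact_mod_cast h i

theorem card_basis : Fintype.card (Module.Free.ChooseBasisIndex ℤ (𝓞 F)) =
    Module.finrank ℝ (Pl F → ℂ) := by
  have := (Emb.tc : IsTotallyComplex F)
  rw [← Module.finrank_eq_card_chooseBasisIndex, RingOfIntegers.rank, IsTotallyComplex.finrank,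
    Module.finrank_pi_fintype]
  simp [InfinitePlace.card_eq_nrRealPlaces_add_nrComplexPlaces, mul_comm]

/-- A weight for the lattice `L`. -/
structure Wt (L : AddSubgroup F) (β : (Pl F → ℂ) → ℝ) : Prop where
  meas : Measurable β
  nonneg : ∀ z, 0 ≤ β z
  sum : ∀ z, HasSum (fun t : L => β (z + em (t : F))) 1
  int : Integrable β
  pos : 0 < ∫ z, β z

theorem exists_wt_latt {N : ℕ} (hN : N ≠ 0) : ∃ β, Wt (latt F N) β := by
  classical
  have hN' : (N : ℝ) ≠ 0 := by exact_mod_cast hN
  have hli : LinearIndependent ℝ fun i => em ((N : F) * integralBasis F i) := by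
    have := (li_em (F := F)).units_smul (fun _ => Units.mk0 (N : ℝ) hN')
    convert this using 1
    funext i j
    simp [em]
  let b := basisOfLinearIndependentOfCardEqFinrank hli card_basis
  have hb : ∀ i, b i = em ((N : F) * integralBasis F i) := fun i => by simp [b]
  let f : F →ₗ[ℤ] (Pl F → ℂ) := (emR.toAddMonoidHom.comp (AddMonoidHom.mulLeft (N : F))).toIntLinearMap
  have hf : ∀ y, f y = em ((N : F) * y) := fun y => rfl
  have hspan : ∀ v, v ∈ Submodule.span ℤ (Set.range b) ↔ ∃ t ∈ latt F N, em t = v := by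
    intro v
    have : Set.range b = f '' Set.range (integralBasis F) := by
      rw [← Set.range_comp]; congr 1; funext i; rw [hb]; rfl
    rw [this, ← Submodule.map_span, Submodule.mem_map]
    constructor
    · rintro ⟨y, hy, rfl⟩
      obtain ⟨x, rfl⟩ := (mem_span_integralBasis F).1 hy
      exact ⟨_, ⟨_, x.isIntegral_coe, rfl⟩, rfl⟩
    · rintro ⟨_, ⟨y, hy, rfl⟩, rfl⟩
      exact ⟨y, (mem_span_integralBasis F).2 ⟨⟨y, hy⟩, rfl⟩, rfl⟩
  have hD := ZSpan.fundamentalDomain_measurableSet b
  have hfin : volume (ZSpan.fundamentalDomain b) < ⊤ :=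
    (ZSpan.fundamentalDomain_isBounded b).measure_lt_top
  refine ⟨(ZSpan.fundamentalDomain b).indicator 1, measurable_one.indicator hD,
    fun z => Set.indicator_nonneg (fun _ _ => zero_le_one) z, fun z => ?_, ?_, ?_⟩
  · obtain ⟨⟨v, hv⟩, h1, h2⟩ := ZSpan.exist_unique_vadd_mem_fundamentalDomain b z
    obtain ⟨t, ht, rfl⟩ := (hspan v).1 hv
    have h3 : z + em t ∈ ZSpan.fundamentalDomain b := by rw [add_comm]; exact h1
    have := hasSum_single (f := fun t : latt F N =>
      (ZSpan.fundamentalDomain b).indicator (1 : (Pl F → ℂ) → ℝ) (z + em (t : F))) ⟨t, ht⟩ (by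
        intro s hs
        apply Set.indicator_of_notMem
        intro h4
        apply hs
        have h5 := h2 ⟨em (s : F), (hspan _).2 ⟨s, s.2, rfl⟩⟩ (by
          show em (s : F) + z ∈ _
          rw [add_comm]; exact h4)
        exact Subtype.ext (em_injective (congrArg Subtype.val h5)))
    rwa [Set.indicator_of_mem h3] at this
  · exact (integrable_indicator_iff hD).2 (integrableOn_const hfin.ne)
  · rw [integral_indicator_one hD]
    exact ENNReal.toReal_pos (ZSpan.measure_fundamentalDomain_ne_zero b) hfin.ne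

/-- A weight for a lattice containing `L'` with finite index. -/
theorem Wt.of_le {L L' : AddSubgroup F} {β : (Pl F → ℂ) → ℝ} (h : Wt L' β) (hle : L' ≤ L)
    [Finite (L ⧸ L'.addSubgroupOf L)] : ∃ β', Wt L β' := by
  classical
  have := Fintype.ofFinite (L ⧸ L'.addSubgroupOf L)
  set m : ℝ := (Fintype.card (L ⧸ L'.addSubgroupOf L) : ℝ) with hm
  have hm0 : 0 < m := by rw [hm]; exact_mod_cast Fintype.card_pos
  refine ⟨fun z => β z / m, h.meas.div_const _, fun z => div_nonneg (h.nonneg z) hm0.le,
    fun z => ?_, h.int.div_const _, by rw [integral_div]; exact div_pos h.pos hm0⟩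
  have hbij : Function.Bijective fun p : (L ⧸ L'.addSubgroupOf L) × L'.addSubgroupOf L =>
      (p.1.out : L) + (p.2 : L) := by
    constructor
    · rintro ⟨q, s⟩ ⟨q', s'⟩ h
      have h1 : q = q' := by
        have := congrArg (QuotientAddGroup.mk (s := L'.addSubgroupOf L)) h
        simpa only [QuotientAddGroup.mk_add_of_mem _ s.2, QuotientAddGroup.mk_add_of_mem _ s'.2,
          QuotientAddGroup.out_eq'] using this
      subst h1
      exact Prod.ext rfl (Subtype.ext (add_left_cancel h))
    · intro x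
      obtain ⟨s, hs⟩ := QuotientAddGroup.mk_out_eq_mul (L'.addSubgroupOf L) x
      exact ⟨(QuotientAddGroup.mk x, -s), by simp [hs]⟩
  let e := Equiv.ofBijective _ hbij
  have he : ∀ p, ((e p : L) : F) = (p.1.out : L) + ((p.2 : L) : F) := fun p => rfl
  rw [← e.hasSum_iff]
  have h1 : ∀ q : L ⧸ L'.addSubgroupOf L, HasSum (fun s : L'.addSubgroupOf L =>
      β (z + em ((e (q, s) : L) : F)) / m) (1 / m) := by
    intro q
    have h2 := (h.sum (z + em ((q.out : L) : F))).div_const m
    rw [← (AddSubgroup.addSubgroupOfEquivOfLe hle).toEquiv.hasSum_iff] at h2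
    simp only [he, em_add, ← add_assoc]
    exact h2
  have h3 : Summable fun p : (L ⧸ L'.addSubgroupOf L) × L'.addSubgroupOf L =>
      β (z + em ((e p : L) : F)) / m := by
    rw [summable_prod_of_nonneg (fun p => div_nonneg (h.nonneg _) hm0.le)]
    exact ⟨fun q => (h1 q).summable, summable_of_finite_support (Set.toFinite _)⟩
  have h4 := h3.hasSum.prod_fiberwise h1
  have h5 : ∑' p : (L ⧸ L'.addSubgroupOf L) × L'.addSubgroupOf L,
      β (z + em ((e p : L) : F)) / m = 1 := by
    rw [← h4.tsum_eq, tsum_fintype, Finset.sum_const, Finset.card_univ, nsmul_eq_mul, ← hm]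
    field_simp
  have h6 := h3.hasSum
  rw [h5] at h6
  exact h6

/-- The translation group of a lattice. -/
def Tr (L : AddSubgroup F) : Type := Multiplicative L

instance (L : AddSubgroup F) : Group (Tr L) := inferInstanceAs (Group (Multiplicative L))

instance : Countable F := Countable.of_equiv _ (integralBasis F).equivFun.toEquiv.symm

instance (L : AddSubgroup F) : Countable (Tr L) := inferInstanceAs (Countable L)

instance (L : AddSubgroup F) : MulAction (Tr L) (Pl F → ℂ) where
  smul t z := z + em ((Multiplicative.toAdd t : L) : F)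
  one_smul z := by
    show z + em ((0 : L) : F) = z
    simp [em_zero]
  mul_smul s t z := by
    show z + em (((Multiplicative.toAdd s : L) + (Multiplicative.toAdd t : L) : L) : F) =
      z + em ((Multiplicative.toAdd t : L) : F) + em ((Multiplicative.toAdd s : L) : F)
    rw [AddSubgroup.coe_add, em_add]; ring

theorem Wt.isWt {L : AddSubgroup F} {β : (Pl F → ℂ) → ℝ} (h : Wt L β) : R17.IsWt (Tr L) β :=
  ⟨h.meas, h.nonneg, h.sum⟩

theorem Wt.shift {L : AddSubgroup F} {β : (Pl F → ℂ) → ℝ} (h : Wt L β) (z₀ : Pl F → ℂ) :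
    Wt L fun z => β (z - z₀) := by
  refine ⟨h.meas.comp (measurable_id.sub_const z₀), fun z => h.nonneg _, fun z => ?_,
    h.int.comp_sub_right z₀, ?_⟩
  · simpa only [add_sub_right_comm] using h.sum (z - z₀)
  · rw [integral_sub_right_eq_self β z₀]; exact h.pos

/-- The mean value of a periodic function does not depend on the weight. -/
theorem Wt.integral_eq {L : AddSubgroup F} {β β' : (Pl F → ℂ) → ℝ} (h : Wt L β) (h' : Wt L β')
    {f : (Pl F → ℂ) → ℂ} (hf : Measurable f) {B : ℝ} (hB : ∀ z, ‖f z‖ ≤ B)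
    (hper : ∀ z, ∀ t ∈ L, f (z + em t) = f z) :
    ∫ z, (β z : ℂ) * f z = ∫ z, (β' z : ℂ) * f z := by
  have hi : Integrable fun z => (β' z : ℂ) * f z :=
    h'.int.ofReal.mul_bdd hf.aestronglyMeasurable (Eventually.of_forall hB)
  have h1 := (h.isWt.integral_unfold (μ := volume) (fun t => measurePreserving_add_right _ _)
    (φ := fun z => (β' z : ℂ) * f z) ((Complex.measurable_ofReal.comp h'.meas).mul hf) hi).2
  rw [← h1]
  congr 1
  funext z
  congr 1
  have : ∀ t : Tr L, f (t • z) = f z := fun t => hper z _ (Multiplicative.toAdd t : L).2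
  simp only [this]
  rw [tsum_mul_right, ← Complex.ofReal_tsum, (h'.isWt.sum z).tsum_eq]
  simp

omit [Emb F] in
theorem eV_add (z z' : Pl F → ℂ) : eV (z + z') = eV z * eV z' := by
  simp only [eV, Pi.add_apply, Complex.add_re, Finset.sum_add_distrib, Complex.ofReal_add,
    mul_add, Complex.exp_add]

omit [Emb F] in
theorem norm_eV (z : Pl F → ℂ) : ‖eV z‖ = 1 := by
  rw [eV, Complex.norm_exp]
  simp

omit [Emb F] in
theorem eV_zero : eV (0 : Pl F → ℂ) = 1 := by simp [eV]

omit [Emb F] in
theorem continuous_eV : Continuous (eV : (Pl F → ℂ) → ℂ) := by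
  unfold eV; fun_prop

theorem exists_eV_ne {r : F} (hr : r ≠ 0) : ∃ z : Pl F → ℂ, eV (fun j => em r j * z j) ≠ 1 := by
  classical
  obtain ⟨j⟩ : Nonempty (Pl F) := inferInstance
  refine ⟨Pi.single j ((em r j)⁻¹ * (1 / 4 : ℂ)), ?_⟩
  have : ∑ i, (em r i * (Pi.single j ((em r j)⁻¹ * (1 / 4 : ℂ)) : Pl F → ℂ) i).re = 1 / 4 := by
    rw [Finset.sum_eq_single j]
    · rw [Pi.single_eq_same, ← mul_assoc, mul_inv_cancel₀ (em_ne hr j)]; simp
    · intro i _ hi; simp [hi]
    · simp
  rw [eV, this]
  have h2 : (4 * Real.pi * Complex.I * ((1 / 4 : ℝ) : ℂ) : ℂ) = Real.pi * Complex.I := by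
    push_cast; ring
  rw [h2, Complex.exp_pi_mul_I]
  norm_num

theorem eF_int (hL : LatStmt F) {x : F} (hx : IsIntegral ℤ x) : eF x = 1 := by
  rw [hL.eF_eq]
  obtain ⟨n, hn⟩ := (IsIntegrallyClosed.isIntegral_iff (R := ℤ) (K := ℚ)).1
    (Algebra.isIntegral_trace (L := ℚ) hx)
  rw [← hn]
  simp only [eq_intCast, Rat.cast_intCast]
  rw [mul_comm]
  exact Complex.exp_int_mul_two_pi_mul_I n

/-- Orthogonality. -/
theorem Wt.orth (hL : LatStmt F) {N : ℕ} {β : (Pl F → ℂ) → ℝ} (h : Wt (latt F N) β) {r : F}
    (hr : r ≠ 0) (hN : IsIntegral ℤ ((N : F) * r)) :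
    ∫ z, (β z : ℂ) * eV (fun j => em r j * z j) = 0 := by
  obtain ⟨z₀, hz₀⟩ := exists_eV_ne hr
  have hadd : ∀ z z' : Pl F → ℂ, eV (fun j => em r j * (z + z') j) =
      eV (fun j => em r j * z j) * eV (fun j => em r j * z' j) := by
    intro z z'
    rw [← eV_add]; congr 1; funext j; simp [mul_add]
  have hm : Measurable fun z : Pl F → ℂ => eV (fun j => em r j * z j) :=
    (continuous_eV.comp (by fun_prop)).measurable
  have h1 := h.integral_eq (h.shift z₀) hm (B := 1) (fun z => (norm_eV _).le) (by
    rintro z _ ⟨y, hy, rfl⟩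
    rw [hadd]
    have : eV (fun j => em r j * em ((N : F) * y) j) = eF ((N * r) * y) := by
      rw [eF]; congr 1; funext j; simp [em]; ring
    rw [this, eF_int hL (hN.mul hy), mul_one])
  rw [← integral_add_right_eq_self (fun z => (β (z - z₀) : ℂ) * eV (fun j => em r j * z j)) z₀]
    at h1
  simp only [add_sub_cancel_right, hadd, ← mul_assoc] at h1
  rw [integral_mul_const] at h1
  have h2 : (∫ z, (β z : ℂ) * eV (fun j => em r j * z j)) *
      (1 - eV (fun j => em r j * z₀ j)) = 0 := by linear_combination h1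
  exact (mul_eq_zero.1 h2).resolve_right (sub_ne_zero.2 hz₀.symm)

/-- Mean value of an absolutely convergent series against a weight of level `N`. -/
theorem Wt.integral_series (hL : LatStmt F) {N : ℕ} {β : (Pl F → ℂ) → ℝ} (h : Wt (latt F N) β)
    {a : F → ℂ} (ha : Summable fun r => ‖a r‖) (hN : ∀ r, a r ≠ 0 → IsIntegral ℤ ((N : F) * r)) :
    ∫ z, (β z : ℂ) * ∑' r, a r * eV (fun j => em r j * z j) = (∫ z, β z : ℝ) * a 0 := by
  have hw : Integrable fun z => (β z : ℂ) := h.int.ofReal
  have hi : ∀ r, Integrable fun z => (β z : ℂ) * (a r * eV (fun j => em r j * z j)) := fun r =>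
    hw.mul_bdd (c := ‖a r‖)
      (continuous_const.mul (continuous_eV.comp (by fun_prop))).aestronglyMeasurable
      (Eventually.of_forall fun z => by rw [norm_mul, norm_eV, mul_one])
  have hs : Summable fun r => ∫ z, ‖(β z : ℂ) * (a r * eV (fun j => em r j * z j))‖ := by
    simp only [norm_mul, norm_eV, mul_one, integral_mul_const]
    exact ha.mul_left _
  simp only [← tsum_mul_left]
  rw [← integral_tsum_of_summable_integral_norm hi hs, tsum_eq_single 0]
  · have : ∀ z : Pl F → ℂ, eV (fun j => em (0 : F) j * z j) = 1 := fun z => by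
      rw [← eV_zero (F := F)]; congr 1; funext j; simp [em]
    simp only [this, mul_one]
    rw [integral_mul_const, integral_complex_ofReal]
  · intro r hr
    by_cases h0 : a r = 0
    · simp [h0]
    · simp only [mul_left_comm _ (a r)]
      rw [integral_const_mul, h.orth hL hr (hN r h0), mul_zero]

/-- Mean value of a periodic absolutely convergent series against an arbitrary weight. -/
theorem Wt.mean_series (hL : LatStmt F) {L : AddSubgroup F} {β : (Pl F → ℂ) → ℝ} (h : Wt L β)
    {N : ℕ} (hN0 : N ≠ 0) {a : F → ℂ} (ha : Summable fun r => ‖a r‖)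
    (hN : ∀ r, a r ≠ 0 → IsIntegral ℤ ((N : F) * r)) {f : (Pl F → ℂ) → ℂ}
    (hf : ∀ z, f z = ∑' r, a r * eV (fun j => em r j * z j))
    (hper : ∀ z, ∀ t ∈ L, f (z + em t) = f z) :
    ∫ z, (β z : ℂ) * f z = (∫ z, β z : ℝ) * a 0 := by
  obtain ⟨β', h'⟩ := exists_wt_latt (F := F) hN0
  have hc : Continuous f := by
    rw [funext hf]
    exact continuous_tsum (fun r => continuous_const.mul (continuous_eV.comp (by fun_prop))) ha
      fun r z => by rw [norm_mul, norm_eV, mul_one]
  have hB : ∀ z, ‖f z‖ ≤ ∑' r, ‖a r‖ := fun z => by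
    rw [hf]
    exact tsum_of_norm_bounded ha.hasSum fun r => by rw [norm_mul, norm_eV, mul_one]
  -- shifting the argument
  have h1 : ∀ z₀, ∫ z, (β z : ℂ) * f (z + z₀) = ∫ z, (β z : ℂ) * f z := by
    intro z₀
    rw [h.integral_eq (h.shift z₀) hc.measurable hB hper,
      ← integral_add_right_eq_self (fun z => (β (z - z₀) : ℂ) * f z) z₀]
    simp only [add_sub_cancel_right]
  have h2 : ∀ z, ∫ z₀, (β' z₀ : ℂ) * f (z + z₀) = (∫ z, β' z : ℝ) * a 0 := by
    intro z
    have h3 := h'.integral_series hL (a := fun r => a r * eV (fun j => em r j * z j))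
      (by simpa only [norm_mul, norm_eV, mul_one] using ha)
      (fun r hr => hN r (left_ne_zero_of_mul hr))
    have h4 : eV (fun j => em (0 : F) j * z j) = 1 := by
      rw [← eV_zero (F := F)]; congr 1; funext j; simp [em]
    simp only [h4, mul_one] at h3
    rw [← h3]
    congr 1; funext z₀
    rw [hf]
    congr 1
    refine tsum_congr fun r => ?_
    rw [mul_assoc, ← eV_add]
    congr 2; funext j; simp [mul_add]
  have hint : Integrable (Function.uncurry fun z z₀ : Pl F → ℂ =>
      (β z : ℂ) * (β' z₀ : ℂ) * f (z + z₀)) (volume.prod volume) :=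
    (h.int.ofReal.mul_prod h'.int.ofReal).mul_bdd
      (hc.comp (continuous_fst.add continuous_snd)).aestronglyMeasurable
      (Eventually.of_forall fun p => hB _)
  have h5 := integral_integral_swap hint
  have h6 : ∀ z, ∫ z₀, (β z : ℂ) * (β' z₀ : ℂ) * f (z + z₀) =
      (β z : ℂ) * ((∫ z, β' z : ℝ) * a 0) := fun z => by
    simp only [mul_assoc]; rw [integral_const_mul, h2]
  have h7 : ∀ z₀, ∫ z, (β z : ℂ) * (β' z₀ : ℂ) * f (z + z₀) =
      (β' z₀ : ℂ) * ∫ z, (β z : ℂ) * f z := fun z₀ => by
    rw [← h1 z₀, ← integral_const_mul]; congr 1; funext z; ring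
  simp only [h6, h7] at h5
  rw [integral_mul_const, integral_mul_const, integral_complex_ofReal,
    integral_complex_ofReal] at h5
  have h8 : ((∫ z, β' z : ℝ) : ℂ) ≠ 0 := by exact_mod_cast h'.pos.ne'
  apply mul_left_cancel₀ h8
  rw [← h5]; ring

end Crest.Agent.T27.TH.U89
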