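import Crest.Agent.T27.UnfA_89

/-!
# Unfolding, part B: finitely many orbits of rows, stabiliser lattices, Poincaré series
-/

set_option autoImplicit false

noncomputable section

namespace Crest.Agent.T27.TH.U89

open scoped ComplexConjugate ENNReal Topology
open MeasureTheory Filter NumberField

variable {F : Type} [Field F]

/-- The bottom row. -/
def row (g : SL F) : F × F := (g 1 0, g 1 1)

theorem row_mul (g h : SL F) : row (g * h) = rmul (row g) (h : Mat F) := by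
  simp [row, rmul, Matrix.mul_apply, Fin.sum_univ_two]

theorem det_eq (g : SL F) : g 0 0 * g 1 1 - g 0 1 * g 1 0 = 1 := by
  have := g.det_coe; rwa [Matrix.det_fin_two] at this

theorem mul_ap (g h : SL F) (i j : Fin 2) : (g * h) i j = g i 0 * h 0 j + g i 1 * h 1 j := by
  rw [Matrix.SpecialLinearGroup.coe_mul, Matrix.mul_apply, Fin.sum_univ_two]

@[simp] theorem nT_00 (t : F) : nT t 0 0 = 1 := rfl
@[simp] theorem nT_01 (t : F) : nT t 0 1 = t := rfl
@[simp] theorem nT_10 (t : F) : nT t 1 0 = 0 := rfl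
@[simp] theorem nT_11 (t : F) : nT t 1 1 = 1 := rfl

theorem nT_add (s t : F) : nT (s + t) = nT s * nT t := by
  refine Matrix.SpecialLinearGroup.ext _ _ fun i j => ?_
  rw [mul_ap]
  fin_cases i <;> fin_cases j <;> simp [add_comm]

theorem nT_zero : nT (0 : F) = 1 := by
  refine Matrix.SpecialLinearGroup.ext _ _ fun i j => ?_
  fin_cases i <;> fin_cases j <;> simp [nT, mkSL]

theorem nT_neg (t : F) : nT (-t) = (nT t)⁻¹ := by
  rw [eq_inv_iff_mul_eq_one, ← nT_add, neg_add_cancel, nT_zero]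

theorem nT_injective : Function.Injective (nT : F → SL F) := by
  intro s t h
  have := congrArg (fun g : SL F => g 0 1) h
  simpa [nT, mkSL] using this

theorem row_nT_mul (t : F) (g : SL F) : row (nT t * g) = row g := by
  simp only [row, mul_ap]; simp

theorem exists_nT_mul {g h : SL F} (e : row g = row h) : ∃ t, g = nT t * h := by
  have h0 : g 1 0 = h 1 0 := congrArg Prod.fst e
  have h1 : g 1 1 = h 1 1 := congrArg Prod.snd e
  have dg := det_eq g
  have dh := det_eq h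
  refine ⟨g 0 1 * h 0 0 - g 0 0 * h 0 1, Matrix.SpecialLinearGroup.ext _ _ fun i j => ?_⟩
  rw [h0, h1] at dg
  rw [mul_ap]
  fin_cases i <;> fin_cases j <;> simp [h0, h1]
  · linear_combination (-g 0 0) * dh + h 0 0 * dg
  · linear_combination (-g 0 1) * dh + h 0 1 * dg

/-- The lattice of translations at the cusp `γ`. -/
def Lc (Δ : Subgroup (SL F)) (γ : SL F) : AddSubgroup F where
  carrier := {t | γ⁻¹ * nT t * γ ∈ Δ}
  zero_mem' := by simp [nT_zero]
  add_mem' := by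
    intro s t hs ht
    have : γ⁻¹ * nT (s + t) * γ = (γ⁻¹ * nT s * γ) * (γ⁻¹ * nT t * γ) := by
      rw [nT_add]; group
    show _ ∈ Δ
    rw [this]; exact mul_mem hs ht
  neg_mem' := by
    intro t ht
    have : γ⁻¹ * nT (-t) * γ = (γ⁻¹ * nT t * γ)⁻¹ := by rw [nT_neg]; group
    show _ ∈ Δ
    rw [this]; exact inv_mem ht

/-- The orbit of the bottom row of `γ`. -/
def Orb (Δ : Subgroup (SL F)) (γ : SL F) : Set (F × F) := {u | ∃ δ ∈ Δ, row (γ * δ) = u}

/-- Poincaré series with a weight at the cusp. -/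
theorem hasSum_poinc {V : Type} {Δ : Subgroup (SL F)} {γ : SL F} {β : V → ℝ} {sh : F → V → V}
    (h0 : ∀ z, 0 ≤ β z) (hβ : ∀ z, HasSum (fun t : Lc Δ γ => β (sh t z)) 1)
    {z : SL F → V} (hz : ∀ t g, z (nT t * g) = sh t (z g)) {h : F × F → ℝ} (hh : ∀ u, 0 ≤ h u)
    (hs : Summable ((Orb Δ γ).indicator h)) :
    HasSum (fun δ : Δ => β (z (γ * δ)) * h (row (γ * δ))) (∑' u, (Orb Δ γ).indicator h u) := by
  let f : Δ → F × F := fun δ => row (γ * δ)
  rw [← (Equiv.sigmaFiberEquiv f).hasSum_iff]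
  have h1 : ∀ u, HasSum (fun δ : {δ // f δ = u} => β (z (γ * δ.1)) * h (row (γ * δ.1)))
      ((Orb Δ γ).indicator h u) := by
    intro u
    by_cases hu : u ∈ Orb Δ γ
    · rw [Set.indicator_of_mem hu]
      obtain ⟨δ₀, hδ₀, rfl⟩ := hu
      have e1 : ∀ t : F, γ * (γ⁻¹ * nT t * γ * δ₀) = nT t * (γ * δ₀) := fun t => by group
      let g : Lc Δ γ → {δ // f δ = row (γ * δ₀)} := fun t =>
        ⟨⟨γ⁻¹ * nT (t : F) * γ * δ₀, mul_mem t.2 hδ₀⟩, by simp only [f, e1, row_nT_mul]⟩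
      have hg : Function.Bijective g := by
        constructor
        · intro s t hst
          have := congrArg (fun x => (x.1 : SL F)) hst
          simp only [g, mul_left_inj, mul_right_inj] at this
          exact Subtype.ext (nT_injective this)
        · rintro ⟨δ, hδ⟩
          obtain ⟨t, ht⟩ := exists_nT_mul (show row (γ * (δ : SL F)) = row (γ * δ₀) from hδ)
          have e2 : γ⁻¹ * nT t * γ * δ₀ = δ := by
            rw [mul_assoc, mul_assoc, ← ht]; group
          refine ⟨⟨t, ?_⟩, Subtype.ext (Subtype.ext e2)⟩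
          show _ ∈ Δ
          rw [eq_mul_inv_of_mul_eq e2]
          exact mul_mem δ.2 (inv_mem hδ₀)
      rw [← (Equiv.ofBijective g hg).hasSum_iff]
      have h2 := (hβ (z (γ * δ₀))).mul_right (h (row (γ * δ₀)))
      rw [one_mul] at h2
      simp only [Function.comp_def, Equiv.ofBijective_apply, g, e1, hz, row_nT_mul]
      exact h2
    · rw [Set.indicator_of_notMem hu]
      have : IsEmpty {δ // f δ = u} := ⟨fun δ => hu ⟨δ.1, δ.1.2, δ.2⟩⟩
      exact hasSum_empty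
  refine HasSum.sigma_of_hasSum hs.hasSum h1 ?_
  refine (summable_sigma_of_nonneg (fun p => mul_nonneg (h0 _) (hh _))).2
    ⟨fun u => (h1 u).summable, ?_⟩
  exact hs.congr fun u => (h1 u).tsum_eq.symm

/-- An algebraic integer as an element of `𝓞 F`. -/
def mkO (x : F) (h : IsIntegral ℤ x) : 𝓞 F := ⟨x, h⟩

@[simp] theorem map_mkO (x : F) (h : IsIntegral ℤ x) : algebraMap (𝓞 F) F (mkO x h) = x := rfl

theorem int_of_eq {x y : F} (h : IsIntegral ℤ x) (e : y = x) : IsIntegral ℤ y := e ▸ h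

variable [NumberField F]

theorem exists_den (γ : SL F) : ∃ D : ℕ, D ≠ 0 ∧ ∀ i j, IsIntegral ℤ ((D : F) * γ i j) := by
  have h : ∀ x : F, ∃ D : ℕ, D ≠ 0 ∧ IsIntegral ℤ ((D : F) * x) := by
    intro x
    obtain ⟨y, hy, h⟩ := ((IsFractionRing.isAlgebraic_iff ℤ ℚ F).2
      (Algebra.IsAlgebraic.isAlgebraic x)).exists_integral_multiple
    refine ⟨y.natAbs, by simpa using hy, ?_⟩
    rcases Int.natAbs_eq y with h1 | h1
    · rw [h1] at h; simpa using h
    · rw [h1] at h; simpa using h.neg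
  choose D hD hD' using h
  refine ⟨∏ p : Fin 2 × Fin 2, D (γ p.1 p.2), Finset.prod_ne_zero_iff.2 fun p _ => hD _, ?_⟩
  intro i j
  rw [← Finset.prod_erase_mul _ _ (Finset.mem_univ (i, j)), Nat.cast_mul, mul_assoc]
  exact (isIntegral_natCast _).mul (hD' _)

omit [NumberField F] in
theorem den_inv {γ : SL F} {D : F} (h : ∀ i j, IsIntegral ℤ (D * γ i j)) (i j : Fin 2) :
    IsIntegral ℤ (D * (γ⁻¹ : SL F) i j) := by
  rw [Matrix.SpecialLinearGroup.coe_inv, Matrix.adjugate_fin_two]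
  fin_cases i <;> fin_cases j
  · simpa using h 1 1
  · simpa using (h 0 1).neg
  · simpa using (h 1 0).neg
  · simpa using h 0 0

theorem finite_quot {M : ℕ} (hM : M ≠ 0) : Finite (𝓞 F ⧸ Ideal.span {(M : 𝓞 F)}) :=
  Ideal.finiteQuotientOfFreeOfNeBot _ (by simpa using hM)

/-- Finitely many cosets contain all matrices of bounded denominator. -/
theorem exists_cosets {Δ : Subgroup (SL F)} (hΔ : Δ.relIndex (Gam0 F) ≠ 0) {M : ℕ} (hM : M ≠ 0) :
    ∃ T : Finset (SL F), ∀ g : SL F, (∀ i j, IsIntegral ℤ ((M : F) * g i j)) →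
      ∃ γ ∈ T, ∃ δ ∈ Δ, g = γ * δ := by
  classical
  have := finite_quot (F := F) (mul_ne_zero hM hM)
  let Q := 𝓞 F ⧸ Ideal.span {((M * M : ℕ) : 𝓞 F)}
  let X := {g : SL F // ∀ i j, IsIntegral ℤ ((M : F) * g i j)}
  let c : X → Fin 2 → Fin 2 → Q := fun g i j => Ideal.Quotient.mk _ (mkO _ (g.2 i j))
  have hM' : (M : F) ≠ 0 := by exact_mod_cast hM
  have hc : ∀ g g' : X, c g = c g' → g.1⁻¹ * g'.1 ∈ Gam0 F := by
    intro g g' h
    have h1 : ∀ i j, ∃ y : F, IsIntegral ℤ y ∧ g'.1 i j = g.1 i j + M * y := by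
      intro i j
      obtain ⟨y, hy⟩ := Ideal.mem_span_singleton'.1
        (Ideal.Quotient.eq.1 (congrFun (congrFun h i) j).symm)
      refine ⟨y, y.isIntegral_coe, mul_left_cancel₀ hM' ?_⟩
      have := congrArg (algebraMap (𝓞 F) F) hy
      simp only [map_mul, map_natCast, map_sub, map_mkO, Nat.cast_mul] at this
      linear_combination -this
    choose y hy hy' using h1
    intro i j
    have h2 : (g.1⁻¹ * g.1 : SL F) i j = (1 : Mat F) i j := by simp
    rw [Matrix.SpecialLinearGroup.coe_mul, Matrix.mul_apply, Fin.sum_univ_two] at h2 ⊢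
    have h3 : IsIntegral ℤ ((1 : Mat F) i j) := (Gam0 F).one_mem i j
    have h4 := (h3.add ((den_inv g.2 i 0).mul (hy 0 j))).add ((den_inv g.2 i 1).mul (hy 1 j))
    refine int_of_eq h4 ?_
    rw [hy', hy', ← h2]; ring
  have : (Δ.subgroupOf (Gam0 F)).FiniteIndex := ⟨hΔ⟩
  have := Fintype.ofFinite (Gam0 F ⧸ Δ.subgroupOf (Gam0 F))
  have := Fintype.ofFinite Q
  have : Nonempty X := ⟨⟨1, fun i j => (isIntegral_natCast _).mul ((Gam0 F).one_mem i j)⟩⟩
  refine ⟨Finset.univ.image fun p : (Fin 2 → Fin 2 → Q) × (Gam0 F ⧸ Δ.subgroupOf (Gam0 F)) =>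
    (Function.invFun c p.1).1 * (p.2.out : Gam0 F), fun g hg => ?_⟩
  have h1 := hc _ _ (Function.invFun_eq (f := c) ⟨⟨g, hg⟩, rfl⟩)
  obtain ⟨δ, hδ⟩ := QuotientGroup.mk_out_eq_mul (Δ.subgroupOf (Gam0 F)) ⟨_, h1⟩
  refine ⟨_, Finset.mem_image.2 ⟨(c ⟨g, hg⟩, QuotientGroup.mk ⟨_, h1⟩), Finset.mem_univ _, rfl⟩,
    ((δ : Gam0 F) : SL F)⁻¹, inv_mem δ.2, ?_⟩
  simp only [hδ, Subgroup.coe_mul]
  group

omit [NumberField F] in
theorem xi_row {ξ : F × F → ℂ} {δ : SL F} (hδ : δ ∈ Del ξ) (γ : SL F) :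
    ξ (row (γ * δ)) = ξ (row γ) := by
  rw [row_mul]
  exact congrFun (show tr ξ (δ : Mat F) = ξ from hδ.1) _

/-- The support of an admissible function is a finite disjoint union of orbits. -/
theorem exists_orbits {ξ : F × F → ℂ} (hξ : Adm ξ) : ∃ I : Finset (SL F),
    ∀ u, ξ u = ∑ γ ∈ I, ξ (row γ) * (Orb (Del ξ) γ).indicator 1 u := by
  classical
  obtain ⟨M, hM, hsupp⟩ := hξ.supp
  have hΔ : (Del ξ).relIndex (Gam0 F) ≠ 0 := by
    rw [Del, Subgroup.inf_relIndex_right]; exact hξ.fin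
  obtain ⟨T, hT⟩ := exists_cosets hΔ hM
  have hM' : (M : F) ≠ 0 := by exact_mod_cast hM
  let cls : SL F → Set (F × F) := Orb (Del ξ)
  have hcls : ∀ γ γ' u, u ∈ cls γ → u ∈ cls γ' → cls γ = cls γ' := by
    have key : ∀ γ γ' u, u ∈ cls γ → u ∈ cls γ' → cls γ ⊆ cls γ' := by
      rintro γ γ' _ ⟨δ, hδ, rfl⟩ ⟨δ', hδ', h⟩ _ ⟨ε, hε, rfl⟩
      refine ⟨δ' * δ⁻¹ * ε, mul_mem (mul_mem hδ' (inv_mem hδ)) hε, ?_⟩
      have e1 : γ' * (δ' * δ⁻¹ * ε) = (γ' * δ') * (δ⁻¹ * ε) := by group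
      have e2 : γ * ε = (γ * δ) * (δ⁻¹ * ε) := by group
      rw [e1, e2, row_mul, h, ← row_mul]
    intro γ γ' u h h'
    exact (key _ _ u h h').antisymm (key _ _ u h' h)
  refine ⟨(T.image cls).image (Function.invFun cls), fun u => ?_⟩
  have hval : ∀ γ, u ∈ cls γ → ξ (row γ) = ξ u := by
    rintro γ ⟨δ, hδ, rfl⟩; exact (xi_row hδ γ).symm
  by_cases hu : ξ u = 0
  · rw [hu, Finset.sum_eq_zero]
    intro γ _
    by_cases h : u ∈ cls γ
    · rw [hval γ h, hu, zero_mul]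
    · rw [Set.indicator_of_notMem h, mul_zero]
  obtain ⟨h1, h2, a, b, ha, hb, hab⟩ := hsupp u hu
  let g : SL F := mkSL (b / M) (-a / M) u.1 u.2 (by field_simp; linear_combination hab)
  obtain ⟨γ, hγ, δ, hδ, hg⟩ := hT g (by
    intro i j
    fin_cases i <;> fin_cases j
    · simpa [g, mkSL, mul_div_cancel₀ _ hM'] using hb
    · simpa [g, mkSL, mul_div_cancel₀ _ hM'] using ha.neg
    · simpa [g, mkSL] using h1
    · simpa [g, mkSL] using h2)
  have hu1 : u ∈ cls γ := ⟨δ, hδ, by rw [← hg]; rfl⟩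
  have hγ₀ : cls (Function.invFun cls (cls γ)) = cls γ := Function.invFun_eq ⟨γ, rfl⟩
  have hu2 : u ∈ cls (Function.invFun cls (cls γ)) := by rw [hγ₀]; exact hu1
  rw [Finset.sum_eq_single (Function.invFun cls (cls γ))]
  · rw [Set.indicator_of_mem hu2, hval _ hu2]; simp
  · intro γ' hγ' hne
    rw [Set.indicator_of_notMem, mul_zero]
    intro h
    obtain ⟨_, hs, rfl⟩ := Finset.mem_image.1 hγ'
    obtain ⟨γ'', -, rfl⟩ := Finset.mem_image.1 hs
    have e : cls (Function.invFun cls (cls γ'')) = cls γ'' := Function.invFun_eq ⟨γ'', rfl⟩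
    exact hne (by rw [← e, hcls _ _ u h hu1])
  · intro h
    exact absurd (Finset.mem_image_of_mem _ (Finset.mem_image_of_mem _ hγ)) h

variable [Emb F]

/-- There is a weight for the translation lattice at every cusp. -/
theorem exists_wt_cusp (hR : RowStmt F) {ξ : F × F → ℂ} (hξ : Adm ξ) (γ : SL F) :
    ∃ β, Wt (Lc (Del ξ) γ) β := by
  obtain ⟨D, hD, hD'⟩ := exists_den γ
  obtain ⟨N, hN, hN'⟩ := hR.transl _ (hR.adm_tr ξ (γ : Mat F) hξ (by simp))
  have hDi := den_inv hD'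
  have hN0 : N * D * D ≠ 0 := by positivity
  have hle : latt F (N * D * D) ≤ Lc (Del ξ) γ := by
    rintro _ ⟨y, hy, rfl⟩
    refine ⟨?_, ?_⟩
    · have h1 : tr (tr ξ γ) (nT (((N * D * D : ℕ) : F) * y) : SL F) = tr ξ γ :=
        (hN' _ ⟨D * D * y, ((isIntegral_natCast _).mul (isIntegral_natCast _)).mul hy, by
          push_cast; ring⟩).1
      show tr ξ ((γ⁻¹ * nT _ * γ : SL F) : Mat F) = ξ
      rw [mul_assoc, Matrix.SpecialLinearGroup.coe_mul, tr_mul, Matrix.SpecialLinearGroup.coe_mul,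
        tr_mul, h1, ← tr_mul, ← Matrix.SpecialLinearGroup.coe_mul, inv_mul_cancel,
        Matrix.SpecialLinearGroup.coe_one, tr_one]
    · intro i j
      have h2 : (γ⁻¹ * γ : SL F) i j = (1 : Mat F) i j := by simp
      rw [Matrix.SpecialLinearGroup.coe_mul, Matrix.mul_apply, Fin.sum_univ_two] at h2
      have h3 : IsIntegral ℤ ((1 : Mat F) i j) := (Gam0 F).one_mem i j
      have h4 := h3.add ((((isIntegral_natCast N).mul hy).mul (hDi i 0)).mul (hD' 1 j))
      refine int_of_eq h4 ?_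
      rw [← h2]
      simp only [mul_ap, nT_00, nT_01, nT_10, nT_11]
      push_cast
      ring
  have hint : ∀ t ∈ Lc (Del ξ) γ, IsIntegral ℤ ((D : F) * D * t) := by
    intro t ht
    have h1 : γ⁻¹ * nT t * γ ∈ Gam0 F := ht.2
    set δ := γ⁻¹ * nT t * γ with hδ
    have h2 : nT t = γ * δ * γ⁻¹ := by rw [hδ]; group
    have h3 := congrArg (fun g : SL F => g 0 1) h2
    simp only [Matrix.SpecialLinearGroup.coe_mul, Matrix.mul_apply, Fin.sum_univ_two] at h3
    have h4 : (nT t) 0 1 = t := rfl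
    rw [h4] at h3
    have h5 := ((((hD' 0 0).mul (h1 0 0)).add ((hD' 0 1).mul (h1 1 0))).mul (hDi 0 1)).add
      ((((hD' 0 0).mul (h1 0 1)).add ((hD' 0 1).mul (h1 1 1))).mul (hDi 1 1))
    refine int_of_eq h5 ?_
    rw [h3]; ring
  obtain ⟨β, hβ⟩ := exists_wt_latt (F := F) hN0
  have hfin := finite_quot (F := F) (mul_ne_zero (mul_ne_zero hD hD) hN0)
  let f : Lc (Del ξ) γ →+ 𝓞 F ⧸ Ideal.span {((D * D * (N * D * D) : ℕ) : 𝓞 F)} :=
    { toFun := fun t => Ideal.Quotient.mk _ (mkO _ (hint t t.2))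
      map_zero' := by
        rw [← map_zero (Ideal.Quotient.mk _)]; congr 1
        apply RingOfIntegers.ext; simp
      map_add' := by
        intro s t
        rw [← map_add]; congr 1
        apply RingOfIntegers.ext; simp [mul_add] }
  have hker : f.ker ≤ (latt F (N * D * D)).addSubgroupOf (Lc (Del ξ) γ) := by
    intro t ht
    obtain ⟨y, hy⟩ := Ideal.mem_span_singleton'.1 (Ideal.Quotient.eq_zero_iff_mem.1 ht)
    have hD0 : (D : F) * D ≠ 0 := by exact_mod_cast mul_ne_zero hD hD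
    refine ⟨y, y.isIntegral_coe, mul_left_cancel₀ hD0 ?_⟩
    have := congrArg (algebraMap (𝓞 F) F) hy
    simp only [map_mul, map_natCast, map_mkO, Nat.cast_mul] at this
    simp only [Nat.cast_mul, AddSubgroup.coe_subtype]
    linear_combination -this
  have : ((latt F (N * D * D)).addSubgroupOf (Lc (Del ξ) γ)).FiniteIndex :=
    AddSubgroup.finiteIndex_of_le hker
  exact hβ.of_le hle

end Crest.Agent.T27.TH.U89
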