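import Crest.Agent.PVc.R17.ThetaDens

/-!
# Row 27, theta leaf D1 (helper57): differentiating two Bessel expansions along a geodesic,
in all places at once

Pure analysis.  `ι` is the finite set of places, `a : Λ → ℂ` the coefficients, `ρ r j` the
frequency of the index `r` at the place `j`; the expansion is
`∑ a r ∏_j Mk (y j) (b ‖ρ r j‖²) exp(i Re(ρ r j · z j))`.
-/

set_option autoImplicit false

noncomputable section

namespace Crest.Agent.T27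

open scoped ComplexConjugate Topology
open Filter Crest.Agent.R17

namespace Vor57

/-- `exp(i Re z)`. -/
def eR (z : ℂ) : ℂ := Complex.exp ((z.re : ℂ) * Complex.I)

/-- Conjugate or not. -/
def cjb (s : Bool) (z : ℂ) : ℂ := bif s then conj z else z

theorem norm_eR (z : ℂ) : ‖eR z‖ = 1 := Complex.norm_exp_ofReal_mul_I _

theorem eR_add (z w : ℂ) : eR (z + w) = eR z * eR w := by
  rw [eR, eR, eR, ← Complex.exp_add, Complex.add_re]
  push_cast
  ring_nf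

@[simp] theorem eR_zero : eR 0 = 1 := by simp [eR]

theorem norm_cjb (s : Bool) (z : ℂ) : ‖cjb s z‖ = ‖z‖ := by
  cases s <;> simp [cjb]

theorem cjb_mul (s : Bool) (z w : ℂ) : cjb s (z * w) = cjb s z * cjb s w := by
  cases s <;> simp [cjb]

theorem cjb_ofReal (s : Bool) (x : ℝ) : cjb s x = x := by
  cases s <;> simp [cjb]

theorem cjb_div_ofReal (s : Bool) (z : ℂ) (x : ℝ) : cjb s (z / x) = cjb s z / x := by
  cases s <;> simp [cjb]

/-- One-place summability. -/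
def Sm1 {Λ : Type*} (a ρ : Λ → ℂ) : Prop :=
  ∀ y : ℝ, 0 < y → Summable fun r => ‖a r‖ * ((1 + ‖ρ r‖) * W0 (y * ‖ρ r‖ ^ 2))

section one

variable {Λ Λ' : Type*} {a ρ : Λ → ℂ} {a' ρ' : Λ' → ℂ} {b : ℝ}

theorem W0_nonneg {x : ℝ} (hx : 0 ≤ x) : 0 ≤ W0 x := (W0_pos hx).le

theorem Sm1.summable (h : Sm1 a ρ) (hb : 0 < b) {y : ℝ} (hy : 0 < y) {φ : Λ → ℂ}
    (hφ : ∀ r, ‖φ r‖ ≤ 1 + ‖ρ r‖) :
    Summable fun r => a r * (Mk y (b * ‖ρ r‖ ^ 2) : ℂ) * φ r := by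
  refine .of_norm_bounded ((h (y ^ 2 * b) (by positivity)).mul_left (y ^ (2 / 3 : ℝ))) fun r => ?_
  have h1 := W0_nonneg (x := y ^ 2 * (b * ‖ρ r‖ ^ 2)) (by positivity)
  rw [norm_mul, norm_mul, Complex.norm_real, Real.norm_of_nonneg (Mk_pos hy (by positivity)).le, Mk,
    mul_assoc (y ^ 2)]
  calc _ ≤ ‖a r‖ * (y ^ (2 / 3 : ℝ) * W0 (y ^ 2 * (b * ‖ρ r‖ ^ 2))) * (1 + ‖ρ r‖) := by
        gcongr; exact hφ r
    _ = _ := by ring

theorem diff (w : ℂ) {t : ℝ} (ht : t ≠ 0) :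
    (eR (t * w) - eR (-(t * w))) / (2 * t) =
      Complex.I * (w.re * Real.sinc (t * w.re) : ℝ) := by
  have h1 : eR (t * w) = Complex.exp ((t * w.re : ℝ) * Complex.I) := by
    rw [eR, Complex.re_ofReal_mul]
  have h1' : eR (-(t * w)) = conj (Complex.exp ((t * w.re : ℝ) * Complex.I)) := by
    rw [eR, Complex.neg_re, Complex.re_ofReal_mul, ← Complex.exp_conj, map_mul, Complex.conj_I,
      Complex.conj_ofReal]
    push_cast
    ring_nf
  have h2 : w.re * Real.sinc (t * w.re) = Real.sin (t * w.re) / t := by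
    rcases eq_or_ne w.re 0 with h | h
    · simp [h]
    · rw [Real.sinc_of_ne_zero (mul_ne_zero ht h)]
      field_simp
  have h3 : (t : ℂ) ≠ 0 := Complex.ofReal_ne_zero.2 ht
  rw [h1, h1', h2, Complex.sub_conj, Complex.exp_ofReal_mul_I_im]
  push_cast
  field_simp

/-- The one-place expansion. -/
def F1 (a ρ : Λ → ℂ) (b : ℝ) (z : ℂ) (y : ℝ) : ℂ :=
  ∑' r, a r * (Mk y (b * ‖ρ r‖ ^ 2) : ℂ) * eR (ρ r * z)

theorem odd_deriv (h : Sm1 a ρ) (hb : 0 < b) (ζ : ℝ → ℂ) (η : ℝ → ℝ) (hζ : ContinuousAt ζ 0)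
    (hη : ContinuousAt η 0) (hη0 : 0 < η 0) :
    Tendsto (fun t : ℝ => (F1 a ρ b (t * ζ t) (η t) - F1 a ρ b (-(t * ζ t)) (η t)) / (2 * t))
      (𝓝[>] 0)
      (𝓝 (∑' r, a r * (Mk (η 0) (b * ‖ρ r‖ ^ 2) : ℂ) * (Complex.I * ((ρ r * ζ 0).re : ℝ)))) := by
  have hpos : ∀ᶠ t in 𝓝 (0 : ℝ), η 0 / 2 < η t := hη.eventually (lt_mem_nhds (half_lt_self hη0))
  have hg : ContinuousAt (fun t => η t ^ (2 / 3 : ℝ) * ‖ζ t‖) 0 :=
    (hη.rpow_const (.inl hη0.ne')).mul hζ.norm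
  have key := tendsto_tsum_of_dominated_convergence (𝓕 := 𝓝 (0 : ℝ))
    (f := fun t (r : Λ) => a r * (Mk (η t) (b * ‖ρ r‖ ^ 2) : ℂ) *
      (Complex.I * ((ρ r * ζ t).re * Real.sinc (t * (ρ r * ζ t).re) : ℝ)))
    ((h ((η 0 / 2) ^ 2 * b) (by positivity)).mul_left (η 0 ^ (2 / 3 : ℝ) * ‖ζ 0‖ + 1))
    (fun r => ContinuousAt.tendsto (by
      have h1 : ContinuousAt (fun t => Mk (η t) (b * ‖ρ r‖ ^ 2)) 0 :=
        ((continuousOn_Mk (by positivity)).continuousAt (Ioi_mem_nhds hη0)).comp hη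
      have h2 := Real.continuous_sinc
      fun_prop))
    ((hpos.and (hg.eventually (gt_mem_nhds (lt_add_one _)))).mono fun t ht r => by
      have ht0 : 0 < η t := (half_pos hη0).trans ht.1
      have h2 : |(ρ r * ζ t).re| ≤ ‖ρ r‖ * ‖ζ t‖ := by
        rw [← norm_mul]; exact Complex.abs_re_le_norm _
      have h3 := Real.abs_sinc_le_one (t * (ρ r * ζ t).re)
      have h4 : W0 (η t ^ 2 * (b * ‖ρ r‖ ^ 2)) ≤ W0 ((η 0 / 2) ^ 2 * b * ‖ρ r‖ ^ 2) := by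
        refine W0_antitoneOn (Set.mem_Ici.2 (by positivity)) (Set.mem_Ici.2 (by positivity)) ?_
        rw [mul_assoc]
        gcongr
        exact ht.1.le
      have h5 := W0_nonneg (x := η t ^ 2 * (b * ‖ρ r‖ ^ 2)) (by positivity)
      have h6 := W0_nonneg (x := (η 0 / 2) ^ 2 * b * ‖ρ r‖ ^ 2) (by positivity)
      have h7 : |(ρ r * ζ t).re * Real.sinc (t * (ρ r * ζ t).re)| ≤ (1 + ‖ρ r‖) * ‖ζ t‖ := by
        rw [abs_mul]
        refine (mul_le_of_le_one_right (abs_nonneg _) h3).trans (h2.trans ?_)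
        gcongr
        linarith
      rw [norm_mul, norm_mul, norm_mul Complex.I, Complex.norm_I, one_mul, Complex.norm_real,
        Complex.norm_real, Real.norm_of_nonneg (Mk_pos ht0 (by positivity)).le, Real.norm_eq_abs,
        Mk]
      calc _ ≤ ‖a r‖ * (η t ^ (2 / 3 : ℝ) * W0 ((η 0 / 2) ^ 2 * b * ‖ρ r‖ ^ 2)) *
            ((1 + ‖ρ r‖) * ‖ζ t‖) := by gcongr
        _ = η t ^ (2 / 3 : ℝ) * ‖ζ t‖ *
            (‖a r‖ * ((1 + ‖ρ r‖) * W0 ((η 0 / 2) ^ 2 * b * ‖ρ r‖ ^ 2))) := by ring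
        _ ≤ _ := by gcongr; exact ht.2.le)
  simp only [zero_mul, Real.sinc_zero, mul_one] at key
  refine (key.mono_left nhdsWithin_le_nhds).congr' ?_
  filter_upwards [nhdsWithin_le_nhds hpos, self_mem_nhdsWithin] with t h1 h2
  have ht0 : 0 < η t := (half_pos hη0).trans h1
  have hs := fun z : ℂ => h.summable hb ht0 (φ := fun r => eR (ρ r * z)) fun r => by
    rw [norm_eR]; linarith [norm_nonneg (ρ r)]
  simp only [F1]
  rw [← (hs _).tsum_sub (hs _), ← tsum_div_const]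
  refine tsum_congr fun r => ?_
  rw [← mul_sub, mul_div_assoc _ (_ - _), ← diff _ (ne_of_gt h2)]
  congr 4 <;> ring

/-- The first moment. -/
def S1 (a ρ : Λ → ℂ) (b : ℝ) (s : Bool) (y : ℝ) : ℂ :=
  ∑' r, a r * (Mk y (b * ‖ρ r‖ ^ 2) : ℂ) * cjb s (ρ r)

theorem split (h : Sm1 a ρ) (hb : 0 < b) {y : ℝ} (hy : 0 < y) (ζ : ℂ) :
    ∑' r, a r * (Mk y (b * ‖ρ r‖ ^ 2) : ℂ) * (Complex.I * ((ρ r * ζ).re : ℝ)) =
      Complex.I / 2 * (ζ * S1 a ρ b false y + conj ζ * S1 a ρ b true y) := by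
  have hs := fun s => h.summable hb hy (φ := fun r => cjb s (ρ r)) fun r => by
    rw [norm_cjb]; linarith
  rw [S1, S1, ← tsum_mul_left, ← tsum_mul_left,
    ← ((hs false).mul_left _).tsum_add ((hs true).mul_left _), ← tsum_mul_left]
  refine tsum_congr fun r => ?_
  rw [Complex.re_eq_add_conj, map_mul]
  simp only [cjb, cond_true, cond_false]
  ring

/-- **One place.** -/
theorem one_place (h : Sm1 a ρ) (h' : Sm1 a' ρ') (hb : 0 < b) {β : ℂ} (hβ : β ≠ 0)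
    (H : ∀ (z : ℂ) (y : ℝ), 0 < y → F1 a ρ b z y =
      F1 a' ρ' b (-(conj z / (β ^ 2 * ((‖z‖ ^ 2 + y ^ 2 : ℝ) : ℂ))))
        (y / (‖β‖ ^ 2 * (‖z‖ ^ 2 + y ^ 2))))
    (s : Bool) {y : ℝ} (hy : 0 < y) :
    S1 a ρ b s y = -(cjb (!s) β ^ 2 * y ^ 2)⁻¹ * S1 a' ρ' b (!s) (‖β‖ ^ 2 * y)⁻¹ := by
  have hn := norm_pos_iff.2 hβ
  have dir : ∀ ζ : ℂ, ζ * S1 a ρ b false y + conj ζ * S1 a ρ b true y =
      -(conj ζ / (β ^ 2 * y ^ 2)) * S1 a' ρ' b false (‖β‖ ^ 2 * y)⁻¹ +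
        -(ζ / (conj β ^ 2 * y ^ 2)) * S1 a' ρ' b true (‖β‖ ^ 2 * y)⁻¹ := fun ζ => by
    have h1 := odd_deriv h hb (fun _ => ζ) (fun _ => y) continuousAt_const continuousAt_const hy
    have h2 := odd_deriv h' hb
      (fun t => -(conj ζ / (β ^ 2 * ((‖t * ζ‖ ^ 2 + y ^ 2 : ℝ) : ℂ))))
      (fun t => y / (‖β‖ ^ 2 * (‖t * ζ‖ ^ 2 + y ^ 2)))
      (ContinuousAt.neg (continuousAt_const.div (by fun_prop)
        (mul_ne_zero (pow_ne_zero _ hβ) (Complex.ofReal_ne_zero.2 (by positivity)))))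
      (continuousAt_const.div (by fun_prop) (by positivity)) (by positivity)
    have h3 := tendsto_nhds_unique h1 (h2.congr fun t => by
      rw [H _ _ hy, H _ _ hy, norm_neg]
      simp only [map_neg, map_mul, Complex.conj_ofReal]
      congr 3 <;> ring)
    have h4 : y / (‖β‖ ^ 2 * y ^ 2) = (‖β‖ ^ 2 * y)⁻¹ := by field_simp
    simp only [Complex.ofReal_zero, zero_mul, norm_zero, zero_pow two_ne_zero, zero_add, h4] at h3
    rw [split h hb hy, split h' hb (by positivity)] at h3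
    rw [mul_left_cancel₀ (div_ne_zero Complex.I_ne_zero two_ne_zero) h3]
    simp only [map_neg, map_div₀, map_mul, map_pow, Complex.conj_conj, Complex.ofReal_pow,
      Complex.conj_ofReal]
  have h1 := dir 1
  have h2 := dir Complex.I
  rw [map_one] at h1
  rw [Complex.conj_I] at h2
  apply mul_left_cancel₀ Complex.I_ne_zero
  cases s
  · simp only [cjb, Bool.not_false, cond_true]
    linear_combination (h2 + Complex.I * h1) / 2
  · simp only [cjb, Bool.not_true, cond_false]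
    linear_combination (Complex.I * h1 - h2) / 2

end one

section many

variable {ι : Type*} [Fintype ι] [DecidableEq ι] {Λ Λ' : Type*} {a : Λ → ℂ} {ρ : Λ → ι → ℂ}
  {a' : Λ' → ℂ} {ρ' : Λ' → ι → ℂ} {b : ℝ}

/-- Summability of an expansion together with its first moments. -/
def SmN (a : Λ → ℂ) (ρ : Λ → ι → ℂ) : Prop :=
  ∀ y : ℝ, 0 < y → Summable fun r => ‖a r‖ * ∏ j, (1 + ‖ρ r j‖) * W0 (y * ‖ρ r j‖ ^ 2)

omit [DecidableEq ι] in
theorem SmN.vec (h : SmN a ρ) {y : ι → ℝ} (hy : ∀ j, 0 < y j) :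
    Summable fun r => ‖a r‖ * ∏ j, (1 + ‖ρ r j‖) * W0 (y j * ‖ρ r j‖ ^ 2) := by
  obtain ⟨m, hm, hm'⟩ : ∃ m : ℝ, 0 < m ∧ ∀ j, m ≤ y j := by
    rcases isEmpty_or_nonempty ι with hι | hι
    · exact ⟨1, one_pos, fun j => hι.elim j⟩
    · obtain ⟨j, hj⟩ := Finite.exists_min y
      exact ⟨y j, hy j, hj⟩
  have h0 : ∀ r j, 0 ≤ (1 + ‖ρ r j‖) * W0 (y j * ‖ρ r j‖ ^ 2) := fun r j =>
    mul_nonneg (by positivity) (W0_nonneg (by have := hy j; positivity))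
  refine .of_nonneg_of_le (fun r => mul_nonneg (norm_nonneg _) (Finset.prod_nonneg fun j _ => h0 r j))
    (fun r => mul_le_mul_of_nonneg_left (Finset.prod_le_prod (fun j _ => h0 r j) fun j _ => ?_)
      (norm_nonneg _)) (h m hm)
  have := hy j
  refine mul_le_mul_of_nonneg_left (W0_antitoneOn (Set.mem_Ici.2 (by positivity))
    (Set.mem_Ici.2 (by positivity)) ?_) (by positivity)
  gcongr
  exact hm' j

theorem SmN.sm1 (h : SmN a ρ) (hb : 0 < b) (k : ι) {η : ι → ℝ} (hη : ∀ j, 0 < η j)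
    {φ : Λ → ι → ℂ} (hφ : ∀ r j, ‖φ r j‖ ≤ 1 + ‖ρ r j‖) (c : ℂ) :
    Sm1 (fun r => c * a r * ∏ j ∈ Finset.univ.erase k, (Mk (η j) (b * ‖ρ r j‖ ^ 2) : ℂ) * φ r j)
      fun r => ρ r k := by
  intro y hy
  have h1 := h.vec (y := Function.update (fun j => η j ^ 2 * b) k y) fun j => by
    rcases eq_or_ne j k with rfl | hj
    · rwa [Function.update_self]
    · rw [Function.update_of_ne hj]
      have := hη j
      positivity
  refine .of_nonneg_of_le (fun r => mul_nonneg (norm_nonneg _) (mul_nonneg (by positivity)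
    (W0_nonneg (by positivity)))) (fun r => ?_)
    (h1.mul_left (‖c‖ * ∏ j ∈ Finset.univ.erase k, η j ^ (2 / 3 : ℝ)))
  rw [← Finset.mul_prod_erase _ _ (Finset.mem_univ k), Function.update_self, norm_mul, norm_mul,
    norm_prod]
  have h2 : ∏ j ∈ Finset.univ.erase k, ‖(Mk (η j) (b * ‖ρ r j‖ ^ 2) : ℂ) * φ r j‖ ≤
      (∏ j ∈ Finset.univ.erase k, η j ^ (2 / 3 : ℝ)) * ∏ j ∈ Finset.univ.erase k, (1 + ‖ρ r j‖) *
        W0 (Function.update (fun j => η j ^ 2 * b) k y j * ‖ρ r j‖ ^ 2) := by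
    rw [← Finset.prod_mul_distrib]
    refine Finset.prod_le_prod (fun j _ => norm_nonneg _) fun j hj => ?_
    have h3 := hη j
    have h4 := W0_nonneg (x := η j ^ 2 * (b * ‖ρ r j‖ ^ 2)) (by positivity)
    rw [Function.update_of_ne (Finset.ne_of_mem_erase hj), norm_mul, Complex.norm_real,
      Real.norm_of_nonneg (Mk_pos h3 (by positivity)).le, Mk, mul_assoc (η j ^ 2)]
    calc _ ≤ η j ^ (2 / 3 : ℝ) * W0 (η j ^ 2 * (b * ‖ρ r j‖ ^ 2)) * (1 + ‖ρ r j‖) := by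
          gcongr; exact hφ r j
      _ = _ := by ring
  have h5 : 0 ≤ (1 + ‖ρ r k‖) * W0 (y * ‖ρ r k‖ ^ 2) :=
    mul_nonneg (by positivity) (W0_nonneg (by positivity))
  calc _ ≤ ‖c‖ * ‖a r‖ * ((∏ j ∈ Finset.univ.erase k, η j ^ (2 / 3 : ℝ)) *
        ∏ j ∈ Finset.univ.erase k, (1 + ‖ρ r j‖) *
        W0 (Function.update (fun j => η j ^ 2 * b) k y j * ‖ρ r j‖ ^ 2)) *
        ((1 + ‖ρ r k‖) * W0 (y * ‖ρ r k‖ ^ 2)) := by gcongr
    _ = _ := by ring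

/-- The expansion in all places. -/
def FN (a : Λ → ℂ) (ρ : Λ → ι → ℂ) (b : ℝ) (z : ι → ℂ) (y : ι → ℝ) : ℂ :=
  ∑' r, a r * ∏ j, (Mk (y j) (b * ‖ρ r j‖ ^ 2) : ℂ) * eR (ρ r j * z j)

/-- The horizontal coordinate after the inversion. -/
def gz (β z : ℂ) (y : ℝ) : ℂ := -(conj z / (β ^ 2 * ((‖z‖ ^ 2 + y ^ 2 : ℝ) : ℂ)))

/-- The height after the inversion. -/
def gy (β z : ℂ) (y : ℝ) : ℝ := y / (‖β‖ ^ 2 * (‖z‖ ^ 2 + y ^ 2))

theorem gy_pos {β : ℂ} (hβ : β ≠ 0) (z : ℂ) {y : ℝ} (hy : 0 < y) : 0 < gy β z y := by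
  have := norm_pos_iff.2 hβ
  unfold gy
  positivity

theorem prod_split (k : ι) {f g : ι → ℂ} (h : ∀ j, j ≠ k → f j = g j) :
    ∏ j, f j = f k * ∏ j ∈ Finset.univ.erase k, g j := by
  rw [← Finset.mul_prod_erase _ _ (Finset.mem_univ k),
    Finset.prod_congr rfl fun j hj => h j (Finset.ne_of_mem_erase hj)]

theorem partial_places (h : SmN a ρ) (h' : SmN a' ρ') (hb : 0 < b) {β : ι → ℂ}
    (hβ : ∀ j, β j ≠ 0)
    (H : ∀ (z : ι → ℂ) (y : ι → ℝ), (∀ j, 0 < y j) → FN a ρ b z y =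
      FN a' ρ' b (fun j => gz (β j) (z j) (y j)) fun j => gy (β j) (z j) (y j))
    (s : ι → Bool) (T : Finset ι) : ∀ (z : ι → ℂ) (y : ι → ℝ), (∀ j, 0 < y j) →
    ∑' r, a r * ∏ j, (Mk (y j) (b * ‖ρ r j‖ ^ 2) : ℂ) *
        (if j ∈ T then cjb (s j) (ρ r j) else eR (ρ r j * z j)) =
      (∏ j ∈ T, -(cjb (!s j) (β j) ^ 2 * y j ^ 2)⁻¹) *
        ∑' r, a' r * ∏ j, (Mk (if j ∈ T then (‖β j‖ ^ 2 * y j)⁻¹ else gy (β j) (z j) (y j))
          (b * ‖ρ' r j‖ ^ 2) : ℂ) *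
          (if j ∈ T then cjb (!s j) (ρ' r j) else eR (ρ' r j * gz (β j) (z j) (y j))) := by
  induction T using Finset.induction_on with
  | empty => intro z y hy; simpa [FN] using H z y hy
  | insert k T hk ih =>
    intro z y hy
    have hφ : ∀ (w u : ℂ) (s : Bool) (p : Prop) [Decidable p],
        ‖if p then cjb s w else eR u‖ ≤ 1 + ‖w‖ := fun w u s p _ => by
      split_ifs
      · rw [norm_cjb]; linarith
      · rw [norm_eR]; linarith [norm_nonneg w]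
    have hη : ∀ j, 0 < if j ∈ T then (‖β j‖ ^ 2 * y j)⁻¹ else gy (β j) (z j) (y j) := fun j => by
      have := norm_pos_iff.2 (hβ j)
      have := hy j
      split_ifs
      · positivity
      · exact gy_pos (hβ j) _ (hy j)
    have s1 := h.sm1 hb k hy (φ := fun r j => if j ∈ T then cjb (s j) (ρ r j) else eR (ρ r j * z j))
      (fun r j => hφ _ _ _ _) 1
    have s2 := h'.sm1 hb k hη (φ := fun r j =>
      if j ∈ T then cjb (!s j) (ρ' r j) else eR (ρ' r j * gz (β j) (z j) (y j)))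
      (fun r j => hφ _ _ _ _) (∏ j ∈ T, -(cjb (!s j) (β j) ^ 2 * y j ^ 2)⁻¹)
    have key := one_place s1 s2 hb (hβ k) (fun z' y' hy' => by
      have h1 := ih (Function.update z k z') (Function.update y k y') fun j => by
        rcases eq_or_ne j k with rfl | hj
        · rwa [Function.update_self]
        · rw [Function.update_of_ne hj]; exact hy j
      rw [← tsum_mul_left] at h1
      rw [F1, F1]
      refine (tsum_congr fun r => ?_).trans (h1.trans (tsum_congr fun r => ?_))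
      · rw [prod_split k fun j hj => by rw [Function.update_of_ne hj, Function.update_of_ne hj],
          Function.update_self, Function.update_self, if_neg hk]
        ring
      · rw [prod_split k fun j hj => by rw [Function.update_of_ne hj, Function.update_of_ne hj],
          Function.update_self, Function.update_self, if_neg hk, if_neg hk,
          Finset.prod_congr (s₁ := T) rfl fun j hj => by
            rw [Function.update_of_ne (ne_of_mem_of_not_mem hj hk)], gz, gy]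
        ring) (s k) (hy k)
    rw [S1, S1, ← tsum_mul_left] at key
    rw [← tsum_mul_left]
    refine (tsum_congr fun r => ?_).trans (key.trans (tsum_congr fun r => ?_))
    · rw [prod_split k fun j hj => by simp only [Finset.mem_insert, hj, false_or]; rfl,
        if_pos (Finset.mem_insert_self _ _)]
      ring
    · rw [prod_split k fun j hj => by simp only [Finset.mem_insert, hj, false_or]; rfl,
        if_pos (Finset.mem_insert_self _ _), if_pos (Finset.mem_insert_self _ _),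
        Finset.prod_insert hk]
      ring

/-- **All places**, in terms of `Mk`. -/
theorem all_places (h : SmN a ρ) (h' : SmN a' ρ') (hb : 0 < b) {β : ι → ℂ} (hβ : ∀ j, β j ≠ 0)
    (H : ∀ (z : ι → ℂ) (y : ι → ℝ), (∀ j, 0 < y j) → FN a ρ b z y =
      FN a' ρ' b (fun j => gz (β j) (z j) (y j)) fun j => gy (β j) (z j) (y j))
    (s : ι → Bool) {y : ι → ℝ} (hy : ∀ j, 0 < y j) :
    ∑' r, a r * ∏ j, (Mk (y j) (b * ‖ρ r j‖ ^ 2) : ℂ) * cjb (s j) (ρ r j) =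
      (∏ j, -(cjb (!s j) (β j) ^ 2 * y j ^ 2)⁻¹) *
        ∑' r, a' r * ∏ j, (Mk (‖β j‖ ^ 2 * y j)⁻¹ (b * ‖ρ' r j‖ ^ 2) : ℂ) * cjb (!s j) (ρ' r j) := by
  simpa using partial_places h h' hb hβ H s Finset.univ 0 y hy

/-- The angular factor `‖w‖^{1/3} · w / ‖w‖` (or its conjugate). -/
def ang (s : Bool) (w : ℂ) : ℂ := ((‖w‖ ^ (1 / 3 : ℝ) : ℝ) : ℂ) * cjb s (w / (‖w‖ : ℝ))

theorem U1_eq {y b : ℝ} (hy0 : 0 < y) (hb : 0 ≤ b) : U1 (y ^ 2 * b) = b ^ (1 / 3 : ℝ) * Mk y b := by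
  rw [U1, Mk, Real.mul_rpow (by positivity) hb, ← Real.rpow_natCast, ← Real.rpow_mul hy0.le]
  norm_num
  ring

theorem ang_U1 (hb : 0 < b) {y : ℝ} (hy : 0 < y) (s : Bool) (w : ℂ) :
    ang s w * (U1 (y ^ 2 * (b * ‖w‖ ^ 2)) : ℂ) =
      ((b ^ (1 / 3 : ℝ) : ℝ) : ℂ) * ((Mk y (b * ‖w‖ ^ 2) : ℂ) * cjb s w) := by
  rcases eq_or_ne w 0 with rfl | hw
  · cases s <;> simp [ang, cjb]
  have hn := norm_pos_iff.2 hw
  have e : ‖w‖ ^ (1 / 3 : ℝ) * (‖w‖ ^ 2) ^ (1 / 3 : ℝ) = ‖w‖ := by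
    rw [← Real.mul_rpow hn.le (by positivity), show ‖w‖ * ‖w‖ ^ 2 = ‖w‖ ^ (3 : ℕ) by ring,
      show (1 / 3 : ℝ) = ((3 : ℕ) : ℝ)⁻¹ by norm_num, Real.pow_rpow_inv_natCast hn.le (by norm_num)]
  have e' := congrArg (fun x : ℝ => (x : ℂ)) e
  have hn' : ((‖w‖ : ℝ) : ℂ) ≠ 0 := Complex.ofReal_ne_zero.2 hn.ne'
  rw [U1_eq hy (by positivity), Real.mul_rpow hb.le (by positivity), ang, cjb_div_ofReal]
  simp only [Complex.ofReal_mul] at e' ⊢
  generalize Mk y (b * ‖w‖ ^ 2) = M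
  field_simp
  linear_combination ((b ^ (1 / 3 : ℝ) : ℝ) : ℂ) * (M : ℂ) * cjb s w * e'

/-- **Abstract additive Voronoi formula**: all places, profile `U1`. -/
theorem voronoi (h : SmN a ρ) (h' : SmN a' ρ') (hb : 0 < b) {β : ι → ℂ} (hβ : ∀ j, β j ≠ 0)
    (H : ∀ (z : ι → ℂ) (y : ι → ℝ), (∀ j, 0 < y j) → FN a ρ b z y =
      FN a' ρ' b (fun j => gz (β j) (z j) (y j)) fun j => gy (β j) (z j) (y j))
    (s : ι → Bool) {x : ι → ℝ} (hx : ∀ j, 0 < x j) :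
    ∑' r, a r * (∏ j, ang (s j) (ρ r j)) * ∏ j, (U1 (b * ‖ρ r j‖ ^ 2 * x j) : ℂ) =
      (∏ j, -(cjb (!s j) (β j) ^ 2)⁻¹) * (∏ j, (x j : ℂ))⁻¹ *
        ∑' r, a' r * (∏ j, ang (!s j) (ρ' r j)) *
          ∏ j, (U1 (b / ‖β j‖ ^ 4 * ‖ρ' r j‖ ^ 2 / x j) : ℂ) := by
  obtain ⟨y, hy, rfl⟩ : ∃ y : ι → ℝ, (∀ j, 0 < y j) ∧ x = fun j => y j ^ 2 :=
    ⟨fun j => √(x j), fun j => Real.sqrt_pos.2 (hx j), funext fun j => (Real.sq_sqrt (hx j).le).symm⟩
  have h1 : ∀ r, a r * (∏ j, ang (s j) (ρ r j)) * ∏ j, (U1 (b * ‖ρ r j‖ ^ 2 * y j ^ 2) : ℂ) =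
      (∏ _j : ι, ((b ^ (1 / 3 : ℝ) : ℝ) : ℂ)) *
        (a r * ∏ j, (Mk (y j) (b * ‖ρ r j‖ ^ 2) : ℂ) * cjb (s j) (ρ r j)) := fun r => by
    rw [mul_assoc, ← Finset.prod_mul_distrib, mul_left_comm, ← Finset.prod_mul_distrib]
    congr 1
    exact Finset.prod_congr rfl fun j _ => by rw [mul_comm _ (y j ^ 2), ang_U1 hb (hy j)]
  have h2 : ∀ r, a' r * (∏ j, ang (!s j) (ρ' r j)) *
      ∏ j, (U1 (b / ‖β j‖ ^ 4 * ‖ρ' r j‖ ^ 2 / y j ^ 2) : ℂ) =
      (∏ _j : ι, ((b ^ (1 / 3 : ℝ) : ℝ) : ℂ)) * (a' r *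
        ∏ j, (Mk (‖β j‖ ^ 2 * y j)⁻¹ (b * ‖ρ' r j‖ ^ 2) : ℂ) * cjb (!s j) (ρ' r j)) := fun r => by
    rw [mul_assoc, ← Finset.prod_mul_distrib, mul_left_comm, ← Finset.prod_mul_distrib]
    congr 1
    refine Finset.prod_congr rfl fun j _ => ?_
    have := norm_pos_iff.2 (hβ j)
    have := hy j
    rw [← ang_U1 hb (by positivity)]
    congr 3
    field_simp
  simp only [h1, h2, tsum_mul_left]
  rw [all_places h h' hb hβ H s hy, ← Finset.prod_inv_distrib, ← Finset.prod_mul_distrib,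
    mul_left_comm]
  congr 1
  refine Finset.prod_congr rfl fun j _ => ?_
  push_cast
  rw [mul_inv, neg_mul]

end many

end Vor57

end Crest.Agent.T27
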