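import Crest.Agent.T27.Vor1_57
import Crest.Agent.T27.ThA_54

/-!
# Row 27, theta leaf D2 (helper57): the additive Voronoi formula for the abstract theta function
-/

set_option autoImplicit false

noncomputable section

namespace Crest.Agent.T27.TH

open scoped ComplexConjugate Topology
open Filter NumberField Vor57

variable {F : Type} [Field F] [NumberField F] [Emb F]

namespace V57

theorem em_ne {x : F} (hx : x ≠ 0) (j : Pl F) : em x j ≠ 0 := (map_ne_zero (Emb.σ j)).2 hx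

theorem em_mul (x y : F) (j : Pl F) : em (x * y) j = em x j * em y j := map_mul _ _ _

theorem em_div (x y : F) (j : Pl F) : em (x / y) j = em x j / em y j := map_div₀ _ _ _

theorem em_neg (x : F) (j : Pl F) : em (-x) j = -em x j := map_neg _ _

theorem nF_mul (x y : F) : nF (x * y) = nF x * nF y := by
  simp only [nF, em_mul, norm_mul, mul_pow, Finset.prod_mul_distrib]

theorem nF_pos {x : F} (hx : x ≠ 0) : 0 < nF x :=
  Finset.prod_pos fun j _ => pow_pos (norm_pos_iff.2 (em_ne hx j)) 2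

theorem nF_nonneg (x : F) : 0 ≤ nF x := Finset.prod_nonneg fun _ _ => by positivity

theorem pow_W0 {p q y : ℝ} (hp : 0 ≤ p) (hq : 0 ≤ q) (hy : 0 < y) :
    ∃ C : ℝ, 0 < C ∧ ∀ X : ℝ, 0 < X → X ^ p * R17.W0 (y * X) ≤ C * X ^ (-q) := by
  obtain ⟨C, hC, h⟩ := R17.W0_le_rpow (A := p + q) (by linarith)
  refine ⟨C * y ^ (-(p + q)), by positivity, fun X hX => ?_⟩
  calc X ^ p * R17.W0 (y * X) ≤ X ^ p * (C * (y * X) ^ (-(p + q))) := by
        gcongr; exact h _ (by positivity)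
    _ = C * y ^ (-(p + q)) * (X ^ p * X ^ (-(p + q))) := by
        rw [Real.mul_rpow hy.le hX.le]; ring
    _ = _ := by rw [← Real.rpow_add hX]; congr 2; ring

theorem local_bd {y : ℝ} (hy : 0 < y) : ∃ C : ℝ, 0 < C ∧ ∀ w : ℂ, w ≠ 0 →
    (‖w‖ ^ 2) ^ (1 / 3 : ℝ) * ((1 + ‖(4 * Real.pi : ℝ) * w‖) *
      R17.W0 (y * ‖(4 * Real.pi : ℝ) * w‖ ^ 2)) ≤
      C * min (Real.exp (-0 * (0 + Real.log (‖w‖ ^ 2)))) (Real.exp (-2 * (0 + Real.log (‖w‖ ^ 2)))) := by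
  have hpi := Real.pi_pos
  have hy' : 0 < y * (4 * Real.pi) ^ 2 := by positivity
  have key : ∀ q : ℝ, 0 ≤ q → ∃ C : ℝ, 0 < C ∧ ∀ w : ℂ, w ≠ 0 →
      (‖w‖ ^ 2) ^ (1 / 3 : ℝ) * ((1 + ‖(4 * Real.pi : ℝ) * w‖) *
        R17.W0 (y * ‖(4 * Real.pi : ℝ) * w‖ ^ 2)) ≤
        C * Real.exp (-q * (0 + Real.log (‖w‖ ^ 2))) := fun q hq => by
    obtain ⟨C₁, h₁, H₁⟩ := pow_W0 (p := 1 / 3) (by norm_num) hq hy'
    obtain ⟨C₂, h₂, H₂⟩ := pow_W0 (p := 1 / 3 + 1 / 2) (by norm_num) hq hy'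
    refine ⟨C₁ + 4 * Real.pi * C₂, by positivity, fun w hw => ?_⟩
    have hn := norm_pos_iff.2 hw
    have hX : 0 < ‖w‖ ^ 2 := by positivity
    have e1 : (‖w‖ ^ 2) ^ (1 / 3 + 1 / 2 : ℝ) = (‖w‖ ^ 2) ^ (1 / 3 : ℝ) * ‖w‖ := by
      rw [Real.rpow_add hX, ← Real.sqrt_eq_rpow, Real.sqrt_sq hn.le]
    have a1 := H₁ _ hX
    have a2 := H₂ _ hX
    rw [e1] at a2
    rw [zero_add, mul_comm (-q), ← Real.rpow_def_of_pos hX, norm_mul, Complex.norm_real,
      Real.norm_of_nonneg (by positivity), mul_pow, ← mul_assoc y]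
    nlinarith
  obtain ⟨C₁, h₁, H₁⟩ := key 0 le_rfl
  obtain ⟨C₂, h₂, H₂⟩ := key 2 (by norm_num)
  refine ⟨C₁ + C₂, by positivity, fun w hw => ?_⟩
  rw [mul_min_of_nonneg _ _ (by positivity)]
  refine le_min ((H₁ w hw).trans ?_) ((H₂ w hw).trans ?_) <;> gcongr <;> linarith

/-- Summability of an expansion with coefficients as those of a theta function. -/
theorem smN (hL : LatStmt F) {τ : F → ℂ} {M : ℕ} (hM : M ≠ 0)
    (hs : ∀ r, τ r ≠ 0 → IsIntegral ℤ ((M : F) * r)) {C : ℝ}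
    (hb : ∀ r : F, r ≠ 0 → ‖τ r‖ ^ 2 * nF r ^ (1 / 3 : ℝ) ≤ C * (1 + nF r)) :
    SmN τ fun r j => (4 * Real.pi : ℝ) * em r j := by
  classical
  intro y hy
  obtain ⟨C₁, hC₁, h₁⟩ := local_bd hy
  obtain ⟨C₂, h₂⟩ := hL.lsum M hM 0 2 (by norm_num) (by norm_num)
  have hM' : (M : F) ≠ 0 := Nat.cast_ne_zero.2 hM
  have hnM := nF_pos hM'
  set K := Real.sqrt (|C| * (nF (M : F) + 1)) with hK
  have hτ : ∀ r : F, r ≠ 0 → IsIntegral ℤ ((M : F) * r) → ‖τ r‖ ≤ K * nF r ^ (1 / 3 : ℝ) := by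
    intro r hr hi
    have h1 := hL.one_le _ (mul_ne_zero hM' hr) hi
    have hn := nF_pos hr
    rw [nF_mul] at h1
    have h2 : ‖τ r‖ ^ 2 * nF r ^ (1 / 3 : ℝ) ≤ |C| * (nF (M : F) + 1) * nF r := by
      refine (hb r hr).trans ?_
      calc C * (1 + nF r) ≤ |C| * (nF (M : F) * nF r + nF r) := by
            gcongr; exact le_abs_self C
        _ = _ := by ring
    have h3 : nF r = (nF r ^ (1 / 3 : ℝ)) ^ 2 * nF r ^ (1 / 3 : ℝ) := by
      rw [← pow_succ, ← Real.rpow_natCast, ← Real.rpow_mul hn.le]; norm_num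
    have h4 : 0 < nF r ^ (1 / 3 : ℝ) := by positivity
    refine (abs_le_of_sq_le_sq' ?_ (by positivity)).2
    rw [mul_pow, hK, Real.sq_sqrt (by positivity)]
    refine le_of_mul_le_mul_right ?_ h4
    rw [mul_assoc, ← h3]
    exact h2
  set g : F → ℝ := fun r => ∏ j, min (Real.exp (-0 * ((0 : Pl F → ℝ) j + lg r j)))
    (Real.exp (-2 * ((0 : Pl F → ℝ) j + lg r j))) with hg
  have hg0 : ∀ r, 0 ≤ g r := fun r => Finset.prod_nonneg fun j _ => by positivity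
  have hsum : Summable fun r : F => if r ≠ 0 ∧ IsIntegral ℤ ((M : F) * r) then g r else 0 := by
    refine summable_of_sum_le (c := C₂ * Real.exp (-∑ j, (0 : Pl F → ℝ) j))
      (fun r => by simp only [Pi.zero_apply]; split_ifs; exacts [hg0 r, le_rfl]) fun S => ?_
    rw [← Finset.sum_filter]
    exact h₂ 0 _ fun x hx => (Finset.mem_filter.1 hx).2
  set f : F → ℝ := fun r => ‖τ r‖ * ∏ j, (1 + ‖((4 * Real.pi : ℝ) : ℂ) * em r j‖) *
    R17.W0 (y * ‖((4 * Real.pi : ℝ) : ℂ) * em r j‖ ^ 2) with hf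
  have hf1 : ∀ r j, 0 ≤ (1 + ‖((4 * Real.pi : ℝ) : ℂ) * em r j‖) *
      R17.W0 (y * ‖((4 * Real.pi : ℝ) : ℂ) * em r j‖ ^ 2) := fun (r : F) j =>
    mul_nonneg (by positivity) (W0_nonneg (by positivity))
  have hf0 : ∀ r, 0 ≤ f r := fun r =>
    mul_nonneg (norm_nonneg _) (Finset.prod_nonneg fun j _ => hf1 r j)
  refine .of_nonneg_of_le hf0 (fun r => ?_) ((hasSum_ite_eq 0 (f 0)).summable.add
    (hsum.mul_left (K * ∏ _j : Pl F, C₁)))
  have hKC : 0 ≤ K * ∏ _j : Pl F, C₁ := by positivity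
  rcases eq_or_ne r 0 with rfl | hr
  · simp
  rw [if_neg hr, zero_add]
  by_cases h0 : τ r = 0
  · have : f r = 0 := by simp [hf, h0]
    rw [this]
    refine mul_nonneg hKC ?_
    split_ifs
    exacts [hg0 r, le_rfl]
  rw [if_pos ⟨hr, hs r h0⟩]
  calc f r ≤ K * nF r ^ (1 / 3 : ℝ) * ∏ j, (1 + ‖((4 * Real.pi : ℝ) : ℂ) * em r j‖) *
        R17.W0 (y * ‖((4 * Real.pi : ℝ) : ℂ) * em r j‖ ^ 2) :=
        mul_le_mul_of_nonneg_right (hτ r hr (hs r h0)) (Finset.prod_nonneg fun j _ => hf1 r j)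
    _ = K * ∏ j, (‖em r j‖ ^ 2) ^ (1 / 3 : ℝ) * ((1 + ‖((4 * Real.pi : ℝ) : ℂ) * em r j‖) *
        R17.W0 (y * ‖((4 * Real.pi : ℝ) : ℂ) * em r j‖ ^ 2)) := by
        rw [nF, ← Real.finsetProd_rpow _ _ (fun j _ => by positivity), mul_assoc,
          ← Finset.prod_mul_distrib]
    _ ≤ K * ∏ j, C₁ * min (Real.exp (-0 * ((0 : Pl F → ℝ) j + lg r j)))
        (Real.exp (-2 * ((0 : Pl F → ℝ) j + lg r j))) := by
        refine mul_le_mul_of_nonneg_left (Finset.prod_le_prod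
          (fun j _ => mul_nonneg (by positivity) (hf1 r j)) fun j _ => h₁ _ (em_ne hr j))
          (Real.sqrt_nonneg _)
    _ = _ := by rw [Finset.prod_mul_distrib, mul_assoc]

theorem smN_mul {Λ ι : Type*} [Fintype ι] {a e : Λ → ℂ} {ρ : Λ → ι → ℂ} (h : SmN a ρ)
    (he : ∀ r, ‖e r‖ = 1) : SmN (fun r => a r * e r) ρ := fun y hy => by
  simpa only [norm_mul, he, mul_one] using h y hy

omit [Emb F] in
theorem eV_eq (z : Pl F → ℂ) : eV z = ∏ j, eR ((4 * Real.pi : ℝ) * z j) := by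
  simp only [eV, eR, ← Complex.exp_sum, Complex.re_ofReal_mul]
  congr 1
  push_cast
  rw [Finset.mul_sum]
  exact Finset.sum_congr rfl fun j _ => by ring

omit [Emb F] in
theorem norm_eV (z : Pl F → ℂ) : ‖eV z‖ = 1 := by
  simp [eV_eq, norm_eR]

theorem norm_eF (x : F) : ‖eF x‖ = 1 := norm_eV _

/-- The theta function near a point of the boundary, as an abstract expansion. -/
theorem Th_eq (ξ : F × F → ℂ) (c : F) (z : Pl F → ℂ) {y : Pl F → ℝ} (hy : ∀ j, 0 < y j) :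
    Th ξ (fun j => R17.hp (em c j + z j) (y j)) =
      FN (fun r => tau ξ r * eF (r * c)) (fun r j => (4 * Real.pi : ℝ) * em r j) (1 / 4) z y := by
  rw [Th, FN]
  refine tsum_congr fun r => ?_
  rw [eF, eV_eq, eV_eq, MkV, Complex.ofReal_prod, mul_assoc, mul_assoc, ← Finset.prod_mul_distrib,
    ← Finset.prod_mul_distrib]
  congr 1
  refine Finset.prod_congr rfl fun j _ => ?_
  have hpi := Real.pi_pos
  have e1 : bb r j = 1 / 4 * ‖((4 * Real.pi : ℝ) : ℂ) * em r j‖ ^ 2 := by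
    rw [norm_mul, Complex.norm_real, Real.norm_of_nonneg (by positivity), bb]
    ring
  rw [mul_left_comm (eR _), ← eR_add, R17.hp_fst, em_mul, e1, R17.hp, Real.exp_log (hy j)]
  congr 2
  ring

theorem geod (σ : SL F) (hβ : σ 1 0 ≠ 0) (z : Pl F → ℂ) {y : Pl F → ℝ} (hy : ∀ j, 0 < y j) :
    (σ⁻¹ • (fun j => R17.hp (em (σ 0 0 / σ 1 0) j + z j) (y j) : HH F) : HH F) =
      fun j => R17.hp (em (-σ 1 1 / σ 1 0) j + gz (em (σ 1 0) j) (z j) (y j))
        (gy (em (σ 1 0) j) (z j) (y j)) := by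
  funext j
  have hdet : em (σ 0 0) j * em (σ 1 1) j - em (σ 0 1) j * em (σ 1 0) j = 1 := by
    have h := σ.det_coe
    rw [Matrix.det_fin_two] at h
    simp only [em, ← map_mul, ← map_sub]
    rw [h, map_one]
  rw [smul_def, act, em_div, em_div, em_neg, gz, gy, ← sub_eq_add_neg,
    ← R17.actC_geod hdet (em_ne hβ j) (z j) (hy j), Matrix.SpecialLinearGroup.coe_inv,
    Matrix.adjugate_fin_two]
  congr 1
  refine Matrix.ext fun a b => ?_
  fin_cases a <;> fin_cases b <;> simp [em]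

theorem ang_prod (s : Bool) (r : F) :
    ∏ j, ang s ((4 * Real.pi : ℝ) * em r j) =
      (∏ _j : Pl F, (((4 * Real.pi) ^ (1 / 3 : ℝ) : ℝ) : ℂ)) *
        (((nF r ^ (1 / 6 : ℝ) : ℝ) : ℂ) * cjb s (argF r)) := by
  have hpi := Real.pi_pos
  have e : cjb s (argF r) = ∏ j, cjb s (em r j / (‖em r j‖ : ℂ)) := by
    cases s
    · simp [cjb, argF]
    · simp only [cjb, argF, cond_true, map_prod]
  rw [e, nF, ← Real.finsetProd_rpow _ _ (fun j _ => by positivity), Complex.ofReal_prod,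
    ← Finset.prod_mul_distrib, ← Finset.prod_mul_distrib]
  refine Finset.prod_congr rfl fun j _ => ?_
  have h4 : ((4 * Real.pi : ℝ) : ℂ) ≠ 0 := Complex.ofReal_ne_zero.2 (by positivity)
  rw [ang, norm_mul, Complex.norm_real, Real.norm_of_nonneg (by positivity),
    Real.mul_rpow (by positivity) (norm_nonneg _), Complex.ofReal_mul,
    Complex.ofReal_mul (4 * Real.pi), mul_div_mul_left _ _ h4, ← Real.rpow_natCast, ← Real.rpow_mul (norm_nonneg _), mul_assoc]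
  norm_num

end V57

open V57 in
/-- **Additive Voronoi formula** for the theta function of a good row function at the cusp
`α / β`, `σ = (α x; β δ)`.  `s = true`: conjugate argument on the left. -/
theorem voronoi_57 (hL : LatStmt F) (hT : ThetaStmt F) (hA : TauStmt F) {ξ : F × F → ℂ}
    (hξ : Good ξ) (σ : SL F) (hβ : σ 1 0 ≠ 0) (s : Bool) {x : Pl F → ℝ} (hx : ∀ j, 0 < x j) :
    ∑' r : F, tau ξ r * eF (r * (σ 0 0 / σ 1 0)) * (((nF r ^ (1 / 6 : ℝ) : ℝ) : ℂ) * cjb s (argF r)) *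
        ∏ j, (R17.U1 (4 * Real.pi ^ 2 * ‖em r j‖ ^ 2 * x j) : ℂ) =
      (∏ j, -(cjb (!s) (em (σ 1 0) j) ^ 2)⁻¹) * (∏ j, (x j : ℂ))⁻¹ *
        ∑' ν : F, tau (tr ξ ((σ⁻¹ : SL F) : Mat F)) ν * eF (ν * (-σ 1 1 / σ 1 0)) *
          (((nF ν ^ (1 / 6 : ℝ) : ℝ) : ℂ) * cjb (!s) (argF ν)) *
          ∏ j, (R17.U1 (4 * Real.pi ^ 2 / ‖em (σ 1 0) j‖ ^ 4 * ‖em ν j‖ ^ 2 / x j) : ℂ) := by
  classical
  have hpi := Real.pi_pos
  have hξ' : Good (tr ξ ((σ⁻¹ : SL F) : Mat F)) :=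
    hA.good_tr _ _ hξ (by rw [Matrix.SpecialLinearGroup.det_coe]; exact one_ne_zero)
  have sm : ∀ {η : F × F → ℂ}, Good η → ∀ c : F, SmN (fun r => tau η r * eF (r * c))
      fun r j => (4 * Real.pi : ℝ) * em r j := fun {η} hη c => by
    obtain ⟨M, hM, hs⟩ := hA.supp η hη
    obtain ⟨C, hC⟩ := hT.bound η hη
    exact smN_mul (smN hL hM hs hC) fun r => norm_eF _
  have key := Vor57.voronoi (sm hξ (σ 0 0 / σ 1 0)) (sm hξ' (-σ 1 1 / σ 1 0)) (b := 1 / 4)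
    (by norm_num) (β := em (σ 1 0)) (em_ne hβ) (fun z y hy => by
      rw [← Th_eq ξ _ z hy, ← Th_eq _ _ _ fun j => gy_pos (em_ne hβ j) _ (hy j), ← geod σ hβ z hy,
        hT.aut ξ hξ]) (fun _ => s) hx
  have e1 : ∀ (w : ℂ) (t : ℝ), 1 / 4 * ‖((4 * Real.pi : ℝ) : ℂ) * w‖ ^ 2 * t =
      4 * Real.pi ^ 2 * ‖w‖ ^ 2 * t := fun w t => by
    rw [norm_mul, Complex.norm_real, Real.norm_of_nonneg (by positivity)]; ring
  have e2 : ∀ (w : ℂ) (u t : ℝ), 1 / 4 / u * ‖((4 * Real.pi : ℝ) : ℂ) * w‖ ^ 2 / t =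
      4 * Real.pi ^ 2 / u * ‖w‖ ^ 2 / t := fun w u t => by
    rw [norm_mul, Complex.norm_real, Real.norm_of_nonneg (by positivity)]; ring
  have h0 : (∏ _j : Pl F, (((4 * Real.pi) ^ (1 / 3 : ℝ) : ℝ) : ℂ)) ≠ 0 :=
    Finset.prod_ne_zero_iff.2 fun j _ => Complex.ofReal_ne_zero.2 (by positivity)
  simp only [ang_prod, e1, e2] at key
  set c := ∏ _j : Pl F, (((4 * Real.pi) ^ (1 / 3 : ℝ) : ℝ) : ℂ)
  simp only [mul_left_comm _ c, mul_assoc c, tsum_mul_left] at key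
  exact mul_left_cancel₀ h0 key

end Crest.Agent.T27.TH
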