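import Crest.Agent.T27.Fr_55
import Crest.Agent.PVc.R17.ReflDefs

/-!
# Row 27 (helper59): the twisted Voronoi formula on the frame (statement only)

`Rf.VorFr` is what the cubic theta function has to export; `Rf.VorFr → ReflStmt` is proved on the
frame.  The dual coefficients may depend on the modulus `D` through any finite invariant `γ D`
which is compatible with multiplication (`γ = cls` is allowed, a finer class as well).
-/

set_option autoImplicit false

noncomputable section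

namespace Crest.Agent.T27.Rf

open scoped ComplexConjugate

variable [Fr0]

/-- Characters modulo `D` as functions on `O`. -/
structure IsChr (D : O) (ψ : O → ℂ) : Prop where
  mul : ∀ x y, ψ (x * y) = ψ x * ψ y
  per : ∀ x y, D ∣ x - y → ψ x = ψ y
  zero : ∀ x, ¬ IsCoprime x D → ψ x = 0
  norm : ∀ x, IsCoprime x D → ‖ψ x‖ = 1

/-- The dual character. -/
def dualChr (D : O) (ψ : O → ℂ) (x : O) : ℂ := conj (ψ x) * cub D x

open Classical in
/-- **Twisted Voronoi formula.**  `i : I` runs over the `S`-parts of the dual variable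
(`t i` a unit, `a i` its size). -/
def VorFr : Prop :=
  ∃ (I : Type) (a : I → ℝ) (t : I → O) (C : ℝ) (Kr : ℂ → ℂ → ℂ) (V : ℝ → ℂ → ℂ)
    (Γ : Type) (_ : Finite Γ) (γ : O → Γ) (B : Cl → Γ → I → O → ℂ) (ω : Cl → O → ℂ),
    (∃ c0 : ℝ, 0 < c0 ∧ ∀ i, c0 ≤ a i) ∧ (∀ ε : ℝ, 0 < ε → Summable fun i => a i ^ (-ε)) ∧
    R17.KernelOK Kr V ∧ (∀ i, IsUnit (t i)) ∧
    (∀ x y r, Primary x → Primary y → Primary r → γ x = γ y → γ (x * r) = γ (y * r)) ∧
    (∀ c D, ‖ω c D‖ ≤ 1) ∧
    (∀ c g i ν, B c g i ν ≠ 0 → ∃ n d, Primary n ∧ Squarefree n ∧ Primary d ∧ ν = n * d ^ 3 ∧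
      ‖B c g i ν‖ ≤ C * Real.sqrt (a i) * Real.sqrt (nr d)) ∧
    ∀ (c : Cl) (D : O) (ψ : O → ℂ), Primary D → IsChr D ψ →
      (∀ v, IsUnit v → cls v = 1 → ψ v = 1) → ∀ X : ℝ, 0 < X → ∀ s : ℂ,
      (∑' n : O, if cls n = (c : WithZero Cl) then th n * ft D ψ n * Wc (nr n / X) s else 0) =
        ω c D * ((X / nr D : ℝ) : ℂ) * ∑' i : I, ∑' ν : O,
          B c (γ D) i ν * ft D (dualChr D ψ) (-(t i * ν)) * V (a i * nr ν * X / nr D ^ 2) s

end Crest.Agent.T27.Rf
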