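import Crest.Agent.T27.MainB_94
import Crest.Agent.T27.MelC_71
import Crest.Agent.T27.Gauss_55
import Crest.Agent.T27.VorDefs_59

/-!
# Row 27, leaf R3 (helper14), part 1: unit groups, fine classes, systems of representatives
-/

set_option autoImplicit false
set_option linter.unusedSectionVars false

noncomputable section

namespace Crest.Agent.T27.V14

open scoped ComplexConjugate
open NumberField TH

variable {F : Type} [Field F] [NumberField F] [Emb F] [Ar F]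

theorem PJ_one (k : ℕ) : PJ k (1 : F) := ⟨0, zero_mem _, by simp⟩

theorem PJ_memL {k : ℕ} {x : F} (h : PJ k x) : x ∈ (Ar.L : Subring F) := by
  obtain ⟨y, hy, e⟩ := h
  have : x = 1 + (Ar.N F : F) ^ k * y := by linear_combination e
  rw [this]
  exact add_mem (one_mem _) (mul_mem (pow_mem (natCast_mem _ _) _) hy)

theorem PJ_mul {k : ℕ} {x y : F} (hx : PJ k x) (hy : PJ k y) : PJ k (x * y) := by
  have hxL := PJ_memL hx
  obtain ⟨a, ha, e⟩ := hx
  obtain ⟨b, hb, e'⟩ := hy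
  exact ⟨a + x * b, add_mem ha (mul_mem hxL hb), by linear_combination e + x * e'⟩

theorem PJ_mono {k k' : ℕ} (h : k ≤ k') {x : F} (hx : PJ k' x) : PJ k x := M94.deep_mono h hx

theorem PJ_inv {k : ℕ} (hk : 1 ≤ k) {x : F} (hx : PJ k x) : PJ k x⁻¹ := by
  obtain ⟨h0, -, h2⟩ := M94.PJ_unit hk hx
  obtain ⟨a, ha, e⟩ := hx
  refine ⟨-(x⁻¹ * a), neg_mem (mul_mem h2 ha), ?_⟩
  field_simp
  linear_combination -e

theorem PJ_ne {k : ℕ} (hk : 1 ≤ k) {x : F} (hx : PJ k x) : x ≠ 0 := (M94.PJ_unit hk hx).1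

theorem UR_mul {x y : F} (hx : UR x) (hy : UR y) : UR (x * y) :=
  ⟨mul_ne_zero hx.1 hy.1, mul_mem hx.2.1 hy.2.1, by rw [mul_inv]; exact mul_mem hx.2.2 hy.2.2⟩

theorem UR_inv {x : F} (hx : UR x) : UR x⁻¹ := ⟨inv_ne_zero hx.1, hx.2.2, by simpa using hx.2.1⟩

theorem UR_one : UR (1 : F) := ⟨one_ne_zero, one_mem _, by simp⟩

variable (F) in
/-- `P_{k+1}` as a subgroup of `Fˣ`. -/
def PG (k : ℕ) : Subgroup Fˣ where
  carrier := {u | PJ (k + 1) (u : F)}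
  one_mem' := PJ_one _
  mul_mem' := fun hx hy => PJ_mul hx hy
  inv_mem' := fun hx => by
    simpa using PJ_inv (Nat.le_add_left _ _) hx

variable (F) in
/-- The units of `R` in `P_{k+1}`. -/
def UP (k : ℕ) : Subgroup Fˣ where
  carrier := {u | UR (u : F) ∧ PJ (k + 1) (u : F)}
  one_mem' := ⟨UR_one, PJ_one _⟩
  mul_mem' := fun hx hy => ⟨UR_mul hx.1 hy.1, PJ_mul hx.2 hy.2⟩
  inv_mem' := fun hx => by
    simpa using ⟨UR_inv hx.1, PJ_inv (Nat.le_add_left _ _) hx.2⟩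

theorem mem_PG {k : ℕ} {u : Fˣ} : u ∈ PG F k ↔ PJ (k + 1) (u : F) := Iff.rfl

theorem mem_UP {k : ℕ} {u : Fˣ} : u ∈ UP F k ↔ UR (u : F) ∧ PJ (k + 1) (u : F) := Iff.rfl

theorem UP_int {k : ℕ} : ∀ u ∈ UP F k, IsIntegral ℤ (u : F) := fun _ hu =>
  Ar.int_of _ hu.1.2.1 (PJ_memL hu.2)

theorem Npow_ne (k : ℕ) : Ar.N F ^ k ≠ 0 := pow_ne_zero _ (by have := Ar.two_le (F := F); omega)

theorem UP_of_int (k : ℕ) (u : Fˣ) (h1 : IsIntegral ℤ (u : F)) (h2 : IsIntegral ℤ (u : F)⁻¹)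
    (h3 : ∃ y, IsIntegral ℤ y ∧ (u : F) = 1 + ((Ar.N F ^ (k + 1) : ℕ) : F) * y) : u ∈ UP F k := by
  obtain ⟨y, hy, e⟩ := h3
  refine ⟨⟨u.ne_zero, M94.mem_R_of_int h1, M94.mem_R_of_int h2⟩, y, M94.mem_L_of_int hy, ?_⟩
  rw [e]; push_cast; ring

theorem nF_UP {k : ℕ} {u : Fˣ} (hu : u ∈ UP F k) : nF (u : F) = 1 := Mel.nF_unit UP_int hu

/-- The classes of `S`-units with bounded denominator. -/
abbrev TQ (F : Type) [Field F] [NumberField F] [Emb F] [Ar F] (k : ℕ) (T : Fˣ → Prop) : Type :=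
  {q : Fˣ ⧸ UP F k // T q.out}

theorem sparts (k K : ℕ) {T : Fˣ → Prop}
    (hT : ∀ t, T t → UR (t : F) ∧ (Ar.N F : F) ^ K * t ∈ (Ar.L : Subring F)) :
    (∃ c₀ : ℝ, 0 < c₀ ∧ ∀ q : TQ F k T, c₀ ≤ nF (q.1.out : F)) ∧
      ∀ ε : ℝ, 0 < ε → Summable fun q : TQ F k T => nF (q.1.out : F) ^ (-ε) := by
  refine Mel.summable_Sparts (M := Ar.N F ^ (K + 1)) (K := Ar.N F ^ (k + 1)) (Npow_ne _)
    (Npow_ne _) (fun q => q.1.out.ne_zero) (fun q => ?_) (fun q => ?_) ?_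
  · obtain ⟨h1, h2⟩ := hT _ q.2
    push_cast
    exact Ar.int_of _ (mul_mem (pow_mem (natCast_mem _ _) _) h1.2.1)
      (M94.pow_mem_L_mono (Nat.le_succ K) h2)
  · obtain ⟨h1, -⟩ := hT _ q.2
    obtain ⟨m, hm⟩ := (Ar.mem_R _).1 h1.2.2
    refine ⟨m, ?_⟩
    have : ((Ar.N F ^ (K + 1) : ℕ) : F) ^ m / (q.1.out : F) =
        ((Ar.N F ^ (K * m) : ℕ) : F) * ((Ar.N F : F) ^ m * (q.1.out : F)⁻¹) := by
      push_cast; ring
    rw [this]
    exact (isIntegral_natCast _).mul hm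
  · intro u h1 h2 h3 h4 q q' e
    beta_reduce at e
    have hu : Units.mk0 u h3 ∈ UP F k := UP_of_int k _ h1 h2 h4
    refine Subtype.ext ?_
    rw [← q.1.out_eq, ← q'.1.out_eq]
    refine QuotientGroup.eq.2 ?_
    have : (q.1.out)⁻¹ * q'.1.out = Units.mk0 u h3 := by
      ext
      simp only [Units.val_mul, Units.val_inv_eq_inv_val, Units.val_mk0]
      rw [← e]
      field_simp
    rw [this]
    exact hu

theorem finite_TQ (k k' : ℕ) : Finite (TQ F k fun t => t ∈ UP F k') := by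
  have h := (sparts k 0 (T := fun t : Fˣ => t ∈ UP F k') fun t ht =>
    ⟨ht.1, by simpa using PJ_memL ht.2⟩).2 1 one_pos
  have e : (fun q : TQ F k (fun t => t ∈ UP F k') => nF (q.1.out : F) ^ (-(1 : ℝ))) =
      fun _ => (1 : ℝ) := by
    funext q
    rw [nF_UP q.2, Real.one_rpow]
  rw [e] at h
  exact Finite.of_summable_const one_pos h

theorem exists_out {k : ℕ} (t : Fˣ) :
    ∃ u ∈ UP F k, t = u * (QuotientGroup.mk t : Fˣ ⧸ UP F k).out := by
  obtain ⟨u, hu⟩ := QuotientGroup.mk_out_eq_mul (UP F k) t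
  exact ⟨(u : Fˣ)⁻¹, inv_mem u.2, by rw [hu, mul_comm t, inv_mul_cancel_left]⟩

theorem nonempty_TQ {k k' : ℕ} (h : k' ≤ k) : Nonempty (TQ F k fun t => t ∈ UP F k') := by
  obtain ⟨u, hu, e⟩ := exists_out (k := k) (1 : Fˣ)
  refine ⟨⟨QuotientGroup.mk 1, ?_⟩⟩
  have : (QuotientGroup.mk 1 : Fˣ ⧸ UP F k).out = u⁻¹ := by
    rw [eq_inv_iff_mul_eq_one, mul_comm, ← e]
  show _ ∈ UP F k'
  rw [this]
  exact inv_mem ⟨hu.1, PJ_mono (by omega) hu.2⟩

theorem tsum_prod_const {Q S : Type*} [Finite Q] [Nonempty Q] (g : S → ℂ) :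
    ∑' p : Q × S, g p.2 = (Nat.card Q : ℂ) * ∑' n, g n := by
  by_cases hg : Summable g
  · have := Fintype.ofFinite Q
    have h := tsum_mul_tsum_of_summable_norm (f := fun _ : Q => (1 : ℂ)) (g := g)
      (Summable.of_finite) hg.norm
    simp only [one_mul] at h
    rw [← h, tsum_fintype]
    simp [Nat.card_eq_fintype_card]
  · obtain ⟨q⟩ := ‹Nonempty Q›
    rw [tsum_eq_zero_of_not_summable hg, mul_zero, tsum_eq_zero_of_not_summable]
    intro h
    exact hg (h.comp_injective (i := fun n : S => (q, n)) fun a b e => (Prod.ext_iff.1 e).2)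

variable [Fr0]

/-- The part of the dictionary between the frame and the field which is used here. -/
structure Lk0 (j : O →+* F) : Prop where
  inj : Function.Injective j
  range : ∀ x, x ∈ j.range ↔ x ∈ (Ar.R : Subring F)
  nm : ∀ n, n ≠ 0 → Ar.nm (j n) = nr n

variable {j : O →+* F}

namespace Lk0

variable (h : Lk0 j)
include h

theorem ne {n : O} (hn : n ≠ 0) : j n ≠ 0 := fun e => hn (h.inj (e.trans (map_zero j).symm))

theorem mem (n : O) : j n ∈ (Ar.R : Subring F) := (h.range _).1 ⟨n, rfl⟩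

theorem ex {x : F} (hx : x ∈ (Ar.R : Subring F)) : ∃ n, j n = x := (h.range x).2 hx

theorem ur {v : O} (hv : IsUnit v) : UR (j v) := by
  obtain ⟨w, hw⟩ := hv.exists_right_inv
  have e : j v * j w = 1 := by rw [← map_mul, hw, map_one]
  refine ⟨h.ne hv.ne_zero, h.mem v, ?_⟩
  rw [← eq_inv_of_mul_eq_one_right e]
  exact h.mem w

theorem ex_unit {u : F} (hu : UR u) : ∃ v, IsUnit v ∧ j v = u := by
  obtain ⟨v, hv⟩ := h.ex hu.2.1
  obtain ⟨w, hw⟩ := h.ex hu.2.2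
  refine ⟨v, IsUnit.of_mul_eq_one w (h.inj ?_), hv⟩
  rw [map_mul, hv, hw, map_one, mul_inv_cancel₀ hu.1]

theorem nF_eq {n : O} (hn : n ≠ 0) : nF (j n) = nr n / absS (j n) := by
  have h1 := M94.nF_pos (h.ne hn)
  have h2 := nr_pos hn
  rw [absS, h.nm n hn]
  field_simp

/-- Systems of representatives. -/
theorem reps {k : ℕ} {T : Fˣ → Prop} (hT : ∀ t, T t → UR (t : F))
    (hTU : ∀ u ∈ UP F k, ∀ t, T t → T (u * t)) {S : O → Prop} (hS : ∀ n, S n → Primary n)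
    {w : O → O} (hw : ∀ n, S n → IsUnit (w n)) {a : F → ℂ}
    (hinv : ∀ u ∈ UP F k, ∀ x, a ((u : F) * x) = a x)
    (hsurj : ∀ x, a x ≠ 0 → ∃ t n, T t ∧ S n ∧ x = (t : F) * j (w n * n)) :
    Mel.Reps (UP F k) a fun i : TQ F k T × {n // S n} => (i.1.1.out : F) * j (w i.2 * i.2) where
  ne i := mul_ne_zero i.1.1.out.ne_zero
    (h.ne (mul_ne_zero (hw _ i.2.2).ne_zero (hS _ i.2.2).ne_zero))
  inj := by
    rintro u hu ⟨q, n⟩ ⟨q', n'⟩ e
    simp only at e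
    obtain ⟨v, hv, ev⟩ := h.ex_unit (UR_mul hu.1 (hT _ q.2))
    obtain ⟨v', hv', ev'⟩ := h.ex_unit (hT _ q'.2)
    have e1 : (v * w n) * n = (v' * w n') * n' := h.inj (by
      rw [mul_assoc, mul_assoc, map_mul, map_mul j v', ev, ev', mul_assoc, e])
    obtain ⟨-, e2⟩ := unit_mul_primary_inj (hv.mul (hw _ n.2)) (hv'.mul (hw _ n'.2))
      (hS _ n.2) (hS _ n'.2) e1
    obtain rfl : n = n' := Subtype.ext e2
    rw [← mul_assoc] at e
    have e3 := mul_right_cancel₀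
      (h.ne (mul_ne_zero (hw _ n.2).ne_zero (hS _ n.2).ne_zero)) e
    have e4 : q = q' := by
      refine Subtype.ext ?_
      rw [← q.1.out_eq, ← q'.1.out_eq]
      refine QuotientGroup.eq.2 ?_
      have : (q.1.out)⁻¹ * q'.1.out = u := by
        ext
        simp only [Units.val_mul, Units.val_inv_eq_inv_val]
        rw [← e3]
        field_simp
      rw [this]
      exact hu
    rw [e4]
  surj := by
    intro x hx
    obtain ⟨t, n, ht, hn, e⟩ := hsurj x hx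
    obtain ⟨u, hu, eu⟩ := exists_out (k := k) t
    have ht' : T (QuotientGroup.mk t : Fˣ ⧸ UP F k).out := by
      have := hTU u⁻¹ (inv_mem hu) t ht
      rwa [eu, inv_mul_cancel_left] at this
    refine ⟨u, hu, (⟨_, ht'⟩, ⟨n, hn⟩), ?_⟩
    simp only
    rw [e, ← mul_assoc, ← Units.val_mul, ← eu]
  inv := fun u hu i => hinv u hu _

end Lk0

theorem exists_inv {v : O} (hv : IsUnit v) (h1 : cls v = 1) :
    ∃ w, IsUnit w ∧ cls w = 1 ∧ v * w = 1 := by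
  obtain ⟨w, hw⟩ := hv.exists_right_inv
  refine ⟨w, IsUnit.of_mul_eq_one v (by rw [mul_comm, hw]), ?_, hw⟩
  have := congrArg cls hw
  rwa [map_mul, h1, one_mul, map_one] at this

variable (j) in
/-- The images of the units of trivial class. -/
def U1 : Subgroup Fˣ where
  carrier := {u | ∃ v, IsUnit v ∧ cls v = 1 ∧ j v = u}
  one_mem' := ⟨1, isUnit_one, map_one _, by simp⟩
  mul_mem' := by
    rintro a b ⟨v, h1, h2, h3⟩ ⟨w, h4, h5, h6⟩
    exact ⟨v * w, h1.mul h4, by rw [map_mul, h2, h5, one_mul], by rw [map_mul, h3, h6]; simp⟩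
  inv_mem' := by
    rintro a ⟨v, h1, h2, h3⟩
    obtain ⟨w, h4, h5, h6⟩ := exists_inv h1 h2
    refine ⟨w, h4, h5, ?_⟩
    rw [Units.val_inv_eq_inv_val, ← h3]
    exact eq_inv_of_mul_eq_one_right (by rw [← map_mul, h6, map_one])

variable (j) in
/-- The fine class group of level `k + 1`. -/
abbrev Gm (k : ℕ) : Type := Fˣ ⧸ (U1 j ⊔ PG F k)

open Classical in
variable (j) in
/-- The fine class. -/
def gm (k : ℕ) (n : O) : Gm j k :=
  if h : j n ≠ 0 then QuotientGroup.mk (Units.mk0 (j n) h) else 1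

/-- The chosen representative of a fine class. -/
def be {k : ℕ} (g : Gm j k) : F := (g.out : Fˣ)

theorem be_ne {k : ℕ} (g : Gm j k) : be g ≠ 0 := g.out.ne_zero

theorem gm_mul (h : Lk0 j) (k : ℕ) {m n : O} (hm : m ≠ 0) (hn : n ≠ 0) :
    gm j k (m * n) = gm j k m * gm j k n := by
  rw [gm, gm, gm, dif_pos (h.ne hm), dif_pos (h.ne hn), dif_pos (h.ne (mul_ne_zero hm hn)),
    ← QuotientGroup.mk_mul]
  congr 1
  ext
  simp

theorem finite_Gm (h : Lk0 j) (k : ℕ) : Finite (Gm j k) := by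
  classical
  obtain ⟨T, hT0, hT⟩ := Ar.fin_cl (F := F) (k + 1)
  refine Finite.of_surjective (fun p : T × U0 => (QuotientGroup.mk
    (Units.mk0 (p.1.1 * j p.2.1) (mul_ne_zero (hT0 _ p.1.2)
      (h.ne (isUnit_of_mem_U0 p.2.2).ne_zero))) : Gm j k)) fun g => ?_
  obtain ⟨x, rfl⟩ := QuotientGroup.mk_surjective g
  obtain ⟨t, ht, u, hu0, hu1, hu2, y, hy, e⟩ := hT x x.ne_zero
  obtain ⟨v, hv, ev⟩ := h.ex_unit ⟨hu0, hu1, hu2⟩
  obtain ⟨u0, hu, hc⟩ := exists_U0 hv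
  obtain ⟨w, hw⟩ := (isUnit_of_mem_U0 hu).exists_right_inv
  have hwu : IsUnit w := IsUnit.of_mul_eq_one u0 (by rw [mul_comm, hw])
  have hp : PJ (k + 1) (1 + (Ar.N F : F) ^ (k + 1) * y) := ⟨y, hy, by ring⟩
  refine ⟨(⟨t, ht⟩, ⟨u0, hu⟩), QuotientGroup.eq.2 (Subgroup.mem_sup.2
    ⟨Units.mk0 (j (v * w)) (h.ne (hv.mul hwu).ne_zero), ⟨v * w, hv.mul hwu, ?_, rfl⟩,
      Units.mk0 _ (PJ_ne (Nat.le_add_left _ _) hp), hp, ?_⟩)⟩
  · rw [map_mul, ← hc, ← map_mul, hw, map_one]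
  · ext
    have e1 : j u0 * j w = 1 := by rw [← map_mul, hw, map_one]
    have e2 := hT0 t ht
    have e3 := h.ne (isUnit_of_mem_U0 hu).ne_zero
    simp only [Units.val_mul, Units.val_inv_eq_inv_val, Units.val_mk0, map_mul]
    rw [e, ev, eq_inv_of_mul_eq_one_right e1]
    field_simp

theorem exists_norm (h : Lk0 j) (k : ℕ) (n : O) : ∃ w, IsUnit w ∧ cls w = 1 ∧
    (n ≠ 0 → PJ (k + 1) (j (w * n) / be (gm j k n))) := by
  by_cases hn : n = 0
  · exact ⟨1, isUnit_one, map_one _, fun h0 => absurd hn h0⟩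
  obtain ⟨u, hu⟩ := QuotientGroup.mk_out_eq_mul (U1 j ⊔ PG F k) (Units.mk0 (j n) (h.ne hn))
  obtain ⟨_, ⟨v, h1, h2, h3⟩, p, hp, e⟩ := Subgroup.mem_sup.1 u.2
  refine ⟨v, h1, h2, fun _ => ?_⟩
  have : j (v * n) / be (gm j k n) = (p : F)⁻¹ := by
    have e1 := h.ne hn
    have e2 := h.ne h1.ne_zero
    rw [be, gm, dif_pos (h.ne hn), hu, ← e]
    simp only [Units.val_mul, Units.val_mk0, map_mul, ← h3]
    field_simp
  rw [this]
  exact PJ_inv (Nat.le_add_left _ _) hp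

end Crest.Agent.T27.V14
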