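import Crest.Agent.T27.VorI1_14
import Crest.Agent.T27.VorL_57
import Crest.Agent.T27.Refl2_59

/-!
# Row 27, leaf R3 (helper14), part 2: the twisted Voronoi formula on the frame
-/

set_option autoImplicit false
set_option linter.unusedSectionVars false

noncomputable section

namespace Crest.Agent.T27.V14

open scoped ComplexConjugate
open NumberField TH

theorem idx_prod {I G : Type} [Finite G] {x : I → ℝ} (hx : IdxOK x) {μ : G → ℝ}
    (hμ : ∀ g, 0 < μ g) : IdxOK fun p : I × G => x p.1 * μ p.2 := by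
  obtain ⟨⟨c, hc, h1⟩, h2⟩ := hx
  obtain ⟨m, hm⟩ := Finite.exists_le fun g => (μ g)⁻¹
  refine ⟨⟨c * (max m 1)⁻¹, by positivity, fun p => ?_⟩, fun η hη => ?_⟩
  · refine mul_le_mul (h1 _) ?_ (by positivity) (hc.le.trans (h1 _))
    exact inv_le_of_inv_le₀ (hμ _) ((hm _).trans (le_max_left _ _))
  · have h3 : Summable fun g => μ g ^ (-η) := Summable.of_finite
    refine (h2 η hη |>.mul_of_nonneg h3 (fun i => Real.rpow_nonneg (hc.le.trans (h1 i)) _)
      fun g => Real.rpow_nonneg (hμ g).le _).congr fun p => ?_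
    rw [Real.mul_rpow (hc.le.trans (h1 _)) (hμ _).le]

section core

variable [Fr0]

open Classical in
/-- The formula for the moduli in a fixed fine class. -/
def Core (V : ℝ → ℂ → ℂ) (c : WithZero Cl) (P : O → Prop) : Prop :=
  ∃ (I : Type) (a : I → ℝ) (t : I → O) (C : ℝ) (B : I × O → ℂ), IdxOK a ∧ (∀ i, IsUnit (t i)) ∧
    (∀ i, DualA (C * Real.sqrt (a i)) fun ν => B (i, ν)) ∧
    ∀ (D : O) (ψ : O → ℂ), Primary D → P D → Rf.IsChr D ψ →
      (∀ v, IsUnit v → cls v = 1 → ψ v = 1) → ∀ X : ℝ, 0 < X → ∀ s : ℂ, ∃ ω : ℂ, ‖ω‖ ≤ 1 ∧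
        (∑' n : O, if cls n = c then th n * ft D ψ n * Wc (nr n / X) s else 0) =
          ω * ((X / nr D : ℝ) : ℂ) * ∑' p : I × O,
            B p * ft D (Rf.dualChr D ψ) (-(t p.1 * p.2)) * V (a p.1 * nr p.2 * X / nr D ^ 2) s

theorem core_empty (V : ℝ → ℂ → ℂ) {c : WithZero Cl} (hc : ∀ n, Primary n → cls n ≠ c)
    (P : O → Prop) : Core V c P := by
  refine ⟨Empty, fun _ => 1, fun _ => 1, 0, fun _ => 0, ⟨⟨1, one_pos, fun _ => le_rfl⟩,
    fun _ _ => Summable.of_finite⟩, fun _ => isUnit_one, fun i => i.elim,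
    fun D ψ _ _ _ _ X _ s => ⟨0, by simp, ?_⟩⟩
  rw [zero_mul, zero_mul]
  refine (tsum_congr fun n => ?_).trans tsum_zero
  split_ifs with h
  · rw [Rf.th_of_not fun hn => hc n hn h, zero_mul, zero_mul]
  · rfl

theorem vorFr2_of_core {Kr : ℂ → ℂ → ℂ} {V : ℝ → ℂ → ℂ} (hK : R17.KernelOK Kr V)
    (h : ∀ c : Cl, ∃ (Γ : Type) (_ : Finite Γ) (γ : O → Γ),
      ∀ g, Core V c fun D => γ D = g) : Rf.VorFr2 := by
  classical
  refine ⟨Kr, V, hK, fun c => ?_⟩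
  obtain ⟨Γ, hΓ, γ, h⟩ := h c
  choose I a t C B h1 h2 h3 h4 using h
  obtain ⟨C', hC'⟩ := Finite.exists_le C
  have := Fintype.ofFinite Γ
  refine ⟨Γ, this, I, a, t, C', B, h1, h2, fun g i ν hν => ?_, fun D ψ hD hψ hψ1 X hX s => ?_⟩
  · obtain ⟨n, d, e1, e2, e3, e4, e5⟩ := h3 g i ν hν
    refine ⟨n, d, e1, e2, e3, e4, e5.trans ?_⟩
    have := hC' g
    gcongr
  · obtain ⟨ω, hω, e⟩ := h4 (γ D) D ψ hD rfl hψ hψ1 X hX s
    refine ⟨fun g => if γ D = g then ω else 0, fun g => ?_, ?_⟩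
    · beta_reduce
      split_ifs
      · exact hω
      · simp
    · rw [e, Finset.sum_eq_single (γ D) (fun g _ hg => by simp [hg.symm]) (by simp)]
      simp only [if_true]

end core

variable {F : Type} [Field F] [NumberField F] [Emb F] [Ar F]

theorem tt_zero (f : F × F → ℂ) : tt f 0 = 0 := by
  have : nF (0 : F) = 0 := by
    obtain ⟨v⟩ : Nonempty (Pl F) := inferInstance
    exact Finset.prod_eq_zero (Finset.mem_univ v) (by simp [TH.em])
  rw [tt, this, Real.zero_rpow (by norm_num)]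
  simp

theorem tt_le (hT : ThetaStmt F) (hA : TauStmt F) (hC : CuspStmt F) {f : F × F → ℂ}
    (hf : Test f) : (∃ C : ℝ, 0 ≤ C ∧ ∀ x, x ≠ 0 → ‖tt f x‖ ≤ C * (1 + nF x)) ∧
      ∃ M : ℕ, M ≠ 0 ∧ ∀ x, tt f x ≠ 0 → IsIntegral ℤ ((M : F) * x) := by
  obtain ⟨κ₀, -, hC⟩ := hC
  obtain ⟨hg, -⟩ := hC f hf
  obtain ⟨C, hC⟩ := hT.bound _ hg
  obtain ⟨M, hM, hs⟩ := hA.supp _ hg
  refine ⟨⟨1 + |C|, by positivity, fun x hx => ?_⟩, M, hM, fun x hx =>
    hs x (left_ne_zero_of_mul hx)⟩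
  have h0 := M94.nF_pos hx
  have h1 : ‖tt f x‖ ^ 2 = ‖tau (xiF f) x‖ ^ 2 * nF x ^ (1 / 3 : ℝ) := by
    rw [tt, norm_mul, Complex.norm_real, Real.norm_of_nonneg (by positivity), mul_pow,
      ← Real.rpow_natCast (nF x ^ _), ← Real.rpow_mul h0.le]
    norm_num
  have h2 := hC x hx
  have h3 : C * (1 + nF x) ≤ |C| * (1 + nF x) := by
    have := le_abs_self C
    gcongr
  nlinarith [sq_nonneg (‖tt f x‖ - 1), norm_nonneg (tt f x)]

theorem test_opW (hO : OpStmt F) {f : F × F → ℂ} (hf : Test f) {β : F} (hβ : β ≠ 0) :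
    Test (opW β f) := hO.test_rho f _ (by simp [TH.gam, hβ]) hf

/-- The constant `(4 π²)^r`. -/
def kap (F : Type) [Field F] [NumberField F] : ℝ := ∏ _i : Pl F, 4 * Real.pi ^ 2

theorem kap_pos : 0 < kap F := Finset.prod_pos fun _ _ => by have := Real.pi_pos; positivity

theorem norm_om {x : F} : ‖∏ i, (-(em x i ^ 2))⁻¹‖ = (nF x)⁻¹ := by
  simp [nF, norm_prod]

variable [Fr0] {J : ℕ} {j : O →+* F}

theorem transfer1 (h : Dict j) (hL : LatStmt F) (hT : ThetaStmt F) (hA : TauStmt F)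
    (hO : OpStmt F) (hC : CuspStmt F) {f : F × F → ℂ} (hf : Test f) {D : O} (hD : D ≠ 0)
    {ψ : O → ℂ} (hψ : Rf.IsChr D ψ) {k : ℕ} {ι κ : Type} {e : ι → F} {e' : κ → F}
    (he : Mel.Reps (UP F k) (aT j f D ψ) e) (he' : Mel.Reps (UP F k) (bT j f D ψ) e')
    {X : ℝ} (hX : 0 < X) (s : ℂ) :
    ∑' i, aT j f D ψ (e i) * Wc (nF (e i) / X) s =
      (∏ i, (-(em (j D) i ^ 2))⁻¹) * ((kap F * X : ℝ) : ℂ) * ∑' k, bT j f D ψ (e' k) *
        Mel.VR (Fintype.card (Pl F)) (kap F * (kap F / nF (j D) ^ 2) * X * nF (e' k)) s := by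
  have hD' := h.ne_zero hD
  obtain ⟨⟨C, hC0, h1⟩, M, hM, h2⟩ := tt_le hT hA hC hf
  obtain ⟨⟨C', hC0', h1'⟩, M', hM', h2'⟩ := tt_le hT hA hC (test_opW hO hf hD')
  have hpi := Real.pi_pos
  have hn := nr_pos hD
  have key : ∀ {C₁ : ℝ} {x : F} {a b c : ℂ}, x ≠ 0 → C₁ ≤ C + C' → ‖a‖ ≤ C₁ * (1 + nF x) →
      ‖b‖ ≤ 1 → ‖c‖ ≤ nr D → ‖a * b * c‖ ≤ (C + C') * nr D * (1 + nF x) := by
    intro C₁ x a b c hx h1 h2 h3 h4
    have := M94.nF_pos hx
    rw [norm_mul, norm_mul]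
    calc _ ≤ (C + C') * (1 + nF x) * 1 * nr D := by
          have : ‖a‖ ≤ (C + C') * (1 + nF x) := h2.trans (by gcongr)
          gcongr
      _ = _ := by ring
  have := Mel.transfer_F' (U := UP F k) UP_int (Npow_ne (k + 1)) (UP_of_int k) he he'
    (mul_ne_zero hM hM') (fun x hx => ?_) (fun x hx => ?_) (C := (C + C') * nr D)
    (fun x hx => key hx (by linarith) (h1 x hx)
      (by rw [Complex.norm_conj]; exact V57.norm_argF_le x) (T57.norm_ft_le hψ hD _))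
    (fun x hx => key hx (by linarith) (h1' x hx) (V57.norm_argF_le x)
      (T57.norm_ft_le (T57.chr_dual hψ hD) hD _))
    (A := fun _ => 4 * Real.pi ^ 2) (B := fun i => 4 * Real.pi ^ 2 / ‖em (j D) i‖ ^ 4)
    (fun _ => by positivity) (fun i => by
      have : 0 < ‖em (j D) i‖ := norm_pos_iff.2 ((map_ne_zero (Emb.σ i)).2 hD')
      positivity)
    (h.vor_twist hL hT hA hO hC hf hD hψ) hX s
  · rw [Finset.prod_div_distrib] at this
    have e : ∏ i, ‖em (j D) i‖ ^ 4 = nF (j D) ^ 2 := by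
      rw [nF, ← Finset.prod_pow]
      exact Finset.prod_congr rfl fun i _ => by ring
    rw [e] at this
    exact this
  · have := h2 x (left_ne_zero_of_mul (left_ne_zero_of_mul hx))
    rw [Nat.cast_mul, mul_comm (M : F), mul_assoc]
    exact (isIntegral_natCast _).mul this
  · have := h2' x (left_ne_zero_of_mul (left_ne_zero_of_mul hx))
    rw [Nat.cast_mul, mul_assoc]
    exact (isIntegral_natCast _).mul this

section link

variable (h : Link J j)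
include h

theorem lk0 : Lk0 j := ⟨h.inj, h.range, fun _ hn => h.toDict.nm hn⟩

theorem thF_one {v : O} (hv : IsUnit v) (h1 : cls v = 1) (n : O) :
    thF (j (v * n)) = thF (j n) := h.toDict.thF_unit_mul hv (h.cc_one v hv h1) n

theorem dual_one {D : O} (hD : D ≠ 0) {ψ : O → ℂ} (hψ : ∀ v, IsUnit v → cls v = 1 → ψ v = 1)
    (v : O) (hv : IsUnit v) (h1 : cls v = 1) : Rf.dualChr D ψ v = 1 := by
  rw [Rf.dualChr, hψ v hv h1, h.toDict.cub_unit hv hD, h.cc_one v hv h1 _ (h.toDict.ne_zero hD)]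
  simp

theorem unit_UP {k : ℕ} (hk : J ≤ k + 1) {u : Fˣ} (hu : u ∈ UP F k) :
    ∃ v, IsUnit v ∧ cls v = 1 ∧ j v = u ∧ argF (u : F) = 1 := by
  obtain ⟨v, hv, e⟩ := h.toDict.exists_unit hu.1
  have hp : TH.PJ (k + 1) (j v / j 1) := by rw [map_one, div_one, e]; exact hu.2
  refine ⟨v, hv, ?_, e, ?_⟩
  · rw [← h.cls_of 1 v one_ne_zero (PJ_mono hk hp), map_one]
  · have := h.arg_cls 1 v one_ne_zero (PJ_mono (by omega) hp)
    rw [arg_unit hv, arg_one, one_mul, one_mul, map_one, e] at this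
    have h1 : argF (1 : F) = 1 := by simp [argF, TH.em]
    rw [h1] at this
    simpa using congrArg conj this

theorem tt_ne (hM : MainStmt F) {f : F × F → ℂ} (hf : Test f) {x : F} (hx : tt f x ≠ 0) :
    x ≠ 0 ∧ WF f x ≠ 0 ∧ ∃ u n, IsUnit u ∧ Primary n ∧ x = j (u * n) := by
  have h0 : x ≠ 0 := fun e => hx (e ▸ tt_zero f)
  rw [hM.main f hf x h0] at hx
  have hr : x ∈ (Ar.R : Subring F) :=
    by_contra fun hr => left_ne_zero_of_mul hx (M94.thF_of_not_mem hr)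
  obtain ⟨m, rfl⟩ := h.toDict.exists_eq hr
  obtain ⟨u, n, hu, hn, rfl⟩ := exists_eq_unit_mul_primary (n := m) fun e => h0 (by simp [e])
  exact ⟨h0, right_ne_zero_of_mul hx, u, n, hu, hn, rfl⟩

theorem tt_inv (hM : MainStmt F) {f : F × F → ℂ} (hf : Test f) : ∃ k₀, J ≤ k₀ ∧
    ∀ k, k₀ ≤ k → ∀ u ∈ UP F k, ∀ x, tt f ((u : F) * x) = tt f x := by
  obtain ⟨J', hJ'⟩ := hM.W_P f hf
  refine ⟨J + J', by omega, fun k hk u hu x => ?_⟩
  by_cases h0 : x = 0
  · rw [h0, mul_zero]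
  rw [hM.main f hf x h0, hM.main f hf _ (mul_ne_zero u.ne_zero h0), mul_comm (u : F) x,
    hJ' x u h0 (PJ_mono (by omega) hu.2), mul_comm x]
  congr 1
  by_cases hr : x ∈ (Ar.R : Subring F)
  · obtain ⟨n, rfl⟩ := h.toDict.exists_eq hr
    obtain ⟨v, hv, h1, e, -⟩ := unit_UP h (by omega) hu
    rw [← e, ← map_mul, thF_one h hv h1]
  · rw [M94.thF_of_not_mem hr, M94.thF_of_not_mem]
    intro hr'
    have := mul_mem hu.1.2.2 hr'
    rw [inv_mul_cancel_left₀ u.ne_zero] at this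
    exact hr this

theorem inv_gen (hM : MainStmt F) {f : F × F → ℂ} (hf : Test f) {k : ℕ} (hk : J ≤ k)
    (hi : ∀ u ∈ UP F k, ∀ x, tt f ((u : F) * x) = tt f x) {A : ℂ → ℂ} {Φ : O → ℂ}
    (hΦ : ∀ v n, IsUnit v → cls v = 1 → Φ (v * n) = Φ n) (u : Fˣ) (hu : u ∈ UP F k) (x : F) :
    tt f ((u : F) * x) * A (argF ((u : F) * x)) * Φ (jinv j ((u : F) * x)) =
      tt f x * A (argF x) * Φ (jinv j x) := by
  rw [hi u hu]
  by_cases h0 : tt f x = 0
  · rw [h0, zero_mul, zero_mul, zero_mul, zero_mul]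
  obtain ⟨-, -, w, n, -, -, rfl⟩ := tt_ne h hM hf h0
  obtain ⟨v, hv, h1, e, e'⟩ := unit_UP h (by omega) hu
  rw [argF_mul_79, e', one_mul, ← e, ← map_mul, h.toDict.jinv_j, h.toDict.jinv_j, hΦ v _ hv h1]

/-- The dual side. -/
theorem dual (hM : MainStmt F) {f : F × F → ℂ} (hf : Test f) {k : ℕ} (hk : J ≤ k)
    (hi : ∀ u ∈ UP F k, ∀ x, tt f ((u : F) * x) = tt f x) {μ : ℝ} (hμ : 0 < μ) (lam : ℂ) :
    ∃ (I : Type) (a : I → ℝ) (t : I → O) (C : ℝ) (B : I × O → ℂ) (κ : Type) (e : κ → F),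
      IdxOK a ∧ (∀ i, IsUnit (t i)) ∧ (∀ i, DualA (C * Real.sqrt (a i)) fun ν => B (i, ν)) ∧
      ∀ (D : O) (χ : O → ℂ), D ≠ 0 → Rf.IsChr D χ → (∀ v, IsUnit v → cls v = 1 → χ v = 1) →
        Mel.Reps (UP F k) (fun ν => tt f ν * argF ν * ft D χ (-jinv j ν)) e ∧ ∀ G : ℝ → ℂ,
          lam * ∑' i, tt f (e i) * argF (e i) * ft D χ (-jinv j (e i)) * G (μ * nF (e i)) =
            ∑' p : I × O, B p * ft D χ (-(t p.1 * p.2)) * G (a p.1 * nr p.2) := by
  classical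
  have h0 := lk0 h
  have hd := h.toDict
  have := finite_Gm h0 0
  obtain ⟨K₁, hK₁⟩ := hM.W_supp f hf
  obtain ⟨C, hC⟩ := hM.W_le f hf
  choose K₂ hK₂ using fun g : Gm j 0 => Ar.pow_mem_L (be g)⁻¹
  obtain ⟨K₃, hK₃⟩ := Finite.exists_le K₂
  choose w hw1 hw2 hw3 using exists_norm h0 0
  let T : Fˣ → Prop := fun t => TH.UR (t : F) ∧ (Ar.N F : F) ^ (K₁ + K₃) * t ∈ (Ar.L : Subring F)
  let e : TQ F k T → O → F := fun q ν => (q.1.out : F) * j (w ν * ν)
  have hb : ∀ g : Gm j 0, 0 < TH.absS (be g) := fun g => M94.absS_pos (be_ne g)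
  have ht : ∀ q : TQ F k T, IsUnit (jinv j (q.1.out : F)) ∧ j (jinv j (q.1.out : F)) = q.1.out :=
    fun q => by
      have e1 := hd.j_jinv q.2.1.2.1
      exact ⟨hd.isUnit_of_ur (e1.symm ▸ q.2.1), e1⟩
  have he : ∀ q ν, e q ν = j (jinv j (q.1.out : F) * w ν * ν) := fun q ν => by
    rw [mul_assoc, map_mul j (jinv j _), (ht q).2]
  have hne : ∀ (q : TQ F k T) ν, Primary ν → jinv j (q.1.out : F) * w ν * ν ≠ 0 := fun q ν hν =>
    mul_ne_zero ((ht q).1.mul (hw1 ν)).ne_zero hν.ne_zero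
  have habs : ∀ q ν, Primary ν →
      (TH.absS (e q ν))⁻¹ = nF (q.1.out : F) * (TH.absS (be (gm j 0 ν)))⁻¹ := fun q ν hν => by
    have e1 : j (w ν * ν) = j (w ν * ν) / be (gm j 0 ν) * be (gm j 0 ν) :=
      (div_mul_cancel₀ _ (be_ne _)).symm
    simp only [e]
    rw [M94.absS_mul, M94.absS_ur q.2.1, e1, M94.absS_mul, M94.absS_PJ le_rfl (hw3 ν hν.ne_zero),
      one_mul, mul_inv, inv_inv]
  refine ⟨TQ F k T × Gm j 0, fun i => nF (i.1.1.out : F) * (μ * (TH.absS (be i.2))⁻¹),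
    fun i => jinv j (i.1.1.out : F), ‖lam‖ * |C| * (Real.sqrt μ)⁻¹,
    fun p => if Primary p.2 ∧ gm j 0 p.2 = p.1.2 then
      lam * (tt f (e p.1.1 p.2) * argF (e p.1.1 p.2)) else 0,
    TQ F k T × {n // Primary n}, fun i => e i.1 i.2,
    idx_prod (x := fun q : TQ F k T => nF (q.1.out : F)) (sparts k (K₁ + K₃) fun t ht => ht)
      (μ := fun g : Gm j 0 => μ * (TH.absS (be g))⁻¹) fun g => by have := hb g; positivity,
    fun i => (ht i.1).1, ?_, fun D χ hD hχ hχ1 => ⟨?_, fun G => ?_⟩⟩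
  · rintro ⟨q, g⟩ ν hν
    beta_reduce at hν ⊢
    by_cases hc : Primary ν ∧ gm j 0 ν = g
    swap
    · exact absurd (if_neg hc) hν
    rw [if_pos hc] at hν ⊢
    obtain ⟨hp, rfl⟩ := hc
    have e0 : e q ν ≠ 0 := by rw [he]; exact hd.ne_zero (hne q ν hp)
    rw [hM.main f hf _ e0] at hν ⊢
    have e1 : thF (e q ν) ≠ 0 := left_ne_zero_of_mul (left_ne_zero_of_mul (right_ne_zero_of_mul hν))
    rw [he] at e1
    obtain ⟨n, d, h1, h2, h3, h4, h5⟩ := hd.shape_primary ((ht q).1.mul (hw1 ν)) hp e1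
    refine ⟨n, d, h1, h2, h3, h4, ?_⟩
    rw [← he] at h5
    have e2 : Real.sqrt (nF (q.1.out : F) * (μ * (TH.absS (be (gm j 0 ν)))⁻¹)) =
        Real.sqrt μ * (Real.sqrt (TH.absS (e q ν)))⁻¹ := by
      rw [mul_left_comm, ← habs q ν hp, Real.sqrt_mul hμ.le, Real.sqrt_inv]
    have e3 : ‖WF f (e q ν)‖ ≤ |C| * (Real.sqrt (TH.absS (e q ν)))⁻¹ :=
      (hC _ e0).trans (by have := le_abs_self C; gcongr)
    have e4 := V57.norm_argF_le (e q ν)
    have e5 := Real.sqrt_pos.2 hμ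
    rw [norm_mul, norm_mul, norm_mul, h5, e2]
    calc _ ≤ ‖lam‖ * (Real.sqrt (nr d) * (|C| * (Real.sqrt (TH.absS (e q ν)))⁻¹) * 1) := by gcongr
      _ = _ := by field_simp
  · refine h0.reps (T := T) (fun t ht => ht.1) (fun u hu t ht => ⟨UR_mul hu.1 ht.1, ?_⟩)
      (fun n hn => hn) (fun n _ => hw1 n)
      (inv_gen h hM hf hk hi (A := id) (Φ := fun n => ft D χ (-n)) fun v n hv h1 => ?_) ?_
    · rw [Units.val_mul, mul_left_comm]
      exact mul_mem (PJ_memL hu.2) ht.2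
    · rw [mul_comm, ← neg_mul]
      exact (T57.ft_unit_one hχ hD hv (hχ1 v hv h1) _).1
    · intro x hx
      obtain ⟨hx0, hW, u, n, hu, hn, rfl⟩ :=
        tt_ne h hM hf (left_ne_zero_of_mul (left_ne_zero_of_mul hx))
      have e1 := hd.ne_zero (mul_ne_zero (hw1 n).ne_zero hn.ne_zero)
      have e2 := hd.ne_zero hn.ne_zero
      have e3 := hd.ne_zero (hw1 n).ne_zero
      have e4 := be_ne (gm j 0 n)
      refine ⟨Units.mk0 _ (div_ne_zero hx0 e1), n, ⟨?_, ?_⟩, hn, (div_mul_cancel₀ _ e1).symm⟩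
      · have : j (u * n) / j (w n * n) = j u * (j (w n))⁻¹ := by
          rw [map_mul, map_mul]; field_simp
        rw [Units.val_mk0, this]
        exact UR_mul (hd.ur hu) (UR_inv (hd.ur (hw1 n)))
      · have : (Ar.N F : F) ^ (K₁ + K₃) * (j (u * n) / j (w n * n)) =
            (Ar.N F : F) ^ K₁ * j (u * n) * ((Ar.N F : F) ^ K₃ * (be (gm j 0 n))⁻¹) *
              (j (w n * n) / be (gm j 0 n))⁻¹ := by
          field_simp
          ring
        rw [Units.val_mk0, this]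
        exact mul_mem (mul_mem (hK₁ _ hx0 hW) (M94.pow_mem_L_mono (hK₃ _) (hK₂ _)))
          (M94.PJ_unit le_rfl (hw3 n hn.ne_zero)).2.2
  · rw [← tsum_mul_left, ← Function.Injective.tsum_eq
      (g := fun i : TQ F k T × {n // Primary n} => ((i.1, gm j 0 i.2), i.2.1))]
    · refine tsum_congr fun ⟨q, ν, hν⟩ => ?_
      have e1 : ft D χ (-jinv j (e q ν)) = ft D χ (-(jinv j (q.1.out : F) * ν)) := by
        rw [he, hd.jinv_j, mul_right_comm, ← neg_mul]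
        exact (T57.ft_unit_one hχ hD (hw1 ν) (hχ1 _ (hw1 ν) (hw2 ν)) _).1
      have e2 : μ * nF (e q ν) = nF (q.1.out : F) * (μ * (TH.absS (be (gm j 0 ν)))⁻¹) * nr ν := by
        rw [mul_left_comm, ← habs q ν hν, he, h0.nF_eq (hne q ν hν),
          nr_unit_mul ((ht q).1.mul (hw1 ν))]
        ring
      simp only [hν, and_self, if_true, e1, e2]
      ring
    · rintro ⟨q, ν⟩ ⟨q', ν'⟩ e
      simp only [Prod.mk.injEq] at e
      exact Prod.ext e.1.1 (Subtype.ext e.2)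
    · rintro ⟨⟨q, g⟩, ν⟩ hp
      by_cases hc : Primary ν ∧ gm j 0 ν = g
      · exact ⟨(q, ⟨ν, hc.1⟩), by simp [hc.2]⟩
      · exact absurd (by simp only [if_neg hc, zero_mul]) hp

end link

open Classical in
/-- The primal side. -/
theorem primal {J₀ : ℕ} (h : Link (J₀ + 1) j) (hM : MainStmt F) {n₀ : O} (hn₀ : Primary n₀)
    {f : F × F → ℂ} (hf : Test f)
    (hcl : ∀ r : F, r ≠ 0 → tt f r = {r | TH.PJ (J₀ + 1) (r / j n₀)}.indicator thF r)
    {k : ℕ} (hk : J₀ + 1 ≤ k) (hi : ∀ u ∈ UP F k, ∀ x, tt f ((u : F) * x) = tt f x) :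
    ∃ (ι : Type) (e : ι → F) (η m : ℂ), ‖η‖ = 1 ∧ m ≠ 0 ∧
      ∀ (D : O) (ψ : O → ℂ), D ≠ 0 → Rf.IsChr D ψ → (∀ v, IsUnit v → cls v = 1 → ψ v = 1) →
        Mel.Reps (UP F k) (aT j f D ψ) e ∧ ∀ (X : ℝ) (s : ℂ),
          ∑' i, aT j f D ψ (e i) * Wc (nF (e i) / (X / TH.absS (j n₀))) s = m * (η *
            ∑' n : O, if cls n = cls n₀ then th n * ft D ψ n * Wc (nr n / X) s else 0) := by
  have h0 := lk0 h
  have hd := h.toDict
  have hα := hd.ne_zero hn₀.ne_zero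
  have hex : ∀ n : O, ∃ w, IsUnit w ∧ cls w = 1 ∧
      (cls n = cls n₀ → TH.PJ (J₀ + 1) (j (w * n) / j n₀)) := fun n => by
    by_cases hc : cls n = cls n₀
    · obtain ⟨w, h1, h2, h3⟩ := h.ex_of_cls n₀ n hn₀.ne_zero hc.symm
      exact ⟨w, h1, h2, fun _ => h3⟩
    · exact ⟨1, isUnit_one, map_one _, fun h' => absurd h' hc⟩
  choose w hw1 hw2 hw3 using hex
  have := finite_TQ (F := F) k J₀
  have := nonempty_TQ (F := F) (k := k) (k' := J₀) (by omega)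
  refine ⟨TQ F k (fun t => t ∈ UP F J₀) × {n // Primary n ∧ cls n = cls n₀},
    fun i => (i.1.1.out : F) * j (w i.2 * i.2), arg n₀ * conj (argF (j n₀)),
    (Nat.card (TQ F k fun t => t ∈ UP F J₀) : ℂ), ?_, Nat.cast_ne_zero.2 Nat.card_pos.ne',
    fun D ψ hD hψ hψ1 => ⟨?_, fun X s => ?_⟩⟩
  · rw [norm_mul, Complex.norm_conj, norm_arg hn₀.ne_zero, norm_argF_79 hα, one_mul]
  · refine h0.reps (fun t ht => ht.1)
      (fun u hu t ht => mul_mem (show u ∈ UP F J₀ from ⟨hu.1, PJ_mono (by omega) hu.2⟩) ht)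
      (fun n hn => hn.1) (fun n _ => hw1 n)
      (inv_gen h hM hf hk hi (A := conj) (Φ := ft D ψ) fun v n hv h1 => ?_) ?_
    · rw [mul_comm]
      exact (T57.ft_unit_one hψ hD hv (hψ1 v hv h1) _).1
    · intro x hx
      have hx1 : tt f x ≠ 0 := left_ne_zero_of_mul (left_ne_zero_of_mul hx)
      obtain ⟨hx0, -, u, n, hu, hn, rfl⟩ := tt_ne h hM hf hx1
      rw [hcl _ hx0] at hx1
      have hp : TH.PJ (J₀ + 1) (j (u * n) / j n₀) := by
        have := Set.mem_of_indicator_ne_zero hx1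
        exact this
      have c1 := h.cls_of _ _ hn₀.ne_zero hp
      have c2 : cls n = cls n₀ := by
        rw [c1, map_mul, cls_unit_primary hn hn₀ hu c1.symm, one_mul]
      have e1 := hd.ne_zero (mul_ne_zero (hw1 n).ne_zero hn.ne_zero)
      have e2 := hd.ne_zero hn.ne_zero
      have e3 := hd.ne_zero (hw1 n).ne_zero
      refine ⟨Units.mk0 _ (div_ne_zero hx0 e1), n, ⟨?_, ?_⟩, ⟨hn, c2⟩, (div_mul_cancel₀ _ e1).symm⟩
      · have : j (u * n) / j (w n * n) = j u * (j (w n))⁻¹ := by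
          rw [map_mul, map_mul]; field_simp
        rw [Units.val_mk0, this]
        exact UR_mul (hd.ur hu) (UR_inv (hd.ur (hw1 n)))
      · have : j (u * n) / j (w n * n) = j (u * n) / j n₀ * (j (w n * n) / j n₀)⁻¹ := by
          field_simp
        rw [Units.val_mk0, this]
        exact PJ_mul hp (PJ_inv (by omega) (hw3 n c2))
  · have key : ∀ i : TQ F k (fun t => t ∈ UP F J₀) × {n // Primary n ∧ cls n = cls n₀},
        aT j f D ψ ((i.1.1.out : F) * j (w i.2 * i.2)) *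
          Wc (nF ((i.1.1.out : F) * j (w i.2 * i.2)) / (X / TH.absS (j n₀))) s =
        arg n₀ * conj (argF (j n₀)) * (th i.2 * ft D ψ i.2 * Wc (nr i.2 / X) s) := by
      rintro ⟨q, n, hn, hc⟩
      obtain ⟨v, hv, h1, e, -⟩ := unit_UP h le_rfl q.2
      have hv' := hv.mul (hw1 n)
      have h1' : cls (v * w n) = 1 := by rw [map_mul, h1, hw2, one_mul]
      have hn' := mul_ne_zero hv'.ne_zero hn.ne_zero
      have e1 : (q.1.out : F) * j (w n * n) = j (v * w n * n) := by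
        rw [← e, ← map_mul, mul_assoc]
      have hp : TH.PJ (J₀ + 1) (j (v * w n * n) / j n₀) := by
        rw [← e1, mul_div_assoc]
        exact PJ_mul q.2.2 (hw3 n hc)
      have e2 : TH.absS (j (v * w n * n)) = TH.absS (j n₀) := by
        rw [← div_mul_cancel₀ (j (v * w n * n)) hα, M94.absS_mul, M94.absS_PJ (by omega) hp,
          one_mul]
      have e3 := h.arg_cls n₀ _ hn₀.ne_zero (PJ_mono (by omega) hp)
      rw [arg_mul, arg_unit hv', one_mul] at e3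
      have e4 : ft D ψ (v * w n * n) = ft D ψ n := by
        rw [mul_comm]
        exact (T57.ft_unit_one hψ hD hv' (hψ1 _ hv' h1') _).1
      have e5 : nF (j (v * w n * n)) / (X / TH.absS (j n₀)) = nr n / X := by
        rw [h0.nF_eq hn', e2, nr_unit_mul hv', div_div_div_cancel_right₀ (M94.absS_pos hα).ne']
      simp only
      rw [e1, aT, hcl _ (hd.ne_zero hn'), Set.indicator_of_mem (by exact hp), thF_one h hv' h1',
        hd.jinv_j, e4, e5, ← e3, hd.th_eq hn]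
      linear_combination (-(thF (j n) * conj (argF (j (v * w n * n))) * ft D ψ n *
        Wc (nr n / X) s)) * T57.conj_mul_self (norm_arg hn.ne_zero)
    rw [tsum_congr key, tsum_prod_const (Q := TQ F k fun t => t ∈ UP F J₀)
      (fun n : {n // Primary n ∧ cls n = cls n₀} =>
        arg n₀ * conj (argF (j n₀)) * (th n * ft D ψ n * Wc (nr n / X) s)), tsum_mul_left]
    congr 2
    refine (tsum_subtype {n | Primary n ∧ cls n = cls n₀}
      fun n => th n * ft D ψ n * Wc (nr n / X) s).trans (tsum_congr fun n => ?_)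
    by_cases hn : Primary n
    · simp [Set.indicator, hn]
    · simp [Set.indicator, Rf.th_of_not hn]

theorem core {J₀ : ℕ} (h : Link (J₀ + 1) j) (hL : LatStmt F) (hT : ThetaStmt F) (hA : TauStmt F)
    (hO : OpStmt F) (hC : CuspStmt F) (hM : MainStmt F) {n₀ : O} (hn₀ : Primary n₀)
    {f : F × F → ℂ} (hf : Test f)
    (hcl : ∀ r : F, r ≠ 0 → tt f r = {r | TH.PJ (J₀ + 1) (r / j n₀)}.indicator thF r)
    {β : F} (hβ : β ≠ 0) {P : O → Prop} (hP : ∀ D, D ≠ 0 → P D → ∃ w, IsUnit w ∧ cls w = 1 ∧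
      opW (j (D * w)) f = opW β f ∧ TH.absS (j (D * w)) = TH.absS β) :
    Core (Mel.VR (Fintype.card (Pl F))) (cls n₀) P := by
  have h0 := lk0 h
  have hd := h.toDict
  have hf' := test_opW hO hf hβ
  obtain ⟨k₁, hk₁, hi₁⟩ := tt_inv h hM hf
  obtain ⟨k₂, -, hi₂⟩ := tt_inv h hM hf'
  have hα := M94.absS_pos (hd.ne_zero hn₀.ne_zero)
  have hb := M94.absS_pos hβ
  have hκ := kap_pos (F := F)
  obtain ⟨ι, e, η, m, hη, hm, H1⟩ := primal h hM hn₀ hf hcl (k := k₁ + k₂) (by omega)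
    (hi₁ _ (by omega))
  obtain ⟨I, a, t, C, B, κ, e', h1, h2, h3, H2⟩ := dual h hM hf' (k := k₁ + k₂) (by omega)
    (hi₂ _ (by omega)) (μ := kap F ^ 2 * TH.absS β ^ 2 / TH.absS (j n₀)) (by positivity)
    (((kap F * TH.absS β / TH.absS (j n₀) : ℝ) : ℂ) / m)
  refine ⟨I, a, t, C, B, h1, h2, h3, fun D ψ hD hPD hψ hψ1 X hX s => ?_⟩
  obtain ⟨w, hw, hw1, e1, e2⟩ := hP D hD.ne_zero hPD
  have hD0 := hD.ne_zero
  have hD1 := mul_ne_zero hD0 hw.ne_zero
  have hψ' := T57.chr_mul_unit hψ hw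
  have hn := nr_pos hD0
  obtain ⟨R1, S1⟩ := H1 (D * w) ψ hD1 hψ' hψ1
  obtain ⟨R2, S2⟩ := H2 D _ hD0 (T57.chr_dual hψ hD0) (dual_one h hD0 hψ1)
  have eb : bT j f (D * w) ψ =
      fun ν => tt (opW β f) ν * argF ν * ft D (Rf.dualChr D ψ) (-jinv j ν) := by
    funext ν
    rw [bT, e1, T57.dualChr_mul_unit ψ hw, (T57.ft_unit_one (T57.chr_dual hψ hD0) hD0 hw
      (dual_one h hD0 hψ1 w hw hw1) _).2]
  have en : nF (j (D * w)) = nr D / TH.absS β := by
    rw [h0.nF_eq hD1, e2, mul_comm, nr_unit_mul hw]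
  have key := transfer1 hd hL hT hA hO hC hf hD1 hψ' R1 (eb ▸ R2) (div_pos hX hα) s
  rw [S1, eb, en] at key
  simp only [fun k => (T57.ft_unit_one hψ hD0 hw (hψ1 w hw hw1) k).2] at key
  have e3 : ∀ y : ℝ, kap F * (kap F / (nr D / TH.absS β) ^ 2) * (X / TH.absS (j n₀)) * y =
      kap F ^ 2 * TH.absS β ^ 2 / TH.absS (j n₀) * y * X / nr D ^ 2 := fun y => by
    field_simp
  simp only [e3] at key
  have hη0 : η ≠ 0 := norm_ne_zero_iff.1 (hη ▸ one_ne_zero)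
  refine ⟨η⁻¹ * ((∏ i, (-(TH.em (j (D * w)) i ^ 2))⁻¹) * ((nr D / TH.absS β : ℝ) : ℂ)), ?_, ?_⟩
  · rw [norm_mul, norm_mul, norm_inv, hη, norm_om, en, Complex.norm_real,
      Real.norm_of_nonneg (by positivity), inv_mul_cancel₀ (by positivity), inv_one, one_mul]
  · rw [← S2 fun y => Mel.VR (Fintype.card (Pl F)) (y * X / nr D ^ 2) s]
    refine mul_left_cancel₀ hη0 (mul_left_cancel₀ hm (key.trans ?_))
    generalize (∑' _ : κ, _ : ℂ) = Z
    generalize (∏ _ : Pl F, _ : ℂ) = Y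
    generalize nr D = d at hn
    have a1 : ((d : ℝ) : ℂ) ≠ 0 := Complex.ofReal_ne_zero.2 hn.ne'
    have a2 : ((TH.absS β : ℝ) : ℂ) ≠ 0 := Complex.ofReal_ne_zero.2 hb.ne'
    have a3 : ((TH.absS (j n₀) : ℝ) : ℂ) ≠ 0 := Complex.ofReal_ne_zero.2 hα.ne'
    push_cast
    field_simp

/-- **The twisted Voronoi formula on a linked frame.** -/
theorem vorFr2_14 (h : Link J j) (hL : LatStmt F) (hT : ThetaStmt F) (hA : TauStmt F)
    (hO : OpStmt F) (hC : CuspStmt F) (hM : MainStmt F) : Rf.VorFr2 := by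
  obtain ⟨J₀, rfl⟩ : ∃ J₀, J = J₀ + 1 := ⟨J - 1, by have := h.one_le; omega⟩
  refine vorFr2_of_core (Mel.kernelOK_R (Fintype.card (Pl F))) fun c => ?_
  by_cases hc : ∃ n₀, Primary n₀ ∧ cls n₀ = c
  swap
  · exact ⟨Unit, inferInstance, fun _ => (), fun _ =>
      core_empty _ (fun n hn e => hc ⟨n, hn, e⟩) _⟩
  obtain ⟨n₀, hn₀, e⟩ := hc
  obtain ⟨f, hf, hcl⟩ := hM.cls (J₀ + 1) (j n₀) h.one_le (h.toDict.ne_zero hn₀.ne_zero)
  obtain ⟨k, hk⟩ := hO.opW_P f hf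
  refine ⟨Gm j k, finite_Gm (lk0 h) k, gm j k, fun g => ?_⟩
  rw [← e]
  refine core h hL hT hA hO hC hM hn₀ hf hcl (be_ne g) ?_
  rintro D hD rfl
  obtain ⟨w, h1, h2, h3⟩ := exists_norm (lk0 h) k D
  have e1 : j (D * w) = be (gm j k D) * (j (w * D) / be (gm j k D)) := by
    rw [mul_div_cancel₀ _ (be_ne _), mul_comm]
  refine ⟨w, h1, h2, ?_, ?_⟩
  · rw [e1, hk _ _ (be_ne _) (PJ_mono (Nat.le_succ k) (h3 hD))]
  · rw [e1, M94.absS_mul, M94.absS_PJ (Nat.le_add_left _ _) (h3 hD), mul_one]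

end Crest.Agent.T27.V14
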