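import Crest.Agent.T27.VorDefs_59
import Crest.Agent.T27.Gauss_55
import Crest.Agent.T27.MainA_94
import Crest.Agent.T27.Vor3_57

/-!
# Row 27, leaf R3 (helper57): the Voronoi formula twisted by a character modulo `D`, and the
dictionary between the frame `Fr0` and the arithmetic data `TH.Ar`
-/

set_option autoImplicit false
set_option linter.unusedSectionVars false

noncomputable section

namespace Crest.Agent.T27

open scoped ComplexConjugate
open NumberField

namespace T57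

open Rf

variable [Fr0]

theorem conj_mul_self {z : ℂ} (h : ‖z‖ = 1) : conj z * z = 1 := by
  rw [Complex.conj_mul', h]; simp

theorem chr_one {D : O} {ψ : O → ℂ} (h : IsChr D ψ) : ψ 1 = 1 := by
  have h1 := h.mul 1 1
  have h2 : ψ 1 ≠ 0 := fun h0 => by
    have := h.norm 1 isCoprime_one_left
    rw [h0, norm_zero] at this
    exact zero_ne_one this
  rw [mul_one] at h1
  exact (mul_eq_left₀ h2).1 h1.symm

theorem chr_norm_le {D : O} {ψ : O → ℂ} (h : IsChr D ψ) (x : O) : ‖ψ x‖ ≤ 1 := by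
  by_cases hx : IsCoprime x D
  · exact (h.norm x hx).le
  · rw [h.zero x hx, norm_zero]; exact zero_le_one

theorem chr_mul_unit {D v : O} {ψ : O → ℂ} (h : IsChr D ψ) (hv : IsUnit v) :
    IsChr (D * v) ψ where
  mul := h.mul
  per x y hxy := h.per x y ((dvd_mul_right D v).trans hxy)
  zero x hx := h.zero x fun h' => hx (h'.mul_right (isCoprime_of_isUnit x hv))
  norm x hx := h.norm x hx.of_mul_right_left

theorem dualChr_mul_unit {D v : O} (ψ : O → ℂ) (hv : IsUnit v) :
    dualChr (D * v) ψ = dualChr D ψ := by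
  funext x
  rw [dualChr, dualChr, mul_comm D v, cub_unit_mul_left hv]

theorem chr_dual {D : O} {ψ : O → ℂ} (h : IsChr D ψ) (hD : D ≠ 0) : IsChr D (dualChr D ψ) where
  mul x y := by rw [dualChr, dualChr, dualChr, h.mul, map_mul, cub_mul_right]; ring
  per x y hxy := by rw [dualChr, dualChr, h.per x y hxy, cub_congr ((rad_dvd D).trans hxy)]
  zero x hx := by rw [dualChr, h.zero x hx, map_zero, zero_mul]
  norm x hx := by
    rw [dualChr, norm_mul, Complex.norm_conj, h.norm x hx, norm_cub' hD hx.symm, one_mul]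

theorem ft_per {D : O} {ψ : O → ℂ} (h : IsChr D ψ) (k x y : O) (hxy : D ∣ x - y) :
    ψ x * eq (k * x) D = ψ y * eq (k * y) D := by
  rw [h.per x y hxy, eq_congr (x := k * x) (y := k * y) (by rw [← mul_sub]; exact hxy.mul_left k)]

/-- Scaling the frequency. -/
theorem ft_mul_cop {D v : O} {ψ : O → ℂ} (h : IsChr D ψ) (hD : D ≠ 0) (hv : IsCoprime v D)
    (k : O) : ft D ψ (k * v) = conj (ψ v) * ft D ψ k := by
  have h1 : ft D ψ k = ψ v * ft D ψ (k * v) := by
    rw [ft, ← sum_res_affine hD _ (ft_per h k) hv 0, ft, Finset.mul_sum]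
    refine Finset.sum_congr rfl fun x _ => ?_
    rw [add_zero, h.mul, mul_assoc, mul_assoc k]
  rw [h1, ← mul_assoc, conj_mul_self (h.norm v hv), one_mul]

/-- Changing the generator of the modulus. -/
theorem ft_mul_unit {D v : O} {ψ : O → ℂ} (h : IsChr D ψ) (hD : D ≠ 0) (hv : IsUnit v) (k : O) :
    ft (D * v) ψ (k * v) = ft D ψ k := by
  rw [ft, ft, sum_res_assoc hD (associated_mul_unit_right D v hv) _ (ft_per h k)]
  refine Finset.sum_congr rfl fun x _ => ?_
  rw [show k * v * x = v * (k * x) by ring, mul_comm D v, eq_mul_mul hv.ne_zero]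

/-- A unit on which the character is trivial changes nothing. -/
theorem ft_unit_one {D v : O} {ψ : O → ℂ} (h : IsChr D ψ) (hD : D ≠ 0) (hv : IsUnit v)
    (h1 : ψ v = 1) (k : O) : ft D ψ (k * v) = ft D ψ k ∧ ft (D * v) ψ k = ft D ψ k := by
  have e : ∀ k, ft D ψ (k * v) = ft D ψ k := fun k => by
    rw [ft_mul_cop h hD (isCoprime_of_isUnit D hv).symm, h1, map_one, one_mul]
  refine ⟨e k, ?_⟩
  obtain ⟨w, hw⟩ := hv.exists_left_inv
  have h2 := ft_mul_unit h hD hv (k * w)
  rw [mul_assoc, hw, mul_one] at h2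
  rw [h2, ← e (k * w), mul_assoc, hw, mul_one]

theorem norm_ft_le {D : O} {ψ : O → ℂ} (h : IsChr D ψ) (hD : D ≠ 0) (k : O) :
    ‖ft D ψ k‖ ≤ nr D := by
  refine (norm_sum_le _ _).trans ?_
  calc _ ≤ ∑ _x ∈ res D, (1 : ℝ) := Finset.sum_le_sum fun x _ => by
        rw [norm_mul, norm_eq, mul_one]; exact chr_norm_le h x
    _ = _ := by rw [Finset.sum_const, card_res hD, nsmul_eq_mul, mul_one]

open Classical in
/-- An inverse modulo `D`. -/
def minv (D a : O) : O := if h : IsCoprime a D then h.choose else a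

theorem minv_spec {D a : O} (h : IsCoprime a D) : ∃ y, a * minv D a - y * D = 1 := by
  obtain ⟨v, hv⟩ := h.choose_spec
  exact ⟨-v, by rw [minv, dif_pos h]; linear_combination hv⟩

theorem minv_cop {D a : O} (h : IsCoprime a D) : IsCoprime (minv D a) D := by
  obtain ⟨y, hy⟩ := minv_spec h
  exact ⟨a, -y, by linear_combination hy⟩

theorem cop_congr {D a b : O} (h : D ∣ a - b) (ha : IsCoprime a D) : IsCoprime b D := by
  obtain ⟨t, ht⟩ := h
  obtain ⟨u, v, huv⟩ := ha
  exact ⟨u, v + u * t, by linear_combination huv - u * ht⟩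

theorem minv_dvd_iff {D a x : O} : D ∣ x - minv D a ↔ D ∣ minv D x - a := by
  have key : ∀ {a x : O}, D ∣ x - minv D a → D ∣ minv D x - a := fun {a x} h => by
    by_cases ha : IsCoprime a D
    · have hx : IsCoprime x D := cop_congr (by rwa [← dvd_neg, neg_sub]) (minv_cop ha)
      obtain ⟨y, hy⟩ := minv_spec ha
      obtain ⟨z, hz⟩ := minv_spec hx
      obtain ⟨t, ht⟩ := h
      exact ⟨z * a - y * minv D x - a * minv D x * t, by
        linear_combination a * hz - minv D x * hy - a * minv D x * ht⟩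
    · rw [minv, dif_neg ha] at h
      rw [minv, dif_neg fun hx => ha (cop_congr h hx)]
      exact h
  refine ⟨key, fun h => ?_⟩
  rw [← dvd_neg, neg_sub] at h ⊢
  exact key h

/-- The dual transform. -/
theorem sum_minv {D : O} {ψ : O → ℂ} (h : IsChr D ψ) (hD : D ≠ 0) (k : O) :
    ∑ a ∈ res D, ψ a * conj (cub D a) * eq (k * minv D a) D = ft D (dualChr D ψ) k := by
  rw [ft, sum_res_param hD _ (ft_per (chr_dual h hD) k) (res D) (minv D) fun x => by
    simp only [minv_dvd_iff]; exact exists_unique_res hD _]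
  refine Finset.sum_congr rfl fun a _ => ?_
  congr 1
  by_cases ha : IsCoprime a D
  · obtain ⟨y, hy⟩ := minv_spec ha
    have hd := chr_dual h hD
    have h1 : dualChr D ψ a * dualChr D ψ (minv D a) = 1 := by
      rw [← hd.mul, hd.per _ 1 ⟨y, by linear_combination hy⟩, chr_one hd]
    have h2 : ψ a * conj (cub D a) = conj (dualChr D ψ a) := by
      rw [dualChr, map_mul, Complex.conj_conj]
    rw [h2]
    linear_combination dualChr D ψ (minv D a) * conj_mul_self (hd.norm a ha) -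
      conj (dualChr D ψ a) * h1
  · rw [minv, dif_neg ha, (chr_dual h hD).zero a ha, h.zero a ha, zero_mul]

end T57

namespace TH

open Rf T57 Vor57 V57

section summ

variable {F : Type} [Field F] [NumberField F] [Emb F]

theorem V57.norm_argF_le (r : F) : ‖argF r‖ ≤ 1 := by
  rw [argF, norm_prod]
  refine Finset.prod_le_one (fun _ _ => norm_nonneg _) fun j _ => ?_
  rw [norm_div, Complex.norm_real, norm_norm]
  exact div_self_le_one _

/-- Absolute convergence of both sides of the Voronoi formula. -/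
theorem V57.summable_U1 (hL : LatStmt F) (hT : ThetaStmt F) (hA : TauStmt F) {ξ : F × F → ℂ}
    (hξ : Good ξ) {φ : F → ℂ} (hφ : ∀ r, ‖φ r‖ ≤ 1) {x : Pl F → ℝ} (hx : ∀ j, 0 < x j) :
    Summable fun r : F => tau ξ r * ((nF r ^ (1 / 6 : ℝ) : ℝ) : ℂ) * φ r *
      (U1V (fun j => bb r j * x j) : ℂ) := by
  obtain ⟨M, hM, hs⟩ := hA.supp ξ hξ
  obtain ⟨C, hC⟩ := hT.bound ξ hξ
  have hpi := Real.pi_pos
  have h := ((smN hL hM hs hC).vec (y := fun j => x j / 4) fun j => by
    have := hx j; positivity).mul_left (∏ j, (4 * Real.pi ^ 2 * x j) ^ (1 / 3 : ℝ))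
  refine .of_norm_bounded h fun r => ?_
  have hW : ∀ j, 0 ≤ R17.W0 (bb r j * x j) := fun j =>
    W0_nonneg (by have := hx j; rw [bb]; positivity)
  have hU : ∀ j, 0 ≤ R17.U1 (bb r j * x j) := fun j =>
    mul_nonneg (by have := hx j; rw [bb]; positivity) (hW j)
  rw [norm_mul, norm_mul, norm_mul, Complex.norm_real, Complex.norm_real,
    Real.norm_of_nonneg (Real.rpow_nonneg (nF_nonneg r) _), U1V,
    Real.norm_of_nonneg (Finset.prod_nonneg fun j _ => hU j), mul_left_comm (∏ j, _),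
    ← Finset.prod_mul_distrib, nF, ← Real.finsetProd_rpow _ _ (fun j _ => by positivity),
    mul_assoc, mul_assoc]
  refine mul_le_mul_of_nonneg_left ?_ (norm_nonneg _)
  calc _ ≤ (∏ j, (‖em r j‖ ^ 2) ^ (1 / 6 : ℝ)) * (1 * ∏ j, R17.U1 (bb r j * x j)) := by
        have := Finset.prod_nonneg (s := Finset.univ) fun j _ => hU j
        have := hφ r
        gcongr
    _ ≤ _ := by
        rw [one_mul, ← Finset.prod_mul_distrib]
        refine Finset.prod_le_prod (fun j _ => mul_nonneg (by positivity) (hU j)) fun j _ => ?_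
        have hxj := hx j
        have e1 : x j / 4 * ‖((4 * Real.pi : ℝ) : ℂ) * em r j‖ ^ 2 = bb r j * x j := by
          rw [norm_mul, Complex.norm_real, Real.norm_of_nonneg (by positivity), bb]; ring
        have e2 : (‖em r j‖ ^ 2) ^ (1 / 6 : ℝ) * (‖em r j‖ ^ 2) ^ (1 / 3 : ℝ) = ‖em r j‖ := by
          rw [← Real.rpow_add' (by positivity) (by norm_num), ← Real.rpow_natCast,
            ← Real.rpow_mul (norm_nonneg _)]
          norm_num
        have e3 : (bb r j * x j) ^ (1 / 3 : ℝ) =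
            (4 * Real.pi ^ 2 * x j) ^ (1 / 3 : ℝ) * (‖em r j‖ ^ 2) ^ (1 / 3 : ℝ) := by
          rw [← Real.mul_rpow (by positivity) (by positivity), bb]; congr 1; ring
        have e4 : ‖em r j‖ ≤ 1 + ‖((4 * Real.pi : ℝ) : ℂ) * em r j‖ := by
          rw [norm_mul, Complex.norm_real, Real.norm_of_nonneg (by positivity)]
          nlinarith [norm_nonneg (em r j), Real.pi_gt_three]
        rw [e1, R17.U1, e3]
        have := hW j
        calc _ = (4 * Real.pi ^ 2 * x j) ^ (1 / 3 : ℝ) * (‖em r j‖ * R17.W0 (bb r j * x j)) := by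
              rw [← e2]; simp only [e2]; linear_combination
                (4 * Real.pi ^ 2 * x j) ^ (1 / 3 : ℝ) * R17.W0 (bb r j * x j) * e2
          _ ≤ _ := by gcongr

end summ

variable [Fr0] {F : Type} [Field F] [NumberField F] [Emb F] [Ar F]

/-- The frame is the ring `R` of the arithmetic data, `sy` is the conjugate cubic symbol. -/
structure Dict (j : O →+* F) : Prop where
  inj : Function.Injective j
  range : ∀ x, x ∈ j.range ↔ x ∈ (Ar.R : Subring F)
  sy : ∀ x n, n ≠ 0 → Ar.sy (j x) (j n) = conj (cub n x)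
  psi : ∀ x n, n ≠ 0 → Ar.psi (j x / j n) = eq x n

/-- A left inverse of `j`. -/
def jinv (j : O →+* F) (r : F) : O := Function.invFun j r

/-- The coefficients on the left. -/
def aT (j : O →+* F) (f : F × F → ℂ) (D : O) (ψ : O → ℂ) (r : F) : ℂ :=
  tt f r * conj (argF r) * ft D ψ (jinv j r)

/-- The coefficients on the right. -/
def bT (j : O →+* F) (f : F × F → ℂ) (D : O) (ψ : O → ℂ) (ν : F) : ℂ :=
  tt (opW (j D) f) ν * argF ν * ft D (dualChr D ψ) (-jinv j ν)

theorem V57.norm_psi (x : F) : ‖(Ar.psi x : ℂ)‖ = 1 := by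
  obtain ⟨r, hr, l, hl, e⟩ := Ar.approx x 1 one_ne_zero
  rw [e, Ar.psi_add, Ar.psi_R r hr, one_mul, one_mul, Ar.psi_L l hl, norm_eF]

namespace Dict

variable {j : O →+* F} (h : Dict j)
include h

theorem mem (x : O) : j x ∈ (Ar.R : Subring F) := (h.range _).1 ⟨x, rfl⟩

theorem exists_eq {x : F} (hx : x ∈ (Ar.R : Subring F)) : ∃ a : O, j a = x := (h.range x).2 hx

theorem ne_zero {x : O} (hx : x ≠ 0) : j x ≠ 0 := (map_ne_zero_iff j h.inj).2 hx

theorem jinv_j (x : O) : jinv j (j x) = x := Function.leftInverse_invFun h.inj x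

theorem j_jinv {x : F} (hx : x ∈ (Ar.R : Subring F)) : j (jinv j x) = x := by
  obtain ⟨a, rfl⟩ := h.exists_eq hx
  rw [h.jinv_j]

/-- The ring isomorphism `O ≃ R`. -/
def equiv : O ≃+* RR F :=
  RingEquiv.ofBijective (j.codRestrict (Ar.R : Subring F) h.mem)
    ⟨fun _ _ e => h.inj (congrArg Subtype.val e), fun x => by
      obtain ⟨a, ha⟩ := h.exists_eq x.2
      exact ⟨a, Subtype.ext ha⟩⟩

theorem coe_equiv (x : O) : (h.equiv x : F) = j x := rfl

theorem nm {n : O} (hn : n ≠ 0) : Ar.nm (j n) = nr n := by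
  rw [← h.coe_equiv, Ar.nm_eq _ ((map_ne_zero_iff _ h.equiv.injective).2 hn)]
  exact congrArg Nat.cast
    (Nat.card_congr (Ideal.quotientEquiv _ _ h.equiv (by simp [Ideal.map_span])).toEquiv).symm

theorem sqf {m : O} : Squarefree (h.equiv m) ↔ Squarefree m := by
  refine ⟨fun hm x hx => (MulEquiv.isUnit_map h.equiv).1 (hm _ ?_), fun hm x hx => ?_⟩
  · rw [← map_mul]; exact map_dvd _ hx
  · obtain ⟨x, rfl⟩ := h.equiv.surjective x
    rw [← map_mul, map_dvd_iff] at hx
    exact (hm x hx).map _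

theorem ur {v : O} (hv : IsUnit v) : UR (j v) := M94.ur_of_isUnit (hv.map h.equiv)

theorem isUnit_of_ur {v : O} (hv : UR (j v)) : IsUnit v :=
  (MulEquiv.isUnit_map h.equiv).1 (M94.isUnit_of_ur hv)

theorem exists_unit {u : F} (hu : UR u) : ∃ v, IsUnit v ∧ j v = u := by
  obtain ⟨v, rfl⟩ := h.exists_eq hu.2.1
  exact ⟨v, h.isUnit_of_ur hu, rfl⟩

/-- The symbol of a unit is given by the reciprocity bicharacter. -/
theorem cub_unit {v n : O} (hv : IsUnit v) (hn : n ≠ 0) :
    cub n v = conj (Ar.cc (j v) (j n)) := by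
  have h1 := Ar.cc_eq (h.equiv v) (h.equiv n) ((map_ne_zero_iff _ h.equiv.injective).2 hv.ne_zero)
    ((map_ne_zero_iff _ h.equiv.injective).2 hn) ((isCoprime_of_isUnit n hv).symm.map h.equiv.toRingHom)
  rw [h.coe_equiv, h.coe_equiv, h.sy _ _ hn, h.sy _ _ hv.ne_zero, cub_unit_left hv, map_one,
    map_one, mul_one] at h1
  rw [h1, Complex.conj_conj]

theorem gn_one {m : O} (hm : m ≠ 0) :
    gn 1 (h.equiv m) = gc m 1 / (Real.sqrt (nr m) : ℂ) := by
  have hm' : h.equiv m ≠ 0 := (map_ne_zero_iff _ h.equiv.injective).2 hm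
  have hp := M94.gt_per (1 : RR F) hm'
  rw [OneMemClass.coe_one] at hp
  rw [M94.gn_eq, h.coe_equiv, h.nm hm, div_eq_inv_mul, M94.GS,
    M94.sumI_eq hp (fun x : res m => h.equiv x), finsum_eq_sum_of_fintype, gc,
    ← Finset.sum_coe_sort (res m)]
  · congr 1
    refine Finset.sum_congr rfl fun x _ => ?_
    rw [M94.gt, h.coe_equiv, h.coe_equiv, h.sy _ _ hm, Complex.conj_conj, one_mul, one_mul,
      h.psi _ _ hm]
  · constructor
    · intro x y hxy
      simp only [Ideal.Quotient.eq, Ideal.mem_span_singleton, ← map_sub, map_dvd_iff] at hxy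
      exact Subtype.ext ((exists_unique_res hm x.1).unique ⟨x.2, by simp⟩ ⟨y.2, hxy⟩)
    · intro q
      obtain ⟨x, rfl⟩ := Ideal.Quotient.mk_surjective q
      obtain ⟨x, rfl⟩ := h.equiv.surjective x
      obtain ⟨r, ⟨hr, hr'⟩, -⟩ := exists_unique_res hm x
      refine ⟨⟨r, hr⟩, ?_⟩
      simp only [Ideal.Quotient.eq, Ideal.mem_span_singleton, ← map_sub, map_dvd_iff]
      rwa [← dvd_neg, neg_sub]

theorem thF_spec {m d : O} (hm : Squarefree m) (hd : d ≠ 0) :
    thF (j (m * d ^ 3)) = gc m 1 / (Real.sqrt (nr m) : ℂ) * (Real.sqrt (nr d) : ℂ) := by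
  have h1 := M94.thF_spec (h.equiv m) (h.equiv d)
    (h.sqf.2 hm) ((map_ne_zero_iff _ h.equiv.injective).2 hd)
  rw [h.gn_one hm.ne_zero, h.coe_equiv, h.coe_equiv, h.nm hd] at h1
  rw [map_mul, map_pow, h1]

theorem shape {n : O} (hn : thF (j n) ≠ 0) : ∃ m d : O, Squarefree m ∧ d ≠ 0 ∧ n = m * d ^ 3 := by
  by_contra hs
  refine hn (M94.thF_of_not_shape (r := h.equiv n) ?_)
  rintro ⟨m, d, hm, hd, e⟩
  obtain ⟨m, rfl⟩ := h.equiv.surjective m
  obtain ⟨d, rfl⟩ := h.equiv.surjective d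
  exact hs ⟨m, d, h.sqf.1 hm,
    (map_ne_zero_iff _ h.equiv.injective).1 hd, h.equiv.injective (by rw [e, map_mul, map_pow])⟩

omit h in
theorem gc_unit_mul {v m : O} (hv : IsUnit v) (hm : m ≠ 0) : gc (v * m) 1 = cub m v * gc m 1 := by
  have hp : ∀ (k x y : O), m ∣ x - y → cub m x * eq (k * x) m = cub m y * eq (k * y) m :=
    fun k x y hxy => by
      rw [cub_congr ((rad_dvd m).trans hxy),
        eq_congr (x := k * x) (y := k * y) (by rw [← mul_sub]; exact hxy.mul_left k)]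
  obtain ⟨w, hw⟩ := hv.exists_left_inv
  have h1 : gc (v * m) 1 = ∑ x ∈ res m, cub m x * eq (w * x) m := by
    rw [gc, sum_res_assoc hm (associated_unit_mul_right m v hv) _ (hp w)]
    refine Finset.sum_congr rfl fun x _ => ?_
    rw [cub_unit_mul_left hv, ← eq_mul_mul hv.ne_zero (w * x) m, ← mul_assoc, mul_comm v w, hw]
  rw [h1, ← sum_res_affine hm _ (hp w) (isCoprime_of_isUnit m hv).symm 0, gc, Finset.mul_sum]
  refine Finset.sum_congr rfl fun x _ => ?_
  rw [add_zero, cub_mul_right, ← mul_assoc w, hw, mul_assoc]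

/-- Multiplication by a unit in the kernel of the reciprocity bicharacter. -/
theorem thF_unit_mul {v : O} (hv : IsUnit v) (hc : ∀ y : F, y ≠ 0 → Ar.cc (j v) y = 1) (n : O) :
    thF (j (v * n)) = thF (j n) := by
  have key : ∀ {m d : O}, Squarefree m → d ≠ 0 →
      thF (j (v * (m * d ^ 3))) = thF (j (m * d ^ 3)) := fun {m d} hm hd => by
    rw [← mul_assoc, h.thF_spec hm hd,
      h.thF_spec ((associated_unit_mul_right m v hv).squarefree_iff.1 hm) hd,
      gc_unit_mul hv hm.ne_zero, h.cub_unit hv hm.ne_zero, hc _ (h.ne_zero hm.ne_zero), map_one,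
      one_mul, nr_unit_mul hv]
  by_cases h1 : thF (j n) = 0
  · by_contra h2
    rw [h1] at h2
    obtain ⟨m, d, hm, hd, e⟩ := h.shape h2
    obtain ⟨w, hw⟩ := hv.exists_left_inv
    have hw' : IsUnit w := IsUnit.of_mul_eq_one v hw
    have e' : n = w * m * d ^ 3 := by rw [mul_assoc, ← e, ← mul_assoc, hw, one_mul]
    have := key ((associated_unit_mul_right m w hw').squarefree_iff.1 hm) hd
    rw [← e', h1] at this
    exact h2 this
  · obtain ⟨m, d, hm, hd, rfl⟩ := h.shape h1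
    exact key hm hd

/-- The shape of the support, with primary parts. -/
theorem shape_primary {t ν : O} (ht : IsUnit t) (hν : Primary ν) (h0 : thF (j (t * ν)) ≠ 0) :
    ∃ n d : O, Primary n ∧ Squarefree n ∧ Primary d ∧ ν = n * d ^ 3 ∧
      ‖thF (j (t * ν))‖ = Real.sqrt (nr d) := by
  obtain ⟨m, d, hm, hd, e⟩ := h.shape h0
  obtain ⟨u, n, hu, hn, rfl⟩ := exists_eq_unit_mul_primary hm.ne_zero
  obtain ⟨w, d, hw, hd', rfl⟩ := exists_eq_unit_mul_primary hd
  have hs : Squarefree n := (associated_unit_mul_right n u hu).squarefree_iff.2 hm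
  refine ⟨n, d, hn, hs, hd', ?_, ?_⟩
  · refine hν.eq_of_associated (hn.mul (hd'.pow 3)) ?_
    refine (associated_unit_mul_right ν t ht).trans ?_
    rw [e, show u * n * (w * d) ^ 3 = u * w ^ 3 * (n * d ^ 3) by ring]
    exact associated_unit_mul_left _ _ (hu.mul (hw.pow 3))
  · have h1 := M94.norm_gn _ (h.sqf.2 hm)
    rw [h.gn_one hm.ne_zero] at h1
    rw [e, h.thF_spec hm hd, norm_mul, h1, one_mul, Complex.norm_real,
      Real.norm_of_nonneg (Real.sqrt_nonneg _), nr_unit_mul hw]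

/-- The coefficient of the frame. -/
theorem th_eq {n : O} (hn : Primary n) : th n = thF (j n) * conj (arg n) := by
  by_cases hs : ∀ p ∈ pf n, vp p n % 3 ≠ 2
  · obtain ⟨e, -, h2, h3⟩ := eq_sq1_mul_cu hn hs
    rw [th, if_pos ⟨hn, hs⟩, ← h.thF_spec h2 h3.ne_zero, ← e]
  · rw [th, if_neg fun h' => hs h'.2]
    by_contra h0
    have h1 : thF (j (1 * n)) ≠ 0 := by
      rw [one_mul]; exact left_ne_zero_of_mul (Ne.symm h0)
    obtain ⟨m, d, hm, hm', hd, rfl, -⟩ := h.shape_primary isUnit_one hn h1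
    exact hs (sq1_cu hm hm' hd).2.2

theorem norm_thF_le {r : F} (h0 : thF r ≠ 0) : ‖thF r‖ ≤ Real.sqrt (Ar.nm r) ∧ 1 ≤ Ar.nm r ∧
    ‖thF r‖ ^ 6 ≤ Ar.nm r := by
  have hr : r ∈ (Ar.R : Subring F) := by_contra fun hr => h0 (M94.thF_of_not_mem hr)
  obtain ⟨n, rfl⟩ := h.exists_eq hr
  obtain ⟨m, d, hm, hd, rfl⟩ := h.shape h0
  have h1 := M94.norm_gn _ (h.sqf.2 hm)
  have hn : m * d ^ 3 ≠ 0 := mul_ne_zero hm.ne_zero (pow_ne_zero 3 hd)
  rw [h.gn_one hm.ne_zero] at h1
  have h2 := one_le_nr hm.ne_zero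
  have h3 := one_le_nr hd
  rw [h.thF_spec hm hd, norm_mul, h1, one_mul, Complex.norm_real,
    Real.norm_of_nonneg (Real.sqrt_nonneg _), h.nm hn]
  have h4 : nr d ^ 3 ≤ nr (m * d ^ 3) := by
    rw [nr_mul, nr_pow]; exact le_mul_of_one_le_left (by positivity) h2
  refine ⟨Real.sqrt_le_sqrt ((le_self_pow₀ h3 (by norm_num)).trans h4), one_le_nr hn, ?_⟩
  rw [show (6 : ℕ) = 2 * 3 from rfl, pow_mul, Real.sq_sqrt (by positivity)]
  exact h4

/-- **The twisted Voronoi formula**, in the shape of the hypothesis of `Mel.transfer_F`. -/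
theorem vor_twist (hL : LatStmt F) (hT : ThetaStmt F) (hA : TauStmt F) (hO : OpStmt F)
    (hC : CuspStmt F) {f : F × F → ℂ} (hf : Test f) {D : O} (hD : D ≠ 0) {ψ : O → ℂ}
    (hψ : IsChr D ψ) (x : Pl F → ℝ) (hx : ∀ i, 0 < x i) :
    ∑' r : F, aT j f D ψ r * ∏ i, (R17.U1 (4 * Real.pi ^ 2 * ‖em r i‖ ^ 2 * x i) : ℂ) =
      (∏ i, (-(em (j D) i ^ 2))⁻¹) * ((∏ i, x i : ℝ) : ℂ)⁻¹ * ∑' ν : F, bT j f D ψ ν *
        ∏ i, (R17.U1 (4 * Real.pi ^ 2 / ‖em (j D) i‖ ^ 4 * ‖em ν i‖ ^ 2 / x i) : ℂ) := by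
  have hV := vor_57 F hL hT hA hO hC
  obtain ⟨κ₀, -, hC⟩ := hC
  have hD' := h.ne_zero hD
  have hf' : Test (opW (j D) f) := hO.test_rho f _ (by simp [gam, hD']) hf
  obtain ⟨hg, -, -, -, hR⟩ := hC f hf
  obtain ⟨hg', -, -, -, hR'⟩ := hC _ hf'
  have hx' : ∀ i, 0 < (‖em (j D) i‖ ^ 4 * x i)⁻¹ := fun i => by
    have := norm_pos_iff.2 (em_ne hD' i)
    have := hx i
    positivity
  have s1 : ∀ a : O, Summable fun r : F => tt f r * conj (argF r) * Ar.psi (r * j a / j D) *
      (U1V (fun i => bb r i * x i) : ℂ) := fun a =>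
    (summable_U1 hL hT hA hg (φ := fun r => conj (argF r) * Ar.psi (r * j a / j D)) (fun r => by
      rw [norm_mul, norm_psi, mul_one, Complex.norm_conj]; exact norm_argF_le r) hx).congr
      fun r => by rw [tt]; ring
  have s2 : ∀ a : O, Summable fun ν : F => tt (opW (j D) f) ν * argF ν *
      Ar.psi (-(ν * j a / j D)) * (U1V (fun i => bb ν i / (‖em (j D) i‖ ^ 4 * x i)) : ℂ) := fun a =>
    (summable_U1 hL hT hA hg' (φ := fun r => argF r * Ar.psi (-(r * j a / j D))) (fun r => by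
      rw [norm_mul, norm_psi, mul_one]; exact norm_argF_le r) hx').congr
      fun r => by simp only [tt, div_eq_mul_inv]; ring
  have e1 : ∀ r : F, aT j f D ψ r * ∏ i, (R17.U1 (4 * Real.pi ^ 2 * ‖em r i‖ ^ 2 * x i) : ℂ) =
      ∑ a ∈ res D, ψ a * (tt f r * conj (argF r) * Ar.psi (r * j a / j D) *
        (U1V (fun i => bb r i * x i) : ℂ)) := fun r => by
    by_cases h0 : tau (xiF f) r = 0
    · simp [aT, tt, h0]
    obtain ⟨n, rfl⟩ := h.exists_eq (hR r h0)
    rw [aT, h.jinv_j, ft, Finset.mul_sum, Finset.sum_mul, U1V, Complex.ofReal_prod]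
    refine Finset.sum_congr rfl fun a _ => ?_
    rw [← map_mul, h.psi _ _ hD]
    simp only [bb]
    ring
  have e2 : ∀ ν : F, bT j f D ψ ν *
      ∏ i, (R17.U1 (4 * Real.pi ^ 2 / ‖em (j D) i‖ ^ 4 * ‖em ν i‖ ^ 2 / x i) : ℂ) =
      ∑ a ∈ res D, ψ a * conj (cub D a) * (tt (opW (j D) f) ν * argF ν *
        Ar.psi (-(ν * j (minv D a) / j D)) *
        (U1V (fun i => bb ν i / (‖em (j D) i‖ ^ 4 * x i)) : ℂ)) := fun ν => by
    by_cases h0 : tau (xiF (opW (j D) f)) ν = 0
    · simp [bT, tt, h0]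
    obtain ⟨n, rfl⟩ := h.exists_eq (hR' ν h0)
    rw [bT, h.jinv_j, ← sum_minv hψ hD, Finset.mul_sum, Finset.sum_mul, U1V, Complex.ofReal_prod,
      Finset.prod_congr rfl fun i _ => show (R17.U1 (4 * Real.pi ^ 2 / ‖em (j D) i‖ ^ 4 *
          ‖em (j n) i‖ ^ 2 / x i) : ℂ) = R17.U1 (bb (j n) i / (‖em (j D) i‖ ^ 4 * x i)) by
          rw [bb]; congr 2; ring]
    refine Finset.sum_congr rfl fun a _ => ?_
    rw [← map_mul, ← neg_div, ← map_neg, h.psi _ _ hD, neg_mul]
    ring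
  simp only [e1, e2]
  rw [Summable.tsum_finsetSum fun a _ => (s1 a).mul_left _,
    Summable.tsum_finsetSum fun a _ => (s2 _).mul_left _, Finset.mul_sum]
  refine Finset.sum_congr rfl fun a _ => ?_
  by_cases ha : IsCoprime a D
  · obtain ⟨y, hy⟩ := minv_spec ha
    rw [tsum_mul_left, tsum_mul_left, hV f hf (j D) (j a) (j (minv D a)) (j y) hD' (h.mem _)
      (h.mem _) (h.mem _) (h.mem _) (by rw [← map_mul, ← map_mul, ← map_sub, hy, map_one]) x hx,
      h.sy _ _ hD, Complex.ofReal_prod, ← Finset.prod_inv_distrib,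
      Finset.prod_congr rfl fun i _ => show (-(em (j D) i ^ 2 * (x i : ℂ)))⁻¹ =
        (-(em (j D) i ^ 2))⁻¹ * (x i : ℂ)⁻¹ by rw [← neg_mul, mul_inv], Finset.prod_mul_distrib]
    ring
  · simp [hψ.zero a ha]

end Dict

end TH

end Crest.Agent.T27
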